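import Mathlib

/-!
# Row 216 (isometric immersion of closed surfaces in `ℝ⁴`): basic definitions on the manifold

`Ch M` are smooth charts, tensors are functions `M → Bil` (the tangent space is `E`),
`pull`/`push` move them to and from a chart, `ind F` is the induced metric, `sff` the second
fundamental form.  DO NOT change a definition of this file.
-/

set_option autoImplicit false

noncomputable section

namespace Crest.Agent.R216

open Set Metric Filter
open scoped Manifold ContDiff Topology RealInnerProductSpace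

/-- The model plane. -/
abbrev E : Type := EuclideanSpace ℝ (Fin 2)
/-- Three-space. -/
abbrev V3 : Type := EuclideanSpace ℝ (Fin 3)
/-- Four-space. -/
abbrev V4 : Type := EuclideanSpace ℝ (Fin 4)
/-- Bilinear forms on the plane. -/
abbrev Bil : Type := E →L[ℝ] E →L[ℝ] ℝ

/-- The `s`-direction. -/
def es : E := EuclideanSpace.single 0 1
/-- The `t`-direction (the leaves of a step). -/
def et : E := EuclideanSpace.single 1 1
/-- The coordinate `s`. -/
def cs : E →L[ℝ] ℝ := EuclideanSpace.proj 0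
/-- The coordinate `t`. -/
def ct : E →L[ℝ] ℝ := EuclideanSpace.proj 1

/-- The form `ξ ⊗ η`. -/
def tp (ξ η : E →L[ℝ] ℝ) : Bil := ξ.smulRight η

/-- Directional derivative. -/
def dd {X V : Type*} [NormedAddCommGroup X] [NormedSpace ℝ X] [NormedAddCommGroup V]
    [NormedSpace ℝ V] (v : X) (f : X → V) (x : X) : V := fderiv ℝ f x v

/-- The metric induced by a map of the plane. -/
def indE (F : E → V4) (x : E) : Bil := (innerSL ℝ).bilinearComp (fderiv ℝ F x) (fderiv ℝ F x)

/-- The second fundamental form of a map of the plane. -/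
def sffE (F : E → V4) (x v w : E) : V4 :=
  (LinearMap.range (fderiv ℝ F x : E →ₗ[ℝ] V4))ᗮ.starProjection (dd v (dd w F) x)

/-- The triple cross product of `ℝ⁴`: `⟪cr a b c, d⟫ = det (a, b, c, d)`. -/
def cr (a b c : V4) : V4 :=
  !₂[-(a 1 * (b 2 * c 3 - b 3 * c 2) - a 2 * (b 1 * c 3 - b 3 * c 1) + a 3 * (b 1 * c 2 - b 2 * c 1)),
    a 0 * (b 2 * c 3 - b 3 * c 2) - a 2 * (b 0 * c 3 - b 3 * c 0) + a 3 * (b 0 * c 2 - b 2 * c 0),
    -(a 0 * (b 1 * c 3 - b 3 * c 1) - a 1 * (b 0 * c 3 - b 3 * c 0) + a 3 * (b 0 * c 1 - b 1 * c 0)),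
    a 0 * (b 1 * c 2 - b 2 * c 1) - a 1 * (b 0 * c 2 - b 2 * c 0) + a 2 * (b 0 * c 1 - b 1 * c 0)]

/-- Gram determinant of two vectors. -/
def gram (a b : V4) : ℝ := ⟪a, a⟫ * ⟪b, b⟫ - ⟪a, b⟫ ^ 2

/-- The component of `y` normal to `a, b` (for `gram a b ≠ 0`). -/
def pn (a b y : V4) : V4 :=
  y - ((⟪y, a⟫ * ⟪b, b⟫ - ⟪y, b⟫ * ⟪a, b⟫) / gram a b) • a
    - ((⟪y, b⟫ * ⟪a, a⟫ - ⟪y, a⟫ * ⟪a, b⟫) / gram a b) • b

/-- Geodesic curvature of the `t`-lines (up to a positive factor) for a metric `G` on the plane: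
`⟪F_s, F_tt⟫ ⟪F_t, F_t⟫ - ⟪F_s, F_t⟫ ⟪F_t, F_tt⟫`. -/
def kg (G : E → Bil) (x : E) : ℝ :=
  (dd et (fun y => G y es et) x - dd es (fun y => G y et et) x / 2) * G x et et
    - G x es et * (dd et (fun y => G y et et) x / 2)

section manifold

variable {M : Type*} [TopologicalSpace M] [ChartedSpace E M]

variable (M) in
/-- A smooth chart. -/
structure Ch where
  e : OpenPartialHomeomorph M E
  sm : ContMDiffOn (𝓡 2) (𝓡 2) ∞ e e.source
  sm' : ContMDiffOn (𝓡 2) (𝓡 2) ∞ e.symm e.target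

/-- Smooth maps from the surface to a vector space. -/
abbrev Sm {V : Type*} [NormedAddCommGroup V] [NormedSpace ℝ V] (F : M → V) : Prop :=
  ContMDiff (𝓡 2) 𝓘(ℝ, V) ∞ F

/-- The differential of a map to a vector space. -/
def dM {V : Type*} [NormedAddCommGroup V] [NormedSpace ℝ V] (F : M → V) (p : M) : E →L[ℝ] V :=
  mfderiv (𝓡 2) 𝓘(ℝ, V) F p

/-- The differential of the parametrisation. -/
def Ch.dP (c : Ch M) (x : E) : E →L[ℝ] E := mfderiv (𝓡 2) (𝓡 2) c.e.symm x

/-- The differential of the chart. -/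
def Ch.dQ (c : Ch M) (p : M) : E →L[ℝ] E := mfderiv (𝓡 2) (𝓡 2) c.e p

/-- A function read in the chart. -/
def Ch.rd {V : Type*} (c : Ch M) (F : M → V) (x : E) : V := F (c.e.symm x)

open Classical in
/-- A function of the chart, extended by zero. -/
def Ch.ext {V : Type*} [Zero V] (c : Ch M) (u : E → V) (p : M) : V :=
  if p ∈ c.e.source then u (c.e p) else 0

/-- A tensor read in the chart. -/
def Ch.pull (c : Ch M) (T : M → Bil) (x : E) : Bil :=
  (T (c.e.symm x)).bilinearComp (c.dP x) (c.dP x)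

open Classical in
/-- A tensor of the chart, extended by zero. -/
def Ch.push (c : Ch M) (t : E → Bil) (p : M) : Bil :=
  if p ∈ c.e.source then (t (c.e p)).bilinearComp (c.dQ p) (c.dQ p) else 0

/-- The transition map from the chart `c` to the chart `c'`. -/
def Ch.tr (c c' : Ch M) (x : E) : E := c'.e (c.e.symm x)

/-- The vector field `∂/∂t` of the chart. -/
def Ch.wt (c : Ch M) (p : M) : E := c.dP (c.e p) et

/-- The induced metric. -/
def ind (F : M → V4) (p : M) : Bil := (innerSL ℝ).bilinearComp (dM F p) (dM F p)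

/-- Smooth tensors. -/
def SmT (T : M → Bil) : Prop := ∀ c : Ch M, ContDiffOn ℝ ∞ (c.pull T) c.e.target

/-- Smooth Riemannian metrics. -/
structure Met (G : M → Bil) : Prop where
  sm : SmT G
  symm : ∀ p v w, G p v w = G p w v
  pos : ∀ p v, v ≠ 0 → 0 < G p v v

/-- The second fundamental form. -/
def sff (F : M → V4) (p : M) (v w : E) : V4 :=
  sffE (fun x => F ((chartAt E p).symm x)) (chartAt E p p) v w

variable (M) in
/-- A finite atlas with a partition of unity. -/
structure Atl where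
  n : ℕ
  c : Fin n → Ch M
  sub : ∀ a, closedBall (0 : E) 3 ⊆ (c a).e.target
  ρ : Fin n → M → ℝ
  sm : ∀ a, Sm (ρ a)
  nonneg : ∀ a p, 0 ≤ ρ a p
  supp : ∀ a p, ρ a p ≠ 0 → p ∈ (c a).e.source ∧ ‖(c a).e p‖ < 1
  sum : ∀ p, ∑ a, ρ a p = 1

end manifold

end Crest.Agent.R216
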