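import Crest.Agent.R216.ClDefs

/-!
# Row 216: the calculus of symbol classes, elementary part
-/

set_option autoImplicit false
set_option linter.unusedSectionVars false

noncomputable section

namespace Crest.Agent.R216.ClA1

open Set Metric Filter
open scoped ContDiff Topology

variable {ι X V W Z : Type*} [NormedAddCommGroup X] [NormedSpace ℝ X] [NormedAddCommGroup V]
  [NormedSpace ℝ V] [NormedAddCommGroup W] [NormedSpace ℝ W] [NormedAddCommGroup Z]
  [NormedSpace ℝ Z]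
variable {c : Ctx ι X} {k j j' : ℕ} {A A' : ι → ℝ} {f f' : ι → X → V}

theorem M_nonneg (c : Ctx ι X) (i : ι) : 0 ≤ c.M i := zero_le_one.trans (c.hM i)

theorem sz_nonneg (c : Ctx ι X) (h0 : ∀ i, 0 ≤ A i) (i : ι) (n : ℕ) : 0 ≤ A i * c.M i ^ n :=
  mul_nonneg (h0 i) (pow_nonneg (M_nonneg c i) n)

theorem le' (h : Bd c k j A f) : ∃ C : ℝ, 0 ≤ C ∧ ∀ i, ∀ m ≤ k, ∀ x ∈ c.U i,
    ‖iteratedFDeriv ℝ m (f i) x‖ ≤ C * (A i * c.M i ^ (j + m)) := by
  obtain ⟨C, hC⟩ := h.le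
  exact ⟨max C 0, le_max_right _ _, fun i m hm x hx => (hC i m hm x hx).trans
    (mul_le_mul_of_nonneg_right (le_max_left _ _) (sz_nonneg c h.nonneg i _))⟩

theorem cda (h : Bd c k j A f) (i : ι) {x : X} (hx : x ∈ c.U i) : ContDiffAt ℝ ∞ (f i) x :=
  (h.sm i).contDiffAt ((c.hU i).mem_nhds hx)

theorem cdn (h : Bd c k j A f) (i : ι) {x : X} (hx : x ∈ c.U i) (m : ℕ) :
    ContDiffAt ℝ m (f i) x := (cda h i hx).of_le (by exact_mod_cast le_top)

/-- the general monotonicity statement -/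
theorem gen (h : Bd c k j A f) {ι' : Type*} (φ : ι' → ι) {c' : Ctx ι' X} {k' : ℕ} {B : ι' → ℝ}
    (hk : k' ≤ k) (hU : ∀ i, c'.U i ⊆ c.U (φ i)) (hM : ∀ i, c.M (φ i) ≤ c'.M i)
    (h0 : ∀ i, 0 ≤ B i) {C : ℝ}
    (hA : ∀ i, A (φ i) * c.M (φ i) ^ j ≤ C * (B i * c'.M i ^ j')) :
    Bd c' k' j' B fun i => f (φ i) := by
  obtain ⟨D, hD, hb⟩ := le' h
  refine ⟨h0, fun i => (h.sm (φ i)).mono (hU i), D * C, fun i m hm x hx => ?_⟩
  refine (hb (φ i) m (hm.trans hk) x (hU i hx)).trans ?_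
  rw [mul_assoc D]
  refine mul_le_mul_of_nonneg_left ?_ hD
  have h1 := sz_nonneg c h.nonneg (φ i) j
  calc A (φ i) * c.M (φ i) ^ (j + m) = A (φ i) * c.M (φ i) ^ j * c.M (φ i) ^ m := by ring
    _ ≤ C * (B i * c'.M i ^ j') * c'.M i ^ m :=
        mul_le_mul (hA i) (pow_le_pow_left₀ (M_nonneg c _) (hM i) m)
          (pow_nonneg (M_nonneg c _) m) (h1.trans (hA i))
    _ = _ := by ring

theorem mono (h : Bd c k j A f) {k' : ℕ} (hk : k' ≤ k) (hj : j ≤ j') : Bd c k' j' A f :=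
  gen h id hk (fun _ => subset_rfl) (fun _ => le_rfl) h.nonneg (C := 1) fun i => by
    rw [one_mul]
    exact mul_le_mul_of_nonneg_left (pow_le_pow_right₀ (c.hM i) hj) (h.nonneg i)

theorem size (h : Bd c k j A f) (h0 : ∀ i, 0 ≤ A' i) {C : ℝ}
    (hA : ∀ i, A i * c.M i ^ j ≤ C * (A' i * c.M i ^ j')) : Bd c k j' A' f :=
  gen h id le_rfl (fun _ => subset_rfl) (fun _ => le_rfl) h0 hA

theorem reindex (h : Bd c k j A f) {ι' : Type*} (φ : ι' → ι) {c' : Ctx ι' X}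
    (hU : ∀ i, c'.U i ⊆ c.U (φ i)) (hM : ∀ i, c.M (φ i) ≤ c'.M i) :
    Bd c' k j (fun i => A (φ i)) (fun i => f (φ i)) :=
  gen h φ le_rfl hU hM (fun i => h.nonneg (φ i)) (C := 1) fun i => by
    rw [one_mul]
    exact mul_le_mul_of_nonneg_left (pow_le_pow_left₀ (M_nonneg c _) (hM i) j) (h.nonneg _)

theorem ctx (h : Bd c k j A f) {c' : Ctx ι X} (hU : ∀ i, c'.U i ⊆ c.U i)
    (hM : ∀ i, c.M i ≤ c'.M i) : Bd c' k j A f := reindex h id hU hM

theorem ctx' (h : Bd c k j A f) {c' : Ctx ι X} (hU : ∀ i, c'.U i ⊆ c.U i)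
    (hM : ∀ i, c.M i ≤ c'.M i) : Bd c' k 0 (fun i => A i * c.M i ^ j) f :=
  gen h id le_rfl hU hM (fun i => sz_nonneg c h.nonneg i j) (C := 1) fun i => by
    rw [one_mul, pow_zero, mul_one]
    exact le_rfl

theorem congr (h : Bd c k j A f) (he : ∀ i, ∀ x ∈ c.U i, f' i x = f i x) : Bd c k j A f' := by
  obtain ⟨C, hC⟩ := h.le
  refine ⟨h.nonneg, fun i => (h.sm i).congr (he i), C, fun i m hm x hx => ?_⟩
  have e : f' i =ᶠ[𝓝 x] f i := eventually_of_mem ((c.hU i).mem_nhds hx) (he i)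
  rw [(e.iteratedFDeriv ℝ m).eq_of_nhds]
  exact hC i m hm x hx

theorem norm_le (h : Bd c k j A f) :
    ∃ C : ℝ, 0 ≤ C ∧ ∀ i, ∀ x ∈ c.U i, ‖f i x‖ ≤ C * (A i * c.M i ^ j) := by
  obtain ⟨C, h0, hC⟩ := le' h
  refine ⟨C, h0, fun i x hx => ?_⟩
  have := hC i 0 (Nat.zero_le _) x hx
  rwa [norm_iteratedFDeriv_zero, add_zero] at this

theorem add (h : Bd c k j A f) (h' : Bd c k j A f') :
    Bd c k j A fun i x => f i x + f' i x := by
  obtain ⟨C, hC⟩ := h.le
  obtain ⟨C', hC'⟩ := h'.le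
  refine ⟨h.nonneg, fun i => (h.sm i).add (h'.sm i), C + C', fun i m hm x hx => ?_⟩
  rw [fun_iteratedFDeriv_add_apply (cdn h i hx m) (cdn h' i hx m), add_mul]
  exact (norm_add_le _ _).trans (add_le_add (hC i m hm x hx) (hC' i m hm x hx))

/-- a family of linear maps whose norms change the size -/
theorem clm' {L : ι → V →L[ℝ] W} (h : Bd c k j A f) (h0 : ∀ i, 0 ≤ A' i) {C : ℝ}
    (hL : ∀ i, ‖L i‖ * A i ≤ C * A' i) : Bd c k j A' fun i x => L i (f i x) := by
  obtain ⟨D, hD, hb⟩ := le' h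
  refine ⟨h0, fun i => (L i).contDiff.comp_contDiffOn (h.sm i), D * C, fun i m hm x hx => ?_⟩
  refine ((L i).norm_iteratedFDeriv_comp_left (cdn h i hx m) le_rfl).trans ?_
  have h1 := pow_nonneg (M_nonneg c i) (j + m)
  calc ‖L i‖ * ‖iteratedFDeriv ℝ m (f i) x‖ ≤ ‖L i‖ * (D * (A i * c.M i ^ (j + m))) :=
        mul_le_mul_of_nonneg_left (hb i m hm x hx) (norm_nonneg _)
    _ = D * c.M i ^ (j + m) * (‖L i‖ * A i) := by ring
    _ ≤ D * c.M i ^ (j + m) * (C * A' i) := mul_le_mul_of_nonneg_left (hL i) (mul_nonneg hD h1)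
    _ = _ := by ring

theorem clm {L : ι → V →L[ℝ] W} (hL : Bc L) (h : Bd c k j A f) :
    Bd c k j A fun i x => L i (f i x) := by
  obtain ⟨C, hC⟩ := hL
  exact clm' h h.nonneg fun i => mul_le_mul_of_nonneg_right (hC i) (h.nonneg i)

theorem csmul (h : Bd c k j A f) {a : ι → ℝ} (h0 : ∀ i, 0 ≤ A' i) {C : ℝ}
    (ha : ∀ i, |a i| * A i ≤ C * A' i) : Bd c k j A' fun i x => a i • f i x := by
  refine clm' (L := fun i => a i • ContinuousLinearMap.id ℝ V) h h0 (C := C) fun i =>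
    le_trans (mul_le_mul_of_nonneg_right ?_ (h.nonneg i)) (ha i)
  rw [norm_smul, Real.norm_eq_abs]
  exact mul_le_of_le_one_right (abs_nonneg _) ContinuousLinearMap.norm_id_le

theorem neg (h : Bd c k j A f) : Bd c k j A fun i x => -f i x :=
  congr (csmul h (a := fun _ => -1) h.nonneg (C := 1) fun i => by simp) fun i x _ => by simp

theorem sub (h : Bd c k j A f) (h' : Bd c k j A f') :
    Bd c k j A fun i x => f i x - f' i x :=
  congr (add h (neg h')) fun _ _ _ => sub_eq_add_neg _ _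

theorem const {a : ι → V} (h0 : ∀ i, 0 ≤ A i) {C : ℝ} (h : ∀ i, ‖a i‖ ≤ C * A i) :
    Bd c k 0 A fun i _ => a i := by
  refine ⟨h0, fun i => contDiffOn_const, max C 0, fun i m _ x _ => ?_⟩
  rcases eq_or_ne m 0 with rfl | hm
  · rw [norm_iteratedFDeriv_zero, add_zero, pow_zero, mul_one]
    exact (h i).trans (mul_le_mul_of_nonneg_right (le_max_left _ _) (h0 i))
  · rw [iteratedFDeriv_const_of_ne hm, Pi.zero_apply, norm_zero]
    exact mul_nonneg (le_max_right _ _) (sz_nonneg c h0 i _)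

theorem sum {α : Type*} (s : Finset α) {g : α → ι → X → V} (h0 : ∀ i, 0 ≤ A i)
    (h : ∀ a ∈ s, Bd c k j A (g a)) : Bd c k j A fun i x => ∑ a ∈ s, g a i x := by
  classical
  induction s using Finset.induction_on with
  | empty =>
    exact congr (mono (const (a := fun _ => (0 : V)) h0 (C := 0) fun i => by simp) le_rfl
      (Nat.zero_le _)) fun i x _ => Finset.sum_empty
  | insert a s ha ih =>
    exact congr (add (h a (Finset.mem_insert_self _ _))
      (ih fun b hb => h b (Finset.mem_insert_of_mem hb))) fun i x _ => Finset.sum_insert ha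

theorem bilin (B : V →L[ℝ] W →L[ℝ] Z) (h : Bd c k j A f) {g : ι → X → W}
    (h' : Bd c k j' A' g) :
    Bd c k (j + j') (fun i => A i * A' i) fun i x => B (f i x) (g i x) := by
  obtain ⟨C, h0, hC⟩ := le' h
  obtain ⟨C', h0', hC'⟩ := le' h'
  refine ⟨fun i => mul_nonneg (h.nonneg i) (h'.nonneg i),
    fun i => (B.contDiff.comp_contDiffOn (h.sm i)).clm_apply (h'.sm i),
    ‖B‖ * (2 ^ k * (C * C')), fun i m hm x hx => ?_⟩
  have h1 := B.norm_iteratedFDerivWithin_le_of_bilinear (h.sm i) (h'.sm i) (c.hU i).uniqueDiffOn hx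
    (n := m) (by exact_mod_cast le_top)
  simp only [fun n => iteratedFDerivWithin_of_isOpen (𝕜 := ℝ) (f := f i) n (c.hU i) hx,
    fun n => iteratedFDerivWithin_of_isOpen (𝕜 := ℝ) (f := g i) n (c.hU i) hx,
    iteratedFDerivWithin_of_isOpen (𝕜 := ℝ) (f := fun y => B (f i y) (g i y)) m (c.hU i) hx] at h1
  refine h1.trans ?_
  rw [mul_assoc ‖B‖]
  refine mul_le_mul_of_nonneg_left ?_ B.opNorm_nonneg
  have hs : 0 ≤ C * C' * (A i * A' i * c.M i ^ (j + j' + m)) :=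
    mul_nonneg (mul_nonneg h0 h0')
      (sz_nonneg c (A := fun i => A i * A' i) (fun i => mul_nonneg (h.nonneg i) (h'.nonneg i)) i _)
  calc _ ≤ ∑ n ∈ Finset.range (m + 1),
        (m.choose n : ℝ) * (C * C' * (A i * A' i * c.M i ^ (j + j' + m))) := by
        refine Finset.sum_le_sum fun n hn => ?_
        have hn' : n ≤ m := Nat.lt_succ_iff.1 (Finset.mem_range.1 hn)
        rw [mul_assoc]
        refine mul_le_mul_of_nonneg_left ?_ (Nat.cast_nonneg _)
        refine (mul_le_mul (hC i n (hn'.trans hm) x hx) (hC' i (m - n) ((Nat.sub_le _ _).trans hm) x hx)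
          (norm_nonneg _) (mul_nonneg h0 (sz_nonneg c h.nonneg i _))).trans (le_of_eq ?_)
        rw [show j + j' + m = (j + n) + (j' + (m - n)) by omega, pow_add _ (j + n)]
        ring
    _ = 2 ^ m * (C * C' * (A i * A' i * c.M i ^ (j + j' + m))) := by
        rw [← Finset.sum_mul, ← Nat.cast_sum, Nat.sum_range_choose]
        norm_num
    _ ≤ 2 ^ k * (C * C' * (A i * A' i * c.M i ^ (j + j' + m))) :=
        mul_le_mul_of_nonneg_right (pow_le_pow_right₀ one_le_two hm) hs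
    _ = _ := by ring

end Crest.Agent.R216.ClA1
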