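import Crest.Agent.R216.ClDefs
import Crest.Agent.R216.ClAuxA1

/-!
# Row 216: the calculus of symbol classes
-/

set_option autoImplicit false
set_option linter.unusedSectionVars false

noncomputable section

namespace Crest.Agent.R216

open Set Metric Filter
open scoped ContDiff Topology RealInnerProductSpace

variable {ι X Y V W Z : Type*} [NormedAddCommGroup X] [NormedSpace ℝ X] [NormedAddCommGroup Y]
  [NormedSpace ℝ Y] [NormedAddCommGroup V] [NormedSpace ℝ V] [NormedAddCommGroup W]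
  [NormedSpace ℝ W] [NormedAddCommGroup Z] [NormedSpace ℝ Z]
variable {c : Ctx ι X} {k j j' : ℕ} {A A' : ι → ℝ} {f f' : ι → X → V}

/-! ## Part A: `Bd` -/

theorem Bd.mono (h : Bd c k j A f) {k' : ℕ} (hk : k' ≤ k) (hj : j ≤ j') : Bd c k' j' A f :=
  ClA1.mono h hk hj

/-- Change of the size (powers of the scale can be moved). -/
theorem Bd.size (h : Bd c k j A f) (h0 : ∀ i, 0 ≤ A' i) {C : ℝ}
    (hA : ∀ i, A i * c.M i ^ j ≤ C * (A' i * c.M i ^ j')) : Bd c k j' A' f := ClA1.size h h0 hA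

/-- Smaller domains, larger scales. -/
theorem Bd.ctx (h : Bd c k j A f) {c' : Ctx ι X} (hU : ∀ i, c'.U i ⊆ c.U i)
    (hM : ∀ i, c.M i ≤ c'.M i) : Bd c' k j A f := ClA1.ctx h hU hM

/-- Smaller domains, larger scales, keeping the old size. -/
theorem Bd.ctx' (h : Bd c k j A f) {c' : Ctx ι X} (hU : ∀ i, c'.U i ⊆ c.U i)
    (hM : ∀ i, c.M i ≤ c'.M i) : Bd c' k 0 (fun i => A i * c.M i ^ j) f := ClA1.ctx' h hU hM

theorem Bd.reindex (h : Bd c k j A f) {ι' : Type*} (φ : ι' → ι) {c' : Ctx ι' X}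
    (hU : ∀ i, c'.U i ⊆ c.U (φ i)) (hM : ∀ i, c.M (φ i) ≤ c'.M i) :
    Bd c' k j (fun i => A (φ i)) (fun i => f (φ i)) := ClA1.reindex h φ hU hM

theorem Bd.congr (h : Bd c k j A f) (he : ∀ i, ∀ x ∈ c.U i, f' i x = f i x) : Bd c k j A f' :=
  ClA1.congr h he

theorem Bd.norm_le (h : Bd c k j A f) :
    ∃ C : ℝ, 0 ≤ C ∧ ∀ i, ∀ x ∈ c.U i, ‖f i x‖ ≤ C * (A i * c.M i ^ j) := ClA1.norm_le h

theorem Bd.add (h : Bd c k j A f) (h' : Bd c k j A f') :
    Bd c k j A fun i x => f i x + f' i x := ClA1.add h h'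

theorem Bd.sub (h : Bd c k j A f) (h' : Bd c k j A f') :
    Bd c k j A fun i x => f i x - f' i x := ClA1.sub h h'

theorem Bd.neg (h : Bd c k j A f) : Bd c k j A fun i x => -f i x := ClA1.neg h

theorem Bd.sum {α : Type*} (s : Finset α) {g : α → ι → X → V} (h0 : ∀ i, 0 ≤ A i)
    (h : ∀ a ∈ s, Bd c k j A (g a)) : Bd c k j A fun i x => ∑ a ∈ s, g a i x := ClA1.sum s h0 h

theorem Bd.const {a : ι → V} (h0 : ∀ i, 0 ≤ A i) {C : ℝ} (h : ∀ i, ‖a i‖ ≤ C * A i) :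
    Bd c k 0 A fun i _ => a i := ClA1.const h0 h

theorem Bd.bilin (B : V →L[ℝ] W →L[ℝ] Z) (h : Bd c k j A f) {g : ι → X → W}
    (h' : Bd c k j' A' g) :
    Bd c k (j + j') (fun i => A i * A' i) fun i x => B (f i x) (g i x) := ClA1.bilin B h h'

/-- A bounded family of linear maps. -/
theorem Bd.clm {L : ι → V →L[ℝ] W} (hL : Bc L) (h : Bd c k j A f) :
    Bd c k j A fun i x => L i (f i x) := ClA1.clm hL h

/-- Multiplication by a family of numbers. -/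
theorem Bd.csmul (h : Bd c k j A f) {a : ι → ℝ} (h0 : ∀ i, 0 ≤ A' i) {C : ℝ}
    (ha : ∀ i, |a i| * A i ≤ C * A' i) : Bd c k j A' fun i x => a i • f i x := ClA1.csmul h h0 ha

namespace ClA2

theorem contDiffAt (h : Bd c k j A f) {i : ι} {x : X} (hx : x ∈ c.U i) : ContDiffAt ℝ ∞ (f i) x :=
  (h.sm i).contDiffAt ((c.hU i).mem_nhds hx)

theorem w_nonneg (h : Bd c k j A f) (i : ι) (n : ℕ) : 0 ≤ A i * c.M i ^ n :=
  mul_nonneg (h.nonneg i) (pow_nonneg (zero_le_one.trans (c.hM i)) _)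

theorem le' (h : Bd c k j A f) : ∃ C : ℝ, 1 ≤ C ∧ ∀ i, ∀ m ≤ k, ∀ x ∈ c.U i,
    ‖iteratedFDeriv ℝ m (f i) x‖ ≤ C * (A i * c.M i ^ (j + m)) := by
  obtain ⟨C, hC⟩ := h.le
  exact ⟨max C 1, le_max_right _ _, fun i m hm x hx => (hC i m hm x hx).trans
    (mul_le_mul_of_nonneg_right (le_max_left _ _) (w_nonneg h i _))⟩

theorem comp_le {g : X → V} {φ : Y → X} {s : Set Y} {t : Set X} (hs : IsOpen s) (ht : IsOpen t)
    (hg : ContDiffOn ℝ ∞ g t) (hφ : ContDiffOn ℝ ∞ φ s) (hst : MapsTo φ s t) {y : Y} (hy : y ∈ s)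
    {n : ℕ} {C D N : ℝ} (hD1 : 1 ≤ D) (hN : 0 ≤ N) (hC : ∀ i ≤ n, ‖iteratedFDeriv ℝ i g (φ y)‖ ≤ C)
    (hD : ∀ i, 1 ≤ i → i ≤ n → ‖iteratedFDeriv ℝ i φ y‖ ≤ D * N ^ i) {k : ℕ} (hk : n ≤ k) :
    ‖iteratedFDeriv ℝ n (fun y => g (φ y)) y‖ ≤ k.factorial * D ^ k * (C * N ^ n) := by
  have hC0 : 0 ≤ C := (norm_nonneg _).trans (hC 0 n.zero_le)
  have h := norm_iteratedFDerivWithin_comp_le (n := n) (C := C) (D := D * N) hg hφ
    (by exact_mod_cast le_top) ht.uniqueDiffOn hs.uniqueDiffOn hst hy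
    (fun i hi => by rw [iteratedFDerivWithin_of_isOpen i ht (hst hy)]; exact hC i hi)
    (fun i h1 hi => by
      rw [iteratedFDerivWithin_of_isOpen i hs hy, mul_pow]
      exact (hD i h1 hi).trans
        (mul_le_mul_of_nonneg_right (le_self_pow₀ hD1 (by omega)) (pow_nonneg hN _)))
  rw [iteratedFDerivWithin_of_isOpen n hs hy] at h
  refine h.trans ?_
  have h1 : (n.factorial : ℝ) ≤ k.factorial := by exact_mod_cast Nat.factorial_le hk
  have h2 : D ^ n ≤ D ^ k := pow_le_pow_right₀ hD1 hk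
  have h3 : 0 ≤ D := zero_le_one.trans hD1
  calc (n.factorial : ℝ) * C * (D * N) ^ n = n.factorial * D ^ n * (C * N ^ n) := by
        rw [mul_pow]; ring
    _ ≤ _ := by gcongr

theorem exists_unif {P : ℕ → ℝ → Prop} (hP : ∀ m C C', C ≤ C' → P m C → P m C')
    (h : ∀ m, ∃ C, P m C) (k : ℕ) : ∃ C, 0 ≤ C ∧ ∀ m ≤ k, P m C := by
  choose C hC using h
  refine ⟨∑ m ∈ Finset.range (k + 1), |C m|, Finset.sum_nonneg fun _ _ => abs_nonneg _,
    fun m hm => hP m _ _ ((le_abs_self _).trans ?_) (hC m)⟩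
  exact Finset.single_le_sum (f := fun m => |C m|) (fun _ _ => abs_nonneg _)
    (Finset.mem_range.2 (by omega))

theorem compact_bd {F : X → V} {O K : Set X} (hO : IsOpen O) (hF : ContDiffOn ℝ ∞ F O)
    (hK : IsCompact K) (hKO : K ⊆ O) (k : ℕ) :
    ∃ C, 0 ≤ C ∧ ∀ m ≤ k, ∀ x ∈ K, ‖iteratedFDeriv ℝ m F x‖ ≤ C :=
  exists_unif (P := fun m C => ∀ x ∈ K, ‖iteratedFDeriv ℝ m F x‖ ≤ C)
    (fun _ _ _ h h' x hx => (h' x hx).trans h)
    (fun _ => hK.exists_bound_of_continuousOn ((ContinuousOn.continuousOn_iteratedFDeriv hF hO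
      (by exact_mod_cast le_top)).mono hKO)) k

theorem le_w {C : ℝ} (hC : 0 ≤ C) (c : Ctx ι X) (i : ι) (n : ℕ) : C ≤ C * (1 * c.M i ^ n) := by
  rw [one_mul]
  exact le_mul_of_one_le_right hC (one_le_pow₀ (c.hM i))

end ClA2

theorem Bd.fderiv (h : Bd c (k + 1) j A f) : Bd c k (j + 1) A fun i => fderiv ℝ (f i) := by
  obtain ⟨C, hC⟩ := h.le
  refine ⟨h.nonneg, fun i => (h.sm i).fderiv_of_isOpen (c.hU i) (by exact_mod_cast le_top), C,
    fun i m hm x hx => ?_⟩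
  rw [norm_iteratedFDeriv_fderiv, show j + 1 + m = j + (m + 1) by ring]
  exact hC i (m + 1) (by omega) x hx

theorem Bd.dd (h : Bd c (k + 1) j A f) {v : ι → X} (hv : Bc v) :
    Bd c k (j + 1) A fun i => dd (v i) (f i) := by
  obtain ⟨C, hC⟩ := hv
  refine h.fderiv.clm (L := fun i => ContinuousLinearMap.apply ℝ V (v i)) ⟨C, fun i => ?_⟩
  refine le_trans (ContinuousLinearMap.opNorm_le_bound _ (norm_nonneg (v i)) fun L => ?_) (hC i)
  rw [mul_comm]
  exact L.le_opNorm (v i)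

/-- A function is bounded as soon as it is bounded itself and its differential is. -/
theorem Bd.of_fderiv (h0 : Bd c 0 j A f) (h : Bd c k (j + 1) A fun i => _root_.fderiv ℝ (f i)) :
    Bd c (k + 1) j A f := by
  obtain ⟨C₀, h₀⟩ := h0.le
  obtain ⟨C₁, h₁⟩ := h.le
  refine ⟨h0.nonneg, h0.sm, max C₀ C₁, fun i m hm x hx => ?_⟩
  rcases m with _ | m
  · exact (h₀ i 0 le_rfl x hx).trans
      (mul_le_mul_of_nonneg_right (le_max_left _ _) (ClA2.w_nonneg h0 i _))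
  · rw [← norm_iteratedFDeriv_fderiv, show j + (m + 1) = j + 1 + m by ring]
    exact (h₁ i m (by omega) x hx).trans
      (mul_le_mul_of_nonneg_right (le_max_right _ _) (ClA2.w_nonneg h0 i _))

theorem Bd.prod (h : Bd c k j A f) {g : ι → X → W} (h' : Bd c k j A g) :
    Bd c k j A fun i x => (f i x, g i x) := by
  obtain ⟨C₀, h₀⟩ := h.le
  obtain ⟨C₁, h₁⟩ := h'.le
  refine ⟨h.nonneg, fun i => (h.sm i).prodMk (h'.sm i), max C₀ C₁, fun i m hm x hx => ?_⟩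
  rw [iteratedFDeriv_prodMk (ClA2.contDiffAt h hx) (ClA2.contDiffAt h' hx)
    (by exact_mod_cast le_top), ContinuousMultilinearMap.opNorm_prod,
    max_mul_of_nonneg _ _ (ClA2.w_nonneg h i _)]
  exact max_le_max (h₀ i m hm x hx) (h₁ i m hm x hx)

/-- Composition on the right with maps whose derivatives of order `m ≥ 1` are `O(N ^ m)`. -/
theorem Bd.comp (h : Bd c k j A f) {c' : Ctx ι Y} {g : ι → Y → X} {N : ι → ℝ} (hN : ∀ i, 1 ≤ N i)
    (hg : ∀ i, ContDiffOn ℝ ∞ (g i) (c'.U i)) (hm : ∀ i, MapsTo (g i) (c'.U i) (c.U i))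
    (hb : ∃ C : ℝ, ∀ i, ∀ m, 1 ≤ m → m ≤ k → ∀ y ∈ c'.U i,
      ‖iteratedFDeriv ℝ m (g i) y‖ ≤ C * N i ^ m)
    (hM : ∀ i, c.M i * N i ≤ c'.M i) :
    Bd c' k 0 (fun i => A i * c.M i ^ j) fun i y => f i (g i y) := by
  obtain ⟨C, hC1, hC⟩ := ClA2.le' h
  obtain ⟨D, hD⟩ := hb
  refine ⟨fun i => ClA2.w_nonneg h i j, fun i => (h.sm i).comp (hg i) (hm i),
    k.factorial * max D 1 ^ k * C, fun i m hmk y hy => ?_⟩
  have hN0 : 0 ≤ N i := zero_le_one.trans (hN i)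
  have hM0 : 0 ≤ c.M i := zero_le_one.trans (c.hM i)
  have hA := h.nonneg i
  have hC0 : 0 ≤ C := zero_le_one.trans hC1
  refine (ClA2.comp_le (C := C * (A i * c.M i ^ (j + m))) (c'.hU i) (c.hU i) (h.sm i) (hg i) (hm i)
    hy (le_max_right D 1) hN0 (fun l hl => ?_) (fun l h1 hl => ?_) hmk).trans ?_
  · refine (hC i l (hl.trans hmk) _ (hm i hy)).trans ?_
    gcongr
    exact c.hM i
  · exact (hD i l h1 (hl.trans hmk) y hy).trans
      (mul_le_mul_of_nonneg_right (le_max_left _ _) (pow_nonneg hN0 _))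
  · have h1 : (c.M i * N i) ^ m ≤ c'.M i ^ m := pow_le_pow_left₀ (mul_nonneg hM0 hN0) (hM i) m
    calc (k.factorial : ℝ) * max D 1 ^ k * (C * (A i * c.M i ^ (j + m)) * N i ^ m) =
          k.factorial * max D 1 ^ k * C * (A i * c.M i ^ j * (c.M i * N i) ^ m) := by
          rw [mul_pow, pow_add]; ring
      _ ≤ _ := by rw [zero_add]; gcongr

/-- Composition on the left with a fixed smooth function whose derivatives are bounded along the
family. -/
theorem Bd.comp_left {Φ : V → W} {O : Set V} (hO : IsOpen O) (hΦ : ContDiffOn ℝ ∞ Φ O)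
    (hf : ∀ i, ContDiffOn ℝ ∞ (f i) (c.U i)) (hm : ∀ i, MapsTo (f i) (c.U i) O)
    (hb : ∀ m, ∃ C : ℝ, ∀ i, ∀ x ∈ c.U i, ‖iteratedFDeriv ℝ m Φ (f i x)‖ ≤ C)
    (h : Bd c k 1 (fun _ => 1) fun i => _root_.fderiv ℝ (f i)) :
    Bd c k 0 (fun _ => 1) fun i x => Φ (f i x) := by
  obtain ⟨D, hD1, hD⟩ := ClA2.le' h
  obtain ⟨C, -, hC⟩ := ClA2.exists_unif
    (P := fun m C => ∀ i, ∀ x ∈ c.U i, ‖iteratedFDeriv ℝ m Φ (f i x)‖ ≤ C)
    (fun _ _ _ h h' i x hx => (h' i x hx).trans h) hb k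
  refine ⟨fun _ => zero_le_one, fun i => hΦ.comp (hf i) (hm i), k.factorial * D ^ k * C,
    fun i m hmk x hx => ?_⟩
  refine (ClA2.comp_le (c.hU i) hO hΦ (hf i) (hm i) hx hD1 (zero_le_one.trans (c.hM i))
    (fun l hl => hC l (hl.trans hmk) i x hx) (fun l h1 hl => ?_) hmk).trans (le_of_eq ?_)
  · obtain ⟨l, rfl⟩ : ∃ n, l = n + 1 := ⟨l - 1, by omega⟩
    have := hD i l (by omega) x hx
    rwa [norm_iteratedFDeriv_fderiv, one_mul, add_comm 1 l] at this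
  · rw [zero_add]; ring

/-- Local character: bounds on a cover of the domains. -/
theorem Bd.of_local {ι' : Type*} {c' : Ctx ι' X} {g : ι' → X → V} {B : ι' → ℝ}
    (h : Bd c' k j B g) (h0 : ∀ i, 0 ≤ A i)
    (hl : ∀ i, ∀ x ∈ c.U i, (f i =ᶠ[𝓝 x] fun _ => 0) ∨
      ∃ i', x ∈ c'.U i' ∧ f i =ᶠ[𝓝 x] g i' ∧ B i' ≤ A i ∧ c'.M i' ≤ c.M i) :
    Bd c k j A f := by
  obtain ⟨C, hC1, hC⟩ := ClA2.le' h
  have hC0 : 0 ≤ C := zero_le_one.trans hC1
  refine ⟨h0, fun i x hx => ?_, C, fun i m hm x hx => ?_⟩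
  · rcases hl i x hx with he | ⟨i', hx', he, -⟩
    · exact (contDiffAt_const.congr_of_eventuallyEq he).contDiffWithinAt
    · exact ((ClA2.contDiffAt h hx').congr_of_eventuallyEq he).contDiffWithinAt
  · have hM0 : 0 ≤ c.M i := zero_le_one.trans (c.hM i)
    have hA := h0 i
    rcases hl i x hx with he | ⟨i', hx', he, hB, hM⟩
    · rw [(he.iteratedFDeriv ℝ m).eq_of_nhds, iteratedFDeriv_fun_zero, Pi.zero_apply, norm_zero]
      positivity
    · rw [(he.iteratedFDeriv ℝ m).eq_of_nhds]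
      refine (hC i' m hm x hx').trans ?_
      have hM1 : 0 ≤ c'.M i' := zero_le_one.trans (c'.hM i')
      gcongr

/-- Explicit bounds: the constant is absorbed by a large parameter. -/
theorem Bd.absorb (h : Bd c k j A f) : ∃ Λ : ℝ, ∀ i, ∀ l : ℝ, Λ ≤ l → ∀ m ≤ k, ∀ x ∈ c.U i,
    ‖iteratedFDeriv ℝ m (f i) x‖ ≤ l * (A i * c.M i ^ (j + m)) := by
  obtain ⟨C, hC⟩ := h.le
  exact ⟨C, fun i l hl m hm x hx =>
    (hC i m hm x hx).trans (mul_le_mul_of_nonneg_right hl (ClA2.w_nonneg h i _))⟩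

/-- A fixed smooth function on a fixed relatively compact set. -/
theorem Bd.of_compact {F : X → V} {O K : Set X} (hO : IsOpen O) (hF : ContDiffOn ℝ ∞ F O)
    (hK : IsCompact K) (hKO : K ⊆ O) (hU : ∀ i, c.U i ⊆ K) :
    Bd c k 0 (fun _ => 1) fun _ => F := by
  obtain ⟨C, hC0, hC⟩ := ClA2.compact_bd hO hF hK hKO k
  exact ⟨fun _ => zero_le_one, fun i => hF.mono ((hU i).trans hKO), C, fun i m hm x hx =>
    (hC m hm x (hU i hx)).trans (ClA2.le_w hC0 c i _)⟩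

/-- The same for periodic functions on the cylinder. -/
theorem Bd.of_compact_cyl {F : X × ℝ → V} {O K : Set X} (hO : IsOpen O)
    (hF : ContDiffOn ℝ ∞ F (O ×ˢ univ)) (hp : ∀ x ∈ O, ∀ θ, F (x, θ + 1) = F (x, θ))
    (hK : IsCompact K) (hKO : K ⊆ O) (hU : ∀ i, c.U i ⊆ K) :
    Bd c.cyl k 0 (fun _ => 1) fun _ => F := by
  have hO' : IsOpen (O ×ˢ (univ : Set ℝ)) := hO.prod isOpen_univ
  obtain ⟨C, hC0, hC⟩ := ClA2.compact_bd hO' hF (hK.prod (isCompact_Icc (a := (0 : ℝ)) (b := 1)))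
    (prod_mono hKO (subset_univ _)) k
  refine ⟨fun _ => zero_le_one, fun i => hF.mono (prod_mono ((hU i).trans hKO) Subset.rfl), C,
    fun i m hm q hq => le_trans ?_ (ClA2.le_w hC0 c.cyl i _)⟩
  have hx : q.1 ∈ K := hU i hq.1
  have hper : Function.Periodic (fun θ : ℝ => iteratedFDeriv ℝ m F (q.1, θ)) 1 := fun θ => by
    have he : (fun z : X × ℝ => F (z + (0, 1))) =ᶠ[𝓝 (q.1, θ)] F := by
      filter_upwards [hO'.mem_nhds (show (q.1, θ) ∈ O ×ˢ (univ : Set ℝ) from ⟨hKO hx, trivial⟩)]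
        with z hz
      have : z + (0, 1) = (z.1, z.2 + 1) := Prod.ext (add_zero _) rfl
      rw [this, hp z.1 hz.1]
    have h1 := (he.iteratedFDeriv ℝ m).eq_of_nhds
    rw [iteratedFDeriv_comp_add_right, Prod.mk_add_mk, add_zero] at h1
    exact h1
  obtain ⟨θ, hθ, he⟩ := hper.exists_mem_Ico₀ one_pos q.2
  exact (congrArg norm he).trans_le (hC m hm _ ⟨hx, Ico_subset_Icc_self hθ⟩)

/-! ## Part B: `Cl` and `St` -/

theorem Cl.mono (h : Cl c j A f) (hj : j ≤ j') : Cl c j' A f := fun k => (h k).mono le_rfl hj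
theorem Cl.nonneg (h : Cl c j A f) (i : ι) : 0 ≤ A i := (h 0).nonneg i
theorem Cl.sm (h : Cl c j A f) (i : ι) : ContDiffOn ℝ ∞ (f i) (c.U i) := (h 0).sm i
theorem Cl.size (h : Cl c j A f) (h0 : ∀ i, 0 ≤ A' i) {C : ℝ}
    (hA : ∀ i, A i * c.M i ^ j ≤ C * (A' i * c.M i ^ j')) : Cl c j' A' f :=
  fun k => (h k).size h0 hA
theorem Cl.congr (h : Cl c j A f) (he : ∀ i, ∀ x ∈ c.U i, f' i x = f i x) : Cl c j A f' :=
  fun k => (h k).congr he
theorem Cl.add (h : Cl c j A f) (h' : Cl c j A f') : Cl c j A fun i x => f i x + f' i x :=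
  fun k => (h k).add (h' k)
theorem Cl.sub (h : Cl c j A f) (h' : Cl c j A f') : Cl c j A fun i x => f i x - f' i x :=
  fun k => (h k).sub (h' k)
theorem Cl.neg (h : Cl c j A f) : Cl c j A fun i x => -f i x := fun k => (h k).neg
theorem Cl.bilin (B : V →L[ℝ] W →L[ℝ] Z) (h : Cl c j A f) {g : ι → X → W} (h' : Cl c j' A' g) :
    Cl c (j + j') (fun i => A i * A' i) fun i x => B (f i x) (g i x) :=
  fun k => (h k).bilin B (h' k)
theorem Cl.smul {a : ι → X → ℝ} (h : Cl c j A a) (h' : Cl c j' A' f) :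
    Cl c (j + j') (fun i => A i * A' i) fun i x => a i x • f i x :=
  h.bilin (ContinuousLinearMap.lsmul ℝ ℝ) h'
theorem Cl.mul {a a' : ι → X → ℝ} (h : Cl c j A a) (h' : Cl c j' A' a') :
    Cl c (j + j') (fun i => A i * A' i) fun i x => a i x * a' i x := h.smul h'
theorem Cl.inner {a a' : ι → X → V4} (h : Cl c j A a) (h' : Cl c j' A' a') :
    Cl c (j + j') (fun i => A i * A' i) fun i x => ⟪a i x, a' i x⟫ := h.bilin (innerSL ℝ) h'
theorem Cl.clm {L : ι → V →L[ℝ] W} (hL : Bc L) (h : Cl c j A f) :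
    Cl c j A fun i x => L i (f i x) := fun k => (h k).clm hL
theorem Cl.csmul (h : Cl c j A f) {a : ι → ℝ} (h0 : ∀ i, 0 ≤ A' i) {C : ℝ}
    (ha : ∀ i, |a i| * A i ≤ C * A' i) : Cl c j A' fun i x => a i • f i x :=
  fun k => (h k).csmul h0 ha
theorem Cl.fderiv (h : Cl c j A f) : Cl c (j + 1) A fun i => fderiv ℝ (f i) :=
  fun k => (h (k + 1)).fderiv
theorem Cl.dd (h : Cl c j A f) {v : ι → X} (hv : Bc v) :
    Cl c (j + 1) A fun i => dd (v i) (f i) := fun k => (h (k + 1)).dd hv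

/-- Passing to the scale `M ^ d`. -/
theorem Cl.toPow (h : Cl c j A f) {d : ℕ} (hd : 1 ≤ d) (hj : j ≤ d) : Cl (c.pow d) 1 A f := by
  intro k
  have h1 : Bd (c.pow d) k 0 (fun i => A i * c.M i ^ j) f :=
    (h k).ctx' (fun _ => Subset.rfl) (fun i => le_self_pow₀ (c.hM i) (by omega))
  refine h1.size (h k).nonneg (C := 1) fun i => ?_
  have h2 : c.M i ^ j ≤ c.M i ^ d := pow_le_pow_right₀ (c.hM i) hj
  have h3 := (h k).nonneg i
  show A i * c.M i ^ j * (c.M i ^ d) ^ 0 ≤ 1 * (A i * (c.M i ^ d) ^ 1)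
  simp only [pow_zero, mul_one, one_mul, pow_one]
  exact mul_le_mul_of_nonneg_left h2 h3

theorem Cl.lift (h : Cl c j A f) : Cl c.cyl j A fun i q => f i q.1 := by
  intro k
  have h1 : Bd c.cyl k 0 (fun i => A i * c.M i ^ j) fun i (q : X × ℝ) => f i q.1 := by
    refine (h k).comp (c' := c.cyl) (g := fun _ (q : X × ℝ) => q.1) (N := fun _ => 1)
      (fun _ => le_rfl) (fun _ => contDiff_fst.contDiffOn) (fun _ q hq => hq.1) ⟨1, ?_⟩
      (fun i => by show c.M i * 1 ≤ c.M i; rw [mul_one])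
    intro i m hm _ y _
    obtain ⟨n, rfl⟩ : ∃ n, m = n + 1 := ⟨m - 1, by omega⟩
    rw [← norm_iteratedFDeriv_fderiv]
    have e : (_root_.fderiv ℝ fun q : X × ℝ => q.1) = fun _ => ContinuousLinearMap.fst ℝ X ℝ := by
      funext q
      exact fderiv_fst
    rw [e, one_pow, mul_one]
    rcases Nat.eq_zero_or_pos n with rfl | hn
    · rw [norm_iteratedFDeriv_zero]
      exact ContinuousLinearMap.norm_fst_le ℝ X ℝ
    · rw [iteratedFDeriv_const_of_ne hn.ne']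
      simp
  refine h1.size (h k).nonneg (C := 1) fun i => ?_
  show A i * c.M i ^ j * c.M i ^ 0 ≤ 1 * (A i * c.M i ^ j)
  simp

theorem Ctx.pow_one (c : Ctx ι X) : c.pow 1 = c := by
  cases c
  simp only [Ctx.pow, _root_.pow_one]
theorem Ctx.pow_pow (c : Ctx ι X) (d d' : ℕ) : (c.pow d).pow d' = c.pow (d * d') := by
  cases c
  simp only [Ctx.pow, pow_mul]
theorem Ctx.pow_cyl (c : Ctx ι X) (d : ℕ) : (c.pow d).cyl = c.cyl.pow d := rfl

theorem St.mono {d d' : ℕ} (h : St (c.pow d) f) (hd : d ≤ d') : St (c.pow d') f := fun k =>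
  (h k).ctx (fun _ => Subset.rfl) fun i => pow_le_pow_right₀ (c.hM i) hd
theorem St.const {a : ι → V} (h : Bc a) : St c fun i _ => a i := by
  obtain ⟨C, hC⟩ := h
  intro k
  exact (Bd.const (c := c) (k := k) (A := fun _ => 1) (fun _ => zero_le_one) (C := C)
    (fun i => by simpa using hC i)).mono le_rfl zero_le_one
theorem St.add {d : ℕ} (h : St (c.pow d) f) (h' : St (c.pow d) f') :
    St (c.pow d) fun i x => f i x + f' i x := Cl.add h h'
theorem St.sub {d : ℕ} (h : St (c.pow d) f) (h' : St (c.pow d) f') :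
    St (c.pow d) fun i x => f i x - f' i x := Cl.sub h h'
theorem St.bilin {d d' : ℕ} (B : V →L[ℝ] W →L[ℝ] Z) (h : St (c.pow d) f) {g : ι → X → W}
    (h' : St (c.pow d') g) : St (c.pow (d + d')) fun i x => B (f i x) (g i x) := by
  intro k
  have h1 := (h k).ctx' (c' := c.pow (d + d')) (fun _ => Subset.rfl)
    (fun i => pow_le_pow_right₀ (c.hM i) (Nat.le_add_right d d'))
  have h2 := (h' k).ctx' (c' := c.pow (d + d')) (fun _ => Subset.rfl)
    (fun i => pow_le_pow_right₀ (c.hM i) (Nat.le_add_left d' d))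
  refine (h1.bilin B h2).size (fun _ => zero_le_one) (C := 1) fun i => ?_
  show 1 * (c.M i ^ d) ^ 1 * (1 * (c.M i ^ d') ^ 1) * (c.M i ^ (d + d')) ^ (0 + 0)
    ≤ 1 * (1 * (c.M i ^ (d + d')) ^ 1)
  simp [pow_add]
theorem St.dd {d : ℕ} (h : St (c.pow d) f) {v : ι → X} (hv : Bc v) :
    St (c.pow (2 * d)) fun i => dd (v i) (f i) := by
  have := (Cl.dd h hv).toPow (d := 2) (by norm_num) le_rfl
  rwa [Ctx.pow_pow, mul_comm] at this

namespace ClAuxB

/-- The differential of a structure function, read at the scale `N ^ 3`. -/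
theorem fderiv3 {d : ℕ} (h : St (c.pow d) f) (k : ℕ) :
    Bd (c.pow (3 * d)) k 0 (fun i => (c.M i ^ d) ^ 2) fun i => fderiv ℝ (f i) := by
  have h1 := (Cl.fderiv h k).ctx' (c' := c.pow (3 * d)) (fun _ => Subset.rfl)
    (fun i => pow_le_pow_right₀ (c.hM i) (by omega))
  refine h1.size (fun i => by have := c.hM i; positivity) (C := 1) fun i => ?_
  show 1 * (c.M i ^ d) ^ (1 + 1) * (c.M i ^ (3 * d)) ^ 0
    ≤ 1 * ((c.M i ^ d) ^ 2 * (c.M i ^ (3 * d)) ^ 0)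
  simp

theorem ne_zero {d : ℕ} {a : ι → X → ℝ} {C : ℝ}
    (hl : ∀ i, ∀ x ∈ c.U i, 1 ≤ C * (c.M i ^ d * |a i x|)) (i : ι) (x : X) (hx : x ∈ c.U i) :
    a i x ≠ 0 := by
  intro h0
  have := hl i x hx
  rw [h0] at this
  norm_num at this

theorem diffAt {d : ℕ} (h : St (c.pow d) f) (i : ι) (x : X) (hx : x ∈ c.U i) :
    DifferentiableAt ℝ (f i) x :=
  ((Cl.sm h i).contDiffAt ((c.hU i).mem_nhds hx)).differentiableAt (by simp)

theorem inv0 {d : ℕ} {a : ι → X → ℝ} (h : St (c.pow d) a)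
    (hl : ∃ C : ℝ, ∀ i, ∀ x ∈ c.U i, 1 ≤ C * (c.M i ^ d * |a i x|)) (k : ℕ) :
    Bd (c.pow (3 * d)) k 0 (fun i => c.M i ^ d) fun i x => (a i x)⁻¹ := by
  obtain ⟨C, hC⟩ := hl
  have hne := ne_zero hC
  have hM : ∀ i, 0 < c.M i := fun i => lt_of_lt_of_le one_pos (c.hM i)
  have h0 : Bd (c.pow (3 * d)) 0 0 (fun i => c.M i ^ d) fun i x => (a i x)⁻¹ := by
    refine ⟨fun i => (pow_pos (hM i) d).le, fun i => (Cl.sm h i).inv (hne i), C, ?_⟩
    intro i m hm x hx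
    obtain rfl : m = 0 := by omega
    rw [norm_iteratedFDeriv_zero, Real.norm_eq_abs, abs_inv]
    have h1 : 0 < |a i x| := abs_pos.2 (hne i x hx)
    have h2 := hC i x hx
    rw [inv_le_iff_one_le_mul₀ h1]
    simpa [mul_assoc] using h2
  induction k with
  | zero => exact h0
  | succ k ih =>
    refine h0.of_fderiv ?_
    have h1 := ((ih.bilin (ContinuousLinearMap.mul ℝ ℝ) ih).bilin
      (ContinuousLinearMap.lsmul ℝ ℝ) (fderiv3 h k)).neg
    refine (h1.size (fun i => (pow_pos (hM i) d).le) (C := 1) fun i => ?_).congr ?_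
    · show c.M i ^ d * c.M i ^ d * (c.M i ^ d) ^ 2 * (c.M i ^ (3 * d)) ^ (0 + 0 + 0)
        ≤ 1 * (c.M i ^ d * (c.M i ^ (3 * d)) ^ (0 + 1))
      apply le_of_eq
      ring
    · intro i x hx
      have h2 := (diffAt h i x hx).hasFDerivAt
      have h3 : HasFDerivAt (fun y => (a i y)⁻¹) (-((a i x) ^ 2)⁻¹ • fderiv ℝ (a i) x) x :=
        (hasDerivAt_inv (hne i x hx)).comp_hasFDerivAt x h2
      rw [h3.fderiv]
      simp [sq]

theorem sqrt0 {d : ℕ} {a : ι → X → ℝ} (h : St (c.pow d) a) (hp : ∀ i, ∀ x ∈ c.U i, 0 ≤ a i x)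
    (hl : ∃ C : ℝ, ∀ i, ∀ x ∈ c.U i, 1 ≤ C * (c.M i ^ d * |a i x|)) (k : ℕ) :
    Bd (c.pow (3 * d)) k 0 (fun i => c.M i ^ d) fun i x => √(a i x) := by
  have hinv := inv0 h hl
  obtain ⟨C, hC⟩ := hl
  have hne := ne_zero hC
  have hM : ∀ i, 0 < c.M i := fun i => lt_of_lt_of_le one_pos (c.hM i)
  have h0 : Bd (c.pow (3 * d)) 0 0 (fun i => c.M i ^ d) fun i x => √(a i x) := by
    obtain ⟨D, hD0, hD⟩ := (h 0).norm_le
    refine ⟨fun i => (pow_pos (hM i) d).le, fun i => (Cl.sm h i).sqrt (hne i), D + 1, ?_⟩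
    intro i m hm x hx
    obtain rfl : m = 0 := by omega
    rw [norm_iteratedFDeriv_zero, Real.norm_eq_abs, abs_of_nonneg (Real.sqrt_nonneg _)]
    have h1 : ‖a i x‖ ≤ D * (1 * (c.M i ^ d) ^ 1) := hD i x hx
    rw [Real.norm_eq_abs, abs_of_nonneg (hp i x hx), one_mul, _root_.pow_one] at h1
    have h2 : 1 ≤ c.M i ^ d := one_le_pow₀ (c.hM i)
    show √(a i x) ≤ (D + 1) * (c.M i ^ d * (c.M i ^ (3 * d)) ^ (0 + 0))
    rw [add_zero, pow_zero, mul_one]
    have h3 : √(a i x) ≤ a i x + 1 := by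
      nlinarith [Real.sq_sqrt (hp i x hx), Real.sqrt_nonneg (a i x), sq_nonneg (√(a i x) - 1)]
    nlinarith
  induction k with
  | zero => exact h0
  | succ k ih =>
    refine h0.of_fderiv ?_
    have h1 := ((ih.bilin (ContinuousLinearMap.mul ℝ ℝ) (hinv k)).bilin
      (ContinuousLinearMap.lsmul ℝ ℝ) (fderiv3 h k)).csmul (a := fun _ => 1 / 2)
      (A' := fun i => (c.M i ^ d) ^ 4) (fun i => by have := hM i; positivity) (C := 1 / 2)
      (fun i => by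
        rw [abs_of_pos (by norm_num : (0 : ℝ) < 1 / 2)]
        apply le_of_eq
        ring)
    refine (h1.size (fun i => (pow_pos (hM i) d).le) (C := 1) fun i => ?_).congr ?_
    · show (c.M i ^ d) ^ 4 * (c.M i ^ (3 * d)) ^ (0 + 0 + 0)
        ≤ 1 * (c.M i ^ d * (c.M i ^ (3 * d)) ^ (0 + 1))
      apply le_of_eq
      ring
    · intro i x hx
      have h2 := (diffAt h i x hx).hasFDerivAt
      rw [(h2.sqrt (hne i x hx)).fderiv]
      have h3 : 0 < a i x := lt_of_le_of_ne (hp i x hx) (hne i x hx).symm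
      have h4 : 0 < √(a i x) := Real.sqrt_pos.2 h3
      have h5 : 1 / (2 * √(a i x)) = 1 / 2 * (√(a i x) * (a i x)⁻¹) := by
        have h6 : √(a i x) * √(a i x) = a i x := Real.mul_self_sqrt h3.le
        field_simp
        nlinarith
      rw [h5]
      simp [smul_smul]

theorem up3 {d : ℕ} (h : ∀ k, Bd (c.pow (3 * d)) k 0 (fun i => c.M i ^ d) f) :
    St (c.pow (3 * d)) f := by
  intro k
  refine (h k).size (fun _ => zero_le_one) (C := 1) fun i => ?_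
  show c.M i ^ d * (c.M i ^ (3 * d)) ^ 0 ≤ 1 * (1 * (c.M i ^ (3 * d)) ^ 1)
  simp only [pow_zero, mul_one, one_mul, _root_.pow_one]
  exact pow_le_pow_right₀ (c.hM i) (by omega)

theorem coord {d : ℕ} {a : ι → X → V4} (h : St (c.pow d) a) (r : Fin 4) :
    St (c.pow d) fun i x => a i x r :=
  Cl.clm (L := fun _ => (EuclideanSpace.proj r : V4 →L[ℝ] ℝ)) ⟨_, fun _ => le_rfl⟩ h

theorem vec {a : ι → X → ℝ} (h : St c a) (v : V) : St c fun i x => a i x • v :=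
  Cl.clm (L := fun _ => ContinuousLinearMap.toSpanSingleton ℝ v) ⟨_, fun _ => le_rfl⟩ h

theorem minor {d : ℕ} {a b e : ι → X → V4} (ha : St (c.pow d) a) (hb : St (c.pow d) b)
    (he : St (c.pow d) e) (r s t : Fin 4) :
    St (c.pow (3 * d)) fun i x => a i x r * (b i x s * e i x t - b i x t * e i x s) := by
  have h1 := St.bilin (ContinuousLinearMap.mul ℝ ℝ) (coord hb s) (coord he t)
  have h2 := St.bilin (ContinuousLinearMap.mul ℝ ℝ) (coord hb t) (coord he s)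
  have h3 := St.bilin (ContinuousLinearMap.mul ℝ ℝ) (coord ha r) (h1.sub h2)
  have e3 : d + (d + d) = 3 * d := by ring
  rw [e3] at h3
  exact h3

theorem det3 {d : ℕ} {a b e : ι → X → V4} (ha : St (c.pow d) a) (hb : St (c.pow d) b)
    (he : St (c.pow d) e) (r s t : Fin 4) :
    St (c.pow (3 * d)) fun i x => a i x r * (b i x s * e i x t - b i x t * e i x s)
      - a i x s * (b i x r * e i x t - b i x t * e i x r)
      + a i x t * (b i x r * e i x s - b i x s * e i x r) :=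
  ((minor ha hb he r s t).sub (minor ha hb he s r t)).add (minor ha hb he t r s)

end ClAuxB

theorem St.inv {d : ℕ} {a : ι → X → ℝ} (h : St (c.pow d) a)
    (hl : ∃ C : ℝ, ∀ i, ∀ x ∈ c.U i, 1 ≤ C * (c.M i ^ d * |a i x|)) :
    St (c.pow (3 * d)) fun i x => (a i x)⁻¹ := ClAuxB.up3 (ClAuxB.inv0 h hl)
theorem St.sqrt {d : ℕ} {a : ι → X → ℝ} (h : St (c.pow d) a) (h0 : ∀ i, ∀ x ∈ c.U i, 0 ≤ a i x)
    (hl : ∃ C : ℝ, ∀ i, ∀ x ∈ c.U i, 1 ≤ C * (c.M i ^ d * |a i x|)) :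
    St (c.pow (3 * d)) fun i x => √(a i x) := ClAuxB.up3 (ClAuxB.sqrt0 h h0 hl)
/-- A fixed smooth function with bounded derivatives along the family. -/
theorem St.comp_left {d : ℕ} {Φ : V → W} {O : Set V} (hO : IsOpen O) (hΦ : ContDiffOn ℝ ∞ Φ O)
    (hf : ∀ i, ContDiffOn ℝ ∞ (f i) (c.U i)) (hm : ∀ i, MapsTo (f i) (c.U i) O)
    (hb : ∀ m, ∃ C : ℝ, ∀ i, ∀ x ∈ c.U i, ‖iteratedFDeriv ℝ m Φ (f i x)‖ ≤ C)
    (h : St (c.pow d) fun i => fderiv ℝ (f i)) : St (c.pow d) fun i x => Φ (f i x) := fun k =>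
  (Bd.comp_left (c := c.pow d) hO hΦ hf hm hb (h k)).mono le_rfl zero_le_one
theorem St.cos {d : ℕ} {a : ι → X → ℝ} (ha : ∀ i, ContDiffOn ℝ ∞ (a i) (c.U i))
    (h : St (c.pow d) fun i => fderiv ℝ (a i)) : St (c.pow d) fun i x => Real.cos (a i x) := by
  refine St.comp_left (Φ := Real.cos) isOpen_univ Real.contDiff_cos.contDiffOn ha
    (fun _ => mapsTo_univ _ _) (fun m => ⟨1, fun i x _ => ?_⟩) h
  rw [norm_iteratedFDeriv_eq_norm_iteratedDeriv, Real.norm_eq_abs]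
  exact Real.abs_iteratedDeriv_cos_le_one m _
theorem St.sin {d : ℕ} {a : ι → X → ℝ} (ha : ∀ i, ContDiffOn ℝ ∞ (a i) (c.U i))
    (h : St (c.pow d) fun i => fderiv ℝ (a i)) : St (c.pow d) fun i x => Real.sin (a i x) := by
  refine St.comp_left (Φ := Real.sin) isOpen_univ Real.contDiff_sin.contDiffOn ha
    (fun _ => mapsTo_univ _ _) (fun m => ⟨1, fun i x _ => ?_⟩) h
  rw [norm_iteratedFDeriv_eq_norm_iteratedDeriv, Real.norm_eq_abs]
  exact Real.abs_iteratedDeriv_sin_le_one m _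
theorem St.fderiv {d : ℕ} (h : St (c.pow d) f) : St (c.pow (2 * d)) fun i => fderiv ℝ (f i) := by
  have := (Cl.fderiv h).toPow (d := 2) (by norm_num) le_rfl
  rwa [Ctx.pow_pow, mul_comm] at this
theorem St.cr {d : ℕ} {a b e : ι → X → V4} (ha : St (c.pow d) a) (hb : St (c.pow d) b)
    (he : St (c.pow d) e) : St (c.pow (3 * d)) fun i x => cr (a i x) (b i x) (e i x) := by
  have h0 := ClAuxB.vec (Cl.neg (ClAuxB.det3 ha hb he 1 2 3)) (EuclideanSpace.single 0 1 : V4)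
  have h1 := ClAuxB.vec (ClAuxB.det3 ha hb he 0 2 3) (EuclideanSpace.single 1 1 : V4)
  have h2 := ClAuxB.vec (Cl.neg (ClAuxB.det3 ha hb he 0 1 3)) (EuclideanSpace.single 2 1 : V4)
  have h3 := ClAuxB.vec (ClAuxB.det3 ha hb he 0 1 2) (EuclideanSpace.single 3 1 : V4)
  refine Cl.congr (((h0.add h1).add h2).add h3) fun i x _ => ?_
  ext r
  fin_cases r <;> simp [Crest.Agent.R216.cr]

end Crest.Agent.R216
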