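import Crest.Agent.R216.Basic

/-!
# Row 216: symbol classes for families of functions (definitions)

A context is a family of open sets `U i` and scales `M i ≥ 1`.  `Bd c k j A f` says that the
derivatives of order `m ≤ k` of `f i` are at most `C * A i * M i ^ (j + m)` on `U i`, with one
constant for the whole family.  DO NOT change a definition of this file.
-/

set_option autoImplicit false

noncomputable section

namespace Crest.Agent.R216

open Set Metric Filter
open scoped ContDiff Topology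

/-- A family of domains and scales. -/
structure Ctx (ι : Type*) (X : Type*) [TopologicalSpace X] where
  U : ι → Set X
  M : ι → ℝ
  hU : ∀ i, IsOpen (U i)
  hM : ∀ i, 1 ≤ M i

variable {ι X V : Type*} [NormedAddCommGroup X] [NormedSpace ℝ X] [NormedAddCommGroup V]
  [NormedSpace ℝ V]

/-- The same domains with the scales `M ^ d`. -/
def Ctx.pow (c : Ctx ι X) (d : ℕ) : Ctx ι X :=
  ⟨c.U, fun i => c.M i ^ d, c.hU, fun i => one_le_pow₀ (c.hM i)⟩

/-- The cylinder over a context: the new variable is the fast angle. -/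
def Ctx.cyl (c : Ctx ι X) : Ctx ι (X × ℝ) :=
  ⟨fun i => c.U i ×ˢ univ, c.M, fun i => (c.hU i).prod isOpen_univ, c.hM⟩

/-- Bounds for the derivatives up to the order `k`. -/
structure Bd (c : Ctx ι X) (k j : ℕ) (A : ι → ℝ) (f : ι → X → V) : Prop where
  nonneg : ∀ i, 0 ≤ A i
  sm : ∀ i, ContDiffOn ℝ ∞ (f i) (c.U i)
  le : ∃ C : ℝ, ∀ i, ∀ m ≤ k, ∀ x ∈ c.U i,
    ‖iteratedFDeriv ℝ m (f i) x‖ ≤ C * (A i * c.M i ^ (j + m))

/-- Bounds for all the derivatives. -/
def Cl (c : Ctx ι X) (j : ℕ) (A : ι → ℝ) (f : ι → X → V) : Prop := ∀ k, Bd c k j A f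

/-- Structure functions: polynomially bounded. -/
def St (c : Ctx ι X) (f : ι → X → V) : Prop := Cl c 1 (fun _ => 1) f

/-- Bounded families of constants. -/
def Bc {W : Type*} [NormedAddCommGroup W] (a : ι → W) : Prop := ∃ C : ℝ, ∀ i, ‖a i‖ ≤ C

/-- The functions divisible by `χ ^ p`. -/
def Idl (c : Ctx ι X) (χ : ι → X → ℝ) (p j : ℕ) (A : ι → ℝ) (f : ι → X → V) : Prop :=
  ∃ g : ι → X → V, Cl c j A g ∧ ∀ i, ∀ x ∈ c.U i, f i x = χ i x ^ p • g i x

/-- The functions of `(x, θ)` divisible by `χ ^ p` with a quotient periodic in `θ`. -/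
def IdP (c : Ctx ι X) (χ : ι → X → ℝ) (p j : ℕ) (A : ι → ℝ) (f : ι → X × ℝ → V) : Prop :=
  ∃ g : ι → X × ℝ → V, Cl c.cyl j A g ∧ (∀ i, ∀ x ∈ c.U i, ∀ θ, g i (x, θ + 1) = g i (x, θ)) ∧
    ∀ i, ∀ x ∈ c.U i, ∀ θ, f i (x, θ) = χ i x ^ p • g i (x, θ)

/-- Periodicity in the angle. -/
def Per (c : Ctx ι X) {W : Type*} (f : ι → X × ℝ → W) : Prop :=
  ∀ i, ∀ x ∈ c.U i, ∀ θ, f i (x, θ + 1) = f i (x, θ)

/-- The mean value in the angle. -/
def mean (f : X × ℝ → V) (x : X) : V := ∫ θ in (0 : ℝ)..1, f (x, θ)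

/-- The primitive, vanishing at `θ = 0`, of the oscillating part. -/
def prim0 (f : X × ℝ → V) (q : X × ℝ) : V := ∫ θ in (0 : ℝ)..q.2, (f (q.1, θ) - mean f q.1)

/-- The primitive with mean zero of the oscillating part. -/
def prim (f : X × ℝ → V) (q : X × ℝ) : V := prim0 f q - mean (prim0 f) q.1

/-- Derivative in a slow direction. -/
abbrev dx (v : X) (f : X × ℝ → V) : X × ℝ → V := dd ((v, 0) : X × ℝ) f

/-- Derivative in the angle. -/
abbrev dθ (f : X × ℝ → V) : X × ℝ → V := dd ((0, 1) : X × ℝ) f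

end Crest.Agent.R216
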