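import Crest.Agent.R216.Cl
import Crest.Agent.R240.Par

/-!
# Row 216: smoothness of means and primitives in the fast angle
-/

set_option autoImplicit false

noncomputable section

namespace Crest.Agent.R216.ClPA1

open Set Metric Filter
open scoped ContDiff Topology

variable {X V : Type} [NormedAddCommGroup X] [NormedSpace ℝ X] [FiniteDimensional ℝ X]
  [NormedAddCommGroup V] [NormedSpace ℝ V] {U : Set X} {f : X × ℝ → V} {x : X}

/-- Localisation: near a point of `U` a function smooth on `U ×ˢ univ` is globally smooth. -/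
theorem exists_glob (hU : IsOpen U) (hf : ContDiffOn ℝ ∞ f (U ×ˢ univ)) (hx : x ∈ U) :
    ∃ g : X × ℝ → V, ContDiff ℝ ∞ g ∧ ∀ᶠ y in 𝓝 x, ∀ θ, g (y, θ) = f (y, θ) := by
  obtain ⟨r, hr, h⟩ := Metric.isOpen_iff.1 hU x hx
  let χ : ContDiffBump x := ⟨r / 2, r, half_pos hr, half_lt_self hr⟩
  refine ⟨fun q => f (x + χ q.1 • (q.1 - x), q.2), hf.comp_contDiff
    ((contDiff_const.add ((χ.contDiff.comp contDiff_fst).smul
      (contDiff_fst.sub contDiff_const))).prodMk contDiff_snd) fun q => ⟨h ?_, trivial⟩,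
    χ.eventuallyEq_one.mono fun y hy θ => ?_⟩
  · rw [mem_ball_iff_norm, add_sub_cancel_left]
    by_cases hq : dist q.1 x < r
    · rw [norm_smul, Real.norm_of_nonneg χ.nonneg, ← dist_eq_norm]
      exact (mul_le_of_le_one_left dist_nonneg χ.le_one).trans_lt hq
    · rw [χ.zero_of_le_dist (not_lt.1 hq), zero_smul, norm_zero]
      exact hr
  · simp only [hy, Pi.one_apply, one_smul, add_sub_cancel]

theorem contDiffOn_mean [CompleteSpace V] (hU : IsOpen U) (hf : ContDiffOn ℝ ∞ f (U ×ˢ univ)) :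
    ContDiffOn ℝ ∞ (mean f) U := fun x hx => by
  obtain ⟨g, hg, h⟩ := exists_glob hU hf hx
  exact ((R240.contDiff_intervalIntegral hg 0 1).contDiffAt.congr_of_eventuallyEq
    (h.mono fun y hy => by simp only [mean, hy])).contDiffWithinAt

omit [FiniteDimensional ℝ X] [NormedAddCommGroup X] [NormedSpace ℝ X] in
theorem prim0_eq (f : X × ℝ → V) (q : X × ℝ) : prim0 f q =
    q.2 • mean (fun z : (X × ℝ) × ℝ => f (z.1.1, z.1.2 * z.2) - mean f z.1.1) q := by
  have := intervalIntegral.smul_integral_comp_mul_left (a := 0) (b := 1)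
    (fun θ => f (q.1, θ) - mean f q.1) q.2
  rw [mul_zero, mul_one] at this
  exact this.symm

theorem contDiffOn_prim0 [CompleteSpace V] (hU : IsOpen U) (hf : ContDiffOn ℝ ∞ f (U ×ˢ univ)) :
    ContDiffOn ℝ ∞ (prim0 f) (U ×ˢ univ) := by
  rw [funext (prim0_eq f)]
  refine contDiffOn_snd.smul (contDiffOn_mean (hU.prod isOpen_univ) (ContDiffOn.sub ?_ ?_))
  · exact hf.comp (by fun_prop) fun z hz => ⟨hz.1.1, trivial⟩
  · exact (contDiffOn_mean hU hf).comp (by fun_prop) fun z hz => hz.1.1

omit [FiniteDimensional ℝ X] [NormedAddCommGroup X] [NormedSpace ℝ X] in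
theorem continuous_prim0 (hf : Continuous fun θ => f (x, θ)) :
    Continuous fun θ => prim0 f (x, θ) :=
  intervalIntegral.continuous_primitive (f := fun θ => f (x, θ) - mean f x)
    (fun _ _ => (hf.sub continuous_const).intervalIntegrable _ _) 0

end Crest.Agent.R216.ClPA1
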