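import Crest.Agent.R216.Cl
import Crest.Agent.R240.Par

/-!
# Row 216: calculus in the fast angle (proofs of part A2 of `ClP`)
-/

set_option autoImplicit false
set_option linter.unusedSectionVars false

noncomputable section

namespace Crest.Agent.R216.ClPA2

open Set Metric Filter
open scoped ContDiff Topology RealInnerProductSpace

variable {X V W Z : Type} [NormedAddCommGroup X] [NormedSpace ℝ X] [FiniteDimensional ℝ X]
  [NormedAddCommGroup V] [NormedSpace ℝ V] [FiniteDimensional ℝ V] [NormedAddCommGroup W]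
  [NormedSpace ℝ W] [FiniteDimensional ℝ W] [NormedAddCommGroup Z] [NormedSpace ℝ Z]
  [FiniteDimensional ℝ Z]

variable {U : Set X} {f g : X × ℝ → V} {x : X}

theorem nhds (hU : IsOpen U) (hx : x ∈ U) (θ : ℝ) : U ×ˢ (univ : Set ℝ) ∈ 𝓝 (x, θ) :=
  (hU.prod isOpen_univ).mem_nhds ⟨hx, mem_univ _⟩

theorem diffAt (hU : IsOpen U) (hf : ContDiffOn ℝ ∞ f (U ×ˢ univ)) (hx : x ∈ U) (θ : ℝ) :
    DifferentiableAt ℝ f (x, θ) :=
  (hf.contDiffAt (nhds hU hx θ)).differentiableAt (by simp)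

theorem slice {θ : ℝ} (h : DifferentiableAt ℝ f (x, θ)) :
    HasDerivAt (fun θ => f (x, θ)) (dθ f (x, θ)) θ :=
  h.hasFDerivAt.comp_hasDerivAt θ ((hasDerivAt_const θ x).prodMk (hasDerivAt_id θ))

theorem cont (hf : ContDiffOn ℝ ∞ f (U ×ˢ univ)) (hx : x ∈ U) : Continuous fun θ => f (x, θ) :=
  hf.continuousOn.comp_continuous (by fun_prop) fun _ => ⟨hx, mem_univ _⟩

theorem contDiffOn_dd (hU : IsOpen U) (hf : ContDiffOn ℝ ∞ f (U ×ˢ univ)) (v : X × ℝ) :
    ContDiffOn ℝ ∞ (dd v f) (U ×ˢ univ) :=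
  (hf.fderiv_of_isOpen (m := ∞) (hU.prod isOpen_univ) le_rfl).clm_apply contDiffOn_const

theorem hasDerivAt_prim0 (hf : Continuous fun θ => f (x, θ)) (θ : ℝ) :
    HasDerivAt (fun θ => prim0 f (x, θ)) (f (x, θ) - mean f x) θ := by
  have : CompleteSpace V := FiniteDimensional.complete ℝ V
  have hc : Continuous fun t => f (x, t) - mean f x := hf.sub continuous_const
  exact (hc.integral_hasStrictDerivAt 0 θ).hasDerivAt

theorem dθ_prim {θ : ℝ} (hp : DifferentiableAt ℝ (prim f) (x, θ))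
    (hf : Continuous fun θ => f (x, θ)) : dθ (prim f) (x, θ) = f (x, θ) - mean f x :=
  (slice hp).unique ((hasDerivAt_prim0 hf θ).sub_const (mean (prim0 f) x))

theorem mean_dθ (hU : IsOpen U) (hf : ContDiffOn ℝ ∞ f (U ×ˢ univ)) (hx : x ∈ U)
    (hp : ∀ θ, f (x, θ + 1) = f (x, θ)) : mean (dθ f) x = 0 := by
  have : CompleteSpace V := FiniteDimensional.complete ℝ V
  rw [mean, intervalIntegral.integral_eq_sub_of_hasDerivAt
    (fun θ _ => slice (diffAt hU hf hx θ))
    ((cont (contDiffOn_dd hU hf _) hx).intervalIntegrable _ _), ← hp 0, zero_add, sub_self]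

/-- Localisation in the slow variable. -/
theorem exists_ext (hU : IsOpen U) (hf : ContDiffOn ℝ ∞ f (U ×ˢ univ)) (hx : x ∈ U) :
    ∃ g : X × ℝ → V, ContDiff ℝ ∞ g ∧ ∀ᶠ y in 𝓝 x, ∀ θ, g (y, θ) = f (y, θ) := by
  obtain ⟨r, hr, hrU⟩ := Metric.nhds_basis_closedBall.mem_iff.1 (hU.mem_nhds hx)
  let b : ContDiffBump x := ⟨r / 2, r, half_pos hr, half_lt_self hr⟩
  refine ⟨fun q => b q.1 • f q, contDiff_iff_contDiffAt.2 fun q => ?_, ?_⟩
  · by_cases hq : q.1 ∈ U
    · exact (b.contDiff.contDiffAt.comp q contDiffAt_fst).smul (hf.contDiffAt (nhds hU hq q.2))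
    · have h1 : ∀ᶠ y in 𝓝 q.1, y ∉ closedBall x r :=
        isClosed_closedBall.isOpen_compl.mem_nhds fun h => hq (hrU h)
      refine (contDiffAt_const (c := (0 : V))).congr_of_eventuallyEq
        ((continuous_fst.continuousAt.eventually h1).mono fun z hz => ?_)
      have : b z.1 = 0 := b.zero_of_le_dist (not_lt.1 fun h => hz (ball_subset_closedBall h))
      simp [this]
  · filter_upwards [b.eventuallyEq_one] with y hy θ
    simp [hy]

theorem mean_dx (hU : IsOpen U) (hf : ContDiffOn ℝ ∞ f (U ×ˢ univ)) (hx : x ∈ U) (v : X) :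
    mean (dx v f) x = dd v (mean f) x := by
  have : CompleteSpace V := FiniteDimensional.complete ℝ V
  obtain ⟨g, hg, he⟩ := exists_ext hU hf hx
  have h1 : mean f =ᶠ[𝓝 x] fun y => ∫ θ in (0 : ℝ)..1, g (y, θ) :=
    he.mono fun y hy => by simp only [mean, hy]
  rw [dd, h1.fderiv_eq, R240.fderiv_intervalIntegral hg, mean]
  refine intervalIntegral.integral_congr fun θ _ => ?_
  have h2 : f =ᶠ[𝓝 (x, θ)] g :=
    ((continuous_fst.tendsto ((x, θ) : X × ℝ)).eventually he).mono fun z hz => (hz z.2).symm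
  simp only [dx, dd, h2.fderiv_eq]

theorem dd_comm {Y : Type} [NormedAddCommGroup Y] [NormedSpace ℝ Y] {F : Y → V} {y : Y}
    (hF : ContDiffAt ℝ ∞ F y) (v w : Y) : dd v (dd w F) y = dd w (dd v F) y := by
  have h1 : DifferentiableAt ℝ (fderiv ℝ F) y :=
    (hF.fderiv_right (m := ∞) le_rfl).differentiableAt (by simp)
  have h2 : ∀ v w : Y, dd v (dd w F) y = fderiv ℝ (fderiv ℝ F) y v w := fun v w => by
    change fderiv ℝ (fun y => fderiv ℝ F y w) y v = _
    rw [fderiv_clm_apply h1 (differentiableAt_const w)]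
    simp
  rw [h2, h2]
  exact (hF.isSymmSndFDerivAt (by simp; exact ENat.LEInfty.out)).eq v w

theorem dx_periodic (hU : IsOpen U) (hp : ∀ x ∈ U, ∀ θ, f (x, θ + 1) = f (x, θ)) (v : X × ℝ)
    (hx : x ∈ U) (θ : ℝ) : dd v f (x, θ + 1) = dd v f (x, θ) := by
  have h1 : (fun q => f (q + (0, 1))) =ᶠ[𝓝 (x, θ)] f :=
    mem_of_superset (nhds hU hx θ) fun q hq => by
      have := hp q.1 hq.1 q.2
      simpa [Prod.add_def] using this
  rw [dd, dd, ← h1.fderiv_eq, fderiv_comp_add_right]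
  simp

theorem dd_lift (a : X → V) (v : X × ℝ) (θ : ℝ) :
    dd v (fun q : X × ℝ => a q.1) (x, θ) = dd v.1 a x := by
  by_cases ha : DifferentiableAt ℝ a x
  · have := (HasFDerivAt.comp ((x, θ) : X × ℝ) (f := Prod.fst) ha.hasFDerivAt hasFDerivAt_fst).fderiv
    change fderiv ℝ (a ∘ Prod.fst) (x, θ) v = _
    rw [this]
    rfl
  · have h1 : ¬ DifferentiableAt ℝ (fun q : X × ℝ => a q.1) (x, θ) := fun h =>
      ha (h.comp x (f := fun y : X => (y, θ)) (by fun_prop))
    rw [dd, dd, fderiv_zero_of_not_differentiableAt ha, fderiv_zero_of_not_differentiableAt h1]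
    rfl

theorem dθ_lift (a : X → V) (θ : ℝ) : dθ (fun q => a q.1) (x, θ) = 0 := by
  rw [dθ, dd_lift, dd, map_zero]

theorem dd_bilin {Y : Type} [NormedAddCommGroup Y] [NormedSpace ℝ Y] (B : V →L[ℝ] W →L[ℝ] Z)
    {a : Y → V} {b : Y → W} {y : Y} (ha : DifferentiableAt ℝ a y) (hb : DifferentiableAt ℝ b y)
    (v : Y) : dd v (fun y => B (a y) (b y)) y = B (dd v a y) (b y) + B (a y) (dd v b y) := by
  rw [dd, B.fderiv_of_bilinear ha hb, add_comm]
  rfl

theorem mean_bilin_dθ (B : V →L[ℝ] W →L[ℝ] Z) {g : X × ℝ → W} (hU : IsOpen U)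
    (hf : ContDiffOn ℝ ∞ f (U ×ˢ univ)) (hg : ContDiffOn ℝ ∞ g (U ×ˢ univ)) (hx : x ∈ U)
    (hp : ∀ θ, f (x, θ + 1) = f (x, θ)) (hp' : ∀ θ, g (x, θ + 1) = g (x, θ)) :
    mean (fun q => B (dθ f q) (g q)) x = -mean (fun q => B (f q) (dθ g q)) x := by
  have h1 := mean_dθ (f := fun q => B (f q) (g q)) hU
    ((B.contDiff.comp_contDiffOn hf).clm_apply hg) hx fun θ => by simp only [hp, hp']
  have h2 : Continuous fun θ => B (dθ f (x, θ)) (g (x, θ)) :=
    (B.continuous.comp (cont (contDiffOn_dd hU hf _) hx)).clm_apply (cont hg hx)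
  have h3 : Continuous fun θ => B (f (x, θ)) (dθ g (x, θ)) :=
    (B.continuous.comp (cont hf hx)).clm_apply (cont (contDiffOn_dd hU hg _) hx)
  rw [eq_neg_iff_add_eq_zero, ← h1, mean, mean, mean,
    ← intervalIntegral.integral_add (h2.intervalIntegrable _ _) (h3.intervalIntegrable _ _)]
  exact intervalIntegral.integral_congr fun θ _ =>
    (dd_bilin B (diffAt hU hf hx θ) (diffAt hU hg hx θ) _).symm

theorem mean_odd (hp : ∀ θ, f (x, θ + 1) = f (x, θ)) (ho : ∀ θ, f (x, -θ) = -f (x, θ)) :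
    mean f x = 0 := by
  have h1 := intervalIntegral.integral_comp_sub_left (a := 0) (b := 1) (fun θ => f (x, θ)) 1
  have h2 : ∀ θ, f (x, 1 - θ) = -f (x, θ) := fun θ => by rw [← ho, ← hp (-θ), neg_add_eq_sub]
  simp only [h2, intervalIntegral.integral_neg, sub_self, sub_zero] at h1
  have h3 : (2 : ℝ) • mean f x = 0 := by
    rw [two_smul, mean]
    exact neg_eq_iff_add_eq_zero.1 h1
  simpa using h3

theorem prim_even (hp : ∀ θ, f (x, θ + 1) = f (x, θ)) (he : ∀ θ, f (x, -θ) = f (x, θ))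
    (hf : Continuous fun θ => f (x, θ)) (θ : ℝ) : prim f (x, -θ) = -prim f (x, θ) := by
  have : CompleteSpace V := FiniteDimensional.complete ℝ V
  have h1 : ∀ θ, prim0 f (x, -θ) = -prim0 f (x, θ) := fun θ => by
    have := intervalIntegral.integral_comp_neg (a := 0) (b := θ) (fun t => f (x, t) - mean f x)
    simp only [he, neg_zero] at this
    simp only [prim0]
    rw [this, ← intervalIntegral.integral_symm]
  have hc : Continuous fun t => f (x, t) - mean f x := hf.sub continuous_const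
  have hper : Function.Periodic (fun t => f (x, t) - mean f x) 1 := fun t => by simp only [hp]
  have h2 : ∀ θ, prim0 f (x, θ + 1) = prim0 f (x, θ) := fun θ => by
    simp only [prim0]
    rw [← intervalIntegral.integral_add_adjacent_intervals (b := θ) (hc.intervalIntegrable _ _)
      (hc.intervalIntegrable _ _), hper.intervalIntegral_add_eq θ 0, zero_add,
      intervalIntegral.integral_sub (hf.intervalIntegrable 0 1) (by simp),
      intervalIntegral.integral_const, sub_zero, one_smul, ← mean, sub_self, add_zero]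
  simp only [prim, mean_odd h2 h1, sub_zero, h1]

theorem dx_odd (hU : IsOpen U) (hf : ContDiffOn ℝ ∞ f (U ×ˢ univ))
    (ho : ∀ x ∈ U, ∀ θ, f (x, -θ) = -f (x, θ)) (v : X) (hx : x ∈ U) (θ : ℝ) :
    dx v f (x, -θ) = -dx v f (x, θ) := by
  let σ : X × ℝ →L[ℝ] X × ℝ := (ContinuousLinearMap.fst ℝ X ℝ).prod (-ContinuousLinearMap.snd ℝ X ℝ)
  have h1 : f ∘ σ =ᶠ[𝓝 (x, θ)] fun q => -f q :=
    mem_of_superset (nhds hU hx θ) fun q hq => ho q.1 hq.1 q.2
  have h2 : HasFDerivAt (f ∘ σ) ((fderiv ℝ f (x, -θ)).comp σ) (x, θ) :=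
    HasFDerivAt.comp (x, θ) (diffAt hU hf hx (-θ)).hasFDerivAt σ.hasFDerivAt
  have h3 := congrArg (fun L => L (v, 0)) (h2.fderiv.symm.trans h1.fderiv_eq)
  simp only [fderiv_fun_neg] at h3
  simpa [σ, dx, dd] using h3

end Crest.Agent.R216.ClPA2
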