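import Crest.Agent.R216.Cl
import Crest.Agent.R240.Par

/-!
# Row 216: bounds for the mean and the primitive in the fast angle
-/

set_option autoImplicit false
set_option linter.unusedSectionVars false

noncomputable section

namespace Crest.Agent.R216.ClPB1

open Set Metric Filter
open scoped ContDiff Topology

variable {ι : Type*} {X Y V : Type*} [NormedAddCommGroup X] [NormedSpace ℝ X]
  [NormedAddCommGroup Y] [NormedSpace ℝ Y] [NormedAddCommGroup V] [NormedSpace ℝ V]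

theorem aff_le {f : X → V} {O : Set X} (hO : IsOpen O) (hf : ContDiffOn ℝ ∞ f O) (L : Y →L[ℝ] X)
    (hL : ‖L‖ ≤ 1) (b : X) {y : Y} (hy : L y + b ∈ O) (m : ℕ) :
    ‖iteratedFDeriv ℝ m (fun y => f (L y + b)) y‖ ≤ ‖iteratedFDeriv ℝ m f (L y + b)‖ := by
  have hO' : IsOpen ((fun x => x + b) ⁻¹' O) := hO.preimage (by fun_prop)
  have hf' : ContDiffOn ℝ ∞ (fun x => f (x + b)) ((fun x => x + b) ⁻¹' O) :=
    hf.comp (by fun_prop) fun _ hx => hx
  have hO'' : IsOpen (L ⁻¹' ((fun x => x + b) ⁻¹' O)) := hO'.preimage L.continuous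
  have h := L.iteratedFDerivWithin_comp_right hf' hO'.uniqueDiffOn hO''.uniqueDiffOn (x := y) hy
    (i := m) (by exact_mod_cast le_top)
  rw [iteratedFDerivWithin_of_isOpen m hO'' hy, iteratedFDerivWithin_of_isOpen m hO' hy,
    iteratedFDeriv_comp_add_right] at h
  change ‖iteratedFDeriv ℝ m ((fun x => f (x + b)) ∘ L) y‖ ≤ _
  rw [h]
  refine (ContinuousMultilinearMap.norm_compContinuousLinearMap_le _ _).trans ?_
  exact mul_le_of_le_one_right (norm_nonneg _)
    (Finset.prod_le_one (fun _ _ => norm_nonneg _) fun _ _ => hL)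

variable {c : Ctx ι X} {k j : ℕ} {A : ι → ℝ}

/-- Composition with affine contractions. -/
theorem aff {f : ι → X → V} (h : Bd c k j A f) {ι' : Type*} (φ : ι' → ι) {c' : Ctx ι' Y}
    (L : ι' → Y →L[ℝ] X) (hL : ∀ i, ‖L i‖ ≤ 1) (b : ι' → X)
    (hU : ∀ i, ∀ y ∈ c'.U i, L i y + b i ∈ c.U (φ i)) (hM : ∀ i, c'.M i = c.M (φ i)) :
    Bd c' k j (fun i => A (φ i)) fun i y => f (φ i) (L i y + b i) := by
  obtain ⟨C, hC⟩ := h.le
  refine ⟨fun i => h.nonneg _, fun i => (h.sm (φ i)).comp (by fun_prop) (hU i), C,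
    fun i m hm y hy => ?_⟩
  rw [hM]
  exact (aff_le (c.hU _) (h.sm _) (L i) (hL i) (b i) (hU i y hy) m).trans (hC _ m hm _ (hU i y hy))

theorem lift {f : ι → X → V} (h : Bd c k j A f) : Bd c.cyl k j A fun i q => f i q.1 := by
  have := aff h id (c' := c.cyl) (fun _ => ContinuousLinearMap.fst ℝ X ℝ)
    (fun _ => ContinuousLinearMap.norm_fst_le ℝ X ℝ) (fun _ => 0)
    (fun i y hy => by simpa using hy.1) fun _ => rfl
  simpa using this

/-- Localisation in the parameter. -/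
theorem exists_global [FiniteDimensional ℝ X] {Φ : X × ℝ → V} {O : Set X} (hO : IsOpen O)
    (hΦ : ContDiffOn ℝ ∞ Φ (O ×ˢ univ)) {p : X} (hp : p ∈ O) :
    ∃ Ψ : X × ℝ → V, ContDiff ℝ ∞ Ψ ∧ ∀ᶠ q in 𝓝 p, ∀ t, Ψ (q, t) = Φ (q, t) := by
  obtain ⟨r, hr, hrO⟩ := Metric.nhds_basis_closedBall.mem_iff.1 (hO.mem_nhds hp)
  let b : ContDiffBump p := ⟨r / 2, r, by positivity, by linarith⟩
  refine ⟨fun z => b z.1 • Φ z, contDiff_iff_contDiffAt.2 fun z => ?_, ?_⟩
  · by_cases hz : z.1 ∈ O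
    · exact (b.contDiff.comp contDiff_fst).contDiffAt.smul
        (hΦ.contDiffAt ((hO.prod isOpen_univ).mem_nhds ⟨hz, trivial⟩))
    · have h0 : (b : X → ℝ) =ᶠ[𝓝 z.1] 0 := notMem_tsupport_iff_eventuallyEq.1 fun h =>
        hz (hrO (b.tsupport_eq.subset h))
      have h1 : (fun z : X × ℝ => b z.1 • Φ z) =ᶠ[𝓝 z] fun _ => 0 := by
        filter_upwards [continuous_fst.continuousAt.eventually h0] with q hq
        simp [hq]
      exact contDiffAt_const.congr_of_eventuallyEq h1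
  · filter_upwards [b.eventuallyEq_one] with q hq t
    simp [hq]

/-- Integrals over `[0, 1]` of a family. -/
theorem int [FiniteDimensional ℝ X] [CompleteSpace V] {Φ : ι → X × ℝ → V}
    (hΦ : ∀ i, ContDiffOn ℝ ∞ (Φ i) (c.U i ×ˢ univ))
    (h : Bd ⟨fun i : ι × Icc (0 : ℝ) 1 => c.U i.1, fun i => c.M i.1, fun i => c.hU i.1,
      fun i => c.hM i.1⟩ k j (fun i => A i.1) fun i x => Φ i.1 (x, i.2)) :
    Bd c k j A fun i x => ∫ t in (0 : ℝ)..1, Φ i (x, t) := by
  obtain ⟨C, hC⟩ := h.le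
  have key : ∀ i, ∀ p ∈ c.U i, ∃ Ψ : X × ℝ → V, ContDiff ℝ ∞ Ψ ∧
      (∀ t, (fun q => Ψ (q, t)) =ᶠ[𝓝 p] fun q => Φ i (q, t)) ∧
      (fun q => ∫ t in (0 : ℝ)..1, Φ i (q, t)) =ᶠ[𝓝 p] fun q => ∫ t in (0 : ℝ)..1, Ψ (q, t) := by
    intro i p hp
    obtain ⟨Ψ, h1, h2⟩ := exists_global (c.hU i) (hΦ i) hp
    exact ⟨Ψ, h1, fun t => h2.mono fun q hq => hq t, h2.mono fun q hq => by simp only [hq]⟩
  refine ⟨fun i => h.nonneg (i, ⟨0, le_rfl, zero_le_one⟩), fun i p hp => ?_, C,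
    fun i m hm p hp => ?_⟩
  · obtain ⟨Ψ, h1, -, h3⟩ := key i p hp
    exact ((R240.contDiff_intervalIntegral h1 0 1).contDiffAt.congr_of_eventuallyEq
      h3).contDiffWithinAt
  · obtain ⟨Ψ, h1, h2, h3⟩ := key i p hp
    rw [(h3.iteratedFDeriv ℝ m).eq_of_nhds]
    have := R240.norm_iteratedFDeriv_intervalIntegral_le h1 zero_le_one m p
      (c := C * (A i * c.M i ^ (j + m))) fun t ht => by
        rw [((h2 t).iteratedFDeriv ℝ m).eq_of_nhds]
        exact hC (i, ⟨t, ht⟩) m hm p hp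
    simpa using this

theorem mean_bd [FiniteDimensional ℝ X] [CompleteSpace V] {f : ι → X × ℝ → V}
    (h : Bd c.cyl k j A f) : Bd c k j A fun i => mean (f i) := by
  refine int h.sm ?_
  have := aff h (ι' := ι × Icc (0 : ℝ) 1) Prod.fst
    (c' := ⟨fun i => c.U i.1, fun i => c.M i.1, fun i => c.hU i.1, fun i => c.hM i.1⟩)
    (fun _ => ContinuousLinearMap.inl ℝ X ℝ) (fun _ => ContinuousLinearMap.norm_inl_le_one ℝ X ℝ)
    (fun i => (0, (i.2 : ℝ))) (fun i y hy => ⟨by simpa using hy, trivial⟩) fun _ => rfl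
  simpa using this

/-- The truncated cylinder. -/
def cyl2 (c : Ctx ι X) : Ctx ι (X × ℝ) :=
  ⟨fun i => c.U i ×ˢ Ioo (-1) 2, c.M, fun i => (c.hU i).prod isOpen_Ioo, c.hM⟩

theorem of_per {g : ι → X × ℝ → V} (h : Bd (cyl2 c) k j A g) (hp : Per c g) :
    Bd c.cyl k j A g := by
  have h1 := aff h (ι' := ι × ℤ) Prod.fst
    (c' := ⟨fun i => c.U i.1 ×ˢ Ioo ((i.2 : ℝ) - 1) (i.2 + 2), fun i => c.M i.1,
      fun i => (c.hU i.1).prod isOpen_Ioo, fun i => c.hM i.1⟩)
    (fun _ => ContinuousLinearMap.id ℝ (X × ℝ)) (fun _ => ContinuousLinearMap.norm_id_le)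
    (fun i => (0, -(i.2 : ℝ))) (fun i y hy => ⟨by simpa using hy.1, by
      have := hy.2
      simp only [ContinuousLinearMap.id_apply, Prod.snd_add, mem_Ioo] at this ⊢
      constructor <;> linarith [this.1, this.2]⟩) fun _ => rfl
  refine h1.of_local h.nonneg fun i q hq => Or.inr ⟨(i, ⌊q.2⌋), ⟨hq.1, ?_, ?_⟩, ?_, le_rfl, le_rfl⟩
  · have := Int.floor_le q.2
    dsimp only
    linarith
  · have := Int.lt_floor_add_one q.2
    dsimp only
    linarith
  · filter_upwards [(c.cyl.hU i).mem_nhds hq] with z hz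
    have h2 : Function.Periodic (fun θ => g i (z.1, θ)) 1 := hp i z.1 hz.1
    have h3 := h2.sub_int_mul_eq (x := z.2) ⌊q.2⌋
    simp only [mul_one] at h3
    simp only [ContinuousLinearMap.id_apply]
    rw [show z + ((0 : X), -((⌊q.2⌋ : ℤ) : ℝ)) = (z.1, z.2 - (⌊q.2⌋ : ℤ)) from
      Prod.ext (add_zero _) (sub_eq_add_neg _ _).symm, h3]

theorem snd_bd : Bd (cyl2 c) k 0 (fun _ => 1) fun _ (q : X × ℝ) => q.2 := by
  have h0 : Bd (⟨fun _ => Ioo (-1) 2, c.M, fun _ => isOpen_Ioo, c.hM⟩ : Ctx ι ℝ) k 0 (fun _ => 1)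
      fun _ (t : ℝ) => t :=
    Bd.of_compact isOpen_univ contDiffOn_id (isCompact_Icc (a := -1) (b := 2)) (subset_univ _)
      fun _ => Ioo_subset_Icc_self
  have := aff h0 id (c' := cyl2 c) (fun _ => ContinuousLinearMap.snd ℝ X ℝ)
    (fun _ => ContinuousLinearMap.norm_snd_le ℝ X ℝ) (fun _ => 0)
    (fun i y hy => by simpa using hy.2) fun _ => rfl
  simpa using this

theorem prim0_bd [FiniteDimensional ℝ X] [CompleteSpace V] {f : ι → X × ℝ → V}
    (h : Bd c.cyl k j A f) (hp : Per c f) : Bd c.cyl k j A fun i => prim0 (f i) := by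
  have hg : Bd c.cyl k j A fun i q => f i q - mean (f i) q.1 := h.sub (lift (mean_bd h))
  have hG : Bd c.cyl k j A fun i q => ∫ t in (0 : ℝ)..1,
      (fun z : (X × ℝ) × ℝ => f i (z.1.1, z.1.2 * z.2) - mean (f i) z.1.1) (q, t) := by
    refine int (Φ := fun i (z : (X × ℝ) × ℝ) => f i (z.1.1, z.1.2 * z.2) - mean (f i) z.1.1)
      (fun i => ?_) ?_
    · exact (hg.sm i).comp (g := fun q => f i q - mean (f i) q.1)
        (f := fun z : (X × ℝ) × ℝ => (z.1.1, z.1.2 * z.2)) (by fun_prop)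
        fun z hz => ⟨hz.1.1, trivial⟩
    · have := aff hg (ι' := ι × Icc (0 : ℝ) 1) Prod.fst
        (c' := ⟨fun i => c.cyl.U i.1, fun i => c.cyl.M i.1, fun i => c.cyl.hU i.1,
          fun i => c.cyl.hM i.1⟩)
        (fun i => (ContinuousLinearMap.fst ℝ X ℝ).prod ((i.2 : ℝ) • ContinuousLinearMap.snd ℝ X ℝ))
        (fun i => ContinuousLinearMap.opNorm_le_bound _ zero_le_one fun y => by
          rw [one_mul, ContinuousLinearMap.prod_apply, Prod.norm_mk, Prod.norm_def]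
          refine max_le_max le_rfl ?_
          change ‖(i.2 : ℝ) * y.2‖ ≤ _
          rw [norm_mul, Real.norm_of_nonneg i.2.2.1]
          exact mul_le_of_le_one_left (norm_nonneg _) i.2.2.2)
        (fun _ => 0) (fun i y hy => ⟨by simpa using hy.1, trivial⟩) fun _ => rfl
      simpa [mul_comm] using this
  refine of_per ?_ fun i x hx θ => ?_
  · have h1 := (snd_bd (c := c) (k := k)).bilin (ContinuousLinearMap.lsmul ℝ ℝ)
      (hG.ctx (c' := cyl2 c) (fun i => prod_mono_right (subset_univ _)) fun _ => le_rfl)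
    simp only [zero_add, one_mul] at h1
    refine h1.congr fun i q _ => ?_
    rw [ContinuousLinearMap.lsmul_apply, intervalIntegral.smul_integral_comp_mul_left
      (fun θ => f i (q.1, θ) - mean (f i) q.1), mul_zero, mul_one]
    rfl
  · have hc : Continuous fun θ => f i (x, θ) :=
      continuousOn_univ.1 ((h.sm i).continuousOn.comp (f := fun θ : ℝ => (x, θ)) (by fun_prop)
        fun _ _ => ⟨hx, trivial⟩)
    have hc' : Continuous fun θ => f i (x, θ) - mean (f i) x := hc.sub continuous_const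
    have hper : Function.Periodic (fun θ => f i (x, θ) - mean (f i) x) 1 := fun θ => by
      simp only [hp i x hx θ]
    change ∫ s in (0 : ℝ)..θ + 1, (f i (x, s) - mean (f i) x) =
      ∫ s in (0 : ℝ)..θ, (f i (x, s) - mean (f i) x)
    rw [← intervalIntegral.integral_add_adjacent_intervals (hc'.intervalIntegrable 0 θ)
      (hc'.intervalIntegrable θ (θ + 1)), hper.intervalIntegral_add_eq θ 0, zero_add,
      intervalIntegral.integral_sub (hc.intervalIntegrable 0 1) intervalIntegrable_const,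
      intervalIntegral.integral_const, sub_zero, one_smul]
    exact add_eq_left.2 (sub_self _)

theorem prim_bd [FiniteDimensional ℝ X] [CompleteSpace V] {f : ι → X × ℝ → V}
    (h : Bd c.cyl k j A f) (hp : Per c f) : Bd c.cyl k j A fun i => prim (f i) :=
  (prim0_bd h hp).sub (lift (mean_bd (prim0_bd h hp)))

end Crest.Agent.R216.ClPB1
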