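import Crest.Agent.R216.Cl
import Crest.Agent.R216.ClPAuxA2
import Crest.Agent.R216.ClPAuxB1
import Crest.Agent.R216.ClPAuxA1

/-!
# Row 216: calculus in the fast angle, and the ideals `Idl`, `IdP`
-/

set_option autoImplicit false
set_option linter.unusedSectionVars false

noncomputable section

namespace Crest.Agent.R216

open Set Metric Filter
open scoped ContDiff Topology RealInnerProductSpace

variable {ι : Type*} {X V W Z : Type} [NormedAddCommGroup X] [NormedSpace ℝ X] [FiniteDimensional ℝ X]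
  [NormedAddCommGroup V] [NormedSpace ℝ V] [FiniteDimensional ℝ V] [NormedAddCommGroup W]
  [NormedSpace ℝ W] [FiniteDimensional ℝ W] [NormedAddCommGroup Z] [NormedSpace ℝ Z]
  [FiniteDimensional ℝ Z]

/-! ## Part A: one function -/

section one

variable {U : Set X} {f g : X × ℝ → V} {x : X}

theorem contDiffOn_mean (hU : IsOpen U) (hf : ContDiffOn ℝ ∞ f (U ×ˢ univ)) :
    ContDiffOn ℝ ∞ (mean f) U := ClPA1.contDiffOn_mean hU hf

theorem contDiffOn_prim (hU : IsOpen U) (hf : ContDiffOn ℝ ∞ f (U ×ˢ univ)) :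
    ContDiffOn ℝ ∞ (prim f) (U ×ˢ univ) :=
  (ClPA1.contDiffOn_prim0 hU hf).sub
    ((contDiffOn_mean hU (ClPA1.contDiffOn_prim0 hU hf)).comp contDiffOn_fst fun _ hz => hz.1)

theorem mean_congr (h : ∀ θ, f (x, θ) = g (x, θ)) : mean f x = mean g x := by
  simp only [mean, h]

theorem prim_congr (h : ∀ θ, f (x, θ) = g (x, θ)) (θ : ℝ) : prim f (x, θ) = prim g (x, θ) := by
  simp only [prim, prim0, mean, h]

theorem continuous_slice (hf : ContDiffOn ℝ ∞ f (U ×ˢ univ)) (hx : x ∈ U) :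
    Continuous fun θ => f (x, θ) :=
  hf.continuousOn.comp_continuous (Continuous.prodMk_right x) fun _ => ⟨hx, trivial⟩

theorem mean_const (a : X → V) (x : X) : mean (fun q => a q.1) x = a x := by simp [mean]

theorem mean_add (hf : Continuous fun θ => f (x, θ)) (hg : Continuous fun θ => g (x, θ)) :
    mean (fun q => f q + g q) x = mean f x + mean g x :=
  intervalIntegral.integral_add (hf.intervalIntegrable _ _) (hg.intervalIntegrable _ _)

theorem mean_sub (hf : Continuous fun θ => f (x, θ)) (hg : Continuous fun θ => g (x, θ)) :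
    mean (fun q => f q - g q) x = mean f x - mean g x :=
  intervalIntegral.integral_sub (hf.intervalIntegrable _ _) (hg.intervalIntegrable _ _)

theorem mean_neg : mean (fun q => -f q) x = -mean f x := intervalIntegral.integral_neg

theorem mean_smul (a : X → ℝ) : mean (fun q => a q.1 • f q) x = a x • mean f x :=
  intervalIntegral.integral_smul (a x) fun θ => f (x, θ)

theorem mean_clm (hf : Continuous fun θ => f (x, θ)) (L : X → V →L[ℝ] W) :
    mean (fun q => L q.1 (f q)) x = L x (mean f x) :=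
  (L x).intervalIntegral_comp_comm (hf.intervalIntegrable _ _)

theorem mean_smul_const {a : X × ℝ → ℝ} (b : X → V) :
    mean (fun q => a q • b q.1) x = mean a x • b x :=
  intervalIntegral.integral_smul_const (fun θ => a (x, θ)) (b x)

theorem mean_inner {f : X × ℝ → V4} (hf : Continuous fun θ => f (x, θ)) (a : X → V4) :
    mean (fun q => ⟪a q.1, f q⟫) x = ⟪a x, mean f x⟫ :=
  mean_clm hf fun x => innerSL ℝ (a x)

theorem prim_clm (hf : Continuous fun θ => f (x, θ)) (L : X → V →L[ℝ] W) (θ : ℝ) :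
    prim (fun q => L q.1 (f q)) (x, θ) = L x (prim f (x, θ)) := by
  have h : ∀ θ, prim0 (fun q => L q.1 (f q)) (x, θ) = L x (prim0 f (x, θ)) := fun θ => by
    simp only [prim0, mean_clm hf, ← map_sub]
    exact (L x).intervalIntegral_comp_comm ((hf.sub continuous_const).intervalIntegrable _ _)
  rw [prim, prim, h, map_sub, ← mean_clm (ClPA1.continuous_prim0 hf) L]
  exact congrArg _ (mean_congr h)

theorem prim_smul (a : X → ℝ) (θ : ℝ) :
    prim (fun q => a q.1 • f q) (x, θ) = a x • prim f (x, θ) := by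
  simp only [prim, prim0, mean, ← smul_sub, intervalIntegral.integral_smul]

theorem prim_inner {f : X × ℝ → V4} (hf : Continuous fun θ => f (x, θ)) (a : X → V4) (θ : ℝ) :
    prim (fun q => ⟪a q.1, f q⟫) (x, θ) = ⟪a x, prim f (x, θ)⟫ :=
  prim_clm hf (fun x => innerSL ℝ (a x)) θ

theorem prim_zero (h : ∀ θ, f (x, θ) = 0) (θ : ℝ) : prim f (x, θ) = 0 := by
  simp [prim, prim0, mean, h]

theorem prim_periodic (hf : Continuous fun θ => f (x, θ)) (hp : ∀ θ, f (x, θ + 1) = f (x, θ))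
    (θ : ℝ) : prim f (x, θ + 1) = prim f (x, θ) := by
  have hc : Continuous fun θ => f (x, θ) - mean f x := hf.sub continuous_const
  have h1 : Function.Periodic (fun θ => f (x, θ) - mean f x) 1 := fun θ => by simp only [hp]
  have h2 := h1.intervalIntegral_add_eq θ 0
  rw [zero_add, intervalIntegral.integral_sub (b := 1) (hf.intervalIntegrable _ _)
    (continuous_const.intervalIntegrable _ _), intervalIntegral.integral_const, sub_zero,
    one_smul] at h2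
  have h3 := intervalIntegral.integral_add_adjacent_intervals (μ := MeasureTheory.volume)
    (hc.intervalIntegrable 0 θ) (hc.intervalIntegrable θ (θ + 1))
  rw [h2, mean, sub_self, add_zero] at h3
  exact congrArg (· - mean (prim0 f) x) h3.symm

theorem mean_prim (hf : Continuous fun θ => f (x, θ)) : mean (prim f) x = 0 :=
  (mean_sub (g := fun q => mean (prim0 f) q.1) (ClPA1.continuous_prim0 hf)
    (continuous_const (y := mean (prim0 f) x))).trans (by rw [mean_const, sub_self])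

theorem dθ_prim (hU : IsOpen U) (hf : ContDiffOn ℝ ∞ f (U ×ˢ univ)) (hx : x ∈ U) (θ : ℝ) :
    dθ (prim f) (x, θ) = f (x, θ) - mean f x :=
  ClPA2.dθ_prim (ClPA2.diffAt hU (contDiffOn_prim hU hf) hx θ) (ClPA2.cont hf hx)

theorem hasDerivAt_dθ (hU : IsOpen U) (hf : ContDiffOn ℝ ∞ f (U ×ˢ univ)) (hx : x ∈ U) (θ : ℝ) :
    HasDerivAt (fun θ => f (x, θ)) (dθ f (x, θ)) θ :=
  ClPA2.slice (ClPA2.diffAt hU hf hx θ)

theorem mean_dθ (hU : IsOpen U) (hf : ContDiffOn ℝ ∞ f (U ×ˢ univ)) (hx : x ∈ U)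
    (hp : ∀ θ, f (x, θ + 1) = f (x, θ)) : mean (dθ f) x = 0 :=
  ClPA2.mean_dθ hU hf hx hp

theorem mean_dx (hU : IsOpen U) (hf : ContDiffOn ℝ ∞ f (U ×ˢ univ)) (hx : x ∈ U) (v : X) :
    mean (dx v f) x = dd v (mean f) x :=
  ClPA2.mean_dx hU hf hx v

theorem dd_comm {Y : Type} [NormedAddCommGroup Y] [NormedSpace ℝ Y] {F : Y → V} {y : Y}
    (hF : ContDiffAt ℝ ∞ F y) (v w : Y) : dd v (dd w F) y = dd w (dd v F) y :=
  ClPA2.dd_comm hF v w

theorem dx_periodic (hU : IsOpen U) (hp : ∀ x ∈ U, ∀ θ, f (x, θ + 1) = f (x, θ)) (v : X × ℝ)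
    (hx : x ∈ U) (θ : ℝ) : dd v f (x, θ + 1) = dd v f (x, θ) :=
  ClPA2.dx_periodic hU hp v hx θ

theorem dx_lift (a : X → V) (v : X) (θ : ℝ) : dx v (fun q => a q.1) (x, θ) = dd v a x :=
  ClPA2.dd_lift a (v, 0) θ

theorem dθ_lift (a : X → V) (θ : ℝ) : dθ (fun q => a q.1) (x, θ) = 0 :=
  ClPA2.dθ_lift a θ

/-- Integration by parts. -/
theorem mean_bilin_dθ (B : V →L[ℝ] W →L[ℝ] Z) {g : X × ℝ → W} (hU : IsOpen U)
    (hf : ContDiffOn ℝ ∞ f (U ×ˢ univ)) (hg : ContDiffOn ℝ ∞ g (U ×ˢ univ)) (hx : x ∈ U)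
    (hp : ∀ θ, f (x, θ + 1) = f (x, θ)) (hp' : ∀ θ, g (x, θ + 1) = g (x, θ)) :
    mean (fun q => B (dθ f q) (g q)) x = -mean (fun q => B (f q) (dθ g q)) x :=
  ClPA2.mean_bilin_dθ B hU hf hg hx hp hp'

theorem mean_odd (hp : ∀ θ, f (x, θ + 1) = f (x, θ)) (ho : ∀ θ, f (x, -θ) = -f (x, θ))
    (hf : Continuous fun θ => f (x, θ)) : mean f x = 0 := by
  have _ := hf
  exact ClPA2.mean_odd hp ho

theorem prim_even (hp : ∀ θ, f (x, θ + 1) = f (x, θ)) (he : ∀ θ, f (x, -θ) = f (x, θ))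
    (hf : Continuous fun θ => f (x, θ)) (θ : ℝ) : prim f (x, -θ) = -prim f (x, θ) :=
  ClPA2.prim_even hp he hf θ

theorem dx_odd (hU : IsOpen U) (hf : ContDiffOn ℝ ∞ f (U ×ˢ univ))
    (ho : ∀ x ∈ U, ∀ θ, f (x, -θ) = -f (x, θ)) (v : X) (hx : x ∈ U) (θ : ℝ) :
    dx v f (x, -θ) = -dx v f (x, θ) :=
  ClPA2.dx_odd hU hf ho v hx θ

/-- Leibniz rule for directional derivatives. -/
theorem dd_bilin {Y : Type} [NormedAddCommGroup Y] [NormedSpace ℝ Y] (B : V →L[ℝ] W →L[ℝ] Z)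
    {a : Y → V} {b : Y → W} {y : Y} (ha : DifferentiableAt ℝ a y) (hb : DifferentiableAt ℝ b y)
    (v : Y) : dd v (fun y => B (a y) (b y)) y = B (dd v a y) (b y) + B (a y) (dd v b y) :=
  ClPA2.dd_bilin B ha hb v

theorem dd_inner {Y : Type} [NormedAddCommGroup Y] [NormedSpace ℝ Y]
    {a b : Y → V4} {y : Y} (ha : DifferentiableAt ℝ a y) (hb : DifferentiableAt ℝ b y)
    (v : Y) : dd v (fun y => ⟪a y, b y⟫) y = ⟪dd v a y, b y⟫ + ⟪a y, dd v b y⟫ :=
  dd_bilin (innerSL ℝ) ha hb v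

theorem dd_smul {Y : Type} [NormedAddCommGroup Y] [NormedSpace ℝ Y]
    {a : Y → ℝ} {b : Y → V} {y : Y} (ha : DifferentiableAt ℝ a y) (hb : DifferentiableAt ℝ b y)
    (v : Y) : dd v (fun y => a y • b y) y = dd v a y • b y + a y • dd v b y :=
  dd_bilin (ContinuousLinearMap.lsmul ℝ ℝ) ha hb v

theorem dd_add {Y : Type} [NormedAddCommGroup Y] [NormedSpace ℝ Y]
    {a b : Y → V} {y : Y} (ha : DifferentiableAt ℝ a y) (hb : DifferentiableAt ℝ b y)
    (v : Y) : dd v (fun y => a y + b y) y = dd v a y + dd v b y := by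
  rw [dd, fderiv_fun_add ha hb]
  rfl

theorem dd_sub {Y : Type} [NormedAddCommGroup Y] [NormedSpace ℝ Y]
    {a b : Y → V} {y : Y} (ha : DifferentiableAt ℝ a y) (hb : DifferentiableAt ℝ b y)
    (v : Y) : dd v (fun y => a y - b y) y = dd v a y - dd v b y := by
  rw [dd, fderiv_fun_sub ha hb]
  rfl

theorem dd_congr {Y : Type} [NormedAddCommGroup Y] [NormedSpace ℝ Y] {a b : Y → V} {O : Set Y}
    (hO : IsOpen O) (h : ∀ y ∈ O, a y = b y) {y : Y} (hy : y ∈ O) (v : Y) :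
    dd v a y = dd v b y := by
  rw [dd, dd, (eventuallyEq_of_mem (hO.mem_nhds hy) h).fderiv_eq]

end one

/-! ## Part B: families -/

variable {c : Ctx ι X} {χ : ι → X → ℝ} {k p p' j j' : ℕ} {A A' : ι → ℝ}

theorem Bd.mean {f : ι → X × ℝ → V} (h : Bd c.cyl k j A f) :
    Bd c k j A fun i => mean (f i) := by
  have := FiniteDimensional.complete ℝ V
  exact ClPB1.mean_bd h

theorem Bd.prim {f : ι → X × ℝ → V} (h : Bd c.cyl k j A f) (hp : Per c f) :
    Bd c.cyl k j A fun i => prim (f i) := by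
  have := FiniteDimensional.complete ℝ V
  exact ClPB1.prim_bd h hp

theorem Cl.mean {f : ι → X × ℝ → V} (h : Cl c.cyl j A f) : Cl c j A fun i => mean (f i) :=
  fun k => (h k).mean

theorem Cl.prim {f : ι → X × ℝ → V} (h : Cl c.cyl j A f) (hp : Per c f) :
    Cl c.cyl j A fun i => prim (f i) := fun k => (h k).prim hp

theorem Cl.pow {a : ι → X → ℝ} (h : Cl c 0 (fun _ => 1) a) (n : ℕ) :
    Cl c 0 (fun _ => 1) fun i x => a i x ^ n := by
  induction n with
  | zero =>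
    simp only [pow_zero]
    exact fun k => Bd.const (fun _ => zero_le_one) (C := 1) fun _ => by simp
  | succ n ih => simpa only [add_zero, mul_one, ← pow_succ] using ih.mul h

section idl

variable {f f' : ι → X → V}

theorem Idl.nonneg (h : Idl c χ p j A f) (i : ι) : 0 ≤ A i := h.choose_spec.1.nonneg i
theorem Idl.of_cl (h : Cl c j A f) : Idl c χ 0 j A f := ⟨f, h, fun _ _ _ => by simp⟩
theorem Idl.cl (hχ : Cl c 0 (fun _ => 1) χ) (h : Idl c χ p j A f) : Cl c j A f := by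
  obtain ⟨g, hg, he⟩ := h
  have := (hχ.pow p).smul hg
  simp only [zero_add, one_mul] at this
  exact this.congr he
theorem Idl.mono (hχ : Cl c 0 (fun _ => 1) χ) (h : Idl c χ p j A f) (hp : p' ≤ p) (hj : j ≤ j') :
    Idl c χ p' j' A f := by
  obtain ⟨g, hg, he⟩ := h
  have := (hχ.pow (p - p')).smul hg
  simp only [zero_add, one_mul] at this
  refine ⟨_, this.mono hj, fun i x hx => ?_⟩
  rw [he i x hx, smul_smul, ← pow_add, Nat.add_sub_cancel' hp]
theorem Idl.size (h : Idl c χ p j A f) (h0 : ∀ i, 0 ≤ A' i) {C : ℝ}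
    (hA : ∀ i, A i * c.M i ^ j ≤ C * (A' i * c.M i ^ j')) : Idl c χ p j' A' f := by
  obtain ⟨g, hg, he⟩ := h
  exact ⟨g, hg.size h0 hA, he⟩
theorem Idl.congr (h : Idl c χ p j A f) (he : ∀ i, ∀ x ∈ c.U i, f' i x = f i x) :
    Idl c χ p j A f' := by
  obtain ⟨g, hg, he'⟩ := h
  exact ⟨g, hg, fun i x hx => (he i x hx).trans (he' i x hx)⟩
theorem Idl.add (h : Idl c χ p j A f) (h' : Idl c χ p j A f') :
    Idl c χ p j A fun i x => f i x + f' i x := by
  obtain ⟨g, hg, he⟩ := h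
  obtain ⟨g', hg', he'⟩ := h'
  exact ⟨_, hg.add hg', fun i x hx => by simp only [he i x hx, he' i x hx, smul_add]⟩
theorem Idl.sub (h : Idl c χ p j A f) (h' : Idl c χ p j A f') :
    Idl c χ p j A fun i x => f i x - f' i x := by
  obtain ⟨g, hg, he⟩ := h
  obtain ⟨g', hg', he'⟩ := h'
  exact ⟨_, hg.sub hg', fun i x hx => by simp only [he i x hx, he' i x hx, smul_sub]⟩
theorem Idl.neg (h : Idl c χ p j A f) : Idl c χ p j A fun i x => -f i x := by
  obtain ⟨g, hg, he⟩ := h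
  exact ⟨_, hg.neg, fun i x hx => by simp only [he i x hx, smul_neg]⟩
theorem Idl.bilin (B : V →L[ℝ] W →L[ℝ] Z) (h : Idl c χ p j A f) {g : ι → X → W}
    (h' : Idl c χ p' j' A' g) :
    Idl c χ (p + p') (j + j') (fun i => A i * A' i) fun i x => B (f i x) (g i x) := by
  obtain ⟨a, ha, he⟩ := h
  obtain ⟨a', ha', he'⟩ := h'
  refine ⟨_, ha.bilin B ha', fun i x hx => ?_⟩
  simp only [he i x hx, he' i x hx, map_smul, _root_.smul_apply, smul_smul, pow_add,
    mul_comm]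
theorem Idl.csmul (h : Idl c χ p j A f) {a : ι → ℝ} (h0 : ∀ i, 0 ≤ A' i) {C : ℝ}
    (ha : ∀ i, |a i| * A i ≤ C * A' i) : Idl c χ p j A' fun i x => a i • f i x := by
  obtain ⟨g, hg, he⟩ := h
  exact ⟨_, hg.csmul h0 ha, fun i x hx => by simp only [he i x hx, smul_comm (a i)]⟩
theorem Idl.dd (hχ : Cl c 0 (fun _ => 1) χ) (h : Idl c χ p j A f) {v : ι → X} (hv : Bc v) :
    Idl c χ (p - 1) (j + 1) A fun i => dd (v i) (f i) := by
  obtain ⟨g, hg, he⟩ := h
  have h1 := (hχ.dd hv).smul hg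
  have h2 := (hχ.pow (p - (p - 1))).smul (hg.dd hv)
  simp only [zero_add, one_mul] at h1 h2
  rw [add_comm] at h1
  refine ⟨_, (h1.csmul (a := fun _ => (p : ℝ)) hg.nonneg (C := p)
    fun i => by rw [Nat.abs_cast]).add h2, fun i x hx => ?_⟩
  have hn := (c.hU i).mem_nhds hx
  have d1 : HasFDerivAt (χ i) (fderiv ℝ (χ i) x) x :=
    (((hχ.sm i).contDiffAt hn).differentiableAt (by simp)).hasFDerivAt
  have d2 : HasFDerivAt (g i) (fderiv ℝ (g i) x) x :=
    (((hg.sm i).contDiffAt hn).differentiableAt (by simp)).hasFDerivAt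
  have e : f i =ᶠ[𝓝 x] fun y => χ i y ^ p • g i y := eventually_of_mem hn (he i)
  have d3 := ((d1.pow p).smul d2).congr_of_eventuallyEq e
  simp only [R216.dd, d3.fderiv, _root_.add_apply, _root_.smul_apply,
    ContinuousLinearMap.smulRight_apply, smul_add, smul_smul, ← pow_add,
    Nat.add_sub_cancel' (Nat.sub_le p 1), smul_eq_mul, nsmul_eq_mul]
  rw [add_comm]
  congr 2
  ring
theorem Idl.lift (h : Idl c χ p j A f) : IdP c χ p j A fun i q => f i q.1 := by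
  obtain ⟨g, hg, he⟩ := h
  exact ⟨_, hg.lift, fun _ _ _ _ => rfl, fun i x hx _ => he i x hx⟩
/-- Division by `κ χ ^ K`. -/
theorem Idl.div {K : ℕ} {κ : ι → ℝ} (hκ : ∀ i, 0 < κ i) (hA : ∀ i, 0 ≤ A i)
    (h : Idl c χ (K + p) j (fun i => κ i * A i) f) :
    ∃ g : ι → X → V, Idl c χ p j A g ∧
      ∀ i, ∀ x ∈ c.U i, f i x = (κ i * χ i x ^ K) • g i x := by
  obtain ⟨g, hg, he⟩ := h
  refine ⟨fun i x => χ i x ^ p • (κ i)⁻¹ • g i x, ⟨_, hg.csmul hA (C := 1) fun i => ?_,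
    fun _ _ _ => rfl⟩, fun i x hx => ?_⟩
  · rw [abs_of_pos (inv_pos.2 (hκ i)), inv_mul_cancel_left₀ (hκ i).ne', one_mul]
  · rw [he i x hx, smul_smul, smul_smul, pow_add]
    congr 1
    field_simp [(hκ i).ne']
theorem Idl.zero_of (h : Idl c χ (p + 1) j A f) {i : ι} {x : X} (hx : x ∈ c.U i)
    (h0 : χ i x = 0) : f i x = 0 := by
  obtain ⟨g, -, he⟩ := h
  rw [he i x hx, h0, zero_pow (Nat.succ_ne_zero p), zero_smul]

end idl

section idp

variable {f f' : ι → X × ℝ → V}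

theorem IdP.nonneg (h : IdP c χ p j A f) (i : ι) : 0 ≤ A i := by
  obtain ⟨g, hg, -⟩ := h
  exact hg.nonneg i
theorem IdP.per (h : IdP c χ p j A f) : Per c f := by
  obtain ⟨g, -, hp, he⟩ := h
  intro i x hx θ
  rw [he i x hx, he i x hx, hp i x hx]
theorem IdP.of_cl (h : Cl c.cyl j A f) (hp : Per c f) : IdP c χ 0 j A f :=   ⟨f, h, hp, fun i x _ θ => by rw [pow_zero, one_smul]⟩
theorem IdP.aux (hχ : Cl c 0 (fun _ => 1) χ) (h : Cl c.cyl j A f) (n : ℕ) :
    Cl c.cyl j A fun i q => χ i q.1 ^ n • f i q :=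
  ((hχ.pow n).lift.smul h).size h.nonneg (C := 1) fun i => by simp

theorem IdP.cl (hχ : Cl c 0 (fun _ => 1) χ) (h : IdP c χ p j A f) : Cl c.cyl j A f := by
  obtain ⟨g, hg, -, he⟩ := h
  exact (IdP.aux hχ hg p).congr fun i q hq => he i q.1 hq.1 q.2
theorem IdP.mono (hχ : Cl c 0 (fun _ => 1) χ) (h : IdP c χ p j A f) (hp : p' ≤ p) (hj : j ≤ j') :
    IdP c χ p' j' A f := by
  obtain ⟨g, hg, hq, he⟩ := h
  refine ⟨_, (IdP.aux hχ hg (p - p')).mono hj, fun i x hx θ => by rw [hq i x hx],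
    fun i x hx θ => ?_⟩
  rw [he i x hx, smul_smul, ← pow_add, Nat.add_sub_cancel' hp]
theorem IdP.size (h : IdP c χ p j A f) (h0 : ∀ i, 0 ≤ A' i) {C : ℝ}
    (hA : ∀ i, A i * c.M i ^ j ≤ C * (A' i * c.M i ^ j')) : IdP c χ p j' A' f := by
  obtain ⟨g, hg, hq, he⟩ := h
  exact ⟨g, hg.size h0 hA, hq, he⟩
theorem IdP.congr (h : IdP c χ p j A f) (he : ∀ i, ∀ x ∈ c.U i, ∀ θ, f' i (x, θ) = f i (x, θ)) :
    IdP c χ p j A f' := by
  obtain ⟨g, hg, hq, he'⟩ := h
  exact ⟨g, hg, hq, fun i x hx θ => (he i x hx θ).trans (he' i x hx θ)⟩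
theorem IdP.add (h : IdP c χ p j A f) (h' : IdP c χ p j A f') :
    IdP c χ p j A fun i q => f i q + f' i q := by
  obtain ⟨g, hg, hq, he⟩ := h
  obtain ⟨g', hg', hq', he'⟩ := h'
  exact ⟨_, hg.add hg', fun i x hx θ => by rw [hq i x hx, hq' i x hx],
    fun i x hx θ => by rw [smul_add, ← he i x hx, ← he' i x hx]⟩
theorem IdP.sub (h : IdP c χ p j A f) (h' : IdP c χ p j A f') :
    IdP c χ p j A fun i q => f i q - f' i q := by
  obtain ⟨g, hg, hq, he⟩ := h
  obtain ⟨g', hg', hq', he'⟩ := h'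
  exact ⟨_, hg.sub hg', fun i x hx θ => by rw [hq i x hx, hq' i x hx],
    fun i x hx θ => by rw [smul_sub, ← he i x hx, ← he' i x hx]⟩
theorem IdP.neg (h : IdP c χ p j A f) : IdP c χ p j A fun i q => -f i q := by
  obtain ⟨g, hg, hq, he⟩ := h
  exact ⟨_, hg.neg, fun i x hx θ => by rw [hq i x hx],
    fun i x hx θ => by rw [smul_neg, ← he i x hx]⟩
theorem IdP.zero (h0 : ∀ i, 0 ≤ A i) : IdP c χ p j A fun _ _ => (0 : V) :=   ⟨fun _ _ => 0, fun k => (Bd.const (a := fun _ => (0 : V)) h0 (C := 0) fun i => by simp).mono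
    le_rfl j.zero_le, fun _ _ _ _ => rfl, fun _ _ _ _ => (smul_zero _).symm⟩
theorem IdP.bilin (B : V →L[ℝ] W →L[ℝ] Z) (h : IdP c χ p j A f) {g : ι → X × ℝ → W}
    (h' : IdP c χ p' j' A' g) :
    IdP c χ (p + p') (j + j') (fun i => A i * A' i) fun i q => B (f i q) (g i q) := by
  obtain ⟨a, ha, hq, he⟩ := h
  obtain ⟨b, hb, hq', he'⟩ := h'
  refine ⟨_, ha.bilin B hb, fun i x hx θ => by rw [hq i x hx, hq' i x hx], fun i x hx θ => ?_⟩
  beta_reduce
  rw [he i x hx, he' i x hx, B.map_smul₂, map_smul, smul_smul, pow_add]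
theorem IdP.smul {a : ι → X × ℝ → ℝ} (h : IdP c χ p j A a) (h' : IdP c χ p' j' A' f) :
    IdP c χ (p + p') (j + j') (fun i => A i * A' i) fun i q => a i q • f i q :=
  h.bilin (ContinuousLinearMap.lsmul ℝ ℝ) h'
theorem IdP.inner {a b : ι → X × ℝ → V4} (h : IdP c χ p j A a) (h' : IdP c χ p' j' A' b) :
    IdP c χ (p + p') (j + j') (fun i => A i * A' i) fun i q => ⟪a i q, b i q⟫ :=
  h.bilin (innerSL ℝ) h'
theorem IdP.csmul (h : IdP c χ p j A f) {a : ι → ℝ} (h0 : ∀ i, 0 ≤ A' i) {C : ℝ}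
    (ha : ∀ i, |a i| * A i ≤ C * A' i) : IdP c χ p j A' fun i q => a i • f i q := by
  obtain ⟨g, hg, hq, he⟩ := h
  exact ⟨_, hg.csmul h0 ha, fun i x hx θ => by rw [hq i x hx],
    fun i x hx θ => by rw [smul_comm, ← he i x hx]⟩
theorem IdP.dd_aux (hχ : Cl c 0 (fun _ => 1) χ) {g : ι → X × ℝ → V} (hg : Cl c.cyl j A g)
    (he : ∀ i, ∀ x ∈ c.U i, ∀ θ, f i (x, θ) = χ i x ^ p • g i (x, θ)) {i : ι} {x : X}
    (hx : x ∈ c.U i) (θ : ℝ) (v : X × ℝ) :
    dd v (f i) (x, θ) = dd v (fun q : X × ℝ => χ i q.1 ^ p) (x, θ) • g i (x, θ) +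
      χ i x ^ p • dd v (g i) (x, θ) := by
  have hq : (x, θ) ∈ c.cyl.U i := ⟨hx, trivial⟩
  rw [dd_congr (c.cyl.hU i) (fun q hq => he i q.1 hq.1 q.2) hq]
  exact dd_smul (a := fun q : X × ℝ => χ i q.1 ^ p)
    ((ClA2.contDiffAt ((hχ.pow p).lift 0) hq).differentiableAt (by simp))
    ((ClA2.contDiffAt (hg 0) hq).differentiableAt (by simp)) v

theorem IdP.dx (hχ : Cl c 0 (fun _ => 1) χ) (h : IdP c χ p j A f) {v : ι → X} (hv : Bc v) :
    IdP c χ (p - 1) (j + 1) A fun i => dx (v i) (f i) := by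
  obtain ⟨g, hg, hq, he⟩ := h
  have hv' : Bc fun i => ((v i, 0) : X × ℝ) := hv.imp fun C hC i => by simpa using hC i
  have h1 : Cl c.cyl (j + 1) A fun i q => (p : ℝ) • dd (v i) (χ i) q.1 • g i q :=
    (((hχ.dd hv).lift.smul hg).size hg.nonneg (C := 1) fun i => by
      rw [one_mul, one_mul, zero_add, add_comm]).csmul hg.nonneg (C := |(p : ℝ)|) fun _ => le_rfl
  refine ⟨_, h1.add (IdP.aux hχ (hg.dd hv') (p - (p - 1))), fun i x hx θ => ?_, fun i x hx θ => ?_⟩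
  · rw [hq i x hx, dx_periodic (c.hU i) (hq i) _ hx]
  · have h2 : dd (v i) (fun x => χ i x ^ p) x = p * χ i x ^ (p - 1) * dd (v i) (χ i) x := by
      have := ((ClA2.contDiffAt (hχ 0) hx).differentiableAt (by simp)).hasFDerivAt.pow p
      rw [dd, this.fderiv]
      simp [dd]
    have h3 : dd (v i, 0) (fun q : X × ℝ => χ i q.1 ^ p) (x, θ) = _ :=
      dx_lift (x := x) (fun x => χ i x ^ p) (v i) θ
    refine (IdP.dd_aux hχ hg he hx θ _).trans ?_
    rw [h3, h2, smul_add, smul_smul, smul_smul, smul_smul, ← pow_add,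
      Nat.add_sub_cancel' (Nat.sub_le p 1), mul_comm (p : ℝ)]
theorem IdP.dθ (hχ : Cl c 0 (fun _ => 1) χ) (h : IdP c χ p j A f) :
    IdP c χ p (j + 1) A fun i => dθ (f i) := by
  obtain ⟨g, hg, hq, he⟩ := h
  refine ⟨_, hg.dd (v := fun _ => ((0, 1) : X × ℝ)) ⟨_, fun _ => le_rfl⟩,
    fun i x hx θ => dx_periodic (c.hU i) (hq i) _ hx θ, fun i x hx θ => ?_⟩
  have h3 : dd (0, 1) (fun q : X × ℝ => χ i q.1 ^ p) (x, θ) = 0 :=
    dθ_lift (x := x) (fun x => χ i x ^ p) θ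
  refine (IdP.dd_aux hχ hg he hx θ _).trans ?_
  rw [h3, zero_smul, zero_add]
theorem IdP.mean (h : IdP c χ p j A f) : Idl c χ p j A fun i => mean (f i) := by
  obtain ⟨g, hg, -, he⟩ := h
  exact ⟨_, hg.mean, fun i x hx =>
    (mean_congr (g := fun q => χ i q.1 ^ p • g i q) (he i x hx)).trans
      (mean_smul fun x => χ i x ^ p)⟩
theorem IdP.prim (h : IdP c χ p j A f) : IdP c χ p j A fun i => prim (f i) := by
  obtain ⟨g, hg, hq, he⟩ := h
  exact ⟨_, hg.prim hq, fun i x hx => prim_periodic (continuous_slice (hg.sm i) hx) (hq i x hx),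
    fun i x hx θ => (prim_congr (g := fun q => χ i q.1 ^ p • g i q) (he i x hx) θ).trans
      (prim_smul (fun x => χ i x ^ p) θ)⟩
theorem IdP.zero_of (h : IdP c χ (p + 1) j A f) {i : ι} {x : X} (hx : x ∈ c.U i)
    (h0 : χ i x = 0) (θ : ℝ) : f i (x, θ) = 0 := by
  obtain ⟨g, -, -, he⟩ := h
  rw [he i x hx, h0, zero_pow p.succ_ne_zero, zero_smul]

end idp

end Crest.Agent.R216
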