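import Crest.Agent.R216.GadA

/-!
# Row 216: auxiliary lemmas for the gadget `Z`
-/

set_option autoImplicit false
set_option linter.unusedSectionVars false

noncomputable section

namespace Crest.Agent.R216.GadCAux

open Set Metric Filter
open scoped ContDiff Topology RealInnerProductSpace

/-! ## Calculus of structure functions -/

section calc_

variable {ι X V : Type*} [NormedAddCommGroup X] [NormedSpace ℝ X] [NormedAddCommGroup V]
  [NormedSpace ℝ V] {c : Ctx ι X}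

theorem p1 {f : ι → X → V} (h : St c f) : St (c.pow 1) f := by rwa [Ctx.pow_one]

theorem smul {d d' : ℕ} {a : ι → X → ℝ} {f : ι → X → V} (h : St (c.pow d) a)
    (h' : St (c.pow d') f) : St (c.pow (d + d')) fun i x => a i x • f i x :=
  St.bilin (ContinuousLinearMap.lsmul ℝ ℝ) h h'

theorem mul {d d' : ℕ} {a f : ι → X → ℝ} (h : St (c.pow d) a)
    (h' : St (c.pow d') f) : St (c.pow (d + d')) fun i x => a i x * f i x :=
  St.bilin (ContinuousLinearMap.mul ℝ ℝ) h h'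

theorem inn {d d' : ℕ} {a f : ι → X → V4} (h : St (c.pow d) a)
    (h' : St (c.pow d') f) : St (c.pow (d + d')) fun i x => ⟪a i x, f i x⟫ :=
  St.bilin (innerSL ℝ) h h'

theorem neg {d : ℕ} {f : ι → X → V} (h : St (c.pow d) f) : St (c.pow d) fun i x => -f i x :=
  Cl.neg h

theorem lift {d : ℕ} {f : ι → X → V} (h : St (c.pow d) f) :
    St (c.cyl.pow d) fun i q => f i q.1 := Cl.lift h

end calc_

variable {ι : Type*} {B : Base ι} (A : AData B)

/-- The three values of the angle, up to the factor `- a r`. -/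
def tt (l : Fin 3) (i : ι) (x : E) : ℝ := ![0, Real.cos (A.ζ i x), Real.sin (A.ζ i x)] l
/-- The three angles. -/
def al (l : Fin 3) (i : ι) (x : E) : ℝ := -(B.a i x * A.r i x * tt A l i x)
/-- The normal directions. -/
def nn (l : Fin 3) (i : ι) (x : E) : V4 :=
  (-Real.sin (al A l i x)) • A.e1 i x + Real.cos (al A l i x) • A.e2 i x
/-- The component of `F_s` normal to `P`. -/
def NN (B : Base ι) (i : ι) (x : E) : V4 := B.Fs i x - B.m i x
/-- The unit directions. -/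
def uu (l : Fin 3) (i : ι) (x : E) : V4 :=
  Real.cos (al A l i x) • A.e1 i x + Real.sin (al A l i x) • A.e2 i x
/-- The values of the loop on the straight arcs. -/
def Wl (l : Fin 3) (i : ι) (x : E) : V4 := NN B i x + A.R i x • uu A l i x
/-- The quotient `(n - e2) / α`. -/
def vv (l : Fin 3) (i : ι) (x : E) : V4 :=
  (-sc (al A l i x)) • A.e1 i x + (-cc (al A l i x)) • A.e2 i x
/-- The denominator. -/
def DD (i : ι) (x : E) : ℝ :=
  A.R i x * dd (B.w i) (A.ζ i) x + Real.sin (A.ζ i x) * Real.cos (A.ζ i x)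
    * ⟪dd (B.w i) (NN B i) x, vv A 2 i x - vv A 1 i x⟫
/-- The weights. -/
def sg (l : Fin 3) (i : ι) (x : E) : ℝ :=
  ![Real.cos (A.ζ i x) - Real.sin (A.ζ i x), Real.sin (A.ζ i x), -Real.cos (A.ζ i x)] l
/-- The coefficients. -/
def co (l : Fin 3) (i : ι) (x : E) : ℝ :=
  sg A l i x * ((B.b i x)⁻¹ * (A.r i x)⁻¹ * (DD A i x)⁻¹)
/-- The pieces of the gadget. -/
def Zl (l : Fin 3) (i : ι) (q : E × ℝ) : V4 := A.β l i q • (co A l i q.1 • nn A l i q.1)
/-- The gadget. -/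
def ZZ (i : ι) (q : E × ℝ) : V4 := Zl A 0 i q + Zl A 1 i q + Zl A 2 i q

/-! ## Bounds -/

theorem st_cos : St (B.c.pow 1) fun i x => Real.cos (A.ζ i x) := St.cos A.smζ (p1 A.stζ)
theorem st_sin : St (B.c.pow 1) fun i x => Real.sin (A.ζ i x) := St.sin A.smζ (p1 A.stζ)

theorem st_tt (l : Fin 3) : St (B.c.pow 1) (tt A l) := by
  fin_cases l
  · exact St.const (a := fun _ => (0 : ℝ)) ⟨0, fun _ => by simp⟩
  · exact st_cos A
  · exact st_sin A

theorem st_sg (l : Fin 3) : St (B.c.pow 1) (sg A l) := by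
  fin_cases l
  · exact (st_cos A).sub (st_sin A)
  · exact st_sin A
  · exact neg (st_cos A)

theorem st_al (l : Fin 3) : St (B.c.pow 3) (al A l) :=
  neg (mul (mul (p1 B.st_a) (p1 A.str)) (st_tt A l))

theorem st_cosal (l : Fin 3) : St (B.c.pow 6) fun i x => Real.cos (al A l i x) :=
  St.cos (c := B.c) (fun i => Cl.sm (st_al A l) i) (st_al A l).fderiv

theorem st_sinal (l : Fin 3) : St (B.c.pow 6) fun i x => Real.sin (al A l i x) :=
  St.sin (c := B.c) (fun i => Cl.sm (st_al A l) i) (st_al A l).fderiv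

theorem st_nn (l : Fin 3) : St (B.c.pow 7) (nn A l) :=
  (smul (neg (st_sinal A l)) (p1 A.ste1)).add (smul (st_cosal A l) (p1 A.ste2))

theorem st_uu (l : Fin 3) : St (B.c.pow 7) (uu A l) :=
  (smul (st_cosal A l) (p1 A.ste1)).add (smul (st_sinal A l) (p1 A.ste2))

theorem st_vv (l : Fin 3) : St (B.c.pow 7) (vv A l) :=
  (smul (neg (st_al A l).sc) (p1 A.ste1)).add (smul (neg (st_al A l).cc) (p1 A.ste2))

include A in
theorem cl_NN : Cl B.c 9 (fun _ => 1) (NN B) :=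
  (B.clFs.mono (by norm_num)).sub (B.cl_m A.stg)

include A in
theorem st_dNN : St (B.c.pow 10) fun i => dd (B.w i) (NN B i) :=
  ((cl_NN A).dd B.bw).toPow (by norm_num) le_rfl

theorem st_dζ : St (B.c.pow 2) fun i => dd (B.w i) (A.ζ i) :=
  St.bilin (ContinuousLinearMap.id ℝ (E →L[ℝ] ℝ)) (p1 A.stζ) (p1 (St.const B.bw))

theorem st_DD : St (B.c.pow 19) (DD A) :=
  ((mul (p1 A.stR) (st_dζ A)).mono (by norm_num)).add
    (mul (mul (st_sin A) (st_cos A)) (inn (st_dNN A) ((st_vv A 2).sub (st_vv A 1))))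

theorem norm_comb {i : ι} {x : E} (hx : x ∈ B.c.U i) (s t : ℝ) :
    ‖s • A.e1 i x + t • A.e2 i x‖ ^ 2 = s ^ 2 + t ^ 2 := by
  have h21 : ⟪A.e2 i x, A.e1 i x⟫ = 0 := by rw [real_inner_comm]; exact A.e12 i x hx
  rw [← real_inner_self_eq_norm_sq]
  simp only [inner_add_left, inner_add_right, real_inner_smul_left, real_inner_smul_right,
    A.e11 i x hx, A.e22 i x hx, A.e12 i x hx, h21]
  ring

theorem norm_vv (l : Fin 3) {i : ι} {x : E} (hx : x ∈ B.c.U i) : ‖vv A l i x‖ ≤ 1 := by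
  have h := norm_comb A hx (-sc (al A l i x)) (-cc (al A l i x))
  have h2 := sc_sq_add_cc_sq (al A l i x)
  have h3 : ‖vv A l i x‖ ^ 2 ≤ 1 := by
    unfold vv
    rw [h]
    nlinarith
  nlinarith [norm_nonneg (vv A l i x)]

theorem one_le_DD {i : ι} {x : E} (hx : x ∈ B.c.U i) : 1 ≤ DD A i x := by
  have h1 := A.hζ i x hx
  have h2 : |⟪dd (B.w i) (NN B i) x, vv A 2 i x - vv A 1 i x⟫| ≤ ‖dd (B.w i) (NN B i) x‖ * 2 := by
    refine (abs_real_inner_le_norm _ _).trans (mul_le_mul_of_nonneg_left ?_ (norm_nonneg _))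
    have := norm_sub_le (vv A 2 i x) (vv A 1 i x)
    linarith [norm_vv A 2 hx, norm_vv A 1 hx]
  have h3 : |Real.sin (A.ζ i x) * Real.cos (A.ζ i x)| ≤ 1 / 2 := by
    have := Real.sin_sq_add_cos_sq (A.ζ i x)
    rw [abs_le]
    constructor
    · nlinarith [sq_nonneg (Real.sin (A.ζ i x) + Real.cos (A.ζ i x))]
    · nlinarith [sq_nonneg (Real.sin (A.ζ i x) - Real.cos (A.ζ i x))]
  have h4 : |Real.sin (A.ζ i x) * Real.cos (A.ζ i x)
      * ⟪dd (B.w i) (NN B i) x, vv A 2 i x - vv A 1 i x⟫| ≤ ‖dd (B.w i) (NN B i) x‖ := by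
    rw [abs_mul]
    calc _ ≤ 1 / 2 * (‖dd (B.w i) (NN B i) x‖ * 2) :=
          mul_le_mul h3 h2 (abs_nonneg _) (by norm_num)
      _ = _ := by ring
  have h5 := (abs_le.1 h4).1
  have h6 : dd (B.w i) (fun y => B.Fs i y - B.m i y) x = dd (B.w i) (NN B i) x := rfl
  rw [h6] at h1
  unfold DD
  linarith

theorem st_DDi : St (B.c.pow 57) fun i x => (DD A i x)⁻¹ := by
  refine St.inv (st_DD A) ⟨1, fun i x hx => ?_⟩
  have h1 := one_le_DD A hx
  have h2 : 1 ≤ B.c.M i ^ 19 := one_le_pow₀ (B.c.hM i)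
  rw [abs_of_pos (by linarith)]
  nlinarith

theorem st_co (l : Fin 3) : St (B.c.pow 60) (co A l) :=
  mul (st_sg A l) (mul (mul (p1 A.stbi) (p1 A.stri)) (st_DDi A))

theorem st_Zl (l : Fin 3) : St (B.c.cyl.pow 68) (Zl A l) :=
  smul (p1 (A.stβ l)) (lift (smul (st_co A l) (st_nn A l)))

theorem st_ZZ : St (B.c.cyl.pow 68) (ZZ A) :=
  ((st_Zl A 0).add (st_Zl A 1)).add (st_Zl A 2)

theorem per_ZZ : Per B.c (ZZ A) := by
  intro i x hx θ
  simp only [ZZ, Zl, A.perβ _ i x hx θ]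

/-! ## Pointwise identities -/

theorem dAt {V : Type*} [NormedAddCommGroup V] [NormedSpace ℝ V] {d : ℕ} {f : ι → E → V}
    (h : St (B.c.pow d) f) {i : ι} {x : E} (hx : x ∈ B.c.U i) : DifferentiableAt ℝ (f i) x :=
  ClAuxB.diffAt h i x hx

theorem dAt' {V : Type*} [NormedAddCommGroup V] [NormedSpace ℝ V] {d : ℕ} {f : ι → E × ℝ → V}
    (h : St (B.c.cyl.pow d) f) {i : ι} {x : E} (hx : x ∈ B.c.U i) (θ : ℝ) :
    DifferentiableAt ℝ (f i) (x, θ) :=
  ClAuxB.diffAt h i (x, θ) ⟨hx, mem_univ _⟩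

theorem nn_P (l : Fin 3) {i : ι} {x : E} (hx : x ∈ B.c.U i) : B.InP i x (nn A l i x) := by
  obtain ⟨h1, h2⟩ := A.e1P i x hx
  obtain ⟨h3, h4⟩ := A.e2P i x hx
  constructor <;> simp only [nn, inner_add_right, real_inner_smul_right, h1, h2, h3, h4] <;> ring

theorem ZZ_P {i : ι} {x : E} (hx : x ∈ B.c.U i) (θ : ℝ) : B.InP i x (ZZ A i (x, θ)) := by
  obtain ⟨h1, h2⟩ := nn_P A 0 hx
  obtain ⟨h3, h4⟩ := nn_P A 1 hx
  obtain ⟨h5, h6⟩ := nn_P A 2 hx
  constructor <;>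
    simp only [ZZ, Zl, inner_add_right, real_inner_smul_right, h1, h2, h3, h4, h5, h6] <;> ring

theorem NN_inner {i : ι} {x : E} {y : V4} (h : B.InP i x y) : ⟪NN B i x, y⟫ = 0 := by
  rw [NN, inner_sub_left, B.inner_m h, sub_self]

theorem uu_nn (l : Fin 3) {i : ι} {x : E} (hx : x ∈ B.c.U i) : ⟪uu A l i x, nn A l i x⟫ = 0 := by
  have h21 : ⟪A.e2 i x, A.e1 i x⟫ = 0 := by rw [real_inner_comm]; exact A.e12 i x hx
  simp only [uu, nn, inner_add_left, inner_add_right, real_inner_smul_left, real_inner_smul_right,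
    A.e11 i x hx, A.e22 i x hx, A.e12 i x hx, h21]
  ring

theorem Wl_nn (l : Fin 3) {i : ι} {x : E} (hx : x ∈ B.c.U i) : ⟪Wl A l i x, nn A l i x⟫ = 0 := by
  rw [Wl, inner_add_left, NN_inner (nn_P A l hx), real_inner_smul_left, uu_nn A l hx]
  ring

theorem loc (hsh : ∀ i x, A.sh i x = 0) (l : Fin 3) {i : ι} {x : E} (hx : x ∈ B.c.U i) (θ : ℝ) :
    (A.β l i =ᶠ[𝓝 (x, θ)] fun _ => 0) ∨ A.W i =ᶠ[𝓝 (x, θ)] fun q => Wl A l i q.1 := by
  refine (A.loc l i x hx θ).imp id fun h => ?_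
  filter_upwards [h] with q hq
  have h1 : B.a i q.1 * A.φ i q = al A l i q.1 := by
    rw [hq, hsh, al, tt]
    ring
  simp only [AData.W, Wl, NN, uu, h1]

theorem W_Zl (hsh : ∀ i x, A.sh i x = 0) (l : Fin 3) {i : ι} {x : E} (hx : x ∈ B.c.U i) (θ : ℝ) :
    ⟪A.W i (x, θ), Zl A l i (x, θ)⟫ = 0 := by
  simp only [Zl, real_inner_smul_right]
  rcases loc A hsh l hx θ with h | h
  · rw [h.eq_of_nhds, zero_mul]
  · rw [h.eq_of_nhds, Wl_nn A l hx]
    ring

theorem dθ_Zl (l : Fin 3) {i : ι} {x : E} (hx : x ∈ B.c.U i) (θ : ℝ) :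
    dθ (Zl A l i) (x, θ) = dθ (A.β l i) (x, θ) • (co A l i x • nn A l i x) := by
  have h1 := dd_smul (dAt' (p1 (A.stβ l)) hx θ) (dAt' (lift (smul (st_co A l) (st_nn A l))) hx θ)
    ((0, 1) : E × ℝ)
  have h2 := dθ_lift (fun x => co A l i x • nn A l i x) (x := x) θ
  refine h1.trans ?_
  rw [show dd ((0, 1) : E × ℝ) (fun q : E × ℝ => co A l i q.1 • nn A l i q.1) (x, θ) = 0 from h2,
    smul_zero, add_zero]

theorem W_dθ_Zl (hsh : ∀ i x, A.sh i x = 0) (l : Fin 3) {i : ι} {x : E} (hx : x ∈ B.c.U i)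
    (θ : ℝ) : ⟪A.W i (x, θ), dθ (Zl A l i) (x, θ)⟫ = 0 := by
  rw [dθ_Zl A l hx]
  simp only [real_inner_smul_right]
  rcases loc A hsh l hx θ with h | h
  · have : dθ (A.β l i) (x, θ) = 0 := by
      show fderiv ℝ (A.β l i) (x, θ) (0, 1) = 0
      rw [h.fderiv_eq]
      simp
    rw [this, zero_mul]
  · rw [h.eq_of_nhds, Wl_nn A l hx]
    ring

theorem W_ZZ (hsh : ∀ i x, A.sh i x = 0) {i : ι} {x : E} (hx : x ∈ B.c.U i) (θ : ℝ) :
    ⟪A.W i (x, θ), ZZ A i (x, θ)⟫ = 0 := by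
  simp only [ZZ, inner_add_right, W_Zl A hsh _ hx, add_zero]

theorem dθ_ZZ {i : ι} {x : E} (hx : x ∈ B.c.U i) (θ : ℝ) :
    dθ (ZZ A i) (x, θ) = dθ (Zl A 0 i) (x, θ) + dθ (Zl A 1 i) (x, θ) + dθ (Zl A 2 i) (x, θ) := by
  have h1 := dd_add (dAt' ((st_Zl A 0).add (st_Zl A 1)) hx θ) (dAt' (st_Zl A 2) hx θ)
    ((0, 1) : E × ℝ)
  have h2 := dd_add (dAt' (st_Zl A 0) hx θ) (dAt' (st_Zl A 1) hx θ) ((0, 1) : E × ℝ)
  refine h1.trans ?_
  rw [h2]

theorem W_dθ_ZZ (hsh : ∀ i x, A.sh i x = 0) {i : ι} {x : E} (hx : x ∈ B.c.U i) (θ : ℝ) :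
    ⟪A.W i (x, θ), dθ (ZZ A i) (x, θ)⟫ = 0 := by
  rw [dθ_ZZ A hx]
  simp only [inner_add_right, W_dθ_Zl A hsh _ hx, add_zero]

/-! ## The mean of the gadget -/

theorem cont_Zl (l : Fin 3) {i : ι} {x : E} (hx : x ∈ B.c.U i) :
    Continuous fun θ => Zl A l i (x, θ) := continuous_slice (Cl.sm (st_Zl A l) i) hx

theorem mean_Zl (l : Fin 3) {i : ι} {x : E} (hx : x ∈ B.c.U i) :
    mean (Zl A l i) x = co A l i x • nn A l i x := by
  have h := mean_smul_const (a := A.β l i) (x := x) (fun x => co A l i x • nn A l i x)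
  rw [A.meanβ l i x hx, one_smul] at h
  exact h

theorem nn_eq (l : Fin 3) (i : ι) (x : E) : nn A l i x = A.e2 i x + al A l i x • vv A l i x := by
  have h1 := mul_sc (al A l i x)
  have h2 := mul_cc (al A l i x)
  have h3 : Real.cos (al A l i x) = 1 - al A l i x * cc (al A l i x) := by linarith
  rw [nn, vv, ← h1, h3]
  module

theorem sum_nn (i : ι) (x : E) :
    sg A 0 i x • nn A 0 i x + sg A 1 i x • nn A 1 i x + sg A 2 i x • nn A 2 i x
      = (B.a i x * A.r i x * (Real.sin (A.ζ i x) * Real.cos (A.ζ i x)))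
        • (vv A 2 i x - vv A 1 i x) := by
  simp only [nn_eq, sg, al, tt, Matrix.cons_val_zero, Matrix.cons_val_one, Matrix.cons_val]
  module

theorem mean_ZZ {i : ι} {x : E} (hx : x ∈ B.c.U i) :
    mean (ZZ A i) x = B.χ i x ^ B.K • B.κ i •
      (((DD A i x)⁻¹ * (Real.sin (A.ζ i x) * Real.cos (A.ζ i x))) • (vv A 2 i x - vv A 1 i x)) := by
  have h1 := mean_add ((cont_Zl A 0 hx).add (cont_Zl A 1 hx)) (cont_Zl A 2 hx)
    (f := fun q => Zl A 0 i q + Zl A 1 i q)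
  have h2 := mean_add (cont_Zl A 0 hx) (cont_Zl A 1 hx)
  refine h1.trans ?_
  rw [h2, mean_Zl A 0 hx, mean_Zl A 1 hx, mean_Zl A 2 hx]
  have h3 : co A 0 i x • nn A 0 i x + co A 1 i x • nn A 1 i x + co A 2 i x • nn A 2 i x
      = ((B.b i x)⁻¹ * (A.r i x)⁻¹ * (DD A i x)⁻¹) •
        (sg A 0 i x • nn A 0 i x + sg A 1 i x • nn A 1 i x + sg A 2 i x • nn A 2 i x) := by
    simp only [co]
    module
  rw [h3, sum_nn, smul_smul, smul_smul, smul_smul]
  congr 1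
  have hb := A.bne i x hx
  have hr := (A.r0 i x hx).ne'
  rw [Base.a]
  field_simp

theorem idl_mean : Idl (B.c.pow 68) B.χ B.K 1 B.κ fun i => mean (ZZ A i) := by
  have h : St (B.c.pow 68) fun i x => ((DD A i x)⁻¹ * (Real.sin (A.ζ i x) * Real.cos (A.ζ i x)))
      • (vv A 2 i x - vv A 1 i x) :=
    (smul (mul (st_DDi A) (mul (st_sin A) (st_cos A))) ((st_vv A 2).sub (st_vv A 1))).mono
      (by norm_num)
  refine ⟨_, Cl.csmul h (a := B.κ) (fun i => (B.κ0 i).le) (C := 1) fun i => ?_,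
    fun i x hx => mean_ZZ A hx⟩
  rw [abs_of_pos (B.κ0 i)]
  simp

/-! ## The mean of the `t`-derivative of the loop against the gadget -/

theorem dd_cos {f : E → ℝ} {x : E} (hf : DifferentiableAt ℝ f x) (v : E) :
    dd v (fun y => Real.cos (f y)) x = -Real.sin (f x) * dd v f x := by
  unfold dd
  rw [hf.hasFDerivAt.cos.fderiv]
  simp

theorem dd_sin {f : E → ℝ} {x : E} (hf : DifferentiableAt ℝ f x) (v : E) :
    dd v (fun y => Real.sin (f y)) x = Real.cos (f x) * dd v f x := by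
  unfold dd
  rw [hf.hasFDerivAt.sin.fderiv]
  simp

theorem dd_const {V : Type*} [NormedAddCommGroup V] [NormedSpace ℝ V] (a : V) (x v : E) :
    dd v (fun _ => a) x = 0 := by
  simp [dd]

theorem frame {i : ι} {x : E} (hx : x ∈ B.c.U i) (v : E) :
    ⟪dd v (A.e1 i) x, A.e1 i x⟫ = 0 ∧ ⟪dd v (A.e2 i) x, A.e2 i x⟫ = 0 ∧
      ⟪dd v (A.e2 i) x, A.e1 i x⟫ = -⟪dd v (A.e1 i) x, A.e2 i x⟫ := by
  have d1 := dAt (p1 A.ste1) hx
  have d2 := dAt (p1 A.ste2) hx
  have h1 := dd_inner d1 d1 v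
  have h2 := dd_inner d2 d2 v
  have h3 := dd_inner d1 d2 v
  rw [dd_congr (B.c.hU i) (A.e11 i) hx, dd_const] at h1
  rw [dd_congr (B.c.hU i) (A.e22 i) hx, dd_const] at h2
  rw [dd_congr (B.c.hU i) (A.e12 i) hx, dd_const] at h3
  rw [real_inner_comm (dd v _ x)] at h1 h2 h3
  refine ⟨by linarith, by linarith, by linarith⟩

theorem dd_uu (l : Fin 3) {i : ι} {x : E} (hx : x ∈ B.c.U i) (v : E) :
    ⟪dd v (uu A l i) x, nn A l i x⟫ = dd v (al A l i) x + ⟪dd v (A.e1 i) x, A.e2 i x⟫ := by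
  have d1 := dAt (p1 A.ste1) hx
  have d2 := dAt (p1 A.ste2) hx
  have da := dAt (st_al A l) hx
  have h1 := dd_add (dAt (smul (st_cosal A l) (p1 A.ste1)) hx)
    (dAt (smul (st_sinal A l) (p1 A.ste2)) hx) v
  have h2 := dd_smul (dAt (st_cosal A l) hx) d1 v
  have h3 := dd_smul (dAt (st_sinal A l) hx) d2 v
  have h4 : dd v (uu A l i) x = _ := h1
  rw [h2, h3, dd_cos da, dd_sin da] at h4
  obtain ⟨f1, f2, f3⟩ := frame A hx v
  have h21 : ⟪A.e2 i x, A.e1 i x⟫ = 0 := by rw [real_inner_comm]; exact A.e12 i x hx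
  rw [h4]
  simp only [nn, inner_add_left, inner_add_right, real_inner_smul_left, real_inner_smul_right,
    A.e11 i x hx, A.e22 i x hx, A.e12 i x hx, h21, f1, f2, f3]
  have := Real.sin_sq_add_cos_sq (al A l i x)
  linear_combination (dd v (al A l i) x + ⟪dd v (A.e1 i) x, A.e2 i x⟫) * this

theorem dd_Wl (l : Fin 3) {i : ι} {x : E} (hx : x ∈ B.c.U i) (v : E) :
    ⟪dd v (Wl A l i) x, nn A l i x⟫ = ⟪dd v (NN B i) x, nn A l i x⟫
      + A.R i x * (dd v (al A l i) x + ⟪dd v (A.e1 i) x, A.e2 i x⟫) := by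
  have dN : DifferentiableAt ℝ (NN B i) x := dAt ((cl_NN A).toPow (d := 9) (by norm_num) le_rfl) hx
  have h1 := dd_add dN (dAt (smul (p1 A.stR) (st_uu A l)) hx) v
  have h2 := dd_smul (dAt (p1 A.stR) hx) (dAt (st_uu A l) hx) v
  have h4 : dd v (Wl A l i) x = _ := h1
  rw [h4, h2]
  simp only [inner_add_left, real_inner_smul_left, uu_nn A l hx, dd_uu A l hx]
  ring

theorem sum_al {i : ι} {x : E} (hx : x ∈ B.c.U i) (v : E) :
    sg A 0 i x * dd v (al A 0 i) x + sg A 1 i x * dd v (al A 1 i) x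
      + sg A 2 i x * dd v (al A 2 i) x = B.a i x * A.r i x * dd v (A.ζ i) x := by
  have dζ : DifferentiableAt ℝ (A.ζ i) x :=
    ((A.smζ i).contDiffAt ((B.c.hU i).mem_nhds hx)).differentiableAt (by simp)
  have dp : DifferentiableAt ℝ (fun y => -(B.a i y * A.r i y)) x :=
    dAt (neg (mul (p1 B.st_a) (p1 A.str))) hx
  have e0 : al A 0 i = fun _ => 0 := by
    funext y
    simp [al, tt]
  have e1 : al A 1 i = fun y => (-(B.a i y * A.r i y)) • Real.cos (A.ζ i y) := by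
    funext y
    simp [al, tt]
  have e2 : al A 2 i = fun y => (-(B.a i y * A.r i y)) • Real.sin (A.ζ i y) := by
    funext y
    simp [al, tt]
  rw [e0, e1, e2, dd_const, dd_smul dp dζ.cos, dd_smul dp dζ.sin, dd_cos dζ, dd_sin dζ]
  simp only [sg, Matrix.cons_val_zero, Matrix.cons_val_one, Matrix.cons_val, smul_eq_mul]
  have := Real.sin_sq_add_cos_sq (A.ζ i x)
  linear_combination (B.a i x * A.r i x * dd v (A.ζ i) x) * this

theorem sum_sg (i : ι) (x : E) : sg A 0 i x + sg A 1 i x + sg A 2 i x = 0 := by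
  simp only [sg, Matrix.cons_val_zero, Matrix.cons_val_one, Matrix.cons_val]
  ring

theorem sum_Wl {i : ι} {x : E} (hx : x ∈ B.c.U i) :
    sg A 0 i x * ⟪dd (B.w i) (Wl A 0 i) x, nn A 0 i x⟫
      + sg A 1 i x * ⟪dd (B.w i) (Wl A 1 i) x, nn A 1 i x⟫
      + sg A 2 i x * ⟪dd (B.w i) (Wl A 2 i) x, nn A 2 i x⟫ = B.a i x * A.r i x * DD A i x := by
  have h1 := congrArg (fun y => ⟪dd (B.w i) (NN B i) x, y⟫) (sum_nn A i x)
  simp only [inner_add_right, real_inner_smul_right] at h1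
  have h2 := sum_al A hx (B.w i)
  have h3 := sum_sg A i x
  rw [dd_Wl A 0 hx, dd_Wl A 1 hx, dd_Wl A 2 hx, DD]
  linear_combination h1 + A.R i x * h2 + A.R i x * ⟪dd (B.w i) (A.e1 i) x, A.e2 i x⟫ * h3

theorem dx_W_Zl (hsh : ∀ i x, A.sh i x = 0) (l : Fin 3) {i : ι} {x : E} (hx : x ∈ B.c.U i)
    (θ : ℝ) : ⟪dx (B.w i) (A.W i) (x, θ), Zl A l i (x, θ)⟫
      = A.β l i (x, θ) • (co A l i x * ⟪dd (B.w i) (Wl A l i) x, nn A l i x⟫) := by
  simp only [Zl, real_inner_smul_right, smul_eq_mul]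
  rcases loc A hsh l hx θ with h | h
  · rw [h.eq_of_nhds, zero_mul, zero_mul]
  · have h1 : dx (B.w i) (A.W i) (x, θ) = dd (B.w i) (Wl A l i) x := by
      rw [← dx_lift (Wl A l i) (B.w i) θ]
      show fderiv ℝ (A.W i) (x, θ) _ = fderiv ℝ _ (x, θ) _
      rw [h.fderiv_eq]
    rw [h1]

theorem mean_dx_W (hsh : ∀ i x, A.sh i x = 0) {i : ι} {x : E} (hx : x ∈ B.c.U i) :
    mean (fun q => ⟪dx (B.w i) (A.W i) q, ZZ A i q⟫) x = B.ρ i x := by
  let P : Fin 3 → E → ℝ := fun l x => co A l i x * ⟪dd (B.w i) (Wl A l i) x, nn A l i x⟫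
  have hc : ∀ l, Continuous fun θ => A.β l i (x, θ) • P l x := fun l =>
    (continuous_slice (Cl.sm (A.stβ l) i) hx).smul continuous_const
  have hm : ∀ l, mean (fun q => A.β l i q • P l q.1) x = P l x := fun l => by
    rw [mean_smul_const (a := A.β l i) (P l), A.meanβ l i x hx, one_smul]
  have h0 : mean (fun q => ⟪dx (B.w i) (A.W i) q, ZZ A i q⟫) x
      = mean (fun q => A.β 0 i q • P 0 q.1 + A.β 1 i q • P 1 q.1 + A.β 2 i q • P 2 q.1) x := by
    refine mean_congr fun θ => ?_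
    simp only [ZZ, inner_add_right, dx_W_Zl A hsh _ hx, P]
  have h1 := mean_add (f := fun q => A.β 0 i q • P 0 q.1 + A.β 1 i q • P 1 q.1)
    (g := fun q => A.β 2 i q • P 2 q.1) (x := x) ((hc 0).add (hc 1)) (hc 2)
  have h2 := mean_add (f := fun q => A.β 0 i q • P 0 q.1) (g := fun q => A.β 1 i q • P 1 q.1)
    (x := x) (hc 0) (hc 1)
  rw [h0, h1, h2, hm, hm, hm]
  have h3 := sum_Wl A hx
  have h4 : P 0 x + P 1 x + P 2 x
      = (B.b i x)⁻¹ * (A.r i x)⁻¹ * (DD A i x)⁻¹ * (B.a i x * A.r i x * DD A i x) := by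
    rw [← h3]
    simp only [P, co]
    ring
  have hb := A.bne i x hx
  have hr := (A.r0 i x hx).ne'
  have hD : DD A i x ≠ 0 := by
    have := one_le_DD A hx
    linarith
  rw [h4, Base.a, Base.ρ]
  field_simp

end Crest.Agent.R216.GadCAux
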