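import Crest.Agent.R216.GadA
import Crest.Agent.R216.GadCAux

/-!
# Row 216: the gadget `Z`
-/

set_option autoImplicit false
set_option linter.unusedSectionVars false

noncomputable section

namespace Crest.Agent.R216

open Set Metric Filter
open scoped ContDiff Topology RealInnerProductSpace

universe u

theorem AData.gadZ : ∃ (d : ℕ), 1 ≤ d ∧ ∀ {ι : Type u} {B : Base ι} (A : AData B),
    (∀ i x, A.sh i x = 0) → ∃ Z : ι → E × ℝ → V4, St (B.c.pow d).cyl Z ∧ Per B.c Z ∧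
      (∀ i, ∀ x ∈ B.c.U i, ∀ θ, B.InP i x (Z i (x, θ)) ∧ ⟪A.W i (x, θ), Z i (x, θ)⟫ = 0 ∧
        ⟪A.W i (x, θ), dθ (Z i) (x, θ)⟫ = 0) ∧
      Idl (B.c.pow d) B.χ B.K 1 B.κ (fun i => mean (Z i)) ∧
      ∀ i, ∀ x ∈ B.c.U i,
        mean (fun q => ⟪dx (B.w i) (A.W i) q, Z i q⟫) x = B.ρ i x :=
  ⟨68, by norm_num, fun A hsh => ⟨GadCAux.ZZ A, GadCAux.st_ZZ A, GadCAux.per_ZZ A,
    fun _ _ hx θ => ⟨GadCAux.ZZ_P A hx θ, GadCAux.W_ZZ A hsh hx θ, GadCAux.W_dθ_ZZ A hsh hx θ⟩,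
    GadCAux.idl_mean A, fun _ _ hx => GadCAux.mean_dx_W A hsh hx⟩⟩

end Crest.Agent.R216
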