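import Crest.Agent.R216.WaveB

/-!
# Row 216: auxiliary lemmas for the perturbation `ε U (x, ξ x / ε)`
-/

set_option autoImplicit false

noncomputable section

namespace Crest.Agent.R216.StepAuxA

open Set Metric Filter
open scoped ContDiff Topology RealInnerProductSpace

/-- The phase map. -/
def ph (ξ : E →L[ℝ] ℝ) (ε : ℝ) : E →L[ℝ] E × ℝ := (ContinuousLinearMap.id ℝ E).prod (ε⁻¹ • ξ)

theorem ph_apply (ξ : E →L[ℝ] ℝ) (ε : ℝ) (x : E) : ph ξ ε x = (x, ξ x / ε) :=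
  Prod.ext rfl (div_eq_inv_mul (ξ x) ε).symm

theorem ph_eq (ξ : E →L[ℝ] ℝ) (ε : ℝ) : (fun x => (x, ξ x / ε)) = ph ξ ε :=
  funext fun x => (ph_apply ξ ε x).symm

theorem norm_ph {ξ : E →L[ℝ] ℝ} {ε C : ℝ} (h : ‖ξ‖ ≤ C) (h0 : 0 < ε) (h1 : ε ≤ 1) :
    ‖ph ξ ε‖ ≤ (1 + C) * ε⁻¹ := by
  have h2 : 1 ≤ ε⁻¹ := (one_le_inv₀ h0).2 h1
  have h3 : 0 ≤ C := (norm_nonneg _).trans h
  refine ContinuousLinearMap.opNorm_le_bound _ (by positivity) fun x => ?_
  have h4 := (ξ.le_opNorm x).trans (mul_le_mul_of_nonneg_right h (norm_nonneg x))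
  have h5 := norm_nonneg x
  rw [ph_apply, Prod.norm_mk, norm_div, Real.norm_of_nonneg h0.le, div_eq_mul_inv]
  refine max_le ?_ ?_
  · nlinarith [mul_nonneg (mul_nonneg h3 h5) (zero_le_one.trans h2), mul_nonneg (sub_nonneg.2 h2) h5]
  · nlinarith [mul_le_mul_of_nonneg_right h4 (zero_le_one.trans h2),
      mul_nonneg h5 (zero_le_one.trans h2)]

theorem norm_iter_clm {X Y : Type*} [NormedAddCommGroup X] [NormedSpace ℝ X]
    [NormedAddCommGroup Y] [NormedSpace ℝ Y] (L : X →L[ℝ] Y) {C N : ℝ} (h : ‖L‖ ≤ C * N)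
    (hC : 0 ≤ C) (hN : 0 ≤ N) {m : ℕ} (hm : 1 ≤ m) (y : X) :
    ‖iteratedFDeriv ℝ m L y‖ ≤ C * N ^ m := by
  obtain ⟨n, rfl⟩ := Nat.exists_eq_add_of_le' hm
  rw [← norm_iteratedFDeriv_fderiv, show fderiv ℝ L = fun _ => L from funext fun _ => L.fderiv]
  rcases Nat.eq_zero_or_pos n with rfl | hn
  · rwa [norm_iteratedFDeriv_zero, zero_add, pow_one]
  · rw [iteratedFDeriv_const_of_ne hn.ne', Pi.zero_apply, norm_zero]
    positivity

/-- The jets of a multiple of `χ ^ p` vanish on the zero set of `χ`. -/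
theorem vanish {χ : E → ℝ} (hχ : ContDiff ℝ ∞ χ) {O : Set E} (hO : IsOpen O) {x : E} (hx : x ∈ O)
    (h0 : χ x = 0) (m : ℕ) : ∀ {V : Type} [NormedAddCommGroup V] [NormedSpace ℝ V] {G : E → V}
      (p : ℕ), ContDiffOn ℝ ∞ G O → m < p → iteratedFDeriv ℝ m (fun y => χ y ^ p • G y) x = 0 := by
  induction m with
  | zero =>
    intro V _ _ G p _ hp
    rw [← norm_eq_zero, norm_iteratedFDeriv_zero, h0, zero_pow hp.ne', zero_smul, norm_zero]
  | succ m ih =>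
    intro V _ _ G p hG hp
    obtain ⟨p, rfl⟩ := Nat.exists_eq_add_of_le' (Nat.one_le_of_lt hp)
    have e : fderiv ℝ (fun y => χ y ^ (p + 1) • G y) =ᶠ[𝓝 x] fun y => χ y ^ p •
        (χ y • fderiv ℝ G y + (((p + 1 : ℕ) : ℝ) • fderiv ℝ χ y).smulRight (G y)) := by
      filter_upwards [hO.mem_nhds hx] with y hy
      rw [(((hχ.differentiable (by simp) y).hasFDerivAt.pow (p + 1)).fun_smul
        ((hG.contDiffAt (hO.mem_nhds hy)).differentiableAt (by simp)).hasFDerivAt).fderiv]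
      ext v
      simp only [_root_.add_apply, _root_.smul_apply,
        ContinuousLinearMap.smulRight_apply, smul_add, smul_smul, Nat.add_sub_cancel, nsmul_eq_mul,
        smul_eq_mul, pow_succ]
      congr 2
      ring
    rw [← norm_eq_zero, ← norm_iteratedFDeriv_fderiv, (e.iteratedFDeriv ℝ m).self_of_nhds,
      norm_eq_zero]
    exact ih p ((hχ.contDiffOn.smul (hG.fderiv_of_isOpen hO (by simp))).add
      (((hχ.fderiv_right (m := ∞) (by simp)).contDiffOn.const_smul _).smulRight hG))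
      (Nat.lt_of_succ_lt_succ hp)

theorem smooth {V : Type} [NormedAddCommGroup V] [NormedSpace ℝ V] {χ : E → ℝ}
    (hχ : ContDiff ℝ ∞ χ) {O : Set E} (hO : IsOpen O) (hs : tsupport χ ⊆ O) {G f : E → V}
    (hG : ContDiffOn ℝ ∞ G O) (h1 : ∀ x ∈ O, f x = χ x ^ 3 • G x) (h2 : ∀ x, x ∉ O → f x = 0) :
    ContDiff ℝ ∞ f ∧ ∀ x, χ x = 0 → ∀ m ≤ 2, iteratedFDeriv ℝ m f x = 0 := by
  have e1 : ∀ x ∈ O, f =ᶠ[𝓝 x] fun y => χ y ^ 3 • G y := fun x hx =>
    eventually_of_mem (hO.mem_nhds hx) h1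
  have e2 : ∀ x, x ∉ O → f =ᶠ[𝓝 x] fun _ => 0 := fun x hx => by
    filter_upwards [notMem_tsupport_iff_eventuallyEq.1 fun h => hx (hs h)] with y hy
    by_cases h : y ∈ O
    · rw [h1 y h, hy, Pi.zero_apply, zero_pow three_ne_zero, zero_smul]
    · exact h2 y h
  refine ⟨contDiff_iff_contDiffAt.2 fun x => ?_, fun x h0 m hm => ?_⟩ <;> by_cases hx : x ∈ O
  · exact ((hχ.contDiffAt.pow 3).smul (hG.contDiffAt (hO.mem_nhds hx))).congr_of_eventuallyEq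
      (e1 x hx)
  · exact contDiffAt_const.congr_of_eventuallyEq (e2 x hx)
  · rw [((e1 x hx).iteratedFDeriv ℝ m).self_of_nhds]
    exact vanish hχ hO hx h0 m 3 hG (by omega)
  · rw [((e2 x hx).iteratedFDeriv ℝ m).self_of_nhds, iteratedFDeriv_fun_zero, Pi.zero_apply]

theorem hasFDerivAt {O : Set E} (hO : IsOpen O) {U : E × ℝ → V4}
    (hU : ContDiffOn ℝ ∞ U (O ×ˢ univ)) {ξ : E →L[ℝ] ℝ} {ε : ℝ} {f : E → V4}
    (hf : ∀ x ∈ O, f x = ε • U (x, ξ x / ε)) {x : E} (hx : x ∈ O) :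
    HasFDerivAt f (ε • (fderiv ℝ U (x, ξ x / ε)).comp (ph ξ ε)) x := by
  have h1 : HasFDerivAt U (fderiv ℝ U (x, ξ x / ε)) (ph ξ ε x) := by
    rw [ph_apply]
    exact ((hU.contDiffAt ((hO.prod isOpen_univ).mem_nhds ⟨hx, mem_univ _⟩)).differentiableAt
      (by simp)).hasFDerivAt
  refine ((h1.comp x (ph ξ ε).hasFDerivAt).const_smul ε).congr_of_eventuallyEq
    (eventually_of_mem (hO.mem_nhds hx) fun y hy => ?_)
  rw [hf y hy, ← ph_apply]
  rfl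

theorem dd_eq {O : Set E} (hO : IsOpen O) {U : E × ℝ → V4}
    (hU : ContDiffOn ℝ ∞ U (O ×ˢ univ)) {ξ : E →L[ℝ] ℝ} {ε : ℝ} (h0 : ε ≠ 0) {f : E → V4}
    (hf : ∀ x ∈ O, f x = ε • U (x, ξ x / ε)) {x : E} (hx : x ∈ O) (v : E) :
    dd v f x = ξ v • dθ U (x, ξ x / ε) + ε • dx v U (x, ξ x / ε) := by
  have e : ph ξ ε v = (ξ v / ε) • ((0, 1) : E × ℝ) + (v, 0) := by
    rw [ph_apply]
    simp
  change fderiv ℝ f x v = ξ v • fderiv ℝ U _ _ + ε • fderiv ℝ U _ _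
  rw [(hasFDerivAt hO hU hf hx).fderiv, _root_.smul_apply,
    ContinuousLinearMap.comp_apply, e, map_add, map_smul, smul_add, smul_smul,
    mul_div_cancel₀ _ h0]

end Crest.Agent.R216.StepAuxA
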