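import Crest.Agent.R216.WaveDefs

/-!
# Row 216: the jets of the perturbation (auxiliary file of `Step`)
-/

set_option autoImplicit false
set_option linter.unusedSectionVars false

noncomputable section

namespace Crest.Agent.R216.StepAuxB

open Set Metric Filter
open scoped ContDiff Topology RealInnerProductSpace

/-- The chain rule along the phase. -/
theorem dd_phase {f : E × ℝ → V4} (ξ : E →L[ℝ] ℝ) (e : ℝ) {x : E}
    (hf : DifferentiableAt ℝ f (x, ξ x / e)) (v : E) :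
    dd v (fun y => f (y, ξ y / e)) x =
      dx v f (x, ξ x / e) + (ξ v / e) • dθ f (x, ξ x / e) := by
  have hφ : HasFDerivAt (fun y : E => (y, ξ y / e))
      ((ContinuousLinearMap.id ℝ E).prod (e⁻¹ • ξ)) x := by
    have := ((ContinuousLinearMap.id ℝ E).prod (e⁻¹ • ξ)).hasFDerivAt (x := x)
    refine this.congr_of_eventuallyEq (Eventually.of_forall fun y => ?_)
    simp [div_eq_inv_mul]
  have h := (hf.hasFDerivAt.comp x hφ).fderiv
  unfold dx dθ dd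
  have h' : fderiv ℝ (fun y => f (y, ξ y / e)) x =
      (fderiv ℝ f (x, ξ x / e)).comp ((ContinuousLinearMap.id ℝ E).prod (e⁻¹ • ξ)) := h
  rw [h', ← map_smul, ← map_add]
  simp [div_eq_inv_mul]

theorem diff_phase {f : E × ℝ → V4} (ξ : E →L[ℝ] ℝ) (e : ℝ) {x : E}
    (hf : DifferentiableAt ℝ f (x, ξ x / e)) :
    DifferentiableAt ℝ (fun y => f (y, ξ y / e)) x :=
  hf.comp x (differentiableAt_id.prodMk (by
    simp only [div_eq_mul_inv]; exact ξ.differentiableAt.mul_const e⁻¹))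

theorem dd_csmul {Y : Type} [NormedAddCommGroup Y] [NormedSpace ℝ Y] {a : Y → V4} {y : Y}
    (ha : DifferentiableAt ℝ a y) (e : ℝ) (v : Y) :
    dd v (fun y => e • a y) y = e • dd v a y := by
  unfold dd
  have h : fderiv ℝ (fun y => e • a y) y = e • fderiv ℝ a y := (ha.hasFDerivAt.const_smul e).fderiv
  rw [h]; rfl

theorem diffAt {O : Set E} (hO : IsOpen O) {f : E × ℝ → V4} (hf : ContDiffOn ℝ ∞ f (O ×ˢ univ))
    {x : E} (hx : x ∈ O) (θ : ℝ) : DifferentiableAt ℝ f (x, θ) :=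
  (hf.contDiffAt ((hO.prod isOpen_univ).mem_nhds ⟨hx, mem_univ _⟩)).differentiableAt (by simp)

theorem sm_dd {Y : Type} [NormedAddCommGroup Y] [NormedSpace ℝ Y] {O : Set Y} (hO : IsOpen O)
    {f : Y → V4} (hf : ContDiffOn ℝ ∞ f O) (v : Y) : ContDiffOn ℝ ∞ (dd v f) O :=
  (hf.fderiv_of_isOpen hO (by simp)).clm_apply contDiffOn_const

section one

variable {O : Set E} {f : E × ℝ → V4} {u : E → V4} {ξ : E →L[ℝ] ℝ} {e : ℝ} {w z x : E}

theorem d1 (hO : IsOpen O) (hf : ContDiffOn ℝ ∞ f (O ×ˢ univ))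
    (hu : ∀ x ∈ O, u x = e • f (x, ξ x / e)) (hx : x ∈ O) (v : E) :
    dd v u x = e • (dx v f (x, ξ x / e) + (ξ v / e) • dθ f (x, ξ x / e)) := by
  rw [dd_congr hO hu hx v, dd_csmul (diff_phase ξ e (diffAt hO hf hx _)),
    dd_phase ξ e (diffAt hO hf hx _)]

theorem dw (hO : IsOpen O) (hf : ContDiffOn ℝ ∞ f (O ×ˢ univ))
    (hu : ∀ x ∈ O, u x = e • f (x, ξ x / e)) (hw : ξ w = 0) (hx : x ∈ O) :
    dd w u x = e • dx w f (x, ξ x / e) := by
  rw [d1 hO hf hu hx, hw]; simp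

theorem dz (hO : IsOpen O) (hf : ContDiffOn ℝ ∞ f (O ×ˢ univ))
    (hu : ∀ x ∈ O, u x = e • f (x, ξ x / e)) (he : e ≠ 0) (hz : ξ z = 1) (hx : x ∈ O) :
    dd z u x = dθ f (x, ξ x / e) + e • dx z f (x, ξ x / e) := by
  rw [d1 hO hf hu hx, hz, smul_add, smul_smul, mul_one_div_cancel he, one_smul, add_comm]

theorem dww (hO : IsOpen O) (hf : ContDiffOn ℝ ∞ f (O ×ˢ univ))
    (hu : ∀ x ∈ O, u x = e • f (x, ξ x / e)) (hw : ξ w = 0) (hx : x ∈ O) :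
    dd w (dd w u) x = e • dx w (dx w f) (x, ξ x / e) :=
  dw hO (sm_dd (hO.prod isOpen_univ) hf _) (fun _ hy => dw hO hf hu hw hy) hw hx

theorem d2 (hO : IsOpen O) (hf : ContDiffOn ℝ ∞ f (O ×ˢ univ))
    (hu : ∀ x ∈ O, u x = e • f (x, ξ x / e)) (he : e ≠ 0) (hz : ξ z = 1) (hx : x ∈ O) (v : E) :
    dd v (dd z u) x = (dx v (dθ f) (x, ξ x / e) + (ξ v / e) • dθ (dθ f) (x, ξ x / e))
      + e • (dx v (dx z f) (x, ξ x / e) + (ξ v / e) • dθ (dx z f) (x, ξ x / e)) := by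
  have h1 := diffAt hO (sm_dd (hO.prod isOpen_univ) hf ((0, 1) : E × ℝ)) hx (ξ x / e)
  have h2 := diffAt hO (sm_dd (hO.prod isOpen_univ) hf ((z, 0) : E × ℝ)) hx (ξ x / e)
  rw [dd_congr hO (fun _ hy => dz hO hf hu he hz hy) hx v,
    dd_add (b := fun y => e • dx z f (y, ξ y / e)) (diff_phase ξ e h1)
      ((diff_phase ξ e h2).const_smul e),
    dd_csmul (diff_phase ξ e h2), dd_phase ξ e h1, dd_phase ξ e h2]

theorem dwz (hO : IsOpen O) (hf : ContDiffOn ℝ ∞ f (O ×ˢ univ))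
    (hu : ∀ x ∈ O, u x = e • f (x, ξ x / e)) (he : e ≠ 0) (hz : ξ z = 1) (hw : ξ w = 0)
    (hx : x ∈ O) :
    dd w (dd z u) x = dx w (dθ f) (x, ξ x / e) + e • dx w (dx z f) (x, ξ x / e) := by
  rw [d2 hO hf hu he hz hx, hw]; simp

theorem dzz (hO : IsOpen O) (hf : ContDiffOn ℝ ∞ f (O ×ˢ univ))
    (hu : ∀ x ∈ O, u x = e • f (x, ξ x / e)) (he : e ≠ 0) (hz : ξ z = 1) (hx : x ∈ O) :
    e • dd z (dd z u) x = dθ (dθ f) (x, ξ x / e) + (e • dx z (dθ f) (x, ξ x / e)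
      + e • dθ (dx z f) (x, ξ x / e) + e • e • dx z (dx z f) (x, ξ x / e)) := by
  rw [d2 hO hf hu he hz hx, hz]
  simp only [smul_add, smul_smul, mul_one_div_cancel he, one_smul]
  abel

/-- Second derivatives of a difference. -/
theorem dd_dd_sub {g : E × ℝ → V4} (hO : IsOpen O) (hf : ContDiffOn ℝ ∞ f (O ×ˢ univ))
    (hg : ContDiffOn ℝ ∞ g (O ×ˢ univ)) (hx : x ∈ O) (θ : ℝ) (a b : E × ℝ) :
    dd a (dd b fun q => f q - g q) (x, θ) = dd a (dd b f) (x, θ) - dd a (dd b g) (x, θ) := by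
  have hO' : IsOpen (O ×ˢ (univ : Set ℝ)) := hO.prod isOpen_univ
  rw [dd_congr hO' (b := fun q => dd b f q - dd b g q)
      (fun q hq => dd_sub (diffAt hO hf hq.1 q.2) (diffAt hO hg hq.1 q.2) b) ⟨hx, mem_univ θ⟩ a,
    dd_sub (diffAt hO (sm_dd hO' hf b) hx θ) (diffAt hO (sm_dd hO' hg b) hx θ)]

end one

section fam

variable {ι : Type*} {c : Ctx ι E}

theorem bc_x {v : ι → E} (h : Bc v) : Bc fun i => ((v i, 0) : E × ℝ) := by
  obtain ⟨C, hC⟩ := h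
  exact ⟨C, fun i => by simpa using hC i⟩

theorem bc_θ : Bc fun _ : ι => ((0, 1) : E × ℝ) := ⟨1, fun _ => by simp⟩

/-- Pointwise bound at the points of the phase. -/
theorem pt_le {f : ι → E × ℝ → V4} {j n : ℕ} {A : ι → ℝ} (h : Cl c.cyl j A f) (hj : j ≤ n) :
    ∃ C : ℝ, 0 ≤ C ∧ ∀ i, ∀ x ∈ c.U i, ∀ θ, ‖f i (x, θ)‖ ≤ C * (A i * c.M i ^ n) := by
  obtain ⟨C, h0, hC⟩ := ((h.mono hj) 0).norm_le
  exact ⟨C, h0, fun i x hx θ => hC i (x, θ) ⟨hx, mem_univ _⟩⟩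

theorem cl_eps {f : ι → E × ℝ → V4} {j : ℕ} {κ ε : ι → ℝ} (h0 : ∀ i, 0 < ε i)
    (h : Cl c.cyl j κ f) : Cl c.cyl j (fun i => κ i * ε i) fun i q => ε i • f i q :=
  h.csmul (fun i => mul_nonneg (h.nonneg i) (h0 i).le) (C := 1) fun i => by
    rw [abs_of_pos (h0 i)]; linarith [mul_comm (ε i) (κ i)]

theorem cl_eps' {f : ι → E × ℝ → V4} {j : ℕ} {A ε : ι → ℝ} (h0 : ∀ i, 0 < ε i) (h1 : ∀ i, ε i ≤ 1)
    (h : Cl c.cyl j A f) : Cl c.cyl j A fun i q => ε i • f i q :=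
  h.csmul (fun i => h.nonneg i) (C := 1) fun i => by
    rw [abs_of_pos (h0 i)]; exact mul_le_mul_of_nonneg_right (h1 i) (h.nonneg i)

variable {B : Base ι} {ε : ι → ℝ} {U : ι → E × ℝ → V4}

theorem idp_U (D : WData B) {j : ℕ} (h1 : ∀ i, ε i ≤ 1) {p : ℕ}
    (hp : p ≤ B.K) (h : IdP B.c B.χ p j (fun i => B.κ i * ε i) fun i q => U i q - D.G i q) :
    IdP B.c B.χ p (j + 1) B.κ U := by
  have hV : IdP B.c B.χ p (j + 1) B.κ fun i q => U i q - D.G i q :=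
    (h.mono B.clχ le_rfl (Nat.le_succ j)).size (fun i => (B.κ0 i).le) (C := 1) fun i => by
      have hM : 0 ≤ B.c.M i ^ (j + 1) := pow_nonneg (zero_le_one.trans (B.c.hM i)) _
      have : B.κ i * ε i ≤ B.κ i := mul_le_of_le_one_right (B.κ0 i).le (h1 i)
      rw [one_mul]
      exact mul_le_mul_of_nonneg_right this hM
  have hG : IdP B.c B.χ p (j + 1) B.κ D.G := D.hG.mono B.clχ hp (by omega)
  exact (hV.add hG).congr fun i x _ θ => by simp

theorem jets (D : WData B) {j : ℕ} (h0 : ∀ i, 0 < ε i) (h1 : ∀ i, ε i ≤ 1)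
    (h : IdP B.c B.χ 3 j (fun i => B.κ i * ε i) fun i q => U i q - D.G i q) {u : ι → E → V4}
    (hu : ∀ i, ∀ x ∈ B.c.U i, u i x = ε i • U i (x, B.ξ i x / ε i)) :
    Jets B D.W ε (fun i => B.κ i * ε i * B.c.M i ^ (j + 3)) u := by
  have hV := h.cl B.clχ
  have hU := (idp_U D h1 (Nat.zero_le _) (h.mono B.clχ (Nat.zero_le _) le_rfl)).cl B.clχ
  have hG := D.hG.cl B.clχ
  have bw := bc_x B.bw
  have bz := bc_x B.bz
  have bθ := bc_θ (ι := ι)
  obtain ⟨C1, c1, H1⟩ := pt_le (n := j + 3) (cl_eps h0 (hU.dd bw)) (by omega)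
  obtain ⟨C2, c2, H2⟩ := pt_le (n := j + 3)
    (((hV.dd bθ).mono (Nat.le_succ _)).add (cl_eps h0 (hU.dd bz))) (by omega)
  obtain ⟨C3, c3, H3⟩ := pt_le (n := j + 3) (cl_eps h0 ((hU.dd bw).dd bw)) (by omega)
  obtain ⟨C4, c4, H4⟩ := pt_le (n := j + 3)
    ((((hV.dd bθ).dd bw).mono (Nat.le_succ _)).add (cl_eps h0 ((hU.dd bz).dd bw))) (by omega)
  obtain ⟨C5, c5, H5⟩ := pt_le (n := j + 3)
    ((((hV.dd bθ).dd bθ).mono (Nat.le_succ _)).add
      (((cl_eps h0 ((hU.dd bθ).dd bz)).add (cl_eps h0 ((hU.dd bz).dd bθ))).add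
        (cl_eps' h0 h1 (cl_eps h0 ((hU.dd bz).dd bz))))) (by omega)
  refine ⟨C1 + C2 + C3 + C4 + C5, fun i x hx => ?_⟩
  have hO := B.c.hU i
  have hO' : IsOpen (B.c.U i ×ˢ (univ : Set ℝ)) := hO.prod isOpen_univ
  have sU : ContDiffOn ℝ ∞ (U i) (B.c.U i ×ˢ univ) := hU.sm i
  have sG : ContDiffOn ℝ ∞ (D.G i) (B.c.U i ×ˢ univ) := hG.sm i
  have he := (h0 i).ne'
  have hA : 0 ≤ B.κ i * ε i * B.c.M i ^ (j + 3) :=
    mul_nonneg (mul_nonneg (B.κ0 i).le (h0 i).le) (pow_nonneg (zero_le_one.trans (B.c.hM i)) _)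
  have sFs : DifferentiableAt ℝ (fun q : E × ℝ => B.Fs i q.1) (x, B.ξ i x / ε i) := by
    have : ContDiffOn ℝ ∞ (B.Fs i) (B.c.U i) := sm_dd hO (B.smF i) _
    exact ((this.contDiffAt (hO.mem_nhds hx)).differentiableAt (by simp)).comp
      (x, B.ξ i x / ε i) differentiableAt_fst
  have sG' : DifferentiableAt ℝ (dθ (D.G i)) (x, B.ξ i x / ε i) :=
    diffAt hO (sm_dd hO' sG _) hx _
  have hW : D.W i = fun q => B.Fs i q.1 + dθ (D.G i) q := rfl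
  have k1 := H1 i x hx (B.ξ i x / ε i)
  have k2 := H2 i x hx (B.ξ i x / ε i)
  have k3 := H3 i x hx (B.ξ i x / ε i)
  have k4 := H4 i x hx (B.ξ i x / ε i)
  have k5 := H5 i x hx (B.ξ i x / ε i)
  have p1 := mul_nonneg c1 hA
  have p2 := mul_nonneg c2 hA
  have p3 := mul_nonneg c3 hA
  have p4 := mul_nonneg c4 hA
  have p5 := mul_nonneg c5 hA
  simp only [add_mul]
  refine ⟨?_, ?_, ?_, ?_, ?_⟩
  · rw [dw hO sU (hu i) (B.ξw i) hx]
    linarith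
  · have e2 : B.Fs i x + dd (B.z i) (u i) x - D.W i (x, B.ξ i x / ε i) =
        dθ (fun q => U i q - D.G i q) (x, B.ξ i x / ε i)
          + ε i • dx (B.z i) (U i) (x, B.ξ i x / ε i) := by
      rw [dz hO sU (hu i) he (B.ξz i) hx, hW]
      simp only [dθ]
      rw [dd_sub (diffAt hO sU hx _) (diffAt hO sG hx _)]
      abel
    rw [e2]
    linarith
  · rw [dww hO sU (hu i) (B.ξw i) hx]
    linarith
  · have e4 : dd (B.w i) (B.Fs i) x + dd (B.w i) (dd (B.z i) (u i)) x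
        - dx (B.w i) (D.W i) (x, B.ξ i x / ε i) =
        dx (B.w i) (dθ fun q => U i q - D.G i q) (x, B.ξ i x / ε i)
          + ε i • dx (B.w i) (dx (B.z i) (U i)) (x, B.ξ i x / ε i) := by
      rw [dwz hO sU (hu i) he (B.ξz i) (B.ξw i) hx, hW, ← dx_lift (B.Fs i) (B.w i) (B.ξ i x / ε i)]
      simp only [dx, dθ]
      rw [dd_add sFs sG', dd_dd_sub hO sU sG hx]
      abel
    rw [e4]
    linarith
  · have e5 : ε i • dd (B.z i) (dd (B.z i) (u i)) x - dθ (D.W i) (x, B.ξ i x / ε i) =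
        dθ (dθ fun q => U i q - D.G i q) (x, B.ξ i x / ε i)
          + (ε i • dx (B.z i) (dθ (U i)) (x, B.ξ i x / ε i)
            + ε i • dθ (dx (B.z i) (U i)) (x, B.ξ i x / ε i)
            + ε i • ε i • dx (B.z i) (dx (B.z i) (U i)) (x, B.ξ i x / ε i)) := by
      have hl := dθ_lift (x := x) (B.Fs i) (B.ξ i x / ε i)
      rw [dzz hO sU (hu i) he (B.ξz i) hx, hW]
      simp only [dx, dθ] at hl ⊢
      rw [dd_add sFs sG', dd_dd_sub hO sU sG hx, hl]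
      abel
    rw [e5]
    linarith

end fam

end Crest.Agent.R216.StepAuxB
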