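import Crest.Agent.R216.Wave
import Crest.Agent.R216.StepAuxA
import Crest.Agent.R216.StepAuxB

/-!
# Row 216: the perturbation `ε U (x, ξ x / ε)`
-/

set_option autoImplicit false
set_option linter.unusedSectionVars false

noncomputable section

namespace Crest.Agent.R216

open Set Metric Filter
open scoped ContDiff Topology RealInnerProductSpace

universe u

open Classical in
/-- The perturbation. -/
def Base.pert {ι : Type*} (B : Base ι) (ε : ι → ℝ) (U : ι → E × ℝ → V4) (i : ι) (x : E) : V4 :=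
  if x ∈ B.c.U i then ε i • U i (x, B.ξ i x / ε i) else 0

theorem one_le_div_of {M ε : ℝ} (hM : 1 ≤ M) (h0 : 0 < ε) (h1 : ε ≤ 1) : 1 ≤ M / ε := by
  rw [le_div_iff₀ h0]; linarith

section

variable {ι : Type*} {B : Base ι} {ε : ι → ℝ} {U : ι → E × ℝ → V4}

/-- Substitution of the phase. -/
theorem Cl.phase {V : Type} [NormedAddCommGroup V] [NormedSpace ℝ V] {f : ι → E × ℝ → V}
    {j : ℕ} {A : ι → ℝ} (h : Cl B.c.cyl j A f) (h0 : ∀ i, 0 < ε i) (h1 : ∀ i, ε i ≤ 1) :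
    Cl (B.c.scale (fun i => B.c.M i / ε i) fun i => one_le_div_of (B.c.hM i) (h0 i) (h1 i)) 0
      (fun i => A i * B.c.M i ^ j) fun i x => f i (x, B.ξ i x / ε i) := by
  intro k
  obtain ⟨C, hC⟩ := B.bξ
  refine (h k).comp (g := fun i x => (x, B.ξ i x / ε i)) (N := fun i => (ε i)⁻¹)
    (fun i => (one_le_inv₀ (h0 i)).2 (h1 i)) (fun i => ?_) (fun i x hx => ⟨hx, mem_univ _⟩)
    ⟨1 + C, fun i m hm _ y _ => ?_⟩ fun i => (div_eq_mul_inv _ _).ge
  · rw [StepAuxA.ph_eq]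
    exact (StepAuxA.ph _ _).contDiff.contDiffOn
  · rw [StepAuxA.ph_eq]
    exact StepAuxA.norm_iter_clm _ (StepAuxA.norm_ph (hC i) (h0 i) (h1 i))
      (add_nonneg zero_le_one ((norm_nonneg _).trans (hC i))) (inv_pos.2 (h0 i)).le hm y

theorem pert_smooth {j : ℕ} {A : ι → ℝ} (h : IdP B.c B.χ 3 j A U) (i : ι) :
    ContDiff ℝ ∞ (B.pert ε U i) ∧
      ∀ x, B.χ i x = 0 → ∀ m ≤ 2, iteratedFDeriv ℝ m (B.pert ε U i) x = 0 := by
  obtain ⟨g, hg, -, he⟩ := h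
  refine StepAuxA.smooth (B.smχ i) (B.c.hU i) (B.suppχ i)
    (G := fun x => ε i • g i (StepAuxA.ph (B.ξ i) (ε i) x))
    (((hg.sm i).comp (StepAuxA.ph _ _).contDiff.contDiffOn fun x hx => ⟨hx, mem_univ _⟩).const_smul
      _) (fun x hx => ?_) fun x hx => if_neg hx
  rw [StepAuxA.ph_apply, smul_comm, ← he i x hx]
  exact if_pos hx

theorem dd_w_pert {i : ι} (hU : ContDiffOn ℝ ∞ (U i) (B.c.U i ×ˢ univ)) (h0 : ε i ≠ 0) {x : E}
    (hx : x ∈ B.c.U i) :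
    dd (B.w i) (B.pert ε U i) x = ε i • dx (B.w i) (U i) (x, B.ξ i x / ε i) := by
  rw [StepAuxA.dd_eq (B.c.hU i) hU h0 (f := B.pert ε U i) (fun x hx => if_pos hx) hx, B.ξw,
    zero_smul, zero_add]

theorem dd_z_pert {i : ι} (hU : ContDiffOn ℝ ∞ (U i) (B.c.U i ×ˢ univ)) (h0 : ε i ≠ 0) {x : E}
    (hx : x ∈ B.c.U i) : dd (B.z i) (B.pert ε U i) x =
      dθ (U i) (x, B.ξ i x / ε i) + ε i • dx (B.z i) (U i) (x, B.ξ i x / ε i) := by
  rw [StepAuxA.dd_eq (B.c.hU i) hU h0 (f := B.pert ε U i) (fun x hx => if_pos hx) hx, B.ξz,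
    one_smul]

theorem err_pert {i : ι} (hU : ContDiffOn ℝ ∞ (U i) (B.c.U i ×ˢ univ)) (h0 : ε i ≠ 0) {x : E}
    (hx : x ∈ B.c.U i) : B.err (B.pert ε U) i x =
      B.ess ε U i (x, B.ξ i x / ε i) • tp (B.ξ i) (B.ξ i)
      + B.est ε U i (x, B.ξ i x / ε i) • (tp (B.ξ i) (B.η i) + tp (B.η i) (B.ξ i))
      + B.ett ε U i (x, B.ξ i x / ε i) • tp (B.η i) (B.η i) := by
  have d1 : ∀ (H : E → V4) (v : E),
      dd v H x = B.ξ i v • dd (B.z i) H x + B.η i v • dd (B.w i) H x := fun H v => by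
    change fderiv ℝ H x v = _ • fderiv ℝ H x _ + _ • fderiv ℝ H x _
    rw [← map_smul, ← map_smul, ← map_add, ← B.decomp]
  have d2 : ∀ v, dd v (fun y => B.F i y + B.pert ε U i y) x =
      dd v (B.F i) x + dd v (B.pert ε U i) x := fun v => by
    change fderiv ℝ _ x v = fderiv ℝ _ x v + fderiv ℝ _ x v
    rw [fderiv_fun_add (((B.smF i).contDiffAt ((B.c.hU i).mem_nhds hx)).differentiableAt (by simp))
      (StepAuxA.hasFDerivAt (B.c.hU i) hU (f := B.pert ε U i) (fun x hx => if_pos hx)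
        hx).differentiableAt]
    rfl
  have d3 : ∀ v, dd v (fun y => B.F i y + B.pert ε U i y) x =
      B.ξ i v • B.S ε U i (x, B.ξ i x / ε i) + B.η i v • B.T ε U i (x, B.ξ i x / ε i) := fun v => by
    rw [d1, d2, d2, dd_w_pert hU h0 hx, dd_z_pert hU h0 hx, ← add_assoc]
    rfl
  have d4 : ∀ v, dd v (B.F i) x = B.ξ i v • B.Fs i x + B.η i v • B.Ft i x := d1 _
  ext v v'
  change indE _ x v v' - indE _ x v v' - B.a i x ^ 2 * (B.ξ i v * B.ξ i v') =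
    (⟪_, _⟫ - ⟪B.Fs i x, B.Fs i x⟫ - B.a i x ^ 2) * (B.ξ i v * B.ξ i v') +
      (⟪_, _⟫ - ⟪B.Fs i x, B.Ft i x⟫) * (B.ξ i v * B.η i v' + B.η i v * B.ξ i v') +
      (⟪_, _⟫ - ⟪B.Ft i x, B.Ft i x⟫) * (B.η i v * B.η i v')
  rw [indE_apply, indE_apply, d3, d3, d4, d4]
  simp only [inner_add_left, inner_add_right, real_inner_smul_left, real_inner_smul_right,
    real_inner_comm (B.S ε U i _) (B.T ε U i _), real_inner_comm (B.Fs i x) (B.Ft i x)]
  ring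

theorem jets_pert (D : WData B) {j : ℕ} (h0 : ∀ i, 0 < ε i) (h1 : ∀ i, ε i ≤ 1)
    (h : IdP B.c B.χ 3 j (fun i => B.κ i * ε i) fun i q => U i q - D.G i q) :
    Jets B D.W ε (fun i => B.κ i * ε i * B.c.M i ^ (j + 3)) (B.pert ε U) :=
  StepAuxB.jets D h0 h1 h fun i x hx => by simp only [Base.pert, if_pos hx]

end

/-- One step, for the data of a wave. -/
theorem stepW : ∃ c0 : ℕ, ∀ N : ℕ, ∃ K0 : ℕ, 3 ≤ K0 ∧ ∀ {ι : Type u} {B : Base ι} (D : WData B)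
    (ε : ι → ℝ) (h0 : ∀ i, 0 < ε i) (h1 : ∀ i, ε i ≤ 1), K0 ≤ B.K →
    (∀ i, ε i * B.c.M i ^ c0 ≤ 1) →
    ∃ u : ι → E → V4, (∀ i, ContDiff ℝ ∞ (u i)) ∧
      (∀ i x, B.χ i x = 0 → ∀ m ≤ 2, iteratedFDeriv ℝ m (u i) x = 0) ∧
      Cl (B.c.scale (fun i => B.c.M i / ε i) fun i => one_le_div_of (B.c.hM i) (h0 i) (h1 i)) 0
        (fun i => B.κ i * ε i * B.c.M i ^ c0) u ∧
      Cl (B.c.scale (fun i => B.c.M i / ε i) fun i => one_le_div_of (B.c.hM i) (h0 i) (h1 i)) 0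
        (fun i => (ε i * B.c.M i ^ c0) ^ N) (B.err u) ∧
      Jets B D.W ε (fun i => B.κ i * ε i * B.c.M i ^ c0) u := by
  obtain ⟨c, hc⟩ := wave.{u}
  refine ⟨c + 3, fun N => ?_⟩
  obtain ⟨K0, hK3, hK⟩ := hc N
  refine ⟨K0, hK3, fun {ι} {B} D ε h0 h1 hKB hs => ?_⟩
  have hM0 : ∀ i, 0 ≤ B.c.M i := fun i => zero_le_one.trans (B.c.hM i)
  have hle : ∀ i, ε i * B.c.M i ^ c ≤ ε i * B.c.M i ^ (c + 3) := fun i =>
    mul_le_mul_of_nonneg_left (pow_le_pow_right₀ (B.c.hM i) (Nat.le_add_right c 3)) (h0 i).le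
  obtain ⟨U, hV, htt, hst, hss⟩ := hK D ε hKB h0 fun i => (hle i).trans (hs i)
  have hU : IdP B.c B.χ 3 (c + 1) B.κ U := StepAuxB.idp_U D h1 (hK3.trans hKB) hV
  have hUc := hU.cl B.clχ
  refine ⟨B.pert ε U, fun i => (pert_smooth hU i).1, fun i => (pert_smooth hU i).2, ?_, ?_,
    jets_pert D h0 h1 hV⟩
  · refine ((hUc.phase h0 h1).csmul (a := ε) (C := 1) (fun i => ?_) fun i => ?_).congr
      fun i x hx => ?_
    · exact mul_nonneg (mul_nonneg (B.κ0 i).le (h0 i).le) (pow_nonneg (hM0 i) _)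
    · rw [abs_of_pos (h0 i), one_mul, ← mul_assoc, mul_comm (ε i)]
      exact mul_le_mul_of_nonneg_left (pow_le_pow_right₀ (B.c.hM i) (by omega))
        (mul_nonneg (B.κ0 i).le (h0 i).le)
    · have hx' : x ∈ B.c.U i := hx
      simp only [Base.pert, if_pos hx']
  · have htp : ∀ {a b : ι → E →L[ℝ] ℝ}, Bc a → Bc b → Bc fun i => tp (a i) (b i) := by
      rintro a b ⟨Ca, ha⟩ ⟨Cb, hb⟩
      refine ⟨Ca * Cb, fun i => ?_⟩
      have e : ‖tp (a i) (b i)‖ = ‖a i‖ * ‖b i‖ := ContinuousLinearMap.norm_smulRight_apply _ _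
      refine e.trans_le ?_
      exact mul_le_mul (ha i) (hb i) (norm_nonneg _) ((norm_nonneg _).trans (ha i))
    have hadd : ∀ {a b : ι → Bil}, Bc a → Bc b → Bc fun i => a i + b i := by
      rintro a b ⟨Ca, ha⟩ ⟨Cb, hb⟩
      exact ⟨Ca + Cb, fun i => (norm_add_le (a i) (b i)).trans (add_le_add (ha i) (hb i))⟩
    have key : ∀ {f : ι → E × ℝ → ℝ} {t : ι → Bil}, Bc t →
        Cl B.c.cyl 0 (fun i => (ε i * B.c.M i ^ c) ^ N) f →
        Cl (B.c.scale (fun i => B.c.M i / ε i) fun i => one_le_div_of (B.c.hM i) (h0 i) (h1 i)) 0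
          (fun i => (ε i * B.c.M i ^ (c + 3)) ^ N) fun i x => f i (x, B.ξ i x / ε i) • t i := by
      rintro f t ⟨Ct, ht⟩ hf
      have hc1 : Cl (B.c.scale (fun i => B.c.M i / ε i)
          fun i => one_le_div_of (B.c.hM i) (h0 i) (h1 i)) 0 (fun _ => 1) fun i _ => t i :=
        fun k => Bd.const (fun _ => zero_le_one) (C := Ct) fun i => by simpa using ht i
      refine ((hf.phase h0 h1).smul hc1).size (C := 1)
        (fun i => pow_nonneg (mul_nonneg (h0 i).le (pow_nonneg (hM0 i) _)) _) fun i => ?_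
      simp only [pow_zero, mul_one, one_mul, add_zero]
      exact pow_le_pow_left₀ (mul_nonneg (h0 i).le (pow_nonneg (hM0 i) _)) (hle i) N
    refine (((key (htp B.bξ B.bξ) hss).add (key (hadd (htp B.bξ B.bη) (htp B.bη B.bξ)) hst)).add
      (key (htp B.bη B.bη) htt)).congr fun i x hx => ?_
    exact err_pert (hUc.sm i) (h0 i).ne' hx

end Crest.Agent.R216
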