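import Crest.Agent.R216.GadB
import Crest.Agent.R216.GadC
import Crest.Agent.R216.Step

/-!
# Row 216: one step, for a loop
-/

set_option autoImplicit false
set_option linter.unusedSectionVars false

noncomputable section

namespace Crest.Agent.R216

open Set Metric Filter
open scoped ContDiff Topology RealInnerProductSpace

universe u

namespace GadAux

theorem pow_pow {ι : Type*} (B : Base ι) (d d' : ℕ) (hd : 1 ≤ d) (hd' : 1 ≤ d') :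
    (B.pow d hd).pow d' hd' = B.pow (d * d') (Nat.mul_pos hd hd') := by
  simp only [Base.pow, Ctx.pow_pow]

theorem cl_up {ι X V : Type*} [NormedAddCommGroup X] [NormedSpace ℝ X] [NormedAddCommGroup V]
    [NormedSpace ℝ V] {c : Ctx ι X} {d d' j : ℕ} {A : ι → ℝ} {f : ι → X → V}
    (h : Cl (c.pow d) j A f) (hd : d ≤ d') : Cl (c.pow d') j A f := fun k =>
  (h k).ctx (fun _ => Subset.rfl) fun i => pow_le_pow_right₀ (c.hM i) hd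

theorem gad0 : ∃ (d : ℕ) (hd : 1 ≤ d), ∀ {ι : Type u} {B : Base ι} (A : AData B),
    (∀ i x, A.sh i x = 0) →
    ∃ D : WData (B.pow d hd), ∀ i, ∀ x ∈ B.c.U i, ∀ θ, D.W i (x, θ) = A.W i (x, θ) := by
  obtain ⟨d₁, -, h₁⟩ := AData.lead.{u}
  obtain ⟨d₂, -, h₂⟩ := AData.gadΓ.{u}
  obtain ⟨d₃, -, h₃⟩ := AData.gadZ.{u}
  refine ⟨d₁ + d₂ + d₃ + 2, by omega, fun {ι B} A hs => ?_⟩
  obtain ⟨⟨G, a₁, a₂, a₃⟩, a₄, a₅⟩ := h₁ A
  obtain ⟨Γ, b₁, b₂, b₃, b₄⟩ := h₂ A hs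
  obtain ⟨Z, c₁, c₂, c₃, ⟨Z', c₄, c₅⟩, c₆⟩ := h₃ A hs
  have hW : ∀ i, ∀ x ∈ B.c.U i, ∀ θ, B.Fs i x + dθ (prim (A.W i)) (x, θ) = A.W i (x, θ) :=
    fun i x hx θ => A.dθ_prim_W hx θ
  refine ⟨{
    gne := A.gne
    stg := Cl.toPow A.stg (by omega) (by omega)
    G := fun i => prim (A.W i)
    hG := ⟨G, cl_up (c := B.c.cyl) a₁ (by omega), a₂, a₃⟩
    meanG := fun i x hx => mean_prim (continuous_slice (Cl.sm A.st_W i) hx)
    GP := a₄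
    Gst := a₅
    hR := fun i x hx θ => ?_
    Ri := fun i x => (A.R i x)⁻¹ * (A.R i x)⁻¹
    stRi := ?_
    hRi := fun i x hx => ?_
    Γ := Γ
    stΓ := cl_up (c := B.c.cyl) b₁ (by omega)
    perΓ := b₂
    ΓP := fun i x hx θ y _ => (b₃ i x hx θ y).1
    ΓW := fun i x hx θ y _ => (congrArg (⟪·, _⟫) (hW i x hx θ)).trans (b₃ i x hx θ y).2
    meanΓ := b₄
    Z := Z
    stZ := cl_up (c := B.c.cyl) c₁ (by omega)
    perZ := c₂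
    ZP := fun i x hx θ => (c₃ i x hx θ).1
    ZW := fun i x hx θ => (congrArg (⟪·, _⟫) (hW i x hx θ)).trans (c₃ i x hx θ).2.1
    ZW' := fun i x hx θ => (congrArg (⟪·, _⟫) (hW i x hx θ)).trans (c₃ i x hx θ).2.2
    meanZ := ⟨Z', cl_up c₄ (by omega), c₅⟩
    hZ := fun i x hx => (mean_congr fun θ => ?_).trans (c₆ i x hx) }, hW⟩
  · have h := A.norm_W hx θ
    rw [← hW i x hx θ, add_sub_cancel_left, add_comm] at h
    exact h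
  · have h := (Cl.mul A.stRi A.stRi).toPow (d := d₁ + d₂ + d₃ + 2) (by omega) (by omega)
    simp only [mul_one] at h
    exact h
  · have h : B.a i x ^ 2 + ‖B.m i x‖ ^ 2 = A.R i x ^ 2 := (A.hR i x hx).symm
    have h0 := (A.R0 i x hx).ne'
    change _ * (B.a i x ^ 2 + ‖B.m i x‖ ^ 2) = 1
    rw [h]
    field_simp
  · exact congrArg (⟪·, _⟫) (dd_congr ((B.c.hU i).prod isOpen_univ)
      (fun y hy => hW i y.1 hy.1 y.2) (y := (x, θ)) (mk_mem_prod hx (mem_univ θ)) _)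

end GadAux

theorem gadget : ∃ (d : ℕ) (hd : 1 ≤ d), ∀ {ι : Type u} {B : Base ι} (A : AData B),
    ∃ D : WData (B.pow d hd), ∀ i, ∀ x ∈ B.c.U i, ∀ θ, D.W i (x, θ) = A.W i (x, θ) := by
  obtain ⟨d₀, hd₀, h₀⟩ := AData.rot.{u}
  obtain ⟨d₁, hd₁, h₁⟩ := GadAux.gad0.{u}
  refine ⟨d₀ * d₁, Nat.mul_pos hd₀ hd₁, fun {ι B} A => ?_⟩
  obtain ⟨A', a₁, a₂⟩ := h₀ A
  obtain ⟨D, hD⟩ := h₁ A' a₁
  rw [← GadAux.pow_pow B d₀ d₁ hd₀ hd₁]
  exact ⟨D, fun i x hx θ => (hD i x hx θ).trans (a₂ i _)⟩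

/-- One step.  The new scale is `M ^ c0 / ε`. -/
theorem stepA : ∃ c0 : ℕ, 1 ≤ c0 ∧ ∀ N : ℕ, ∃ K0 : ℕ, 3 ≤ K0 ∧ ∀ {ι : Type u} {B : Base ι}
    (A : AData B) (ε : ι → ℝ) (h0 : ∀ i, 0 < ε i) (h1 : ∀ i, ε i ≤ 1), K0 ≤ B.K →
    (∀ i, ε i * B.c.M i ^ c0 ≤ 1) →
    ∃ u : ι → E → V4, (∀ i, ContDiff ℝ ∞ (u i)) ∧
      (∀ i x, B.χ i x = 0 → ∀ m ≤ 2, iteratedFDeriv ℝ m (u i) x = 0) ∧
      Cl (B.c.scale (fun i => B.c.M i ^ c0 / ε i)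
        fun i => one_le_div_of (one_le_pow₀ (B.c.hM i)) (h0 i) (h1 i)) 0
        (fun i => B.κ i * ε i * B.c.M i ^ c0) u ∧
      Cl (B.c.scale (fun i => B.c.M i ^ c0 / ε i)
        fun i => one_le_div_of (one_le_pow₀ (B.c.hM i)) (h0 i) (h1 i)) 0
        (fun i => (ε i * B.c.M i ^ c0) ^ N) (B.err u) ∧
      Jets B A.W ε (fun i => B.κ i * ε i * B.c.M i ^ c0) u := by
  obtain ⟨d, hd, h₀⟩ := gadget.{u}
  obtain ⟨c, h₁⟩ := stepW.{u}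
  refine ⟨d * (c + 1), Nat.mul_pos hd c.succ_pos, fun N => ?_⟩
  obtain ⟨K0, hK, h₂⟩ := h₁ N
  refine ⟨K0, hK, fun {ι B} A ε h0 h1 hK' hε => ?_⟩
  obtain ⟨D, hD⟩ := h₀ A
  have hM : ∀ i, (B.c.M i ^ d) ^ c ≤ B.c.M i ^ (d * (c + 1)) := fun i => by
    rw [← pow_mul]
    exact pow_le_pow_right₀ (B.c.hM i) (Nat.mul_le_mul_left _ c.le_succ)
  have hM' : ∀ i, B.c.M i ^ d / ε i ≤ B.c.M i ^ (d * (c + 1)) / ε i := fun i =>
    div_le_div_of_nonneg_right (pow_le_pow_right₀ (B.c.hM i)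
      (Nat.le_mul_of_pos_right _ c.succ_pos)) (h0 i).le
  have hM0 : ∀ i, 0 ≤ B.c.M i := fun i => zero_le_one.trans (B.c.hM i)
  have hA : ∀ i, B.κ i * ε i * (B.c.M i ^ d) ^ c ≤ B.κ i * ε i * B.c.M i ^ (d * (c + 1)) :=
    fun i => mul_le_mul_of_nonneg_left (hM i) (mul_nonneg (B.κ0 i).le (h0 i).le)
  have hA0 : ∀ i, 0 ≤ B.κ i * ε i * (B.c.M i ^ d) ^ c := fun i =>
    mul_nonneg (mul_nonneg (B.κ0 i).le (h0 i).le) (pow_nonneg (pow_nonneg (hM0 i) _) _)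
  obtain ⟨u, a₁, a₂, a₃, a₄, C, a₅⟩ := h₂ D ε h0 h1 hK'
    fun i => (mul_le_mul_of_nonneg_left (hM i) (h0 i).le).trans (hε i)
  refine ⟨u, a₁, a₂, fun k => ?_, fun k => ?_, |C|, fun i x hx => ?_⟩
  · refine Bd.size ((a₃ k).ctx (fun _ => Subset.rfl) hM') (fun i => (hA0 i).trans (hA i))
      (C := 1) fun i => ?_
    simp only [pow_zero, mul_one, one_mul]
    exact hA i
  · refine Bd.size ((a₄ k).ctx (fun _ => Subset.rfl) hM')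
      (fun i => pow_nonneg (mul_nonneg (h0 i).le (pow_nonneg (hM0 i) _)) _) (C := 1) fun i => ?_
    simp only [pow_zero, mul_one, one_mul]
    exact pow_le_pow_left₀ (mul_nonneg (h0 i).le (pow_nonneg (pow_nonneg (hM0 i) _) _))
      (mul_le_mul_of_nonneg_left (hM i) (h0 i).le) _
  · obtain ⟨b₁, b₂, b₃, b₄, b₅⟩ := a₅ i x hx
    have h2 : C * (B.κ i * ε i * (B.c.M i ^ d) ^ c) ≤
        |C| * (B.κ i * ε i * B.c.M i ^ (d * (c + 1))) :=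
      mul_le_mul (le_abs_self C) (hA i) (hA0 i) (abs_nonneg C)
    have h3 : ∀ (θ : ℝ) (v : E × ℝ), dd v (D.W i) (x, θ) = dd v (A.W i) (x, θ) := fun θ v =>
      dd_congr ((B.c.hU i).prod isOpen_univ) (fun y hy => hD i y.1 hy.1 y.2) (y := (x, θ))
        (mk_mem_prod hx (mem_univ θ)) v
    rw [hD i x hx] at b₂
    rw [dx, h3] at b₄
    rw [dθ, h3] at b₅
    exact ⟨b₁.trans h2, b₂.trans h2, b₃.trans h2, b₄.trans h2, b₅.trans h2⟩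

end Crest.Agent.R216
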