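import Crest.Agent.R216.Loop

/-!
# Row 216: the loop of a step of small amplitude (proofs)
-/

set_option autoImplicit false
set_option linter.unusedSectionVars false

noncomputable section

namespace Crest.Agent.R216

open Set Metric Filter
open scoped ContDiff Topology RealInnerProductSpace

universe u

namespace SmallAux1

section gen

variable {ι X V : Type*} [NormedAddCommGroup X] [NormedSpace ℝ X] [NormedAddCommGroup V]
  [NormedSpace ℝ V] {c : Ctx ι X}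

theorem low_mono {d d' : ℕ} (hd : d ≤ d') {a a' : ι → X → ℝ}
    (h : ∃ C : ℝ, ∀ i, ∀ x ∈ c.U i, 1 ≤ C * (c.M i ^ d * a i x))
    (h0 : ∀ i, ∀ x ∈ c.U i, 0 ≤ a i x) (ha : ∀ i, ∀ x ∈ c.U i, a i x ≤ |a' i x|) :
    ∃ C : ℝ, ∀ i, ∀ x ∈ c.U i, 1 ≤ C * (c.M i ^ d' * |a' i x|) := by
  obtain ⟨C, hC⟩ := h
  refine ⟨|C|, fun i x hx => (hC i x hx).trans ?_⟩
  have hM := c.hM i
  have h1 := h0 i x hx
  exact mul_le_mul (le_abs_self C) (mul_le_mul (pow_le_pow_right₀ hM hd) (ha i x hx) h1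
    (by positivity)) (by positivity) (abs_nonneg C)

theorem st_mul {d d' : ℕ} {a b : ι → X → ℝ} (ha : St (c.pow d) a) (hb : St (c.pow d') b) :
    St (c.pow (d + d')) fun i x => a i x * b i x :=
  St.bilin (ContinuousLinearMap.mul ℝ ℝ) ha hb

theorem st_smul {d d' : ℕ} {a : ι → X → ℝ} {b : ι → X → V} (ha : St (c.pow d) a)
    (hb : St (c.pow d') b) : St (c.pow (d + d')) fun i x => a i x • b i x :=
  St.bilin (ContinuousLinearMap.lsmul ℝ ℝ) ha hb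

theorem st_isqrt {d : ℕ} {a : ι → X → ℝ} (h : St (c.pow d) a) (h0 : ∀ i, ∀ x ∈ c.U i, 0 ≤ a i x)
    (hl : ∃ C : ℝ, ∀ i, ∀ x ∈ c.U i, 1 ≤ C * (c.M i ^ d * |a i x|)) :
    St (c.pow (3 * d + 3 * d)) fun i x => (√(a i x))⁻¹ :=
  Cl.congr (st_mul (h.sqrt h0 hl) (h.inv hl)) fun i x _ => by
    rw [← div_eq_mul_inv, Real.sqrt_div_self]

theorem st_const {d : ℕ} {a : ι → V} {C : ℝ} (h : ∀ i, ‖a i‖ ≤ C * c.M i ^ d) :
    St (c.pow d) fun i _ => a i := fun k =>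
  (Bd.const (c := c.pow d) (k := k) (A := fun i => c.M i ^ d)
    (fun i => by have := c.hM i; positivity) h).size (fun _ => zero_le_one) (C := 1) fun i => by
      simp [Ctx.pow]

end gen

theorem small_m {ι : Type*} (B : Base ι)
    (h : ∃ C : ℝ, ∀ i, ∀ x ∈ B.c.U i, 1 ≤ C * (B.c.M i * ‖crD (B.F i) x (B.z i) (B.w i)‖)) :
    ∃ C : ℝ, ∀ i, ∀ x ∈ B.c.U i, B.g i x ≠ 0 ∧ 1 ≤ C * (B.c.M i ^ 4 * ‖B.m i x‖) ∧
      1 ≤ C * (B.c.M i ^ 4 * |B.g i x|) := by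
  obtain ⟨C, hC⟩ := h
  obtain ⟨C1, h10, h1⟩ := (B.clFt 0).norm_le
  obtain ⟨C2, h20, h2⟩ := (B.clFtt 0).norm_le
  obtain ⟨C3, h30, h3⟩ := (B.clFs 0).norm_le
  refine ⟨|C| * (C1 * C2) + C ^ 2 * C3 ^ 2, fun i x hx => ?_⟩
  have hM := B.c.hM i
  have e : ‖crD (B.F i) x (B.z i) (B.w i)‖ = ‖cr (B.Ft i x) (B.Ftt i x) (B.Fs i x)‖ := by
    rw [cr_swap23, norm_neg]
    rfl
  have h4 := hC i x hx
  rw [e] at h4
  have hne : cr (B.Ft i x) (B.Ftt i x) (B.Fs i x) ≠ 0 := by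
    intro h0
    rw [h0] at h4
    norm_num at h4
  have hg : gram (B.Ft i x) (B.Ftt i x) ≠ 0 := gram_ne_of_cr hne
  have h5 := h1 i x hx
  have h6 := h2 i x hx
  have h7 := h3 i x hx
  refine ⟨hg, ?_, ?_⟩
  · have h8 : ‖cr (B.Ft i x) (B.Ftt i x) (B.Fs i x)‖ ≤
        C1 * (1 * B.c.M i ^ 1) * (C2 * (1 * B.c.M i ^ 2)) * ‖B.m i x‖ := by
      rw [← cr_pn hg]
      refine (norm_cr_le _ _ _).trans ?_
      unfold Base.m
      gcongr
    calc (1 : ℝ) ≤ |C| * (B.c.M i * ‖cr (B.Ft i x) (B.Ftt i x) (B.Fs i x)‖) :=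
          h4.trans (mul_le_mul_of_nonneg_right (le_abs_self C) (by positivity))
      _ ≤ |C| * (B.c.M i * (C1 * (1 * B.c.M i ^ 1) * (C2 * (1 * B.c.M i ^ 2)) * ‖B.m i x‖)) := by
          gcongr
      _ = |C| * (C1 * C2) * (B.c.M i ^ 4 * ‖B.m i x‖) := by ring
      _ ≤ _ := by
          gcongr
          exact le_add_of_nonneg_right (by positivity)
  · have h8 : ‖cr (B.Ft i x) (B.Ftt i x) (B.Fs i x)‖ ^ 2 ≤
        |B.g i x| * (C3 * (1 * B.c.M i ^ 1)) ^ 2 := by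
      rw [norm_cr_sq hg]
      have := (norm_pn_le hg (B.Fs i x)).trans h7
      exact mul_le_mul (le_abs_self _) (pow_le_pow_left₀ (norm_nonneg _) this 2) (by positivity)
        (abs_nonneg _)
    calc (1 : ℝ) ≤ (C * (B.c.M i * ‖cr (B.Ft i x) (B.Ftt i x) (B.Fs i x)‖)) ^ 2 := one_le_pow₀ h4
      _ = C ^ 2 * (B.c.M i ^ 2 * ‖cr (B.Ft i x) (B.Ftt i x) (B.Fs i x)‖ ^ 2) := by ring
      _ ≤ C ^ 2 * (B.c.M i ^ 2 * (|B.g i x| * (C3 * (1 * B.c.M i ^ 1)) ^ 2)) := by gcongr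
      _ = C ^ 2 * C3 ^ 2 * (B.c.M i ^ 4 * |B.g i x|) := by ring
      _ ≤ _ := by
          gcongr
          exact le_add_of_nonneg_left (by positivity)

theorem small_adata : ∃ (d : ℕ) (hd : 1 ≤ d), ∀ {ι : Type u} (B : Base ι),
    (∀ i, ∀ x ∈ B.c.U i, B.b i x ≠ 0) → St B.c (fun i x => (B.b i x)⁻¹) →
    (∃ C : ℝ, ∀ i, ∀ x ∈ B.c.U i, 1 ≤ C * (B.c.M i * ‖crD (B.F i) x (B.z i) (B.w i)‖)) →
    (∀ i, ∀ x ∈ B.c.U i, 2 * |B.a i x| ≤ ‖B.m i x‖) → Nonempty (AData (B.pow d hd)) := by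
  obtain ⟨O, hO, hKO, Φ, β, hΦ, hβ, hl⟩ := exists_small_loop
  refine ⟨10000, by norm_num, fun {ι} B hb hbi hcr ha => ?_⟩
  obtain ⟨C0, hC0⟩ := small_m B hcr
  have gne : ∀ i, ∀ x ∈ B.c.U i, B.g i x ≠ 0 := fun i x hx => (hC0 i x hx).1
  have m0 : ∀ i, ∀ x ∈ B.c.U i, 0 < ‖B.m i x‖ := fun i x hx => by
    refine (norm_nonneg _).lt_of_ne fun h => ?_
    have := (hC0 i x hx).2.1
    rw [← h] at this
    norm_num at this
  have g0 : ∀ i, ∀ x ∈ B.c.U i, 0 ≤ B.g i x := fun i x _ => gram_nonneg _ _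
  have lg : ∃ C : ℝ, ∀ i, ∀ x ∈ B.c.U i, 1 ≤ C * (B.c.M i ^ 6 * |B.g i x|) :=
    low_mono (d := 4) (by norm_num) ⟨C0, fun i x hx => (hC0 i x hx).2.2⟩
      (fun _ _ _ => abs_nonneg _) fun _ _ _ => le_rfl
  have sg : St (B.c.pow 6) B.g := B.cl_g.toPow (by norm_num) le_rfl
  have sgi : St (B.c.pow 18) fun i x => (B.g i x)⁻¹ := sg.inv lg
  have sm : St (B.c.pow 162) B.m := by
    have := ((B.pow 18 (by norm_num)).cl_m sgi).toPow (d := 9) (by norm_num) le_rfl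
    change St ((B.c.pow 18).pow 9) B.m at this
    rwa [Ctx.pow_pow] at this
  have smm : St (B.c.pow 324) fun i x => ‖B.m i x‖ ^ 2 :=
    Cl.congr (St.bilin (innerSL ℝ) sm sm) fun i x _ => by
      rw [innerSL_apply_apply, real_inner_self_eq_norm_sq]
  have lm : ∃ C : ℝ, ∀ i, ∀ x ∈ B.c.U i, 1 ≤ C * (B.c.M i ^ 8 * ‖B.m i x‖ ^ 2) :=
    ⟨C0 ^ 2, fun i x hx => (one_le_pow₀ (n := 2) (hC0 i x hx).2.1).trans_eq (by ring)⟩
  have sni : St (B.c.pow 1944) fun i x => ‖B.m i x‖⁻¹ :=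
    Cl.congr (st_isqrt smm (fun _ _ _ => sq_nonneg _) (low_mono (by norm_num) lm
      (fun _ _ _ => sq_nonneg _) fun _ _ _ => le_abs_self _)) fun i x _ => by
        rw [Real.sqrt_sq (norm_nonneg _)]
  have sa : St (B.c.pow 1) B.a := B.st_a.toPow le_rfl le_rfl
  have sR2 : St (B.c.pow 324) fun i x => B.a i x ^ 2 + ‖B.m i x‖ ^ 2 :=
    St.add (Cl.congr ((st_mul sa sa).mono (by norm_num)) fun i x _ => sq _) smm
  have lR2 : ∃ C : ℝ, ∀ i, ∀ x ∈ B.c.U i,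
      1 ≤ C * (B.c.M i ^ 324 * |B.a i x ^ 2 + ‖B.m i x‖ ^ 2|) :=
    low_mono (by norm_num) lm (fun _ _ _ => sq_nonneg _) fun _ _ _ =>
      (le_add_of_nonneg_left (sq_nonneg _)).trans (le_abs_self _)
  obtain ⟨R, hR⟩ : ∃ R : ι → E → ℝ, R = fun i x => √(B.a i x ^ 2 + ‖B.m i x‖ ^ 2) := ⟨_, rfl⟩
  have sR : St (B.c.pow 972) R := hR ▸ sR2.sqrt (fun _ _ _ => by positivity) lR2
  have sRi : St (B.c.pow 1944) fun i x => (R i x)⁻¹ :=
    hR ▸ st_isqrt sR2 (fun _ _ _ => by positivity) lR2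
  have mR : ∀ i x, ‖B.m i x‖ ≤ R i x := fun i x =>
    hR ▸ Real.le_sqrt_of_sq_le (le_add_of_nonneg_left (sq_nonneg _))
  have R0 : ∀ i, ∀ x ∈ B.c.U i, 0 < R i x := fun i x hx => (m0 i x hx).trans_le (mR i x)
  have R2 : ∀ i x, R i x ^ 2 = B.a i x ^ 2 + ‖B.m i x‖ ^ 2 := fun i x =>
    hR ▸ Real.sq_sqrt (by positivity)
  -- the frame
  obtain ⟨e1, he1⟩ : ∃ e1 : ι → E → V4, e1 = fun i x => ‖B.m i x‖⁻¹ • B.m i x := ⟨_, rfl⟩
  have se1 : St (B.c.pow 2106) e1 := he1 ▸ st_smul sni sm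
  have e1P : ∀ i, ∀ x ∈ B.c.U i, B.InP i x (e1 i x) := fun i x hx => by
    obtain ⟨h1, h2⟩ := B.mP (gne i x hx)
    simp only [Base.InP, he1, inner_smul_right, h1, h2, mul_zero, and_self]
  have me1 : ∀ i, ∀ x ∈ B.c.U i, ⟪B.m i x, e1 i x⟫ = ‖B.m i x‖ := fun i x hx => by
    have := (m0 i x hx).ne'
    simp only [he1, inner_smul_right, real_inner_self_eq_norm_sq]
    field_simp
  have e11 : ∀ i, ∀ x ∈ B.c.U i, ⟪e1 i x, e1 i x⟫ = 1 := fun i x hx => by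
    have h := me1 i x hx
    have := (m0 i x hx).ne'
    conv_lhs => arg 2; rw [he1]
    rw [real_inner_smul_left, h, inv_mul_cancel₀ this]
  obtain ⟨e2, he2⟩ : ∃ e2 : ι → E → V4,
      e2 = fun i x => (√(B.g i x))⁻¹ • cr (B.Ft i x) (B.Ftt i x) (e1 i x) := ⟨_, rfl⟩
  have se2 : St (B.c.pow 6354) e2 := he2 ▸ st_smul (st_isqrt sg g0 lg)
    (St.cr (B.clFt.toPow (by norm_num) (by norm_num)) (B.clFtt.toPow (by norm_num) (by norm_num))
      se1)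
  have rot := fun i x (hx : x ∈ B.c.U i) => rot_spec (f := e2 i x) (gne i x hx) (e1P i x hx).1
    (e1P i x hx).2 (e11 i x hx) (by rw [he2]; rfl)
  have me2 : ∀ i, ∀ x ∈ B.c.U i, ⟪B.m i x, e2 i x⟫ = 0 := fun i x hx => by
    have h := (rot i x hx).2.2.2.1
    rw [he1, real_inner_smul_left] at h
    exact (mul_eq_zero.1 h).resolve_left (inv_ne_zero (m0 i x hx).ne')
  -- the phase
  have sd : St (B.c.pow 324) fun i => dd (B.w i) fun y => B.Fs i y - B.m i y :=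
    (St.sub (B.clFs.toPow (by norm_num) (by norm_num)) sm).dd B.bw
  obtain ⟨C1, h10, h1⟩ := (sd 0).norm_le
  obtain ⟨Cη, hη⟩ := B.bη
  obtain ⟨Λ, hΛ⟩ : ∃ Λ : ι → ℝ, Λ = fun i => (1 + C1) * |C0| * B.c.M i ^ 328 := ⟨_, rfl⟩
  obtain ⟨ζ, hζ⟩ : ∃ ζ : ι → E → ℝ, ζ = fun i => ⇑(Λ i • B.η i) := ⟨_, rfl⟩
  have smζ : ∀ i, ContDiffOn ℝ ∞ (ζ i) (B.c.U i) := fun i =>
    hζ ▸ (Λ i • B.η i).contDiff.contDiffOn
  have dζ : ∀ i x, fderiv ℝ (ζ i) x = Λ i • B.η i := fun i x => hζ ▸ (Λ i • B.η i).fderiv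
  have sζ : St (B.c.pow 328) fun i => fderiv ℝ (ζ i) := by
    refine Cl.congr (st_const (a := fun i => Λ i • B.η i) (C := (1 + C1) * |C0| * Cη) fun i => ?_)
      fun i x _ => dζ i x
    have hM := B.c.hM i
    have h0 : 0 ≤ Λ i := by rw [hΛ]; positivity
    rw [norm_smul, Real.norm_eq_abs, abs_of_nonneg h0]
    refine (mul_le_mul_of_nonneg_left (hη i) h0).trans_eq ?_
    simp only [hΛ]
    generalize B.c.M i ^ 328 = t
    ring
  -- the parameters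
  obtain ⟨p, hp⟩ : ∃ p : ι → E → ℝ × ℝ × ℝ,
      p = fun i x => (B.a i x * (R i x)⁻¹, Real.cos (ζ i x), Real.sin (ζ i x)) := ⟨_, rfl⟩
  have sp : St (B.c.pow 1945) p := hp ▸ fun k => (st_mul sa sRi k).prod
    (((St.cos smζ sζ).mono (by norm_num) k).prod ((St.sin smζ sζ).mono (by norm_num) k))
  have aR : ∀ i, ∀ x ∈ B.c.U i, |B.a i x * (R i x)⁻¹| ≤ 1 / 2 := fun i x hx => by
    have := R0 i x hx
    rw [← div_eq_mul_inv, abs_div, abs_of_pos this, div_le_iff₀ this]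
    linarith [ha i x hx, mR i x]
  have pK : ∀ i, MapsTo (p i) (B.c.U i) (Icc (-1 / 2) (1 / 2) ×ˢ Icc (-1) 1 ×ˢ Icc (-1) 1) :=
    fun i x hx => by
      have := abs_le.1 (aR i x hx)
      rw [hp]
      exact ⟨⟨by linarith [this.1], this.2⟩, Real.cos_mem_Icc _, Real.sin_mem_Icc _⟩
  have hK : IsCompact (Icc (-1 / 2 : ℝ) (1 / 2) ×ˢ Icc (-1 : ℝ) 1 ×ˢ Icc (-1 : ℝ) 1) :=
    isCompact_Icc.prod (isCompact_Icc.prod isCompact_Icc)
  have hl' := fun i x (hx : x ∈ B.c.U i) => hl (p i x) (hKO (pK i hx))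
  have sΦ := St.subst hO hK hKO hΦ (fun x hx => (hl x hx).1) sp pK
  have sβ := fun l => St.subst hO hK hKO (hβ l) (fun x hx => ((hl x hx).2.2.2.2 l).1) sp pK
  rw [Ctx.pow_cyl] at sΦ
  simp only [Ctx.pow_cyl] at sβ
  have sRi' : St (B.c.cyl.pow 1944) fun i q => (R i q.1)⁻¹ := Ctx.pow_cyl B.c _ ▸ Cl.lift sRi
  have aφ : ∀ i x θ, B.a i x * (Φ (p i x, θ) * (R i x)⁻¹) = (p i x).1 * Φ (p i x, θ) :=
    fun i x θ => by
      conv_rhs => arg 1; rw [hp]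
      ring
  refine ⟨{
    gne := gne
    stg := sgi.mono (by norm_num)
    bne := hb
    stbi := hbi.toPow (by norm_num) (by norm_num)
    e1 := e1
    e2 := e2
    ste1 := se1.mono (by norm_num)
    ste2 := se2.mono (by norm_num)
    e1P := e1P
    e2P := fun i x hx => ⟨(rot i x hx).1, (rot i x hx).2.1⟩
    e11 := e11
    e22 := fun i x hx => (rot i x hx).2.2.1
    e12 := fun i x hx => (rot i x hx).2.2.2.1
    span := fun i x hx y hy => (rot i x hx).2.2.2.2.2.2 y hy.1 hy.2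
    R := R
    stR := sR.mono (by norm_num)
    stRi := sRi.mono (by norm_num)
    R0 := R0
    hR := fun i x _ => R2 i x
    φ := fun i q => Φ (p i q.1, q.2) * (R i q.1)⁻¹
    stφ := ?_
    perφ := fun i x hx θ => by simp only [(hl' i x hx).1]
    even := fun i x hx θ => by simp only [(hl' i x hx).2.1]
    mcos := fun i x hx => ?_
    msin := fun i x hx => ?_
    sh := fun i x => 4 * (R i x)⁻¹
    stsh := ?_
    r := fun i x => (R i x)⁻¹
    str := sRi.mono (by norm_num)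
    stri := Cl.congr (sR.mono (by norm_num)) fun i x _ => inv_inv _
    r0 := fun i x hx => inv_pos.2 (R0 i x hx)
    ar := fun i x hx => (aR i x hx).trans (by norm_num)
    ζ := ζ
    smζ := smζ
    stζ := sζ.mono (by norm_num)
    hζ := fun i x hx => ?_
    β := fun l i q => β l (p i q.1, q.2)
    stβ := fun l => ?_
    perβ := fun l i x hx θ => ((hl' i x hx).2.2.2.2 l).1 θ
    meanβ := fun l i x hx => ((hl' i x hx).2.2.2.2 l).2.1
    loc := fun l i x hx θ => ?_ }⟩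
  · change St (B.c.pow 10000).cyl _
    rw [Ctx.pow_cyl]
    exact (st_mul sΦ sRi').mono (by norm_num)
  · have h2 : mean (fun q => Real.cos (B.a i q.1 * (Φ (p i q.1, q.2) * (R i q.1)⁻¹))) x =
        √(1 - (p i x).1 ^ 2) := by
      rw [← (hl' i x hx).2.2.2.1]
      simp only [mean, aφ]
    have h3 := R0 i x hx
    refine (congrArg (R i x * ·) h2).trans (Eq.trans ?_ (me1 i x hx).symm)
    have h4 : 1 - (p i x).1 ^ 2 = (‖B.m i x‖ / R i x) ^ 2 := by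
      simp only [hp]
      field_simp
      linarith [R2 i x]
    rw [h4, Real.sqrt_sq (by positivity)]
    field_simp
  · have h2 : mean (fun q => Real.sin (B.a i q.1 * (Φ (p i q.1, q.2) * (R i q.1)⁻¹))) x = 0 := by
      rw [← (hl' i x hx).2.2.1]
      simp only [mean, aφ]
    refine (congrArg (R i x * ·) h2).trans (Eq.trans ?_ (me2 i x hx).symm)
    exact mul_zero _
  · exact (st_mul (St.const (c := B.c.pow 1) (a := fun _ => (4 : ℝ)) ⟨_, fun _ => le_rfl⟩)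
      sRi).mono (by norm_num)
  · have hM := B.c.hM i
    have h2 : ‖dd (B.w i) (fun y => B.Fs i y - B.m i y) x‖ ≤ C1 * B.c.M i ^ 324 := by
      simpa only [Ctx.pow, one_mul, pow_one] using h1 i x hx
    have h3 : dd (B.w i) (ζ i) x = Λ i := by
      rw [dd, dζ, smul_apply, B.ηw, smul_eq_mul, mul_one]
    have h4 : 1 ≤ |C0| * (B.c.M i ^ 4 * R i x) :=
      (hC0 i x hx).2.1.trans (mul_le_mul (le_abs_self _)
        (mul_le_mul_of_nonneg_left (mR i x) (by positivity)) (by positivity) (abs_nonneg _))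
    have h5 : (1 : ℝ) ≤ B.c.M i ^ 324 := one_le_pow₀ hM
    change 1 + ‖dd (B.w i) (fun y => B.Fs i y - B.m i y) x‖ ≤ R i x * dd (B.w i) (ζ i) x
    rw [h3]
    simp only [hΛ]
    rw [show B.c.M i ^ 328 = B.c.M i ^ 324 * B.c.M i ^ 4 from pow_add _ 324 4]
    generalize B.c.M i ^ 324 = t at h2 h5 ⊢
    calc _ ≤ (1 + C1) * t * 1 := by linarith
      _ ≤ (1 + C1) * t * (|C0| * (B.c.M i ^ 4 * R i x)) := by gcongr
      _ = _ := by ring
  · change St (B.c.pow 10000).cyl _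
    rw [Ctx.pow_cyl]
    exact (sβ l).mono (by norm_num)
  · have hc : ContinuousAt (fun q : E × ℝ => (p i q.1, q.2)) (x, θ) :=
      (((sp.sm i).continuousOn.continuousAt ((B.c.hU i).mem_nhds hx)).comp
        (f := Prod.fst) (x := (x, θ)) continuousAt_fst).prodMk continuousAt_snd
    rcases ((hl' i x hx).2.2.2.2 l).2.2 θ with h | h
    · exact Or.inl (hc.tendsto.eventually h)
    · refine Or.inr ((hc.tendsto.eventually h).mono fun q hq => ?_)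
      simp only at hq ⊢
      rw [hq]
      simp only [hp]
      ring

end SmallAux1

end Crest.Agent.R216
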