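import Crest.Agent.R216.WaveDefs

/-!
# Row 216: auxiliary lemmas for `small_step`
-/

set_option autoImplicit false
set_option linter.unusedSectionVars false

noncomputable section

namespace Crest.Agent.R216.SmallAuxB

open Set Metric Filter
open scoped ContDiff Topology RealInnerProductSpace

section

variable {ι X V : Type*} [NormedAddCommGroup X] [NormedSpace ℝ X] [NormedAddCommGroup V]
  [NormedSpace ℝ V]

/-- Bounds for a family from the bounds for two complementary subfamilies. -/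
theorem glue {c : Ctx ι X} {j : ℕ} {A : ι → ℝ} {f : ι → X → V} (P : ι → Prop)
    (h1 : Cl (c.comap (Subtype.val : {i // P i} → ι)) j (fun i => A i) fun i => f i)
    (h2 : Cl (c.comap (Subtype.val : {i // ¬ P i} → ι)) j (fun i => A i) fun i => f i) :
    Cl c j A f := by
  intro k
  obtain ⟨C1, -, hC1⟩ := ClA2.le' (h1 k)
  obtain ⟨C2, -, hC2⟩ := ClA2.le' (h2 k)
  have h0 : ∀ i, 0 ≤ A i := fun i => by
    by_cases hi : P i
    · exact h1.nonneg ⟨i, hi⟩
    · exact h2.nonneg ⟨i, hi⟩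
  refine ⟨h0, fun i => ?_, max C1 C2, fun i m hm x hx => ?_⟩
  · by_cases hi : P i
    · exact h1.sm ⟨i, hi⟩
    · exact h2.sm ⟨i, hi⟩
  · have hw : 0 ≤ A i * c.M i ^ (j + m) :=
      mul_nonneg (h0 i) (pow_nonneg (zero_le_one.trans (c.hM i)) _)
    by_cases hi : P i
    · exact (hC1 ⟨i, hi⟩ m hm x hx).trans (mul_le_mul_of_nonneg_right (le_max_left _ _) hw)
    · exact (hC2 ⟨i, hi⟩ m hm x hx).trans (mul_le_mul_of_nonneg_right (le_max_right _ _) hw)

end

variable {ι : Type*} (B : Base ι)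

theorem cl_a : Cl B.c 1 B.κ B.a := by
  have h := ((B.clχ.pow B.K).mul B.stb).csmul (a := B.κ) (A' := B.κ) (fun i => (B.κ0 i).le)
    (C := 1) fun i => by simp [abs_of_pos (B.κ0 i)]
  exact h.congr fun i x _ => by simp only [Base.a, smul_eq_mul, mul_assoc]

theorem cl_err_zero : Cl B.c 2 (fun _ => 1) (B.err fun _ _ => 0) := by
  obtain ⟨C, hC⟩ := B.bξ
  have ha : Cl B.c 1 (fun _ => 1) B.a := (cl_a B).size (fun _ => zero_le_one) (C := 1) fun i => by
    have := B.κ1 i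
    have := B.c.hM i
    rw [one_mul]
    gcongr
  have ht : Cl B.c 0 (fun _ => 1) fun i (_ : E) => tp (B.ξ i) (B.ξ i) := fun k =>
    Bd.const (fun _ => zero_le_one) (C := C * C) fun i => by
      rw [tp, ContinuousLinearMap.norm_smulRight_apply, mul_one]
      exact mul_le_mul (hC i) (hC i) (norm_nonneg _) ((norm_nonneg _).trans (hC i))
  have h := ((ha.mul ha).smul ht).neg
  simp only [mul_one] at h
  refine h.congr fun i x _ => ?_
  simp only [Base.err, add_zero, sq]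
  ext v w
  simp

/-- For a large scale the amplitude is smaller than `m`. -/
theorem exists_M0 {c0 : ℕ} (h6 : 6 ≤ c0) (hκ : ∀ i, B.κ i * B.c.M i ^ c0 ≤ 1)
    (hm : ∃ C : ℝ, ∀ i, ∀ x ∈ B.c.U i, 1 ≤ C * (B.c.M i ^ 4 * ‖B.m i x‖)) :
    ∃ M0 : ℝ, ∀ i, M0 ≤ B.c.M i → ∀ x ∈ B.c.U i, 2 * |B.a i x| ≤ ‖B.m i x‖ := by
  obtain ⟨Cm, hm⟩ := hm
  obtain ⟨Ca, hCa, ha⟩ := (cl_a B 0).norm_le
  refine ⟨2 * Ca * Cm, fun i hi x hx => ?_⟩
  have h1 := B.c.hM i
  have h2 := hm i x hx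
  have h3 := ha i x hx
  have h4 : B.κ i * B.c.M i ^ 6 ≤ 1 :=
    (mul_le_mul_of_nonneg_left (pow_le_pow_right₀ h1 h6) (B.κ0 i).le).trans (hκ i)
  have h5 := B.κ0 i
  have h7 := norm_nonneg (B.m i x)
  rw [Real.norm_eq_abs, pow_one] at h3
  generalize B.c.M i = M at *
  generalize ‖B.m i x‖ = m at *
  generalize B.κ i = κ at *
  have hM : 0 < M := by linarith
  calc 2 * |B.a i x| ≤ 2 * (Ca * (κ * M)) * 1 := by linarith
    _ ≤ 2 * (Ca * (κ * M)) * (Cm * (M ^ 4 * m)) := by gcongr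
    _ = 2 * Ca * Cm * (κ * M ^ 5 * m) := by ring
    _ ≤ M * (κ * M ^ 5 * m) := by gcongr
    _ = κ * M ^ 6 * m := by ring
    _ ≤ 1 * m := by gcongr
    _ = m := one_mul m

end Crest.Agent.R216.SmallAuxB
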