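import Crest.Agent.R216.Loop
import Crest.Agent.R216.Gad
import Crest.Agent.R216.SmallAux1
import Crest.Agent.R216.SmallAuxB

/-!
# Row 216: steps of small amplitude
-/

set_option autoImplicit false
set_option linter.unusedSectionVars false

noncomputable section

namespace Crest.Agent.R216

open Set Metric Filter
open scoped ContDiff Topology RealInnerProductSpace

universe u

/-- The loop of a step of small amplitude. -/
theorem small_adata : ∃ (d : ℕ) (hd : 1 ≤ d), ∀ {ι : Type u} (B : Base ι),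
    (∀ i, ∀ x ∈ B.c.U i, B.b i x ≠ 0) → St B.c (fun i x => (B.b i x)⁻¹) →
    (∃ C : ℝ, ∀ i, ∀ x ∈ B.c.U i, 1 ≤ C * (B.c.M i * ‖crD (B.F i) x (B.z i) (B.w i)‖)) →
    (∀ i, ∀ x ∈ B.c.U i, 2 * |B.a i x| ≤ ‖B.m i x‖) → Nonempty (AData (B.pow d hd)) :=
  SmallAux1.small_adata

/-- Lower bound for `m`. -/
theorem small_m {ι : Type*} (B : Base ι)
    (h : ∃ C : ℝ, ∀ i, ∀ x ∈ B.c.U i, 1 ≤ C * (B.c.M i * ‖crD (B.F i) x (B.z i) (B.w i)‖)) :
    ∃ C : ℝ, ∀ i, ∀ x ∈ B.c.U i, B.g i x ≠ 0 ∧ 1 ≤ C * (B.c.M i ^ 4 * ‖B.m i x‖) ∧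
      1 ≤ C * (B.c.M i ^ 4 * |B.g i x|) :=
  SmallAux1.small_m B h

theorem small_step : ∃ c0 : ℕ, 1 ≤ c0 ∧ ∀ N : ℕ, ∃ K0 : ℕ, ∀ {ι : Type u} (B : Base ι),
    K0 ≤ B.K → (∀ i, ∀ x ∈ B.c.U i, B.b i x ≠ 0) → St B.c (fun i x => (B.b i x)⁻¹) →
    (∃ C : ℝ, ∀ i, ∀ x ∈ B.c.U i, 1 ≤ C * (B.c.M i * ‖crD (B.F i) x (B.z i) (B.w i)‖)) →
    (∀ i, B.κ i * B.c.M i ^ c0 ≤ 1) →
    ∃ u : ι → E → V4, (∀ i, ContDiff ℝ ∞ (u i)) ∧ (∀ i x, B.χ i x = 0 → u i x = 0) ∧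
      Cl (B.c.pow c0) 1 B.κ u ∧ Cl (B.c.pow c0) 0 (fun i => (B.c.M i ^ N)⁻¹) (B.err u) := by
  classical
  obtain ⟨d, hd, hA⟩ := small_adata.{u}
  obtain ⟨c, -, hS⟩ := stepA.{u}
  refine ⟨max 6 (d * (2 * c + 1)), le_max_of_le_left (by norm_num), fun N => ?_⟩
  obtain ⟨K0, -, hS⟩ := hS N
  refine ⟨K0, fun {ι} B hK hb hbi hcr hκ => ?_⟩
  obtain ⟨M0, hM0⟩ := SmallAuxB.exists_M0 B (le_max_left _ _) hκ
    (let ⟨C, h⟩ := small_m B hcr; ⟨C, fun i x hx => (h i x hx).2.1⟩)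
  generalize hc0 : max 6 (d * (2 * c + 1)) = c0
  have hdc : d * (2 * c + 1) ≤ c0 := hc0 ▸ le_max_right _ _
  have hc1 : 1 ≤ c0 := hc0 ▸ le_max_of_le_left (by norm_num)
  have hM := B.c.hM
  have hM' : ∀ i, 0 < B.c.M i := fun i => zero_lt_one.trans_le (hM i)
  let B' := B.comap (Subtype.val : {i // M0 ≤ B.c.M i} → ι)
  obtain ⟨A⟩ := hA B' (fun i => hb i) (fun k => (hbi k).reindex _ (fun _ => Subset.rfl)
    fun _ => le_rfl) (let ⟨C, h⟩ := hcr; ⟨C, fun i => h i⟩) fun i => hM0 i i.2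
  have he : ∀ i, ((B.c.M i ^ d) ^ (c + 1))⁻¹ * (B.c.M i ^ d) ^ c = (B.c.M i ^ d)⁻¹ := fun i => by
    have := (hM' i).ne'
    field_simp
    ring
  have he1 : ∀ i, (B.c.M i ^ d)⁻¹ ≤ 1 := fun i => inv_le_one_of_one_le₀ (one_le_pow₀ (hM i))
  obtain ⟨u, hu, hu0, h1, h2, -⟩ := hS A (fun i => ((B.c.M i ^ d) ^ (c + 1))⁻¹)
    (fun i => by have := hM' i; positivity)
    (fun i => inv_le_one_of_one_le₀ (one_le_pow₀ (one_le_pow₀ (hM i)))) hK
    fun i => (he i).le.trans (he1 i)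
  have hsc : ∀ i, (B.c.M i ^ d) ^ c / ((B.c.M i ^ d) ^ (c + 1))⁻¹ ≤ B.c.M i ^ c0 := fun i => by
    rw [div_inv_eq_mul, ← pow_add, ← pow_mul]
    exact pow_le_pow_right₀ (hM i) (le_trans (le_of_eq (by ring)) hdc)
  refine ⟨fun i => if h : M0 ≤ B.c.M i then u ⟨i, h⟩ else fun _ => 0, fun i => ?_,
    fun i x hx => ?_, SmallAuxB.glue (fun i => M0 ≤ B.c.M i) (fun k => ?_) fun k => ?_,
    SmallAuxB.glue (fun i => M0 ≤ B.c.M i) (fun k => ?_) fun k => ?_⟩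
  · beta_reduce
    split_ifs with h
    · exact hu _
    · exact contDiff_const
  · beta_reduce
    split_ifs with h
    · have := norm_eq_zero.2 (hu0 ⟨i, h⟩ x hx 0 (by norm_num))
      rwa [norm_iteratedFDeriv_zero, norm_eq_zero] at this
    · rfl
  · refine (((h1 k).ctx (c' := (B.c.pow c0).comap Subtype.val) (fun _ => Subset.rfl)
      fun i => hsc i).size (fun i => (B.κ0 i).le) (C := 1) fun i => ?_).congr
      fun i x _ => by rw [dif_pos i.2]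
    change B.κ i * ((B.c.M i ^ d) ^ (c + 1))⁻¹ * (B.c.M i ^ d) ^ c * (B.c.M i ^ c0) ^ 0 ≤
      1 * (B.κ i * (B.c.M i ^ c0) ^ 1)
    rw [pow_zero, mul_one, one_mul, pow_one, mul_assoc, he]
    exact mul_le_mul_of_nonneg_left ((he1 i).trans (one_le_pow₀ (hM i))) (B.κ0 i).le
  · refine ((Bd.const (a := fun _ => (0 : V4)) (fun i => (B.κ0 _).le) (C := 0)
      fun i => by simp).mono le_rfl zero_le_one).congr fun i x _ => ?_
    rw [dif_neg i.2]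
  · refine (((h2 k).ctx (c' := (B.c.pow c0).comap Subtype.val) (fun _ => Subset.rfl)
      fun i => hsc i).size (fun i => by have := hM' i; positivity) (C := 1) fun i => ?_).congr
      fun i x _ => by simp only [Base.err, dif_pos i.2]; rfl
    change (((B.c.M i ^ d) ^ (c + 1))⁻¹ * (B.c.M i ^ d) ^ c) ^ N * (B.c.M i ^ c0) ^ 0 ≤
      1 * ((B.c.M i ^ N)⁻¹ * (B.c.M i ^ c0) ^ 0)
    rw [pow_zero, mul_one, one_mul, mul_one, he, inv_pow]
    exact inv_anti₀ (pow_pos (hM' i) _)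
      (pow_le_pow_left₀ (hM' i).le (le_self_pow₀ (hM i) (by omega)) _)
  · refine (((SmallAuxB.cl_err_zero B k).reindex Subtype.val
      (c' := (B.c.pow c0).comap (Subtype.val : {i // ¬ M0 ≤ B.c.M i} → ι)) (fun _ => Subset.rfl)
      fun i => le_self_pow₀ (hM i) (by omega)).size (fun i => by have := hM' i; positivity)
      (C := M0 ^ (c0 * 2 + N)) fun i => ?_).congr
      fun i x _ => by simp only [Base.err, dif_neg i.2]
    change 1 * (B.c.M i ^ c0) ^ 2 ≤ M0 ^ (c0 * 2 + N) * ((B.c.M i ^ N)⁻¹ * (B.c.M i ^ c0) ^ 0)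
    rw [pow_zero, mul_one, one_mul, ← div_eq_mul_inv, le_div_iff₀ (pow_pos (hM' i) _), ← pow_mul,
      ← pow_add]
    exact pow_le_pow_left₀ (hM' i).le (not_le.1 i.2).le _

end Crest.Agent.R216
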