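import Crest.Agent.R216.PatchL
import Crest.Agent.R216.Small

/-!
# Row 216: `patch_step` and `Patch.exists_near`
-/

set_option autoImplicit false
set_option linter.unusedSectionVars false

noncomputable section

namespace Crest.Agent.R216.ColStepAux1

open Set Metric Filter
open scoped ContDiff Topology RealInnerProductSpace

universe u

theorem indE_congr {F F' : E → V4} {x : E} (h : F =ᶠ[𝓝 x] F') : indE F =ᶠ[𝓝 x] indE F' := by
  filter_upwards [h.fderiv (𝕜 := ℝ)] with y hy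
  rw [indE, indE, hy]

theorem patch_step (d : ℕ) (hd : 1 ≤ d) : ∃ d' : ℕ, d ≤ d' ∧ ∀ N : ℕ, ∃ K0 : ℕ, 1 ≤ K0 ∧ ∀ K, K0 ≤ K →
    ∀ {ι : Type u} (σ : Sc ι) (H : ι → E → V4) (P : Patch σ H d) (b : P.J → E → ℝ) (κ : ι → ℝ),
      P.Amp b → (∀ i, 0 < κ i) → (∀ i, κ i * σ.M i ^ d' ≤ 1) →
      Cl ((σ.pow d).ctx (ball 0 2) isOpen_ball) 1 (fun _ => 1) (fun i => fderiv ℝ (H i)) →
      (∀ i, ContDiffOn ℝ ∞ (H i) (ball 0 2)) →
      ∃ u : ι → E → V4, (∀ i, ContDiff ℝ ∞ (u i)) ∧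
        (∀ i, ∀ x ∉ closedBall (0 : E) (3 / 2), u i x = 0) ∧
        Cl ((σ.pow d').ctx (ball 0 2) isOpen_ball) 1 κ u ∧
        Cl ((σ.pow d').ctx (ball 0 2) isOpen_ball) 0 (fun i => (σ.M i ^ N)⁻¹) fun i x =>
          indE (fun y => H i y + u i y) x - indE (H i) x - κ i ^ 2 • P.T K b i x := by
  obtain ⟨c0, hc0, hs⟩ := small_step.{u}
  refine ⟨d * c0, Nat.le_mul_of_pos_right d hc0, fun N => ?_⟩
  obtain ⟨K0, hK0⟩ := hs N
  refine ⟨K0 + 1, by omega, fun K hK ι σ H P b κ hb κ0 κ1 hH hs => ?_⟩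
  let B : Base P.J :=
    { c := P.ctx d, w := P.w, z := P.z, ξ := P.ξ, η := P.η, bw := P.bw, bz := P.bz, bξ := P.bξ,
      bη := P.bη, ξz := P.ξz, ξw := P.ξw, ηz := P.ηz, ηw := P.ηw, F := fun j => H (P.pr j),
      smF := fun j => (hs (P.pr j)).mono ((P.sub j).trans (ball_subset_ball (by norm_num))),
      stF := fun k => P.bd_pr (hH k), χ := P.χ, smχ := P.smχ, suppχ := P.suppχ, clχ := P.clχ,
      κ := fun j => κ (P.pr j), κ0 := fun j => κ0 _,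
      κ1 := fun j => (le_mul_of_one_le_right (κ0 _).le (one_le_pow₀ (σ.hM _))).trans (κ1 _),
      K := K, b := b, stb := hb.st }
  obtain ⟨v, v1, v2, v3, v4⟩ := hK0 B (by change K0 ≤ K; omega) hb.ne hb.sti P.nd
    fun j => by
      change κ (P.pr j) * (σ.M (P.pr j) ^ d) ^ c0 ≤ 1
      rw [← pow_mul]
      exact κ1 _
  have hM : ∀ j, (B.c.pow c0).M j ≤ (P.ctx (d * c0)).M j := fun j => (pow_mul _ _ _).ge
  have t0 : ∀ j x, P.χ j x = 0 → (P.χ j x ^ K * b j x) ^ 2 • tp (P.ξ j) (P.ξ j) = 0 :=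
    fun j x h => by
      rw [h, zero_pow (by omega), zero_mul, zero_pow two_ne_zero]
      ext v w
      simp
  refine ⟨P.sum v, fun i => ContDiff.sum fun j _ => v1 j, fun i x hx => P.sum_eq_zero v2 i hx,
    fun k => P.bd_sum v2 (fun i => (κ0 i).le) ((v3 k).ctx (fun _ => Subset.rfl) hM) _,
    fun k => Bd.of_local (v4 k) (fun i => inv_nonneg.2 (pow_nonneg (by linarith [σ.hM i]) _))
      fun i x _ => ?_⟩
  by_cases hx : ∃ j, P.pr j = i ∧ x ∈ P.U j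
  · obtain ⟨j, rfl, hx⟩ := hx
    refine Or.inr ⟨j, hx, ?_, ?_, hM j⟩
    · have e1 : (fun y => H (P.pr j) y + P.sum v (P.pr j) y) =ᶠ[𝓝 x]
          fun y => H (P.pr j) y + v j y := by
        filter_upwards [P.sum_eventuallyEq v2 j hx] with y hy
        rw [hy]
      filter_upwards [indE_congr e1, P.sum_eventuallyEq (V := Bil)
        (u := fun j x => (P.χ j x ^ K * b j x) ^ 2 • tp (P.ξ j) (P.ξ j)) t0 j hx] with y h1 h2
      rw [h1, Patch.T, h2, smul_smul, ← mul_pow, ← mul_assoc]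
      rfl
    · change ((σ.M (P.pr j) ^ d) ^ N)⁻¹ ≤ (σ.M (P.pr j) ^ N)⁻¹
      have := σ.hM (P.pr j)
      exact inv_anti₀ (by positivity)
        (pow_le_pow_left₀ (by positivity) (le_self_pow₀ this (by omega)) N)
  · have hx' : ∀ j, P.pr j = i → x ∉ P.U j := fun j h1 h2 => hx ⟨j, h1, h2⟩
    have e1 : (fun y => H i y + P.sum v i y) =ᶠ[𝓝 x] H i := by
      filter_upwards [P.sum_eventually_zero v2 i hx'] with y hy
      rw [hy, add_zero]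
    refine Or.inl ?_
    filter_upwards [indE_congr e1, P.sum_eventually_zero (V := Bil)
      (u := fun j x => (P.χ j x ^ K * b j x) ^ 2 • tp (P.ξ j) (P.ξ j)) t0 i hx'] with y h1 h2
    rw [h1, Patch.T, h2]
    ext v w
    simp

theorem cr_near {a b c a' b' c' : V4} {C N : ℝ} (hC : 0 ≤ C) (hN : 1 ≤ N) (ha : ‖a‖ ≤ C * N ^ 2)
    (hb : ‖b‖ ≤ C * N ^ 2) (hc : ‖c‖ ≤ C * N ^ 3) (ha' : ‖a - a'‖ ≤ C * (N ^ 7)⁻¹)
    (hb' : ‖b - b'‖ ≤ C * (N ^ 7)⁻¹) (hc' : ‖c - c'‖ ≤ C * (N ^ 7)⁻¹) :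
    N * ‖cr a' b' c'‖ ≤ N * ‖cr a b c‖ + 7 * C ^ 3 / N := by
  have h7 : (N ^ 7)⁻¹ ≤ 1 := inv_le_one_of_one_le₀ (one_le_pow₀ hN)
  have hb2 : ‖b'‖ ≤ 2 * C * N ^ 2 := by
    have := norm_sub_le b (b - b')
    rw [sub_sub_cancel] at this
    nlinarith [mul_le_mul_of_nonneg_left (h7.trans (one_le_pow₀ (n := 2) hN)) hC]
  have hc2 : ‖c'‖ ≤ 2 * C * N ^ 3 := by
    have := norm_sub_le c (c - c')
    rw [sub_sub_cancel] at this
    nlinarith [mul_le_mul_of_nonneg_left (h7.trans (one_le_pow₀ (n := 3) hN)) hC]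
  have h1 := norm_cr_sub_le a b c a' b' c'
  rw [norm_sub_rev a', norm_sub_rev b', norm_sub_rev c'] at h1
  have h2 : ‖a - a'‖ * ‖b'‖ * ‖c'‖ + ‖a‖ * ‖b - b'‖ * ‖c'‖ + ‖a‖ * ‖b‖ * ‖c - c'‖ ≤
      C * (N ^ 7)⁻¹ * (2 * C * N ^ 2) * (2 * C * N ^ 3) +
        C * N ^ 2 * (C * (N ^ 7)⁻¹) * (2 * C * N ^ 3) + C * N ^ 2 * (C * N ^ 3) * (C * (N ^ 7)⁻¹) := by
    have hb3 : ‖b‖ ≤ C * N ^ 3 :=
      hb.trans (mul_le_mul_of_nonneg_left (pow_le_pow_right₀ hN (by norm_num)) hC)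
    gcongr
  have h3 := norm_le_norm_add_norm_sub' (cr a' b' c') (cr a b c)
  have e : N * (C * (N ^ 7)⁻¹ * (2 * C * N ^ 2) * (2 * C * N ^ 3) +
      C * N ^ 2 * (C * (N ^ 7)⁻¹) * (2 * C * N ^ 3) + C * N ^ 2 * (C * N ^ 3) * (C * (N ^ 7)⁻¹)) =
      7 * C ^ 3 / N := by
    field_simp
    ring
  nlinarith [mul_le_mul_of_nonneg_left (h1.trans h2) (by linarith : 0 ≤ N)]

theorem near_nd {ι : Type u} {σ : Sc ι} {H0 H : ι → E → V4} {d0 d : ℕ} (hd : d0 ≤ d)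
    (hd1 : 1 ≤ d) (P : Patch σ H0 d0) (h0 : ∀ i, ContDiffOn ℝ ∞ (H0 i) (ball 0 2))
    (hH : Bd ((σ.pow d).ctx (ball 0 2) isOpen_ball) 2 1 (fun _ => 1) H)
    (hc : Bd ((Sc.one ι).ctx (ball 0 2) isOpen_ball) 2 0 (fun i => (σ.M i ^ (7 * d))⁻¹)
      fun i x => H i x - H0 i x) :
    ∃ Λ C : ℝ, ∀ j, Λ ≤ σ.M (P.pr j) → ∀ x ∈ P.U j,
      1 ≤ C * (σ.M (P.pr j) ^ d * ‖crD (H (P.pr j)) x (P.z j) (P.w j)‖) := by
  obtain ⟨C0, hC0⟩ := P.nd
  obtain ⟨C1, hC1⟩ := hH.le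
  obtain ⟨C2, hC2⟩ := hc.le
  obtain ⟨Cw, hw⟩ := P.bw
  obtain ⟨Cz, hz⟩ := P.bz
  set D := 1 + |Cw| + |Cz| with hD
  set C := (|C1| + |C2|) * D ^ 2 with hC
  have D1 : 1 ≤ D := by linarith [abs_nonneg Cw, abs_nonneg Cz]
  refine ⟨14 * |C0| * C ^ 3, 2 * |C0|, fun j hΛ x hx => ?_⟩
  have hx2 : x ∈ ball (0 : E) 2 := ball_subset_ball (by norm_num) (P.sub j hx)
  have hM := σ.hM (P.pr j)
  set N := σ.M (P.pr j) ^ d with hN
  have N1 : 1 ≤ N := one_le_pow₀ hM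
  have w1 : ‖P.w j‖ ≤ D := by linarith [hw j, le_abs_self Cw, abs_nonneg Cz]
  have z1 : ‖P.z j‖ ≤ D := by linarith [hz j, le_abs_self Cz, abs_nonneg Cw]
  have s1 : ContDiffAt ℝ ∞ (H (P.pr j)) x := (hH.sm _).contDiffAt (isOpen_ball.mem_nhds hx2)
  have s0 : ContDiffAt ℝ ∞ (H0 (P.pr j)) x := (h0 _).contDiffAt (isOpen_ball.mem_nhds hx2)
  have b1 : ∀ m ≤ 2, ‖iteratedFDeriv ℝ m (H (P.pr j)) x‖ ≤ (|C1| + |C2|) * N ^ (1 + m) :=
    fun m hm => (hC1 _ m hm x hx2).trans (by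
      change C1 * (1 * N ^ (1 + m)) ≤ _
      rw [one_mul]
      exact mul_le_mul_of_nonneg_right (by linarith [le_abs_self C1, abs_nonneg C2])
        (by positivity))
  have b2 : ∀ m ≤ 2, ‖iteratedFDeriv ℝ m (fun y => H (P.pr j) y - H0 (P.pr j) y) x‖ ≤
      (|C1| + |C2|) * (N ^ 7)⁻¹ := fun m hm => (hC2 _ m hm x hx2).trans (by
    change C2 * ((σ.M (P.pr j) ^ (7 * d))⁻¹ * 1 ^ (0 + m)) ≤ _
    rw [one_pow, mul_one, mul_comm 7 d, pow_mul]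
    exact mul_le_mul_of_nonneg_right (by linarith [le_abs_self C2, abs_nonneg C1])
      (by positivity))
  have k1 : ∀ (f : E → V4) (v : E) (A : ℝ), 0 ≤ A → ‖v‖ ≤ D →
      ‖iteratedFDeriv ℝ 1 f x‖ ≤ (|C1| + |C2|) * A → ‖dd v f x‖ ≤ C * A := fun f v A hA hv h =>
    (norm_dd_le f x v).trans ((mul_le_mul h (hv.trans (le_self_pow₀ D1 two_ne_zero))
      (norm_nonneg _) (by positivity)).trans_eq (by rw [hC]; ring))
  have k2 : ∀ (f : E → V4) (A : ℝ), 0 ≤ A → ContDiffAt ℝ ∞ f x →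
      ‖iteratedFDeriv ℝ 2 f x‖ ≤ (|C1| + |C2|) * A → ‖dd (P.w j) (dd (P.w j) f) x‖ ≤ C * A :=
    fun f A hA hf h => (norm_dd_dd_le hf _ _).trans ((mul_le_mul (mul_le_mul h w1
      (norm_nonneg _) (by positivity)) w1 (norm_nonneg _) (by positivity)).trans_eq
        (by rw [hC]; ring))
  have d1 := s1.differentiableAt (by simp)
  have d0' := s0.differentiableAt (by simp)
  have key := cr_near (a' := dd (P.w j) (H0 (P.pr j)) x) (b' := dd (P.z j) (H0 (P.pr j)) x)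
    (c' := dd (P.w j) (dd (P.w j) (H0 (P.pr j))) x) (by positivity) N1
    (k1 _ _ _ (by positivity) w1 (b1 1 (by norm_num)))
    (k1 _ _ _ (by positivity) z1 (b1 1 (by norm_num)))
    (k2 _ _ (by positivity) s1 (b1 2 le_rfl))
    (by rw [← dd_sub d1 d0']; exact k1 _ _ _ (by positivity) w1 (b2 1 (by norm_num)))
    (by rw [← dd_sub d1 d0']; exact k1 _ _ _ (by positivity) z1 (b2 1 (by norm_num)))
    (by
      have := k2 _ _ (by positivity) (s1.sub s0) (b2 2 le_rfl)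
      rw [dd_dd_eq (s1.sub s0)] at this
      rw [dd_dd_eq s1, dd_dd_eq s0, ← _root_.sub_apply,
        ← iteratedFDeriv_sub_apply (s1.of_le (by norm_cast)) (s0.of_le (by norm_cast))]
      exact this)
  have h1 : 1 ≤ |C0| * (N * ‖crD (H0 (P.pr j)) x (P.z j) (P.w j)‖) :=
    (hC0 j x hx).trans (mul_le_mul (le_abs_self _) (mul_le_mul_of_nonneg_right
      (pow_le_pow_right₀ hM hd) (norm_nonneg _)) (by positivity) (abs_nonneg _))
  have h2 : |C0| * (7 * C ^ 3 / N) ≤ 1 / 2 := by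
    rw [← mul_div_assoc, div_le_iff₀ (by linarith)]
    linarith [le_self_pow₀ hM (by omega : d ≠ 0)]
  have h3 := mul_le_mul_of_nonneg_left key (abs_nonneg C0)
  rw [crD] at h1 ⊢
  linarith

theorem exists_near {ι : Type u} {σ : Sc ι} {H0 H : ι → E → V4} {d0 d : ℕ} (hd : d0 ≤ d)
    (hd1 : 1 ≤ d) (P : Patch σ H0 d0) {b : P.J → E → ℝ} (hb : P.Amp b)
    (h0 : ∀ i, ContDiffOn ℝ ∞ (H0 i) (ball 0 2))
    (hH : Bd ((σ.pow d).ctx (ball 0 2) isOpen_ball) 2 1 (fun _ => 1) H)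
    (hc : Bd ((Sc.one ι).ctx (ball 0 2) isOpen_ball) 2 0 (fun i => (σ.M i ^ (7 * d))⁻¹)
      fun i x => H i x - H0 i x) :
    ∃ Λ : ℝ, ∃ P' : Patch (σ.comap (Subtype.val : {i // Λ ≤ σ.M i} → ι)) (fun i => H i.1) d,
      ∃ b' : P'.J → E → ℝ, P'.Amp b' ∧ ∀ K i x, P'.T K b' i x = P.T K b i.1 x := by
  obtain ⟨Λ, C, hnd⟩ := near_nd hd hd1 P h0 hH hc
  have hM : ∀ j : {j : P.J // Λ ≤ σ.M (P.pr j)}, σ.M (P.pr j.1) ^ d0 ≤ σ.M (P.pr j.1) ^ d :=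
    fun j => pow_le_pow_right₀ (σ.hM _) hd
  let P' : Patch (σ.comap (Subtype.val : {i // Λ ≤ σ.M i} → ι)) (fun i => H i.1) d :=
    { J := {j : P.J // Λ ≤ σ.M (P.pr j)}
      pr := fun j => ⟨P.pr j.1, j.2⟩
      fin := fun i => ((P.fin i.1).preimage Subtype.val_injective.injOn).subset
        fun j hj => congrArg Subtype.val hj
      U := fun j => P.U j.1
      hU := fun j => P.hU j.1
      sub := fun j => P.sub j.1
      disj := fun j j' h1 h2 => P.disj j.1 j'.1 (fun h => h1 (Subtype.ext h))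
        (congrArg Subtype.val h2)
      w := fun j => P.w j.1
      z := fun j => P.z j.1
      ξ := fun j => P.ξ j.1
      η := fun j => P.η j.1
      bw := let ⟨C, h⟩ := P.bw; ⟨C, fun j => h j.1⟩
      bz := let ⟨C, h⟩ := P.bz; ⟨C, fun j => h j.1⟩
      bξ := let ⟨C, h⟩ := P.bξ; ⟨C, fun j => h j.1⟩
      bη := let ⟨C, h⟩ := P.bη; ⟨C, fun j => h j.1⟩
      ξz := fun j => P.ξz j.1
      ξw := fun j => P.ξw j.1
      ηz := fun j => P.ηz j.1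
      ηw := fun j => P.ηw j.1
      χ := fun j => P.χ j.1
      smχ := fun j => P.smχ j.1
      suppχ := fun j => P.suppχ j.1
      χ0 := fun j => P.χ0 j.1
      χ1 := fun j => P.χ1 j.1
      clχ := fun k => (P.clχ k).reindex Subtype.val (fun _ => Subset.rfl) hM
      nd := ⟨C, fun j => hnd j.1 j.2⟩ }
  refine ⟨Λ, P', fun j => b j.1, ⟨fun j => hb.ne j.1,
    fun k => (hb.st k).reindex Subtype.val (fun _ => Subset.rfl) hM,
    fun k => (hb.sti k).reindex Subtype.val (fun _ => Subset.rfl) hM⟩, fun K i x => ?_⟩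
  refine Finset.sum_bij (fun j _ => j.1) (fun j hj => ?_) (fun _ _ _ _ h => Subtype.ext h)
    (fun j hj => ?_) fun _ _ => rfl
  · rw [Set.Finite.mem_toFinset] at hj ⊢
    exact congrArg Subtype.val hj
  · rw [Set.Finite.mem_toFinset] at hj
    have hj' : P.pr j = i.1 := hj
    exact ⟨⟨j, hj' ▸ i.2⟩, (Set.Finite.mem_toFinset _).2 (Subtype.ext hj'), rfl⟩

end Crest.Agent.R216.ColStepAux1
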