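import Crest.Agent.R216.MDefs

/-!
# Row 216: auxiliary lemmas for part A of `MCl.lean`
-/

set_option autoImplicit false
set_option linter.unusedSectionVars false
set_option maxSynthPendingDepth 3

noncomputable section

namespace Crest.Agent.R216.MClA

open Set Metric Filter
open scoped Manifold ContDiff Topology RealInnerProductSpace

section flat

variable {ι X V : Type*} [NormedAddCommGroup X] [NormedSpace ℝ X] [NormedAddCommGroup V]
  [NormedSpace ℝ V] {σ σ' : Sc ι} {U : Set X} {hU : IsOpen U} {k j j' : ℕ} {A A' : ι → ℝ}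
  {f : ι → X → V}

theorem scale (h : Bd (σ.ctx U hU) k j A f) (h0 : ∀ i, 0 ≤ A' i) {C : ℝ}
    (hA : ∀ i, ∀ m ≤ k, A i * σ.M i ^ (j + m) ≤ C * (A' i * σ'.M i ^ (j' + m))) :
    Bd (σ'.ctx U hU) k j' A' f := by
  obtain ⟨D, hD, hb⟩ := ClA1.le' h
  refine ⟨h0, h.sm, D * C, fun i m hm x hx => (hb i m hm x hx).trans ?_⟩
  rw [mul_assoc D]
  exact mul_le_mul_of_nonneg_left (hA i m hm) hD

theorem cases {P : ι → Prop} (S : ι → Prop) (h : ∀ i : {i // S i}, P i.1)
    (h' : ∀ i : {i // ¬S i}, P i.1) (i : ι) : P i := by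
  by_cases hi : S i
  · exact h ⟨i, hi⟩
  · exact h' ⟨i, hi⟩

theorem of_cases (S : ι → Prop)
    (h : Bd ((σ.comap (Subtype.val : {i // S i} → ι)).ctx U hU) k j (fun i => A i.1)
      fun i => f i.1)
    (h' : Bd ((σ.comap (Subtype.val : {i // ¬S i} → ι)).ctx U hU) k j (fun i => A i.1)
      fun i => f i.1) : Bd (σ.ctx U hU) k j A f := by
  obtain ⟨C, hC⟩ := h.le
  obtain ⟨C', hC'⟩ := h'.le
  refine ⟨cases S h.nonneg h'.nonneg, cases (P := fun i => ContDiffOn ℝ ∞ (f i) U) S h.sm h'.sm,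
    max C C', fun i m hm x hx => ?_⟩
  by_cases hi : S i
  · exact (hC ⟨i, hi⟩ m hm x hx).trans
      (mul_le_mul_of_nonneg_right (le_max_left _ _) (ClA2.w_nonneg h ⟨i, hi⟩ _))
  · exact (hC' ⟨i, hi⟩ m hm x hx).trans
      (mul_le_mul_of_nonneg_right (le_max_right _ _) (ClA2.w_nonneg h' ⟨i, hi⟩ _))

/-- The polarised induced form as a bilinear map of the differentials. -/
def bil : (E →L[ℝ] V4) →L[ℝ] (E →L[ℝ] V4) →L[ℝ] Bil :=
  ((innerSL ℝ : V4 →L[ℝ] V4 →L[ℝ] ℝ).precompR E).precompL E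

theorem bil_apply (a b : E →L[ℝ] V4) (v w : E) : bil a b v w = ⟪a v, b w⟫ := rfl

theorem bd_bil {c : Ctx ι E} {F F' : ι → E → V4} (h : Bd c (k + 1) j A F)
    (h' : Bd c (k + 1) j' A' F') : Bd c k (j + j' + 2) (fun i => A i * A' i)
      fun i x => bil (fderiv ℝ (F i) x) (fderiv ℝ (F' i) x) :=
  (Bd.bilin (V := E →L[ℝ] V4) (W := E →L[ℝ] V4) (Z := Bil) bil h.fderiv h'.fderiv).mono le_rfl
    (by omega)

end flat

variable {M : Type*} [TopologicalSpace M] [ChartedSpace E M] [IsManifold (𝓡 2) ∞ M]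

theorem pull_add (c : Ch M) (G G' : M → Bil) (x : E) :
    c.pull (fun p => G p + G' p) x = c.pull G x + c.pull G' x := by
  ext1 v; ext1 w; simp [Ch.pull]

theorem pull_sub (c : Ch M) (G G' : M → Bil) (x : E) :
    c.pull (fun p => G p - G' p) x = c.pull G x - c.pull G' x := by
  ext1 v; ext1 w; simp [Ch.pull]

theorem pull_neg (c : Ch M) (G : M → Bil) (x : E) :
    c.pull (fun p => -G p) x = -c.pull G x := by
  ext1 v; ext1 w; simp [Ch.pull]

theorem pull_smul (c : Ch M) (a : M → ℝ) (G : M → Bil) (x : E) :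
    c.pull (fun p => a p • G p) x = c.rd a x • c.pull G x := by
  ext1 v; ext1 w; simp [Ch.pull, Ch.rd]

theorem pull_sum (c : Ch M) {α : Type*} (s : Finset α) (G : α → M → Bil) (x : E) :
    c.pull (fun p => ∑ a ∈ s, G a p) x = ∑ a ∈ s, c.pull (G a) x := by
  ext1 v; ext1 w; simp [Ch.pull]

theorem smT_neg {T : M → Bil} (h : SmT T) : SmT fun p => -T p :=
  fun c => (h c).neg.congr fun x _ => pull_neg c T x

theorem pull_indB (c : Ch M) {F F' : M → V4} (hF : Sm F) (hF' : Sm F') {x : E}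
    (hx : x ∈ c.e.target) :
    c.pull (indB F F') x = bil (fderiv ℝ (c.rd F) x) (fderiv ℝ (c.rd F') x) := by
  ext1 v
  ext1 w
  rw [bil_apply, c.fderiv_rd hF hx, c.fderiv_rd hF' hx]
  rfl

theorem smT_indB {F F' : M → V4} (hF : Sm F) (hF' : Sm F') : SmT (indB F F') := fun c => by
  have h1 := (c.contDiffOn_rd hF).fderiv_of_isOpen (m := ∞) c.e.open_target (by simp)
  have h2 := (c.contDiffOn_rd hF').fderiv_of_isOpen (m := ∞) c.e.open_target (by simp)
  exact ((bil.contDiff.comp_contDiffOn h1).clm_apply h2).congr fun x hx => pull_indB c hF hF' hx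

theorem dM_sub {V : Type*} [NormedAddCommGroup V] [NormedSpace ℝ V] {F F' : M → V} (hF : Sm F)
    (hF' : Sm F') (p : M) : dM (fun q => F q - F' q) p = dM F p - dM F' p :=
  (((hF p).mdifferentiableAt (by simp)).hasMFDerivAt.sub
    ((hF' p).mdifferentiableAt (by simp)).hasMFDerivAt).mfderiv

theorem dP_inj (c : Ch M) {x : E} (hx : x ∈ c.e.target) : Function.Injective (c.dP x) :=
  Function.LeftInverse.injective (c.dQ_dP hx)

end Crest.Agent.R216.MClA
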