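import Crest.Agent.R216.MDefs

/-!
# Row 216: transfer of the classes between charts (proofs of Part B of `MCl`)
-/

set_option autoImplicit false
set_option linter.unusedSectionVars false

noncomputable section

namespace Crest.Agent.R216.MClAuxB

open Set Metric Filter
open scoped Manifold ContDiff Topology RealInnerProductSpace

universe u

variable {M : Type u} [TopologicalSpace M] [T2Space M] [ChartedSpace E M] [IsManifold (𝓡 2) ∞ M]

variable {ι : Type*} {V : Type} [NormedAddCommGroup V] [NormedSpace ℝ V]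
  {σ : Sc ι} {k j : ℕ} {A : ι → ℝ} {f : ι → M → V} {T : ι → M → Bil}

theorem glue {g : ι → E → V} (h0 : ∀ i, 0 ≤ A i) {U K : Set E} (hU : IsOpen U) (hK : IsCompact K)
    (hUK : U ⊆ K) (h : ∀ x ∈ K, ∃ (O : Set E) (hO : IsOpen O), x ∈ O ∧ Bd (σ.ctx O hO) k j A g) :
    Bd (σ.ctx U hU) k j A g := by
  have hw : ∀ i n, 0 ≤ A i * σ.M i ^ n := fun i n =>
    mul_nonneg (h0 i) (pow_nonneg (zero_le_one.trans (σ.hM i)) _)
  obtain ⟨C, hC⟩ := hK.induction_on (p := fun S => ∃ C : ℝ, ∀ i, ∀ m ≤ k, ∀ x ∈ S,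
      ‖iteratedFDeriv ℝ m (g i) x‖ ≤ C * (A i * σ.M i ^ (j + m)))
    ⟨0, fun _ _ _ _ hx => hx.elim⟩
    (fun s t hst ⟨C, hC⟩ => ⟨C, fun i m hm x hx => hC i m hm x (hst hx)⟩)
    (fun s t ⟨C, hC⟩ ⟨C', hC'⟩ => ⟨max C C', fun i m hm x hx => hx.elim
      (fun hx => (hC i m hm x hx).trans (mul_le_mul_of_nonneg_right (le_max_left _ _) (hw _ _)))
      fun hx => (hC' i m hm x hx).trans (mul_le_mul_of_nonneg_right (le_max_right _ _) (hw _ _))⟩)
    fun x hx => by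
      obtain ⟨O, hO, h1, h2⟩ := h x hx
      exact ⟨O, mem_nhdsWithin_of_mem_nhds (hO.mem_nhds h1), h2.le⟩
  refine ⟨h0, fun i x hx => ?_, C, fun i m hm x hx => hC i m hm x (hUK hx)⟩
  obtain ⟨O, hO, h1, h2⟩ := h x (hUK hx)
  exact ((h2.sm i).contDiffAt (hO.mem_nhds h1)).contDiffWithinAt

theorem loc (c c' : Ch M) {x : E} (hx : x ∈ c.e.target) (hx' : c.e.symm x ∈ c'.e.source)
    {O' : Set E} {hO' : IsOpen O'} (hxO : c.tr c' x ∈ O') {g : ι → E → V}
    (h : Bd (σ.ctx O' hO') k j A g) :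
    ∃ (O : Set E) (hO : IsOpen O), x ∈ O ∧ O ⊆ c.e.target ∩ c.e.symm ⁻¹' c'.e.source ∧
      Bd (σ.ctx O hO) k j A (fun i y => g i (c.tr c' y)) ∧
      Bd (σ.ctx O hO) k 0 (fun _ => 1) fun _ => fderiv ℝ (c.tr c') := by
  have hD := (c.contDiffOn_tr c').continuousOn.isOpen_inter_preimage (c.isOpen_tr c') hO'
  obtain ⟨r, hr, hs⟩ := nhds_basis_closedBall.mem_iff.1 (hD.mem_nhds ⟨⟨hx, hx'⟩, hxO⟩)
  have h1 : closedBall x r ⊆ c.e.target ∩ c.e.symm ⁻¹' c'.e.source := fun y hy => (hs hy).1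
  have h2 : Bd (σ.ctx (ball x r) isOpen_ball) (k + 1) 0 (fun _ => 1) fun _ => c.tr c' :=
    Bd.of_compact (c.isOpen_tr c') (c.contDiffOn_tr c') (isCompact_closedBall x r) h1
      fun _ => ball_subset_closedBall
  have h3 : Bd ((Sc.one Unit).ctx (ball x r) isOpen_ball) k 0 (fun _ => 1) fun _ => c.tr c' :=
    Bd.of_compact (c.isOpen_tr c') (c.contDiffOn_tr c') (isCompact_closedBall x r) h1
      fun _ => ball_subset_closedBall
  obtain ⟨C, hC⟩ := h3.le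
  refine ⟨ball x r, isOpen_ball, mem_ball_self hr, ball_subset_closedBall.trans h1, ?_, ?_⟩
  · refine (h.comp (c' := σ.ctx (ball x r) isOpen_ball) (N := fun _ => 1) (fun _ => le_rfl) h2.sm
      (fun _ y hy => (hs (ball_subset_closedBall hy)).2) ⟨C, fun i m _ hm y hy => ?_⟩
      fun i => (mul_one _).le).size h.nonneg (C := 1) fun i => by simp [Sc.ctx]
    simpa [Sc.ctx, Sc.one] using hC () m hm y hy
  · exact Bd.of_compact (c.isOpen_tr c')
      ((c.contDiffOn_tr c').fderiv_of_isOpen (c.isOpen_tr c') le_rfl)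
      (isCompact_closedBall x r) h1 fun _ => ball_subset_closedBall

theorem mb_of_loc (hs : ∀ i, Sm (f i)) (h0 : ∀ i, 0 ≤ A i)
    (h : ∀ p, ∃ (c : Ch M) (O : Set E) (hO : IsOpen O), p ∈ c.e.source ∧ c.e p ∈ O ∧
      Bd (σ.ctx O hO) k j A fun i => c.rd (f i)) : MB σ k j A f := by
  refine ⟨h0, hs, fun c U hU K hK hUK hKc => glue h0 hU hK hUK fun x hx => ?_⟩
  obtain ⟨c', O', hO', h1, h2, h3⟩ := h (c.e.symm x)
  obtain ⟨O, hO, h4, h5, h6, -⟩ := loc c c' (hKc hx) h1 h2 h3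
  refine ⟨O, hO, h4, h6.congr fun i y hy => ?_⟩
  simp only [Ch.rd, Ch.tr]
  rw [c'.e.left_inv (h5 hy).2]

theorem tb_of_loc (hs : ∀ i, SmT (T i)) (h0 : ∀ i, 0 ≤ A i)
    (h : ∀ p, ∃ (c : Ch M) (O : Set E) (hO : IsOpen O), p ∈ c.e.source ∧ c.e p ∈ O ∧
      Bd (σ.ctx O hO) k j A fun i => c.pull (T i)) : TB σ k j A T := by
  refine ⟨h0, hs, fun c U hU K hK hUK hKc => glue h0 hU hK hUK fun x hx => ?_⟩
  obtain ⟨c', O', hO', h1, h2, h3⟩ := h (c.e.symm x)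
  obtain ⟨O, hO, h4, h5, h6, h7⟩ := loc c c' (hKc hx) h1 h2 h3
  have h9 := h6.bilin (Z := Bil) (ContinuousLinearMap.compL ℝ E E (E →L[ℝ] ℝ)) h7
  have h10 := h7.clm (W := (E →L[ℝ] ℝ) →L[ℝ] E →L[ℝ] ℝ)
    (L := fun _ => (ContinuousLinearMap.compL ℝ E E ℝ).flip) ⟨_, fun _ => le_rfl⟩
  have h8 := h10.bilin (Z := Bil) (ContinuousLinearMap.compL ℝ E (E →L[ℝ] ℝ) (E →L[ℝ] ℝ)) h9
  refine ⟨O, hO, h4, (h8.size (j' := j) h0 (C := 1) fun i => by simp).congr fun i y hy => ?_⟩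
  rw [c.pull_tr c' (T i) (h5 hy).1 (h5 hy).2]
  ext v w
  rfl

theorem atl_pt (𝒜 : Atl M) (p : M) :
    ∃ a, p ∈ (𝒜.c a).e.source ∧ (𝒜.c a).e p ∈ ball (0 : E) 2 := by
  obtain ⟨a, -, ha⟩ := Finset.exists_ne_zero_of_sum_ne_zero ((𝒜.sum p).trans_ne one_ne_zero)
  obtain ⟨h1, h2⟩ := 𝒜.supp a p ha
  exact ⟨a, h1, mem_ball_zero_iff.2 (by linarith)⟩

theorem sm_target {U K W : Set E} (hU : IsOpen U) (hK : IsCompact K) (hKU : K ⊆ U) (hW : IsOpen W)
    {u : E → V} (h : ContDiffOn ℝ ∞ u U) (h0 : ∀ x ∈ W, x ∉ K → u x = 0) :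
    ContDiffOn ℝ ∞ u W := fun x hx => by
  refine ContDiffAt.contDiffWithinAt ?_
  by_cases hxK : x ∈ K
  · exact h.contDiffAt (hU.mem_nhds (hKU hxK))
  · refine (contDiffAt_const (c := (0 : V))).congr_of_eventuallyEq ?_
    filter_upwards [hW.mem_nhds hx, hK.isClosed.isOpen_compl.mem_nhds hxK] with y h1 h2
    exact h0 y h1 h2

theorem away (c : Ch M) {K : Set E} (hK : IsCompact K) (hKc : K ⊆ c.e.target) {p : M}
    (hp : p ∉ c.e.symm '' K) : ∃ (c' : Ch M) (O : Set E) (_ : IsOpen O), p ∈ c'.e.source ∧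
      c'.e p ∈ O ∧ ∀ y ∈ O, c'.e.symm y ∈ c.e.source → c.e (c'.e.symm y) ∉ K := by
  obtain ⟨c', hc'⟩ := exists_ch_chartAt p
  have h1 : p ∈ c'.e.source := hc' ▸ mem_chart_source E p
  have h2 : IsOpen (c.e.symm '' K)ᶜ :=
    (hK.image_of_continuousOn (c.e.continuousOn_symm.mono hKc)).isClosed.isOpen_compl
  refine ⟨c', _, c'.e.isOpen_inter_preimage_symm h2, h1, ⟨c'.e.map_source h1, ?_⟩,
    fun y hy h3 h4 => hy.2 ⟨_, h4, c.e.left_inv h3⟩⟩
  rwa [mem_preimage, c'.e.left_inv h1]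

theorem bd_zero {O : Set E} {hO : IsOpen O} (h0 : ∀ i, 0 ≤ A i) {g : ι → E → V}
    (h : ∀ i, ∀ y ∈ O, g i y = 0) : Bd (σ.ctx O hO) k j A g :=
  ((Bd.const (a := fun _ => (0 : V)) h0 (C := 0) fun i => by simp).mono le_rfl
    (Nat.zero_le _)).congr h

theorem mb_ext (c : Ch M) {U K : Set E} (hU : IsOpen U) (hK : IsCompact K) (hKU : K ⊆ U)
    (hUc : U ⊆ c.e.target) {u : ι → E → V} (h : Bd (σ.ctx U hU) k j A u)
    (h0 : ∀ i, ∀ x ∈ c.e.target, x ∉ K → u i x = 0) : MB σ k j A fun i => c.ext (u i) := by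
  refine mb_of_loc (fun i => c.sm_ext (sm_target hU hK hKU c.e.open_target (h.sm i) (h0 i)) hK
    (hKU.trans hUc) (h0 i)) h.nonneg fun p => ?_
  by_cases hp : p ∈ c.e.symm '' K
  · obtain ⟨x, hx, rfl⟩ := hp
    have hx' := hUc (hKU hx)
    exact ⟨c, U, hU, c.e.map_target hx', by rw [c.e.right_inv hx']; exact hKU hx,
      h.congr fun i y hy => c.rd_ext _ (hUc hy)⟩
  · obtain ⟨c', O, hO, h1, h2, h3⟩ := away c hK (hKU.trans hUc) hp
    refine ⟨c', O, hO, h1, h2, bd_zero h.nonneg fun i y hy => ?_⟩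
    simp only [Ch.rd, Ch.ext]
    split_ifs with h4
    exacts [h0 i _ (c.e.map_source h4) (h3 y hy h4), rfl]

theorem tb_push (c : Ch M) {U K : Set E} (hU : IsOpen U) (hK : IsCompact K) (hKU : K ⊆ U)
    (hUc : U ⊆ c.e.target) {t : ι → E → Bil} (h : Bd (σ.ctx U hU) k j A t)
    (h0 : ∀ i, ∀ x ∈ c.e.target, x ∉ K → t i x = 0) : TB σ k j A fun i => c.push (t i) := by
  refine tb_of_loc (fun i => c.smT_push (sm_target hU hK hKU c.e.open_target (h.sm i) (h0 i)) hK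
    (hKU.trans hUc) (h0 i)) h.nonneg fun p => ?_
  by_cases hp : p ∈ c.e.symm '' K
  · obtain ⟨x, hx, rfl⟩ := hp
    have hx' := hUc (hKU hx)
    exact ⟨c, U, hU, c.e.map_target hx', by rw [c.e.right_inv hx']; exact hKU hx,
      h.congr fun i y hy => c.pull_push _ (hUc hy)⟩
  · obtain ⟨c', O, hO, h1, h2, h3⟩ := away c hK (hKU.trans hUc) hp
    refine ⟨c', O, hO, h1, h2, bd_zero h.nonneg fun i y hy => ?_⟩
    simp only [Ch.pull, Ch.push]
    split_ifs with h4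
    · rw [h0 i _ (c.e.map_source h4) (h3 y hy h4)]
      ext v w
      rfl
    · ext v w
      rfl

theorem ind_ext (c : Ch M) {F : M → V4} (hF : Sm F) {u : E → V4}
    (hu : ContDiffOn ℝ ∞ u c.e.target) {K : Set E} (hK : IsCompact K) (hKc : K ⊆ c.e.target)
    (h0 : ∀ x ∈ c.e.target, x ∉ K → u x = 0) (p : M) :
    ind (fun q => F q + c.ext u q) p - ind F p =
      c.push (fun x => indE (fun y => c.rd F y + u y) x - indE (c.rd F) x) p := by
  by_cases hp : p ∈ c.e.source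
  · have hx := c.e.map_source hp
    refine c.eq_of_pull (T := fun p => ind (fun q => F q + c.ext u q) p - ind F p) hp ?_
    have e1 : (c.rd fun q => F q + c.ext u q) =ᶠ[𝓝 (c.e p)] fun y => c.rd F y + u y := by
      filter_upwards [c.e.open_target.mem_nhds hx] with y hy
      rw [← c.rd_ext u hy]
      rfl
    have e2 : indE (fun y => c.rd F y + u y) (c.e p) =
        indE (c.rd fun q => F q + c.ext u q) (c.e p) := by
      rw [indE, indE, e1.fderiv_eq]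
    rw [c.pull_push _ hx, e2, ← c.pull_ind hF hx,
      ← c.pull_ind (F := fun q => F q + c.ext u q) (hF.add (c.sm_ext hu hK hKc h0)) hx]
    ext v w
    rfl
  · have e1 : (fun q => F q + c.ext u q) =ᶠ[𝓝 p] F := by
      filter_upwards [c.ext_eventually_zero hK hKc h0 (p := p)
        fun ⟨x, hx, e⟩ => hp (e ▸ c.e.map_target (hKc hx))] with q hq
      rw [hq, add_zero]
    have e2 : dM (fun q => F q + c.ext u q) p = dM F p := e1.mfderiv_eq
    rw [Ch.push, if_neg hp, ind, ind, e2]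
    exact sub_self (G := Bil) _

end Crest.Agent.R216.MClAuxB
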