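import Crest.Agent.R216.MDefs

/-!
# Row 216: auxiliary lemmas for part C of `MCl.lean`
-/

set_option autoImplicit false
set_option linter.unusedSectionVars false

noncomputable section

namespace Crest.Agent.R216.MClC

open Set Metric Filter
open scoped Manifold ContDiff Topology RealInnerProductSpace

universe u

theorem norm_es : ‖es‖ = 1 := by simp [es]
theorem norm_et : ‖et‖ = 1 := by simp [et]

theorem cr_lin (a b y : V4) (s t u : E) :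
    cr (t 0 • a + t 1 • b) (s 0 • a + s 1 • b) (u 0 • a + u 1 • b + y) =
      (s 0 * t 1 - s 1 * t 0) • cr b a y := by
  ext i
  fin_cases i <;> simp [cr] <;> ring

theorem crv_congr {f g : E → V4} {x : E} (h : f =ᶠ[𝓝 x] g) (v : E) : crv f x v = crv g x v := by
  have h1 : dd v f =ᶠ[𝓝 x] dd v g := (h.fderiv (𝕜 := ℝ)).mono fun y hy => by simp only [dd, hy]
  have h2 : dd v (dd v f) x = dd v (dd v g) x := by
    rw [dd.eq_1 v (dd v f), dd.eq_1 v (dd v g), h1.fderiv_eq]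
  rw [crv, crv, h2, dd.eq_1 et, dd.eq_1 es, h.fderiv_eq]
  rfl

theorem crv_smul {H : E → V4} {x : E} (hH : ContDiffAt ℝ ∞ H x) (t : ℝ) (v : E) :
    crv H x (t • v) = t ^ 2 • crv H x v := by
  obtain ⟨L, hL⟩ := exists_crL
  simp only [crv, VecAux.dd_dd hH, ← hL, map_smul, smul_apply, smul_smul, sq]

theorem crv_comp {f : E → V4} {τ : E → E} {x : E} (hf : ContDiffAt ℝ ∞ f (τ x))
    (hτ : ContDiffAt ℝ ∞ τ x) (v : E) :
    crv (fun y => f (τ y)) x v = (fderiv ℝ τ x es 0 * fderiv ℝ τ x et 1 -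
      fderiv ℝ τ x es 1 * fderiv ℝ τ x et 0) • crv f (τ x) (fderiv ℝ τ x v) := by
  have hf2 : ContDiffAt ℝ 2 f (τ x) := hf.of_le (WithTop.coe_le_coe.2 le_top)
  have hτ2 : ContDiffAt ℝ 2 τ x := hτ.of_le (WithTop.coe_le_coe.2 le_top)
  have hf1 : DifferentiableAt ℝ (fderiv ℝ f) (τ x) :=
    (hf2.fderiv_right (m := 1) le_rfl).differentiableAt one_ne_zero
  have hτ1 : DifferentiableAt ℝ (fderiv ℝ τ) x :=
    (hτ2.fderiv_right (m := 1) le_rfl).differentiableAt one_ne_zero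
  have hτ0 := hτ2.differentiableAt two_ne_zero
  have e1 : ∀ᶠ y in 𝓝 x, fderiv ℝ (fun y => f (τ y)) y = (fderiv ℝ f (τ y)).comp (fderiv ℝ τ y) := by
    filter_upwards [hτ2.eventually (by simp), hτ2.continuousAt.eventually (hf2.eventually (by simp))]
      with y h1 h2
    exact fderiv_comp y (h2.differentiableAt two_ne_zero) (h1.differentiableAt two_ne_zero)
  have e2 : dd v (fun y => f (τ y)) =ᶠ[𝓝 x] fun y => fderiv ℝ f (τ y) (fderiv ℝ τ y v) :=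
    e1.mono fun y hy => by simp only [dd, hy, ContinuousLinearMap.comp_apply]
  have e3 := (hf1.hasFDerivAt.comp x hτ0.hasFDerivAt).clm_apply
    (hτ1.hasFDerivAt.clm_apply (hasFDerivAt_const v x))
  have e5 : dd v (dd v fun y => f (τ y)) x = fderiv ℝ f (τ x) (fderiv ℝ (fderiv ℝ τ) x v v) +
      dd (fderiv ℝ τ x v) (dd (fderiv ℝ τ x v) f) (τ x) := by
    rw [dd.eq_1 v, e2.fderiv_eq, VecAux.dd_dd hf]
    refine (congrArg (fun L : E →L[ℝ] V4 => L v) e3.fderiv).trans ?_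
    simp
  have e6 : ∀ w, dd w (fun y => f (τ y)) x = fderiv ℝ f (τ x) (fderiv ℝ τ x w) := fun w => by
    rw [dd, e1.self_of_nhds]
    rfl
  rw [crv, e5, e6, e6, VecAux.map_eq (fderiv ℝ f (τ x)) (fderiv ℝ τ x et),
    VecAux.map_eq (fderiv ℝ f (τ x)) (fderiv ℝ τ x es),
    VecAux.map_eq (fderiv ℝ f (τ x)) (fderiv ℝ (fderiv ℝ τ) x v v), cr_lin]
  rfl

theorem abs_det_le (L : E →L[ℝ] E) {B : ℝ} (h : ‖L‖ ≤ B) :
    |L es 0 * L et 1 - L es 1 * L et 0| ≤ 2 * B ^ 2 := by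
  have h1 : ∀ (v : E) (i : Fin 2), ‖v‖ = 1 → |L v i| ≤ B := fun v i hv =>
    (PiLp.norm_apply_le (L v) i).trans ((L.le_opNorm v).trans (by rw [hv, mul_one]; exact h))
  have hB := (norm_nonneg _).trans h
  refine (abs_sub _ _).trans ?_
  rw [abs_mul, abs_mul]
  have h2 := mul_le_mul (h1 es 0 norm_es) (h1 et 1 norm_et) (abs_nonneg _) hB
  have h3 := mul_le_mul (h1 es 1 norm_es) (h1 et 0 norm_et) (abs_nonneg _) hB
  linarith

/-- Perturbation of `crv`. -/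
theorem crv_pert {H G : E → V4} {x v : E} (hH : ContDiffAt ℝ ∞ H x) (hG : ContDiffAt ℝ ∞ G x)
    (hv : ‖v‖ ≤ 1) {α β ε : ℝ} (h1 : ‖iteratedFDeriv ℝ 1 H x‖ ≤ α)
    (h2 : ‖iteratedFDeriv ℝ 2 H x‖ ≤ β) (g1 : ‖iteratedFDeriv ℝ 1 G x‖ ≤ ε)
    (g2 : ‖iteratedFDeriv ℝ 2 G x‖ ≤ ε) :
    ‖crv (fun y => G y + H y) x v - crv H x v‖ ≤
      ε * (ε + α) * (ε + β) + α * ε * (ε + β) + α * α * ε := by
  have hα := (norm_nonneg _).trans h1
  have hε := (norm_nonneg _).trans g1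
  have d1 : ∀ (f : E → V4) (c : ℝ) (w : E), ‖iteratedFDeriv ℝ 1 f x‖ ≤ c → ‖w‖ = 1 →
      ‖dd w f x‖ ≤ c := fun f c w h hw => (norm_dd_le f x w).trans (by rw [hw, mul_one]; exact h)
  have d2 : ∀ (f : E → V4) (c : ℝ), ContDiffAt ℝ ∞ f x → ‖iteratedFDeriv ℝ 2 f x‖ ≤ c →
      ‖dd v (dd v f) x‖ ≤ c := fun f c hf h => (norm_dd_dd_le hf v v).trans
    (((mul_le_of_le_one_right (by positivity) hv).trans
      (mul_le_of_le_one_right (norm_nonneg _) hv)).trans h)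
  have e2 : dd v (dd v fun y => G y + H y) x = dd v (dd v G) x + dd v (dd v H) x := by
    rw [dd_dd_eq (hG.add hH), dd_dd_eq hG, dd_dd_eq hH, fun_iteratedFDeriv_add_apply
      (hG.of_le (WithTop.coe_le_coe.2 le_top)) (hH.of_le (WithTop.coe_le_coe.2 le_top))]
    rfl
  have e1 := dd_add (hG.differentiableAt (by simp)) (hH.differentiableAt (by simp))
  rw [crv, crv, e2, e1, e1]
  refine (norm_cr_sub_le _ _ _ _ _ _).trans ?_
  simp only [add_sub_cancel_right]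
  have a1 := d1 G ε et g1 norm_et
  have a2 := d1 G ε es g1 norm_es
  have a3 := d1 H α et h1 norm_et
  have a4 := d1 H α es h1 norm_es
  have a5 := d2 G ε hG g2
  have a6 := d2 H β hH h2
  have a7 := (norm_add_le _ _).trans (add_le_add a2 a4)
  have a8 := (norm_add_le _ _).trans (add_le_add a5 a6)
  gcongr

variable {M : Type u} [TopologicalSpace M] [T2Space M] [CompactSpace M] [ChartedSpace E M]
  [IsManifold (𝓡 2) ∞ M] {ι : Type*} {σ : Sc ι}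

/-- Transfer from one chart to another one. -/
theorem transfer (c c' : Ch M) {K K' : Set E} (hK : IsCompact K) (hKc : K ⊆ c.e.target)
    (hK' : IsCompact K') (hKc' : K' ⊆ c'.e.target) : ∃ B : ℝ, 0 ≤ B ∧ ∀ F : M → V4, Sm F →
      ∀ x ∈ K, c.e.symm x ∈ c'.e.source → c'.e (c.e.symm x) ∈ K' → ∀ v : E, ‖v‖ ≤ 1 →
      ∃ w : E, ‖w‖ ≤ 1 ∧ ‖crv (c'.rd F) (c'.e (c.e.symm x)) v‖ ≤ B * ‖crv (c.rd F) x w‖ := by
  have h1 : IsClosed (c.e.symm '' K) :=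
    (hK.image_of_continuousOn (c.e.continuousOn_symm.mono hKc)).isClosed
  have h2 : IsCompact (K' ∩ c'.e.symm ⁻¹' (c.e.symm '' K)) :=
    hK'.of_isClosed_subset ((c'.e.continuousOn_symm.mono hKc').preimage_isClosed_of_isClosed
      hK'.isClosed h1) inter_subset_left
  have h3 : K' ∩ c'.e.symm ⁻¹' (c.e.symm '' K) ⊆ c'.e.target ∩ c'.e.symm ⁻¹' c.e.source := by
    rintro y ⟨hy, x, hx, e⟩
    exact ⟨hKc' hy, show c'.e.symm y ∈ c.e.source from e ▸ c.e.map_target (hKc hx)⟩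
  obtain ⟨B, hB⟩ := h2.exists_bound_of_continuousOn
    (((c'.contDiffOn_tr c).continuousOn_fderiv_of_isOpen (c'.isOpen_tr c) (by simp)).mono h3)
  refine ⟨2 * max B 1 ^ 2 * max B 1 ^ 2, by positivity, fun F hF x hx hs hy v hv => ?_⟩
  have hB0 : 0 < max B 1 := lt_max_of_lt_right one_pos
  have hm : c'.e (c.e.symm x) ∈ K' ∩ c'.e.symm ⁻¹' (c.e.symm '' K) :=
    ⟨hy, x, hx, (c'.e.left_inv hs).symm⟩
  have hL := (hB _ hm).trans (le_max_left B 1)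
  have hU := (c'.isOpen_tr c).mem_nhds (h3 hm)
  have e0 : c'.tr c (c'.e (c.e.symm x)) = x := by
    rw [Ch.tr, c'.e.left_inv hs, c.e.right_inv (hKc hx)]
  have e1 : c'.rd F =ᶠ[𝓝 (c'.e (c.e.symm x))] fun y => c.rd F (c'.tr c y) := by
    filter_upwards [hU] with y hy
    simp only [Ch.rd, Ch.tr, c.e.left_inv hy.2]
  have hsm : ContDiffAt ℝ ∞ (c.rd F) x :=
    (c.contDiffOn_rd hF).contDiffAt (c.e.open_target.mem_nhds (hKc hx))
  rw [crv_congr e1, crv_comp (e0.symm ▸ hsm) ((c'.contDiffOn_tr c).contDiffAt hU), e0]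
  have hd := abs_det_le _ hL
  generalize fderiv ℝ (c'.tr c) (c'.e (c.e.symm x)) = L at hL hd ⊢
  refine ⟨(max B 1)⁻¹ • L v, ?_, ?_⟩
  · rw [norm_smul, Real.norm_of_nonneg (inv_nonneg.2 hB0.le), inv_mul_le_iff₀ hB0]
    exact (L.le_opNorm v).trans (mul_le_mul hL hv (norm_nonneg _) hB0.le)
  · rw [crv_smul hsm, norm_smul, norm_smul, Real.norm_of_nonneg (sq_nonneg (max B 1)⁻¹),
      mul_assoc (2 * max B 1 ^ 2), ← mul_assoc (max B 1 ^ 2), ← mul_pow, mul_inv_cancel₀ hB0.ne',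
      one_pow, one_mul]
    exact mul_le_mul_of_nonneg_right hd (norm_nonneg _)

theorem of_atl (𝒜 : Atl M) {F : ι → M → V4} (hs : ∀ i, Sm (F i))
    (h : ∀ a, ∃ C : ℝ, ∀ i, ∀ x ∈ ball (0 : E) 1, ∃ v : E, ‖v‖ ≤ 1 ∧
      1 ≤ C * (σ.M i * ‖crv ((𝒜.c a).rd (F i)) x v‖)) : Ndg σ F := by
  intro c K hK hKc
  choose C hC using h
  choose B hB0 hB using fun a => transfer c (𝒜.c a) hK hKc (isCompact_closedBall (0 : E) 1)
    ((closedBall_subset_closedBall (by norm_num)).trans (𝒜.sub a))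
  refine ⟨∑ a, |C a| * B a, fun i x hx => ?_⟩
  obtain ⟨a, -, ha⟩ := Finset.exists_ne_zero_of_sum_ne_zero
    ((𝒜.sum (c.e.symm x)).trans_ne one_ne_zero)
  obtain ⟨h1, h2⟩ := 𝒜.supp a _ ha
  obtain ⟨v, hv, h3⟩ := hC a i _ (mem_ball_zero_iff.2 h2)
  obtain ⟨w, hw, h4⟩ := hB a (F i) (hs i) x hx h1 (mem_closedBall_zero_iff.2 h2.le) v hv
  have hM : 0 ≤ σ.M i := zero_le_one.trans (σ.hM i)
  refine ⟨w, hw, h3.trans ?_⟩
  have h5 : |C a| * B a ≤ ∑ a, |C a| * B a := Finset.single_le_sum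
    (f := fun a => |C a| * B a) (fun a _ => mul_nonneg (abs_nonneg _) (hB0 a)) (Finset.mem_univ a)
  calc C a * (σ.M i * ‖crv ((𝒜.c a).rd (F i)) ((𝒜.c a).e (c.e.symm x)) v‖)
      ≤ |C a| * (σ.M i * (B a * ‖crv (c.rd (F i)) x w‖)) := by
        gcongr
        exact le_abs_self _
    _ = |C a| * B a * (σ.M i * ‖crv (c.rd (F i)) x w‖) := by ring
    _ ≤ _ := by gcongr

theorem persist {F F' : ι → M → V4} (h : Ndg σ F) (hF : MB σ 2 1 (fun _ => 1) F)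
    (h' : MB (Sc.one ι) 2 0 (fun i => (σ.M i ^ 7)⁻¹) fun i p => F' i p - F i p) :
    ∃ Λ : ℝ, Ndg (σ.comap (Subtype.val : {i // Λ ≤ σ.M i} → ι)) fun i => F' i.1 := by
  obtain ⟨𝒜⟩ := exists_atl (M := M)
  have hsub : ∀ a, closedBall (0 : E) 1 ⊆ (𝒜.c a).e.target := fun a =>
    (closedBall_subset_closedBall (by norm_num)).trans (𝒜.sub a)
  have key : ∀ a, ∃ Λ C : ℝ, 0 ≤ Λ ∧ ∀ i, Λ ≤ σ.M i → ∀ x ∈ ball (0 : E) 1, ∃ v : E, ‖v‖ ≤ 1 ∧
      1 ≤ C * (σ.M i * ‖crv ((𝒜.c a).rd (F' i)) x v‖) := fun a => by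
    obtain ⟨C, hC⟩ := h (𝒜.c a) _ (isCompact_closedBall 0 1) (hsub a)
    obtain ⟨C₁, h1⟩ := (hF.bd (𝒜.c a) _ isOpen_ball _ (isCompact_closedBall 0 1)
      ball_subset_closedBall (hsub a)).le
    obtain ⟨C₂, h2⟩ := (h'.bd (𝒜.c a) _ isOpen_ball _ (isCompact_closedBall 0 1)
      ball_subset_closedBall (hsub a)).le
    obtain ⟨D, hD0, hD1, hD2⟩ : ∃ D : ℝ, 0 ≤ D ∧ C₁ ≤ D ∧ C₂ ≤ D :=
      ⟨|C₁| + |C₂|, by positivity, by linarith [le_abs_self C₁, abs_nonneg C₂],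
        by linarith [le_abs_self C₂, abs_nonneg C₁]⟩
    refine ⟨14 * |C| * D ^ 3, 2 * |C|, by positivity, fun i hi x hx => ?_⟩
    obtain ⟨v, hv, h3⟩ := hC i x (ball_subset_closedBall hx)
    refine ⟨v, hv, ?_⟩
    have hM1 := σ.hM i
    have hM : 0 < σ.M i := one_pos.trans_le hM1
    have hx' := (𝒜.c a).e.open_target.mem_nhds (hsub a (ball_subset_closedBall hx))
    have b1 : ∀ m ≤ 2, ‖iteratedFDeriv ℝ m ((𝒜.c a).rd (F i)) x‖ ≤ D * σ.M i ^ (1 + m) :=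
      fun m hm => (h1 i m hm x hx).trans (by
        change C₁ * (1 * σ.M i ^ (1 + m)) ≤ _
        rw [one_mul]
        gcongr)
    have b2 : ∀ m ≤ 2, ‖iteratedFDeriv ℝ m ((𝒜.c a).rd fun p => F' i p - F i p) x‖ ≤
        D * (σ.M i ^ 7)⁻¹ := fun m hm => (h2 i m hm x hx).trans (by
        change C₂ * ((σ.M i ^ 7)⁻¹ * 1 ^ (0 + m)) ≤ _
        rw [one_pow, mul_one]
        gcongr)
    have h4 := crv_pert (((𝒜.c a).contDiffOn_rd (hF.sm i)).contDiffAt hx')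
      (((𝒜.c a).contDiffOn_rd (h'.sm i)).contDiffAt hx') hv (b1 1 one_le_two) (b1 2 le_rfl)
      (b2 1 one_le_two) (b2 2 le_rfl)
    have e : (fun y => (𝒜.c a).rd (fun p => F' i p - F i p) y + (𝒜.c a).rd (F i) y) =
        (𝒜.c a).rd (F' i) := funext fun y => sub_add_cancel _ _
    rw [e] at h4
    have h5 := norm_sub_norm_le (crv ((𝒜.c a).rd (F i)) x v) (crv ((𝒜.c a).rd (F' i)) x v)
    rw [norm_sub_rev] at h5
    generalize σ.M i = m at *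
    have i7 : (m ^ 7)⁻¹ ≤ 1 := inv_le_one_of_one_le₀ (one_le_pow₀ hM1)
    have c2 : D * (m ^ 7)⁻¹ + D * m ^ (1 + 1) ≤ 2 * D * m ^ 2 := by
      have := mul_le_mul_of_nonneg_left (i7.trans (one_le_pow₀ (n := 2) hM1)) hD0
      linarith
    have c3 : D * (m ^ 7)⁻¹ + D * m ^ (1 + 2) ≤ 2 * D * m ^ 3 := by
      have := mul_le_mul_of_nonneg_left (i7.trans (one_le_pow₀ (n := 3) hM1)) hD0
      linarith
    have c4 : D * m ^ (1 + 1) ≤ D * m ^ 3 :=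
      mul_le_mul_of_nonneg_left (pow_le_pow_right₀ hM1 (by norm_num)) hD0
    have h6 : D * (m ^ 7)⁻¹ * (D * (m ^ 7)⁻¹ + D * m ^ (1 + 1)) * (D * (m ^ 7)⁻¹ + D * m ^ (1 + 2)) +
        D * m ^ (1 + 1) * (D * (m ^ 7)⁻¹) * (D * (m ^ 7)⁻¹ + D * m ^ (1 + 2)) +
        D * m ^ (1 + 1) * (D * m ^ (1 + 1)) * (D * (m ^ 7)⁻¹) ≤ 7 * D ^ 3 / m ^ 2 := by
      calc _ ≤ D * (m ^ 7)⁻¹ * (2 * D * m ^ 2) * (2 * D * m ^ 3) +
            D * m ^ (1 + 1) * (D * (m ^ 7)⁻¹) * (2 * D * m ^ 3) +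
            D * m ^ (1 + 1) * (D * m ^ 3) * (D * (m ^ 7)⁻¹) := by gcongr
        _ = _ := by field_simp; ring
    have h7 : |C| * (m * (7 * D ^ 3 / m ^ 2)) ≤ 1 / 2 := by
      rw [show |C| * (m * (7 * D ^ 3 / m ^ 2)) = 14 * |C| * D ^ 3 / m / 2 by field_simp; ring]
      have := (div_le_one hM).2 hi
      linarith
    have h8 : C * (m * ‖crv ((𝒜.c a).rd (F i)) x v‖) ≤
        |C| * (m * (‖crv ((𝒜.c a).rd (F' i)) x v‖ + 7 * D ^ 3 / m ^ 2)) := by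
      gcongr
      · exact le_abs_self _
      · linarith
    linarith
  choose Λ C hΛ hC using key
  refine ⟨∑ a, Λ a, of_atl 𝒜 (fun i => ?_) fun a => ⟨C a, fun i => hC a i.1
    ((Finset.single_le_sum (fun a _ => hΛ a) (Finset.mem_univ a)).trans i.2)⟩⟩
  have : Sm fun p => F' i.1 p - F i.1 p + F i.1 p := (h'.sm i.1).add (hF.sm i.1)
  simpa only [sub_add_cancel] using this

theorem close {F' : ℕ → M → V4} {F : M → V4} {A : ℕ → ℝ} (hA : Tendsto A atTop (𝓝 0))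
    (h : MB (Sc.one ℕ) 2 0 A fun n p => F' n p - F p) (Y : Set M) : Close Y F' F := by
  intro c K hK hKc δ hδ
  obtain ⟨K', hK', h1, h2⟩ := exists_compact_between hK c.e.open_target hKc
  obtain ⟨C, hC⟩ := (h.bd c _ isOpen_interior K' hK' interior_subset h2).le
  have h3 : Tendsto (fun n => C * A n) atTop (𝓝 0) := by simpa using hA.const_mul C
  filter_upwards [h3.eventually (ge_mem_nhds hδ)] with n hn x hx _ m hm
  refine (hC n m hm x (h1 hx)).trans (le_of_eq_of_le ?_ hn)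
  change C * (A n * 1 ^ (0 + m)) = _
  rw [one_pow, mul_one]

end Crest.Agent.R216.MClC
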