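import Crest.Agent.R216.MDefs
import Crest.Agent.R216.MClAuxA
import Crest.Agent.R216.MClAuxC
import Crest.Agent.R216.MClAuxB

/-!
# Row 216: calculus of the classes `MB`, `TB`
-/

set_option autoImplicit false
set_option linter.unusedSectionVars false

noncomputable section

namespace Crest.Agent.R216

open Set Metric Filter
open scoped Manifold ContDiff Topology RealInnerProductSpace

universe u

variable {M : Type u} [TopologicalSpace M] [T2Space M] [CompactSpace M] [ChartedSpace E M]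
  [IsManifold (𝓡 2) ∞ M]

variable {ι : Type*} {V : Type} [NormedAddCommGroup V] [NormedSpace ℝ V] [FiniteDimensional ℝ V]
  {σ σ' : Sc ι} {k k' j j' : ℕ} {A A' : ι → ℝ} {f f' : ι → M → V} {T T' : ι → M → Bil}

/-! ## Part A: algebra -/

theorem MB.mono (h : MB σ k j A f) (hk : k' ≤ k) (hj : j ≤ j') : MB σ k' j' A f :=
  ⟨h.nonneg, h.sm, fun c U hU K hK hUK hKc => (h.bd c U hU K hK hUK hKc).mono hk hj⟩
theorem MB.size (h : MB σ k j A f) (h0 : ∀ i, 0 ≤ A' i) {C : ℝ}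
    (hA : ∀ i, A i * σ.M i ^ j ≤ C * (A' i * σ.M i ^ j')) : MB σ k j' A' f :=
  ⟨h0, h.sm, fun c U hU K hK hUK hKc => (h.bd c U hU K hK hUK hKc).size h0 hA⟩
/-- Change of the scale. -/
theorem MB.scale (h : MB σ k j A f) (h0 : ∀ i, 0 ≤ A' i) {C : ℝ}
    (hA : ∀ i, ∀ m ≤ k, A i * σ.M i ^ (j + m) ≤ C * (A' i * σ'.M i ^ (j' + m))) :
    MB σ' k j' A' f :=
  ⟨h0, h.sm, fun c U hU K hK hUK hKc => MClA.scale (h.bd c U hU K hK hUK hKc) h0 hA⟩
theorem MB.comap (h : MB σ k j A f) {ι' : Type*} (φ : ι' → ι) :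
    MB (σ.comap φ) k j (fun i => A (φ i)) fun i => f (φ i) :=
  ⟨fun i => h.nonneg (φ i), fun i => h.sm (φ i), fun c U hU K hK hUK hKc =>
    (h.bd c U hU K hK hUK hKc).reindex φ (fun _ => subset_rfl) fun _ => le_rfl⟩
theorem MB.add (h : MB σ k j A f) (h' : MB σ k j A f') :
    MB σ k j A fun i p => f i p + f' i p :=
  ⟨h.nonneg, fun i => (h.sm i).add (h'.sm i), fun c U hU K hK hUK hKc =>
    (h.bd c U hU K hK hUK hKc).add (h'.bd c U hU K hK hUK hKc)⟩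
theorem MB.sub (h : MB σ k j A f) (h' : MB σ k j A f') :
    MB σ k j A fun i p => f i p - f' i p :=
  ⟨h.nonneg, fun i => (h.sm i).sub (h'.sm i), fun c U hU K hK hUK hKc =>
    (h.bd c U hU K hK hUK hKc).sub (h'.bd c U hU K hK hUK hKc)⟩
theorem MB.neg (h : MB σ k j A f) : MB σ k j A fun i p => -f i p :=
  ⟨h.nonneg, fun i => (h.sm i).neg, fun c U hU K hK hUK hKc => (h.bd c U hU K hK hUK hKc).neg⟩
theorem MB.sum {α : Type*} (s : Finset α) {g : α → ι → M → V} (h0 : ∀ i, 0 ≤ A i)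
    (h : ∀ a ∈ s, MB σ k j A (g a)) : MB σ k j A fun i p => ∑ a ∈ s, g a i p :=
  ⟨h0, fun i => contMDiff_finsetSum fun a ha => (h a ha).sm i, fun c U hU K hK hUK hKc =>
    Bd.sum s (g := fun a i => c.rd (g a i)) h0 fun a ha => (h a ha).bd c U hU K hK hUK hKc⟩
theorem MB.fixed {F : M → V} (hF : Sm F) : MB σ k 0 (fun _ => 1) fun _ => F :=
  ⟨fun _ => zero_le_one, fun _ => hF, fun c _ _ _ hK hUK hKc =>
    Bd.of_compact c.e.open_target (c.contDiffOn_rd hF) hK hKc fun _ => hUK⟩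
theorem MB.zero (h0 : ∀ i, 0 ≤ A i) : MB σ k j A fun _ (_ : M) => (0 : V) :=
  ⟨h0, fun _ => contMDiff_const, fun _ _ _ _ _ _ _ =>
    (Bd.const (a := fun _ => (0 : V)) h0 (C := 0) fun _ => by simp).mono le_rfl (Nat.zero_le _)⟩
theorem MB.csmul (h : MB σ k j A f) {a : ι → ℝ} (h0 : ∀ i, 0 ≤ A' i) {C : ℝ}
    (ha : ∀ i, |a i| * A i ≤ C * A' i) : MB σ k j A' fun i p => a i • f i p :=
  ⟨h0, fun i => (contMDiff_const : Sm fun _ : M => a i).smul (h.sm i), fun c U hU K hK hUK hKc =>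
    (h.bd c U hU K hK hUK hKc).csmul h0 ha⟩
theorem MB.smul {a : ι → M → ℝ} (ha : MB σ k j A a) (h : MB σ k j' A' f) :
    MB σ k (j + j') (fun i => A i * A' i) fun i p => a i p • f i p :=
  ⟨fun i => mul_nonneg (ha.nonneg i) (h.nonneg i), fun i => (ha.sm i).smul (h.sm i),
    fun c U hU K hK hUK hKc => (ha.bd c U hU K hK hUK hKc).bilin (ContinuousLinearMap.lsmul ℝ ℝ)
      (h.bd c U hU K hK hUK hKc)⟩
/-- A family is bounded if two complementary subfamilies are. -/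
theorem MB.of_cases (S : ι → Prop)
    (h : MB (σ.comap (Subtype.val : {i // S i} → ι)) k j (fun i => A i.1) fun i => f i.1)
    (h' : MB (σ.comap (Subtype.val : {i // ¬S i} → ι)) k j (fun i => A i.1) fun i => f i.1) :
    MB σ k j A f :=
  ⟨MClA.cases S h.nonneg h'.nonneg, MClA.cases (P := fun i => Sm (f i)) S h.sm h'.sm,
    fun c U hU K hK hUK hKc => MClA.of_cases (f := fun i => c.rd (f i)) S (h.bd c U hU K hK hUK hKc)
      (h'.bd c U hU K hK hUK hKc)⟩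

theorem TB.mono (h : TB σ k j A T) (hk : k' ≤ k) (hj : j ≤ j') : TB σ k' j' A T :=
  ⟨h.nonneg, h.sm, fun c U hU K hK hUK hKc => (h.bd c U hU K hK hUK hKc).mono hk hj⟩
theorem TB.size (h : TB σ k j A T) (h0 : ∀ i, 0 ≤ A' i) {C : ℝ}
    (hA : ∀ i, A i * σ.M i ^ j ≤ C * (A' i * σ.M i ^ j')) : TB σ k j' A' T :=
  ⟨h0, h.sm, fun c U hU K hK hUK hKc => (h.bd c U hU K hK hUK hKc).size h0 hA⟩
theorem TB.scale (h : TB σ k j A T) (h0 : ∀ i, 0 ≤ A' i) {C : ℝ}
    (hA : ∀ i, ∀ m ≤ k, A i * σ.M i ^ (j + m) ≤ C * (A' i * σ'.M i ^ (j' + m))) :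
    TB σ' k j' A' T :=
  ⟨h0, h.sm, fun c U hU K hK hUK hKc => MClA.scale (h.bd c U hU K hK hUK hKc) h0 hA⟩
theorem TB.comap (h : TB σ k j A T) {ι' : Type*} (φ : ι' → ι) :
    TB (σ.comap φ) k j (fun i => A (φ i)) fun i => T (φ i) :=
  ⟨fun i => h.nonneg (φ i), fun i => h.sm (φ i), fun c U hU K hK hUK hKc =>
    (h.bd c U hU K hK hUK hKc).reindex φ (fun _ => subset_rfl) fun _ => le_rfl⟩
theorem TB.add (h : TB σ k j A T) (h' : TB σ k j A T') :
    TB σ k j A fun i p => T i p + T' i p :=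
  ⟨h.nonneg, fun i => (h.sm i).add (h'.sm i), fun c U hU K hK hUK hKc =>
    ((h.bd c U hU K hK hUK hKc).add (h'.bd c U hU K hK hUK hKc)).congr fun _ x _ =>
      MClA.pull_add c _ _ x⟩
theorem TB.sub (h : TB σ k j A T) (h' : TB σ k j A T') :
    TB σ k j A fun i p => T i p - T' i p :=
  ⟨h.nonneg, fun i => (h.sm i).sub (h'.sm i), fun c U hU K hK hUK hKc =>
    ((h.bd c U hU K hK hUK hKc).sub (h'.bd c U hU K hK hUK hKc)).congr fun _ x _ =>
      MClA.pull_sub c _ _ x⟩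
theorem TB.neg (h : TB σ k j A T) : TB σ k j A fun i p => -T i p :=
  ⟨h.nonneg, fun i => MClA.smT_neg (h.sm i), fun c U hU K hK hUK hKc =>
    (h.bd c U hU K hK hUK hKc).neg.congr fun _ x _ => MClA.pull_neg c _ x⟩
theorem TB.sum {α : Type*} (s : Finset α) {g : α → ι → M → Bil} (h0 : ∀ i, 0 ≤ A i)
    (h : ∀ a ∈ s, TB σ k j A (g a)) : TB σ k j A fun i p => ∑ a ∈ s, g a i p :=
  ⟨h0, fun i => SmT.sum s fun a ha => (h a ha).sm i, fun c U hU K hK hUK hKc =>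
    (Bd.sum s (g := fun a i => c.pull (g a i)) h0 fun a ha =>
      (h a ha).bd c U hU K hK hUK hKc).congr fun i x _ => MClA.pull_sum c s (fun a => g a i) x⟩
theorem TB.fixed {G : M → Bil} (hG : SmT G) : TB σ k 0 (fun _ => 1) fun _ => G :=
  ⟨fun _ => zero_le_one, fun _ => hG, fun c _ _ _ hK hUK hKc =>
    Bd.of_compact c.e.open_target (hG c) hK hKc fun _ => hUK⟩
theorem TB.csmul (h : TB σ k j A T) {a : ι → ℝ} (h0 : ∀ i, 0 ≤ A' i) {C : ℝ}
    (ha : ∀ i, |a i| * A i ≤ C * A' i) : TB σ k j A' fun i p => a i • T i p :=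
  ⟨h0, fun i => (h.sm i).smul (f := fun _ => a i) contMDiff_const, fun c U hU K hK hUK hKc =>
    ((h.bd c U hU K hK hUK hKc).csmul h0 ha).congr fun i x _ =>
      MClA.pull_smul c (fun _ => a i) _ x⟩
theorem TB.of_cases (S : ι → Prop)
    (h : TB (σ.comap (Subtype.val : {i // S i} → ι)) k j (fun i => A i.1) fun i => T i.1)
    (h' : TB (σ.comap (Subtype.val : {i // ¬S i} → ι)) k j (fun i => A i.1) fun i => T i.1) :
    TB σ k j A T :=
  ⟨MClA.cases S h.nonneg h'.nonneg, MClA.cases (P := fun i => SmT (T i)) S h.sm h'.sm,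
    fun c U hU K hK hUK hKc => MClA.of_cases (f := fun i => c.pull (T i)) S (h.bd c U hU K hK hUK hKc)
      (h'.bd c U hU K hK hUK hKc)⟩

theorem TB.indB {F F' : ι → M → V4} (h : MB σ (k + 1) j A F) (h' : MB σ (k + 1) j' A' F') :
    TB σ k (j + j' + 2) (fun i => A i * A' i) fun i => indB (F i) (F' i) :=
  ⟨fun i => mul_nonneg (h.nonneg i) (h'.nonneg i), fun i => MClA.smT_indB (h.sm i) (h'.sm i),
    fun c U hU K hK hUK hKc => (MClA.bd_bil (h.bd c U hU K hK hUK hKc)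
      (h'.bd c U hU K hK hUK hKc)).congr fun i _ hx =>
        MClA.pull_indB c (h.sm i) (h'.sm i) (hKc (hUK hx))⟩
theorem ind_eq_indB (F : M → V4) : ind F = indB F F := rfl
theorem ind_sub_ind {F F' : M → V4} (hF : Sm F) (hF' : Sm F') (p : M) : ind F' p - ind F p =
    indB (fun q => F' q - F q) F' p + indB F (fun q => F' q - F q) p := by
  ext1 v
  ext1 w
  simp [ind, indB, MClA.dM_sub hF' hF, inner_sub_right]
theorem ind_smul {F : M → V4} (hF : Sm F) (a : ℝ) (p : M) :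
    ind (fun q => a • F q) p = a ^ 2 • ind F p := by
  ext1 v
  ext1 w
  simp [ind, dM_smul hF, sq, mul_assoc]
theorem ind_symm (F : M → V4) (p : M) (v w : E) : ind F p v w = ind F p w v :=
  real_inner_comm (dM F p w) (dM F p v)
theorem ind_apply (F : M → V4) (p : M) (v w : E) : ind F p v w = ⟪dM F p v, dM F p w⟫ :=
  rfl
theorem imm_of_met {F : M → V4} (h : Met (ind F)) : Imm F :=
  fun p => (injective_iff_map_eq_zero _).2 fun v hv => by
    by_contra h0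
    have := h.pos p v h0
    rw [ind_apply, hv, inner_zero_left] at this
    exact lt_irrefl _ this
theorem met_ind {F : M → V4} (hF : Sm F) (h : Imm F) : Met (ind F) :=
  ⟨smT_ind hF, ind_symm F, fun p v hv => by
    rw [ind_apply]
    exact real_inner_self_pos.2 fun h0 => hv ((injective_iff_map_eq_zero _).1 (h p) v h0)⟩
theorem Imm.gram_ne {F : M → V4} (h : Imm F) (hF : Sm F) (c : Ch M) {x : E}
    (hx : x ∈ c.e.target) : gram (dd es (c.rd F) x) (dd et (c.rd F) x) ≠ 0 :=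
  (gram_ne_iff (fderiv ℝ (c.rd F) x)).2 fun v w hvw => MClA.dP_inj c hx (h _ (by
    rwa [c.fderiv_rd hF hx, c.fderiv_rd hF hx] at hvw))
theorem Ch.pull_symm (c : Ch M) {G : M → Bil} (h : ∀ p v w, G p v w = G p w v) (x v w : E) :
    c.pull G x v w = c.pull G x w v :=
  h _ _ _
theorem Met.pull_pos {G : M → Bil} (h : Met G) (c : Ch M) {x : E} (hx : x ∈ c.e.target) {v : E}
    (hv : v ≠ 0) : 0 < c.pull G x v v :=
  h.pos _ _ fun h0 => hv ((injective_iff_map_eq_zero _).1 (MClA.dP_inj c hx) v h0)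
theorem Ch.pull_add (c : Ch M) (G G' : M → Bil) (x : E) :
    c.pull (fun p => G p + G' p) x = c.pull G x + c.pull G' x :=
  MClA.pull_add c G G' x
theorem Ch.pull_sub (c : Ch M) (G G' : M → Bil) (x : E) :
    c.pull (fun p => G p - G' p) x = c.pull G x - c.pull G' x :=
  MClA.pull_sub c G G' x
theorem Ch.pull_smul (c : Ch M) (a : M → ℝ) (G : M → Bil) (x : E) :
    c.pull (fun p => a p • G p) x = c.rd a x • c.pull G x :=
  MClA.pull_smul c a G x
theorem Ch.push_pull (c : Ch M) (G : M → Bil) {p : M} (hp : p ∈ c.e.source) :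
    c.push (c.pull G) p = G p :=
  c.eq_of_pull hp (c.pull_push _ (c.e.map_source hp))

/-! ## Part B: transfer between charts -/

theorem MB.of_atl (𝒜 : Atl M) (hs : ∀ i, Sm (f i)) (h0 : ∀ i, 0 ≤ A i)
    (h : ∀ a, Bd (σ.ctx (ball 0 2) isOpen_ball) k j A fun i => (𝒜.c a).rd (f i)) :
    MB σ k j A f := MClAuxB.mb_of_loc hs h0 fun p =>
  let ⟨a, h1, h2⟩ := MClAuxB.atl_pt 𝒜 p; ⟨𝒜.c a, _, _, h1, h2, h a⟩
theorem TB.of_atl (𝒜 : Atl M) (hs : ∀ i, SmT (T i)) (h0 : ∀ i, 0 ≤ A i)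
    (h : ∀ a, Bd (σ.ctx (ball 0 2) isOpen_ball) k j A fun i => (𝒜.c a).pull (T i)) :
    TB σ k j A T := MClAuxB.tb_of_loc hs h0 fun p =>
  let ⟨a, h1, h2⟩ := MClAuxB.atl_pt 𝒜 p; ⟨𝒜.c a, _, _, h1, h2, h a⟩
theorem MB.atl (h : MB σ k j A f) (𝒜 : Atl M) (a : Fin 𝒜.n) :
    Bd (σ.ctx (ball 0 2) isOpen_ball) k j A fun i => (𝒜.c a).rd (f i) :=
  h.bd _ _ _ _ (isCompact_closedBall 0 3)
    (ball_subset_closedBall.trans (closedBall_subset_closedBall (by norm_num))) (𝒜.sub a)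
theorem TB.atl (h : TB σ k j A T) (𝒜 : Atl M) (a : Fin 𝒜.n) :
    Bd (σ.ctx (ball 0 2) isOpen_ball) k j A fun i => (𝒜.c a).pull (T i) :=
  h.bd _ _ _ _ (isCompact_closedBall 0 3)
    (ball_subset_closedBall.trans (closedBall_subset_closedBall (by norm_num))) (𝒜.sub a)
theorem MB.ext (c : Ch M) {U K : Set E} (hU : IsOpen U) (hK : IsCompact K) (hKU : K ⊆ U)
    (hUc : U ⊆ c.e.target) {u : ι → E → V} (h : Bd (σ.ctx U hU) k j A u)
    (h0 : ∀ i, ∀ x ∈ c.e.target, x ∉ K → u i x = 0) : MB σ k j A fun i => c.ext (u i) :=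
  MClAuxB.mb_ext c hU hK hKU hUc h h0
theorem TB.push (c : Ch M) {U K : Set E} (hU : IsOpen U) (hK : IsCompact K) (hKU : K ⊆ U)
    (hUc : U ⊆ c.e.target) {t : ι → E → Bil} (h : Bd (σ.ctx U hU) k j A t)
    (h0 : ∀ i, ∀ x ∈ c.e.target, x ∉ K → t i x = 0) : TB σ k j A fun i => c.push (t i) :=
  MClAuxB.tb_push c hU hK hKU hUc h h0
/-- The metric changes only on the support of the perturbation. -/
theorem ind_add_ext (c : Ch M) {F : M → V4} (hF : Sm F) {u : E → V4}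
    (hu : ContDiffOn ℝ ∞ u c.e.target) {K : Set E} (hK : IsCompact K) (hKc : K ⊆ c.e.target)
    (h0 : ∀ x ∈ c.e.target, x ∉ K → u x = 0) (p : M) :
    ind (fun q => F q + c.ext u q) p - ind F p =
      c.push (fun x => indE (fun y => c.rd F y + u y) x - indE (c.rd F) x) p :=
  MClAuxB.ind_ext c hF hu hK hKc h0 p

/-! ## Part C: non-degeneracy and convergence -/

theorem Ndg.of_atl (𝒜 : Atl M) {F : ι → M → V4} (hs : ∀ i, Sm (F i))
    (h : ∀ a, ∃ C : ℝ, ∀ i, ∀ x ∈ ball (0 : E) 1, ∃ v : E, ‖v‖ ≤ 1 ∧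
      1 ≤ C * (σ.M i * ‖crv ((𝒜.c a).rd (F i)) x v‖)) : Ndg σ F := MClC.of_atl 𝒜 hs h
theorem Ndg.comap {F : ι → M → V4} (h : Ndg σ F) {ι' : Type*} (φ : ι' → ι) :
    Ndg (σ.comap φ) fun i => F (φ i) := fun c K hK hKc =>
  (h c K hK hKc).imp fun _ hC i => hC (φ i)
theorem Ndg.persist {F F' : ι → M → V4} (h : Ndg σ F) (hF : MB σ 2 1 (fun _ => 1) F)
    (h' : MB (Sc.one ι) 2 0 (fun i => (σ.M i ^ 7)⁻¹) fun i p => F' i p - F i p) :
    ∃ Λ : ℝ, Ndg (σ.comap (Subtype.val : {i // Λ ≤ σ.M i} → ι)) fun i => F' i.1 :=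
  MClC.persist h hF h'
theorem Close.of_MB {F' : ℕ → M → V4} {F : M → V4} {A : ℕ → ℝ} (hA : Tendsto A atTop (𝓝 0))
    (h : MB (Sc.one ℕ) 2 0 A fun n p => F' n p - F p) (Y : Set M) : Close Y F' F :=
  MClC.close hA h Y

end Crest.Agent.R216
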