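import Crest.Agent.R216.PatchL
import Crest.Agent.R216.MCl

/-!
# Row 216: auxiliary lemmas for `col_step` and `all_steps`
-/

set_option autoImplicit false
set_option linter.unusedSectionVars false

noncomputable section

namespace Crest.Agent.R216.ColAux2

open Set Metric Filter
open scoped Manifold ContDiff Topology RealInnerProductSpace

universe u

variable {M : Type u} [TopologicalSpace M] [T2Space M] [CompactSpace M] [ChartedSpace E M]
  [IsManifold (𝓡 2) ∞ M]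

section patch

variable {ι : Type u} {σ : Sc ι} {H : ι → E → V4} {d d' : ℕ}

/-- The same patches at a larger scale. -/
def up (P : Patch σ H d) (hd : d ≤ d') : Patch σ H d' :=
  { P with
    clχ := fun k => (P.clχ k).ctx (fun _ => Subset.rfl) fun _ => pow_le_pow_right₀ (σ.hM _) hd
    nd := by
      obtain ⟨C, hC⟩ := P.nd
      refine ⟨C, fun j x hx => (hC j x hx).trans ?_⟩
      have h0 : 0 ≤ σ.M (P.pr j) ^ d * ‖crD (H (P.pr j)) x (P.z j) (P.w j)‖ :=
        mul_nonneg (pow_nonneg (zero_le_one.trans (σ.hM _)) _) (norm_nonneg _)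
      exact mul_le_mul_of_nonneg_left (mul_le_mul_of_nonneg_right
        (pow_le_pow_right₀ (σ.hM _) hd) (norm_nonneg _))
        (pos_of_mul_pos_left (one_pos.trans_le (hC j x hx)) h0).le }

theorem amp_up (P : Patch σ H d) (hd : d ≤ d') {b : P.J → E → ℝ} (hb : P.Amp b) :
    (up P hd).Amp b :=
  ⟨hb.ne, fun k => (hb.st k).ctx (fun _ => Subset.rfl) fun _ => pow_le_pow_right₀ (σ.hM _) hd,
    fun k => (hb.sti k).ctx (fun _ => Subset.rfl) fun _ => pow_le_pow_right₀ (σ.hM _) hd⟩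

theorem T_up (P : Patch σ H d) (hd : d ≤ d') (K : ℕ) (b : P.J → E → ℝ) :
    (up P hd).T K b = P.T K b := rfl

end patch

variable {ι : Type*} {σ : Sc ι} {k j d d' : ℕ} {A : ι → ℝ}

theorem le_up (h0 : ∀ i, 0 ≤ A i) (hd : d ≤ d') (i : ι) (n : ℕ) :
    A i * (σ.pow d).M i ^ n ≤ 1 * (A i * (σ.pow d').M i ^ n) := by
  rw [one_mul]
  exact mul_le_mul_of_nonneg_left (pow_le_pow_left₀ (zero_le_one.trans ((σ.pow d).hM i))
    (pow_le_pow_right₀ (σ.hM i) hd) _) (h0 i)

theorem mb_up {f : ι → M → V4} (h : MB (σ.pow d) k j A f) (hd : d ≤ d') :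
    MB (σ.pow d') k j A f := h.scale h.nonneg fun i _ _ => le_up h.nonneg hd i _

theorem tb_up {T : ι → M → Bil} (h : TB (σ.pow d) k j A T) (hd : d ≤ d') :
    TB (σ.pow d') k j A T := h.scale h.nonneg fun i _ _ => le_up h.nonneg hd i _

theorem mb_congr {f f' : ι → M → V4} (h : MB σ k j A f) (he : ∀ i p, f' i p = f i p) :
    MB σ k j A f' := (funext fun i => funext (he i) : f' = f) ▸ h

theorem tb_congr {T T' : ι → M → Bil} (h : TB σ k j A T) (he : ∀ i p, T' i p = T i p) :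
    TB σ k j A T' := (funext fun i => funext (he i) : T' = T) ▸ h

theorem push_sub_smul (c : Ch M) (t t' : E → Bil) (a : ℝ) (p : M) :
    c.push t p - a • c.push t' p = c.push (fun x => t x - a • t' x) p := by
  unfold Ch.push
  split_ifs
  · ext1 v
    ext1 w
    simp
  · ext1 v
    ext1 w
    simp

theorem indE_add_eq {H u : E → V4} {K : Set E} (hK : IsClosed K) (h0 : ∀ x ∉ K, u x = 0) {x : E}
    (hx : x ∉ K) : indE (fun y => H y + u y) x = indE H x := by
  have h : (fun y => H y + u y) =ᶠ[𝓝 x] H := by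
    filter_upwards [hK.isOpen_compl.mem_nhds hx] with y hy
    rw [h0 y hy, add_zero]
  rw [indE, indE, h.fderiv_eq]

theorem le_one {a m : ℝ} (ha : 0 < a) (hm : 1 ≤ m) {e e' : ℕ} (h : a * m ^ e ≤ 1) (he : e' ≤ e) :
    a * m ^ e' ≤ 1 :=
  (mul_le_mul_of_nonneg_left (pow_le_pow_right₀ hm he) ha.le).trans h

theorem inv_nonneg' (σ : Sc ι) (N : ℕ) (i : ι) : 0 ≤ (σ.M i ^ N)⁻¹ :=
  inv_nonneg.2 (pow_nonneg (zero_le_one.trans (σ.hM i)) _)

/-- For bounded scales everything is negligible. -/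
theorem tb_bdd {T : ι → M → Bil} (h : TB (σ.pow d) k j (fun _ => 1) T) (hd : d ≤ d') {Λ : ℝ}
    (hΛ : ∀ i, σ.M i ≤ Λ) (N : ℕ) : TB (σ.pow d') k 0 (fun i => (σ.M i ^ N)⁻¹) T := by
  refine h.scale (inv_nonneg' σ N) (C := Λ ^ (d * j + N)) fun i m _ => ?_
  have h1 := σ.hM i
  have h0 : 0 < σ.M i := one_pos.trans_le h1
  change 1 * (σ.M i ^ d) ^ (j + m) ≤ Λ ^ (d * j + N) * ((σ.M i ^ N)⁻¹ * (σ.M i ^ d') ^ (0 + m))
  calc 1 * (σ.M i ^ d) ^ (j + m) = σ.M i ^ (d * j + N) * ((σ.M i ^ N)⁻¹ * (σ.M i ^ d) ^ m) := by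
        field_simp
        ring
    _ ≤ _ := by
        rw [zero_add]
        have := hΛ i
        have : 0 ≤ Λ := by linarith
        gcongr

/-- A small perturbation is `C²`-small at the unit scale. -/
theorem mb_one {f : ι → M → V4} {κ : ι → ℝ} (h : MB (σ.pow d) 2 1 κ f)
    (hκ : ∀ i, κ i * σ.M i ^ (10 * d) ≤ 1) :
    MB (Sc.one ι) 2 0 (fun i => (σ.M i ^ (7 * d))⁻¹) f := by
  refine h.scale (inv_nonneg' σ _) (C := 1) fun i m hm => ?_
  have h1 := σ.hM i
  have h0 : 0 < σ.M i := one_pos.trans_le h1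
  change κ i * (σ.M i ^ d) ^ (1 + m) ≤ 1 * ((σ.M i ^ (7 * d))⁻¹ * 1 ^ (0 + m))
  rw [one_pow, one_mul, mul_one, ← one_div, le_div_iff₀ (by positivity), mul_assoc, ← pow_mul,
    ← pow_add]
  exact (mul_le_mul_of_nonneg_left (pow_le_pow_right₀ h1 (by nlinarith)) (h.nonneg i)).trans (hκ i)

end Crest.Agent.R216.ColAux2
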