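import Crest.Agent.R216.PatchL
import Crest.Agent.R216.MCl
import Crest.Agent.R216.Small
import Crest.Agent.R216.ColStepAux2
import Crest.Agent.R216.ColStepAux1

/-!
# Row 216: the steps of a stage
-/

set_option autoImplicit false
set_option linter.unusedSectionVars false

noncomputable section

namespace Crest.Agent.R216

open Set Metric Filter
open scoped Manifold ContDiff Topology RealInnerProductSpace

universe u

variable {M : Type u} [TopologicalSpace M] [T2Space M] [CompactSpace M] [ChartedSpace E M]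
  [IsManifold (𝓡 2) ∞ M]

/-- All the patches of one colour, in the plane. -/
theorem patch_step (d : ℕ) (hd : 1 ≤ d) : ∃ d' : ℕ, d ≤ d' ∧ ∀ N : ℕ, ∃ K0 : ℕ, 1 ≤ K0 ∧ ∀ K, K0 ≤ K →
    ∀ {ι : Type u} (σ : Sc ι) (H : ι → E → V4) (P : Patch σ H d) (b : P.J → E → ℝ) (κ : ι → ℝ),
      P.Amp b → (∀ i, 0 < κ i) → (∀ i, κ i * σ.M i ^ d' ≤ 1) →
      Cl ((σ.pow d).ctx (ball 0 2) isOpen_ball) 1 (fun _ => 1) (fun i => fderiv ℝ (H i)) →
      (∀ i, ContDiffOn ℝ ∞ (H i) (ball 0 2)) →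
      ∃ u : ι → E → V4, (∀ i, ContDiff ℝ ∞ (u i)) ∧
        (∀ i, ∀ x ∉ closedBall (0 : E) (3 / 2), u i x = 0) ∧
        Cl ((σ.pow d').ctx (ball 0 2) isOpen_ball) 1 κ u ∧
        Cl ((σ.pow d').ctx (ball 0 2) isOpen_ball) 0 (fun i => (σ.M i ^ N)⁻¹) fun i x =>
          indE (fun y => H i y + u i y) x - indE (H i) x - κ i ^ 2 • P.T K b i x :=
  ColStepAux1.patch_step d hd

/-- The patches of a map are good for the nearby maps. -/
theorem Patch.exists_near {ι : Type u} {σ : Sc ι} {H0 H : ι → E → V4} {d0 d : ℕ} (hd : d0 ≤ d)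
    (hd1 : 1 ≤ d) (P : Patch σ H0 d0) {b : P.J → E → ℝ} (hb : P.Amp b)
    (h0 : ∀ i, ContDiffOn ℝ ∞ (H0 i) (ball 0 2))
    (hH : Bd ((σ.pow d).ctx (ball 0 2) isOpen_ball) 2 1 (fun _ => 1) H)
    (hc : Bd ((Sc.one ι).ctx (ball 0 2) isOpen_ball) 2 0 (fun i => (σ.M i ^ (7 * d))⁻¹)
      fun i x => H i x - H0 i x) :
    ∃ Λ : ℝ, ∃ P' : Patch (σ.comap (Subtype.val : {i // Λ ≤ σ.M i} → ι)) (fun i => H i.1) d,
      ∃ b' : P'.J → E → ℝ, P'.Amp b' ∧ ∀ K i x, P'.T K b' i x = P.T K b i.1 x :=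
  ColStepAux1.exists_near hd hd1 P hb h0 hH hc

/-- One coloured step on the surface. -/
theorem col_step (d : ℕ) (hd : 1 ≤ d) : ∃ d' : ℕ, d ≤ d' ∧ ∀ N : ℕ, ∃ K0 : ℕ, 1 ≤ K0 ∧ ∀ K, K0 ≤ K →
    ∀ {ι : Type u} (σ : Sc ι) (c : Ch M) (F0 F : ι → M → V4) (d0 : ℕ)
      (P : Patch σ (fun i => c.rd (F0 i)) d0) (b : P.J → E → ℝ) (κ : ι → ℝ),
      closedBall (0 : E) 2 ⊆ c.e.target → d0 ≤ d → P.Amp b → (∀ i, 0 < κ i) →
      (∀ i, κ i * σ.M i ^ d' ≤ 1) → (∀ k, MB (σ.pow d) k 1 (fun _ => 1) F) → (∀ i, Sm (F0 i)) →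
      MB (Sc.one ι) 2 0 (fun i => (σ.M i ^ (7 * d))⁻¹) (fun i p => F i p - F0 i p) →
      ∃ F' : ι → M → V4, (∀ k, MB (σ.pow d') k 1 κ fun i p => F' i p - F i p) ∧
        ∀ k, TB (σ.pow d') k 0 (fun i => (σ.M i ^ N)⁻¹) fun i p =>
          ind (F' i) p - ind (F i) p - κ i ^ 2 • c.push (P.T K b i) p := by
  classical
  obtain ⟨d', hd', H1⟩ := patch_step.{u} (2 * d) (by omega)
  refine ⟨d', by omega, fun N => ?_⟩
  obtain ⟨K0, hK0, H2⟩ := H1 N
  refine ⟨K0, hK0, fun K hK ι σ c F0 F d0 P b κ hc hd0 hb hκ hκ1 hF hF0 hcl => ?_⟩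
  have hbc : ball (0 : E) 2 ⊆ c.e.target := ball_subset_closedBall.trans hc
  have hKU : closedBall (0 : E) (3 / 2) ⊆ ball 0 2 := closedBall_subset_ball (by norm_num)
  have hFb : ∀ k, Bd ((σ.pow d).ctx (ball 0 2) isOpen_ball) k 1 (fun _ => 1)
      fun i => c.rd (F i) := fun k =>
    (hF k).bd c _ isOpen_ball _ (isCompact_closedBall 0 2) ball_subset_closedBall hc
  obtain ⟨Λ, P', b', hb', hT⟩ := Patch.exists_near (H := fun i => c.rd (F i)) hd0 hd P hb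
    (fun i => (c.contDiffOn_rd (hF0 i)).mono hbc) (hFb 2)
    (hcl.bd c _ isOpen_ball _ (isCompact_closedBall 0 2) ball_subset_closedBall hc)
  obtain ⟨u, hu1, hu0, hu2, hu3⟩ := H2 K hK (σ.comap Subtype.val) (fun i => c.rd (F i.1))
    (ColAux2.up P' (by omega)) b' (fun i => κ i.1) (ColAux2.amp_up P' _ hb') (fun i => hκ i.1)
    (fun i => hκ1 i.1)
    (fun k => (St.fderiv (c := σ.ctx (ball 0 2) isOpen_ball) hFb k).reindex Subtype.val
      (fun _ => Subset.rfl) fun _ => le_rfl) fun i => (hFb 0).sm i.1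
  have hT0 := fun i x hx => P.T_eq_zero K (hK0.trans hK) b i (x := x) hx
  have hT1 : ∀ i x, (ColAux2.up P' (by omega : d ≤ 2 * d)).T K b' i x = P.T K b i.1 x := hT K
  simp only [hT1] at hu3
  obtain ⟨F', hF1, hF2⟩ : ∃ F' : ι → M → V4, (∀ i : {i // Λ ≤ σ.M i},
      F' i.1 = fun p => F i.1 p + c.ext (u i) p) ∧ ∀ i : {i // ¬Λ ≤ σ.M i}, F' i.1 = F i.1 :=
    ⟨fun i => if h : Λ ≤ σ.M i then fun p => F i p + c.ext (u ⟨i, h⟩) p else F i,
      fun i => dif_pos i.2, fun i => dif_neg i.2⟩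
  refine ⟨F', fun k => MB.of_cases (fun i => Λ ≤ σ.M i) ?_ ?_,
    fun k => TB.of_cases (fun i => Λ ≤ σ.M i) ?_ ?_⟩
  · exact ColAux2.mb_congr (MB.ext c isOpen_ball (isCompact_closedBall 0 (3 / 2)) hKU hbc (hu2 k)
      fun i x _ hx => hu0 i x hx) fun i p => by rw [hF1, add_sub_cancel_left]
  · exact ColAux2.mb_congr (MB.zero fun i => (hκ i.1).le) fun i p => by rw [hF2, sub_self]
  · refine ColAux2.tb_congr (TB.push c isOpen_ball (isCompact_closedBall 0 (3 / 2)) hKU hbc (hu3 k)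
      fun i x _ hx => ?_) fun i p => ?_
    · rw [ColAux2.indE_add_eq isClosed_closedBall (hu0 i) hx, hT0 _ _ hx]
      ext1 v
      ext1 w
      simp
    · rw [hF1, ind_add_ext c ((hF 0).sm i.1) (hu1 i).contDiffOn
        (isCompact_closedBall 0 (3 / 2)) (hKU.trans hbc) fun x _ hx => hu0 i x hx,
        ColAux2.push_sub_smul]
  · have h1 := (TB.push c isOpen_ball (isCompact_closedBall 0 (3 / 2)) hKU hbc
      (P.cl_T K (hK0.trans hK) hb.st isOpen_ball k) fun i x _ hx => hT0 i x hx).csmul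
      (a := fun i => κ i ^ 2) (A' := fun _ => 1) (fun _ => zero_le_one) (C := 1) fun i => by
        have h2 := ColAux2.le_one (hκ i) (σ.hM i) (hκ1 i) (Nat.zero_le _)
        rw [pow_zero, mul_one] at h2
        rw [abs_of_nonneg (sq_nonneg _), mul_one, mul_one]
        exact pow_le_one₀ (hκ i).le h2
    refine ColAux2.tb_congr (ColAux2.tb_bdd (σ := σ.comap Subtype.val)
      (h1.neg.comap (Subtype.val : {i // ¬Λ ≤ σ.M i} → ι)) (by omega) (Λ := Λ)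
      (fun i => (not_le.1 i.2).le) N) fun i p => ?_
    rw [hF2]
    ext1 v
    ext1 w
    simp

/-- All the steps of a stage. -/
theorem all_steps (d0 : ℕ) (hd : 1 ≤ d0) (n : ℕ) : ∃ d1 : ℕ, d0 ≤ d1 ∧ ∀ N : ℕ, ∃ K0 : ℕ, 1 ≤ K0 ∧
    ∀ K, K0 ≤ K → ∀ {ι : Type u} (σ : Sc ι) (c : Fin n → Ch M) (F0 : ι → M → V4)
      (P : ∀ q, Patch σ (fun i => (c q).rd (F0 i)) d0) (b : ∀ q, (P q).J → E → ℝ) (κ : ι → ℝ),
      (∀ q, closedBall (0 : E) 2 ⊆ (c q).e.target) → (∀ q, (P q).Amp (b q)) → (∀ i, 0 < κ i) →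
      (∀ i, κ i * σ.M i ^ (10 * d1) ≤ 1) → (∀ k, MB (σ.pow d0) k 1 (fun _ => 1) F0) →
      ∃ F' : ι → M → V4, (∀ k, MB (σ.pow d1) k 1 κ fun i p => F' i p - F0 i p) ∧
        ∀ k, TB (σ.pow d1) k 0 (fun i => (σ.M i ^ N)⁻¹) fun i p =>
          ind (F' i) p - ind (F0 i) p - κ i ^ 2 • ∑ q, (c q).push ((P q).T K (b q) i) p := by
  induction n with
  | zero =>
    refine ⟨d0, le_rfl, fun N => ⟨1, le_rfl, fun K _ ι σ c F0 P b κ _ _ hκ _ _ => ⟨F0,
      fun k => ColAux2.mb_congr (MB.zero fun i => (hκ i).le) fun i p => sub_self _,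
      fun k => ColAux2.tb_congr (TB.sum (∅ : Finset Unit) (g := fun _ _ _ => 0)
        (ColAux2.inv_nonneg' σ N) fun _ h => absurd h (Finset.notMem_empty _)) fun i p => ?_⟩⟩⟩
    ext1 v
    ext1 w
    simp
  | succ n ih =>
    obtain ⟨d1, hd1, H1⟩ := ih
    obtain ⟨d2, hd2, H2⟩ := col_step (M := M) d1 (hd.trans hd1)
    refine ⟨d2, hd1.trans hd2, fun N => ?_⟩
    obtain ⟨K1, hK1, H1⟩ := H1 N
    obtain ⟨K2, -, H2⟩ := H2 N
    refine ⟨max K1 K2, le_max_of_le_left hK1, fun K hK ι σ c F0 P b κ hc hb hκ hκ1 hF0 => ?_⟩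
    have hκ2 : ∀ i e, e ≤ 10 * d2 → κ i * σ.M i ^ e ≤ 1 := fun i e he =>
      ColAux2.le_one (hκ i) (σ.hM i) (hκ1 i) he
    obtain ⟨F1, h1, h1'⟩ := H1 K ((le_max_left _ _).trans hK) σ (fun q => c q.castSucc) F0
      (fun q => P q.castSucc) (fun q => b q.castSucc) κ (fun q => hc _) (fun q => hb _) hκ
      (fun i => hκ2 i _ (by omega)) hF0
    obtain ⟨F2, h2, h2'⟩ := H2 K ((le_max_right _ _).trans hK) σ (c (Fin.last n)) F0 F1 d0
      (P _) (b _) κ (hc _) hd1 (hb _) hκ (fun i => hκ2 i _ (by omega))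
      (fun k => ColAux2.mb_congr (((h1 k).size (fun _ => zero_le_one) (C := 1) fun i => by
        have := hκ2 i 0 (Nat.zero_le _)
        rw [pow_zero, mul_one] at this
        rw [one_mul]
        exact mul_le_mul_of_nonneg_right this
          (pow_nonneg (zero_le_one.trans ((σ.pow d1).hM i)) _)).add (ColAux2.mb_up (hF0 k) hd1))
        fun i p => (sub_add_cancel _ _).symm)
      (hF0 0).sm (ColAux2.mb_one (h1 2) fun i => hκ2 i _ (by omega))
    refine ⟨F2, fun k => ColAux2.mb_congr ((h2 k).add (ColAux2.mb_up (h1 k) hd2))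
      fun i p => (sub_add_sub_cancel _ _ _).symm,
      fun k => ColAux2.tb_congr ((h2' k).add (ColAux2.tb_up (h1' k) hd2)) fun i p => ?_⟩
    rw [Fin.sum_univ_castSucc]
    ext1 v
    ext1 w
    simp only [sub_apply, add_apply, smul_apply, smul_eq_mul]
    ring

end Crest.Agent.R216
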