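import Crest.Agent.R216.CovDefs
import Crest.Agent.R216.MCl

/-!
# Row 216: parabolic charts, auxiliary lemmas
-/

set_option autoImplicit false
set_option linter.unusedSectionVars false

noncomputable section

namespace Crest.Agent.R216.CovAAux1

open Set Metric Filter
open scoped Manifold ContDiff Topology RealInnerProductSpace

universe u

variable {M : Type u} [TopologicalSpace M] [T2Space M] [CompactSpace M] [ChartedSpace E M]
  [IsManifold (𝓡 2) ∞ M]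

theorem φ_apply (P : Fr) (ϑ : ℝ) (y : E) : P.φ ϑ y =
    !₂[P.ξ (y - P.x0) - ϑ * P.η (y - P.x0) - P.κ * P.η (y - P.x0) ^ 2, P.η (y - P.x0)] := rfl

theorem φ_symm_apply (P : Fr) (ϑ : ℝ) (x : E) :
    (P.φ ϑ).symm x = P.x0 + (x 0 + ϑ * x 1 + P.κ * x 1 ^ 2) • P.z + x 1 • P.w := rfl

theorem φ_x0 (P : Fr) (ϑ : ℝ) : P.φ ϑ P.x0 = 0 := by
  rw [φ_apply]
  ext i
  fin_cases i <;> simp

theorem symm_pt (P : Fr) (ϑ s t : ℝ) :
    (P.φ ϑ).symm (pt s t) = P.x0 + (s + ϑ * t + P.κ * t ^ 2) • P.z + t • P.w := rfl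

theorem dφ (P : Fr) (ϑ : ℝ) (y : E) : DifferentiableAt ℝ (P.φ ϑ) y :=
  (P.contDiff_φ ϑ).differentiable (by simp) y

theorem dφ' (P : Fr) (ϑ : ℝ) (y : E) : DifferentiableAt ℝ (P.φ ϑ).symm y :=
  (P.contDiff_φ_symm ϑ).differentiable (by simp) y

theorem cs_fderiv (P : Fr) (ϑ : ℝ) (y : E) : cs.comp (fderiv ℝ (P.φ ϑ) y) = P.σ ϑ y := by
  have h1 := cs.hasFDerivAt.comp y (dφ P ϑ y).hasFDerivAt
  have hξ : HasFDerivAt (fun y => P.ξ (y - P.x0)) P.ξ y :=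
    P.ξ.hasFDerivAt.comp y ((hasFDerivAt_id y).sub_const P.x0)
  have hη : HasFDerivAt (fun y => P.η (y - P.x0)) P.η y :=
    P.η.hasFDerivAt.comp y ((hasFDerivAt_id y).sub_const P.x0)
  have h2 := (hξ.sub (hη.const_mul ϑ)).sub ((hη.pow 2).const_mul P.κ)
  refine (h1.unique h2).trans ?_
  ext1 v
  simp [Fr.σ]
  ring

theorem fderiv_symm_et (P : Fr) (ϑ : ℝ) (y : E) : fderiv ℝ (P.φ ϑ).symm (P.φ ϑ y) et =
    P.w + (ϑ + 2 * P.κ * P.η (y - P.x0)) • P.z := by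
  have h0 := cs.hasFDerivAt (x := P.φ ϑ y)
  have h1 := ct.hasFDerivAt (x := P.φ ϑ y)
  have h2 : HasFDerivAt (P.φ ϑ).symm _ (P.φ ϑ y) :=
    (((((h0.add (h1.const_mul ϑ)).add ((h1.pow 2).const_mul P.κ)).smul_const P.z).const_add
      P.x0).add (h1.smul_const P.w))
  rw [h2.fderiv]
  have e0 : cs et = 0 := by simp [cs, et]
  have e1 : ct et = 1 := by simp [ct, et]
  have e2 : ct (P.φ ϑ y) = P.η (y - P.x0) := rfl
  simp [e0, e1, e2]
  module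

theorem fderiv_symm_fderiv (P : Fr) (ϑ : ℝ) (y v : E) :
    fderiv ℝ (P.φ ϑ).symm (P.φ ϑ y) (fderiv ℝ (P.φ ϑ) y v) = v := by
  have h := fderiv_comp y (dφ' P ϑ (P.φ ϑ y)) (dφ P ϑ y)
  rw [(P.φ ϑ).symm_comp_self, fderiv_id] at h
  exact (DFunLike.congr_fun h v).symm

theorem symm_mem (c : Ch M) (P : Fr) (ϑ : ℝ) {x : E} (hx : x ∈ (c.par P ϑ).e.target) :
    (P.φ ϑ).symm x ∈ c.e.target := by
  rw [(c.par_spec P ϑ).2.1] at hx
  obtain ⟨y, hy, rfl⟩ := hx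
  rwa [(P.φ ϑ).symm_apply_apply]

theorem par_dQ (c : Ch M) (P : Fr) (ϑ : ℝ) {p : M} (hp : p ∈ c.e.source) (v : E) :
    (c.par P ϑ).dQ p v = fderiv ℝ (P.φ ϑ) (c.e p) (c.dQ p v) := by
  have e : ((c.par P ϑ).e : M → E) = P.φ ϑ ∘ c.e := funext (c.par_spec P ϑ).2.2.1
  have h := mfderiv_comp p (dφ P ϑ (c.e p)).mdifferentiableAt
    ((ManAuxA.smAt c hp).mdifferentiableAt (by simp))
  rw [mfderiv_eq_fderiv, ← e] at h
  exact DFunLike.congr_fun h v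

theorem par_dP (c : Ch M) (P : Fr) (ϑ : ℝ) {x : E} (hx : x ∈ (c.par P ϑ).e.target) (v : E) :
    (c.par P ϑ).dP x v = c.dP ((P.φ ϑ).symm x) (fderiv ℝ (P.φ ϑ).symm x v) := by
  have e : ((c.par P ϑ).e.symm : E → M) = c.e.symm ∘ (P.φ ϑ).symm :=
    funext (c.par_spec P ϑ).2.2.2
  have h := mfderiv_comp x ((ManAuxA.smAt' c (symm_mem c P ϑ hx)).mdifferentiableAt (by simp))
    (dφ' P ϑ x).mdifferentiableAt
  rw [mfderiv_eq_fderiv, ← e] at h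
  exact DFunLike.congr_fun h v

theorem par_pull (c : Ch M) (P : Fr) (ϑ : ℝ) (T : M → Bil) {x : E}
    (hx : x ∈ (c.par P ϑ).e.target) : (c.par P ϑ).pull T x = P.pull ϑ (c.pull T) x := by
  ext1 v
  ext1 w
  simp only [Ch.pull, Fr.pull, ContinuousLinearMap.bilinearComp_apply, par_dP c P ϑ hx,
    (c.par_spec P ϑ).2.2.2]

theorem par_wt (c : Ch M) (P : Fr) (ϑ : ℝ) {p : M} (hp : p ∈ c.e.source) :
    (c.par P ϑ).wt p = c.dP (c.e p) (P.w + (ϑ + 2 * P.κ * P.η (c.e p - P.x0)) • P.z) := by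
  have hp' : p ∈ (c.par P ϑ).e.source := by rwa [(c.par_spec P ϑ).1]
  rw [Ch.wt, par_dP c P ϑ ((c.par P ϑ).e.map_source hp'), (c.par_spec P ϑ).2.2.1,
    (P.φ ϑ).symm_apply_apply, fderiv_symm_et]

theorem par_push (c : Ch M) (P : Fr) (ϑ : ℝ) (f : E → ℝ) (p : M) :
    (c.par P ϑ).push (fun x => f x • tp cs cs) p =
      c.push (fun y => f (P.φ ϑ y) • tp (P.σ ϑ y) (P.σ ϑ y)) p := by
  unfold Ch.push
  rw [(c.par_spec P ϑ).1]
  split_ifs with hp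
  · ext1 v
    ext1 w
    simp only [ContinuousLinearMap.bilinearComp_apply, par_dQ c P ϑ hp, (c.par_spec P ϑ).2.2.1,
      ← cs_fderiv, tp, smul_apply, ContinuousLinearMap.smulRight_apply,
      ContinuousLinearMap.comp_apply]
  · rfl

section

variable {n : ℕ} (c : Fin n → Ch M) (P : Fin n → Fr) (β : ∀ j, ContDiffBump (P j).x0)
  (h : ∀ j, closedBall (P j).x0 (β j).rOut ⊆ (c j).e.target) (ϑ : Fin n → ℝ)

theorem mkSys_tsupport (j : Fin n) :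
    tsupport ((mkSys c P β h ϑ).χ j) = (P j).φ (ϑ j) '' closedBall (P j).x0 (β j).rOut := by
  show tsupport (β j ∘ ((P j).φ (ϑ j)).symm) = _
  rw [tsupport_comp_eq_preimage, (β j).tsupport_eq, Homeomorph.preimage_symm]

theorem mkSys_ne (j : Fin n) (y : E) :
    (mkSys c P β h ϑ).χ j ((P j).φ (ϑ j) y) ≠ 0 ↔ y ∈ ball (P j).x0 (β j).rOut := by
  show β j (((P j).φ (ϑ j)).symm ((P j).φ (ϑ j) y)) ≠ 0 ↔ _
  rw [Homeomorph.symm_apply_apply, ← (β j).support_eq, Function.mem_support]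

theorem mkSys_Γ (j : Fin n) :
    (mkSys c P β h ϑ).Γ j = (c j).e.symm '' sphere (P j).x0 (β j).rOut := by
  have e : ∀ y, ((mkSys c P β h ϑ).c j).e.symm ((P j).φ (ϑ j) y) = (c j).e.symm y := fun y => by
    show ((c j).par (P j) (ϑ j)).e.symm _ = _
    rw [((c j).par_spec (P j) (ϑ j)).2.2.2, Homeomorph.symm_apply_apply]
  rw [Sys.Γ, mkSys_tsupport, ← closedBall_sdiff_ball]
  ext q
  constructor
  · rintro ⟨_, ⟨⟨y, hy, rfl⟩, h0⟩, rfl⟩
    exact ⟨y, ⟨hy, fun hb => (mkSys_ne c P β h ϑ j y).2 hb h0⟩, (e y).symm⟩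
  · rintro ⟨y, ⟨hy, hb⟩, rfl⟩
    exact ⟨_, ⟨⟨y, hy, rfl⟩, not_not.1 fun h0 => hb ((mkSys_ne c P β h ϑ j y).1 h0)⟩, e y⟩

end

theorem pull_pos {G : M → Bil} (h : Met G) (c : Ch M) {x : E} (hx : x ∈ c.e.target) (v : E)
    (hv : v ≠ 0) : 0 < c.pull G x v v := by
  refine h.pos _ _ fun h0 => hv ?_
  have h1 : c.dP x v = 0 := h0
  rw [← c.dQ_dP hx v, h1, map_zero]

theorem exists_cell
    (hkg : ∀ {G0 G1 : E → Bil} {O : Set E}, IsOpen O → ContDiffOn ℝ ∞ G0 O →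
      ContDiffOn ℝ ∞ G1 O → ∀ P : Fr, P.x0 ∈ O → (∀ v w, G0 P.x0 v w = G0 P.x0 w v) →
      (∀ v w, G1 P.x0 v w = G1 P.x0 w v) → (∀ v, v ≠ 0 → 0 < G0 P.x0 v v) →
      (∀ v, v ≠ 0 → 0 ≤ G1 P.x0 v v) →
      ∃ κ r : ℝ, 0 < r ∧ ∀ ϑ : ℝ, |ϑ| ≤ 1 → ∀ τ ∈ Icc (0 : ℝ) 1, ∀ y ∈ closedBall P.x0 r,
        0 < kg (Fr.pull { P with κ := κ } ϑ fun x => G0 x + τ • G1 x)
          (Fr.φ { P with κ := κ } ϑ y))
    (hdec : ∀ {h : E → Bil} {x0 : E}, ContinuousAt h x0 → (∀ v w, h x0 v w = h x0 w v) →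
      (∀ v, v ≠ 0 → 0 < h x0 v v) → ∃ (P : Fin 3 → Fr) (μ0 r : ℝ)
      (U U' : Fin 3 → (Fin 3 → ℝ) → E), (∀ l, (P l).x0 = x0) ∧ 0 < μ0 ∧ 0 < r ∧
      (∀ l, ContDiffOn ℝ ∞ (U l) (ball 0 μ0) ∧ ContDiffOn ℝ ∞ (U' l) (ball 0 μ0)) ∧
      ∀ μ ∈ ball (0 : Fin 3 → ℝ) μ0, (∀ y ∈ ball x0 r, ∀ l, 0 < h y (U l μ) (U' l μ)) ∧
        ∀ t : Bil, (∀ v w, t v w = t w v) → ∑ l, t (U l μ) (U' l μ) •
          tp ((P l).ξ - μ l • (P l).η) ((P l).ξ - μ l • (P l).η) = t)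
    {G0 G : M → Bil} (h0 : Met G0) (h : Met fun p => G p - G0 p) (p : M) :
    Nonempty (Cell G0 G p) := by
  obtain ⟨c, hc⟩ := exists_ch_chartAt p
  have hp : p ∈ c.e.source := by rw [hc]; exact mem_chart_source E p
  have hx := c.e.map_source hp
  obtain ⟨P, μ0, r1, U, U', hP, hμ, hr1, hU, hd⟩ := hdec (h := c.pull fun q => G q - G0 q)
    ((h.sm c).continuousOn.continuousAt (c.e.open_target.mem_nhds hx))
    (fun v w => h.symm _ _ _) (pull_pos h c hx)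
  have hk := fun l => hkg c.e.open_target (h0.sm c) (h.sm c) (P l) (by rw [hP]; exact hx)
    (fun v w => h0.symm _ _ _) (fun v w => h.symm _ _ _) (pull_pos h0 c (by rw [hP]; exact hx))
    fun v hv => (pull_pos h c (by rw [hP]; exact hx) v hv).le
  choose κ r2 hr2 hk using hk
  have hev : ∀ᶠ y in 𝓝 (c.e p), y ∈ c.e.target ∧ y ∈ ball (c.e p) r1 ∧
      ∀ l, y ∈ closedBall (P l).x0 (r2 l) ∧ |2 * κ l * (P l).η (y - (P l).x0)| < μ0 / 2 := by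
    refine Eventually.and (c.e.open_target.mem_nhds hx) (Eventually.and (ball_mem_nhds _ hr1)
      (eventually_all.2 fun l => Eventually.and ?_ ?_))
    · rw [hP]
      exact closedBall_mem_nhds _ (hr2 l)
    · have hc : Continuous fun y : E => |2 * κ l * (P l).η (y - (P l).x0)| := by fun_prop
      refine hc.continuousAt.eventually_lt continuousAt_const ?_
      simpa [hP] using hμ
  obtain ⟨r, hr, hb⟩ := nhds_basis_closedBall.eventually_iff.1 hev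
  refine ⟨⟨c, hp, fun l => { P l with κ := κ l }, hP, r, hr, fun y hy => (hb hy).1,
    min 1 (μ0 / 2), lt_min one_pos (half_pos hμ), fun l ϑ hϑ τ hτ y hy => ?_, fun ϑ hϑ => ?_⟩⟩
  · refine (hk l ϑ (hϑ.trans (min_le_left _ _)) τ hτ y ((hb hy).2.2 l).1).trans_eq
      (kg_congr ?_).symm
    have hm : Fr.φ { P l with κ := κ l } ϑ y ∈ (c.par { P l with κ := κ l } ϑ).e.target := by
      rw [(c.par_spec _ ϑ).2.1]
      exact ⟨y, (hb hy).1, rfl⟩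
    filter_upwards [(c.par _ ϑ).e.open_target.mem_nhds hm] with x hx
    rw [par_pull c _ ϑ _ hx]
    have e : (c.pull fun q => G0 q + τ • (G q - G0 q))
        = fun x => c.pull G0 x + τ • c.pull (fun q => G q - G0 q) x := by
      funext z
      rw [c.pull_add, c.pull_smul (fun _ => τ)]
      rfl
    rw [e]
  · let μ : E → Fin 3 → ℝ := fun y l => ϑ l + 2 * κ l * (P l).η (y - (P l).x0)
    have hμs : ContDiff ℝ ∞ μ := contDiff_pi.2 fun l => by fun_prop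
    have hμm : MapsTo μ (ball (c.e p) r) (ball 0 μ0) := fun y hy => by
      rw [mem_ball_zero_iff, pi_norm_lt_iff hμ]
      intro l
      have h1 := ((hb (ball_subset_closedBall hy)).2.2 l).2
      have h2 := (hϑ l).trans (min_le_right _ _)
      have h3 := abs_add_le (ϑ l) (2 * κ l * (P l).η (y - (P l).x0))
      rw [Real.norm_eq_abs]
      simp only [μ]
      linarith
    exact ⟨fun l y => U l (μ y), fun l y => U' l (μ y),
      fun l => ⟨(hU l).1.comp hμs.contDiffOn hμm, (hU l).2.comp hμs.contDiffOn hμm⟩,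
      fun y hy => ⟨(hd _ (hμm hy)).1 y (hb (ball_subset_closedBall hy)).2.1, (hd _ (hμm hy)).2⟩⟩

end Crest.Agent.R216.CovAAux1
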