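import Crest.Agent.R216.CovDefs

/-!
# Row 216: strongly curved leaves and adapted directions
-/

set_option autoImplicit false
set_option linter.unusedSectionVars false
set_option maxSynthPendingDepth 3

noncomputable section

namespace Crest.Agent.R216.CovAAux2

open Set Metric Filter
open scoped Manifold ContDiff Topology RealInnerProductSpace

/-- The geodesic curvature in terms of the one-jet of the metric. -/
def KG (z : E) (κ : ℝ) (g : Bil) (D : E →L[ℝ] Bil) (W : E) : ℝ :=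
  (D W z W + 2 * κ * g z z - D z W W / 2) * g W W -
    g z W * ((D W W W + 2 * κ * (g z W + g W z)) / 2)

theorem continuous_KG (z : E) (κ : ℝ) :
    Continuous fun q : Bil × (E →L[ℝ] Bil) × E => KG z κ q.1 q.2.1 q.2.2 := by
  unfold KG
  fun_prop

theorem hasFDerivAt_symm (P : Fr) (ϑ : ℝ) (x : E) : HasFDerivAt (P.φ ϑ).symm
    ((cs + (ϑ + 2 * P.κ * x 1) • ct).smulRight P.z + ct.smulRight P.w) x := by
  have h0 : HasFDerivAt (fun x : E => x 0) cs x := cs.hasFDerivAt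
  have h1 : HasFDerivAt (fun x : E => x 1) ct x := ct.hasFDerivAt
  have h := ((((h0.add (h1.const_mul ϑ)).add ((h1.pow 2).const_mul P.κ)).smul_const P.z).const_add
    P.x0).add (h1.smul_const P.w)
  refine HasFDerivAt.congr_fderiv h (ContinuousLinearMap.ext fun v => ?_)
  simp only [add_apply, ContinuousLinearMap.smulRight_apply,
    smul_apply, smul_eq_mul, nsmul_eq_mul]
  congr 2
  push_cast
  ring

theorem cs_es : cs es = 1 := by simp [cs, es]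
theorem cs_et : cs et = 0 := by simp [cs, et]
theorem ct_es : ct es = 0 := by simp [ct, es]
theorem ct_et : ct et = 1 := by simp [ct, et]

theorem fderiv_es (P : Fr) (ϑ : ℝ) (x : E) : fderiv ℝ (P.φ ϑ).symm x es = P.z := by
  rw [(hasFDerivAt_symm P ϑ x).fderiv]
  simp [cs_es, ct_es]

theorem fderiv_et (P : Fr) (ϑ : ℝ) (x : E) :
    fderiv ℝ (P.φ ϑ).symm x et = P.w + (ϑ + 2 * P.κ * x 1) • P.z := by
  rw [(hasFDerivAt_symm P ϑ x).fderiv]
  simp [cs_et, ct_et, add_comm]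

theorem kg_pull (P : Fr) (ϑ : ℝ) {G : E → Bil} {D : E →L[ℝ] Bil} {y : E} (hG : HasFDerivAt G D y) :
    kg (P.pull ϑ G) (P.φ ϑ y) =
      KG P.z P.κ (G y) D (P.w + (ϑ + 2 * P.κ * P.η (y - P.x0)) • P.z) := by
  have hx : (P.φ ϑ y) 1 = P.η (y - P.x0) := rfl
  rw [← hx]
  have hy : (P.φ ϑ).symm (P.φ ϑ y) = y := (P.φ ϑ).symm_apply_apply y
  generalize P.φ ϑ y = x at hy ⊢
  subst hy
  have e1 : ∀ x, P.pull ϑ G x es et =
      G ((P.φ ϑ).symm x) P.z (P.w + (ϑ + 2 * P.κ * x 1) • P.z) := fun x => by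
    rw [Fr.pull, ContinuousLinearMap.bilinearComp_apply, fderiv_es, fderiv_et]
  have e2 : ∀ x, P.pull ϑ G x et et = G ((P.φ ϑ).symm x) (P.w + (ϑ + 2 * P.κ * x 1) • P.z)
      (P.w + (ϑ + 2 * P.κ * x 1) • P.z) := fun x => by
    rw [Fr.pull, ContinuousLinearMap.bilinearComp_apply, fderiv_et]
  have h1 : HasFDerivAt (fun x : E => x 1) ct x := ct.hasFDerivAt
  have hW := (((h1.const_mul (2 * P.κ)).const_add ϑ).smul_const P.z).const_add P.w
  have hΨ := (hasFDerivAt_symm P ϑ x).differentiableAt.hasFDerivAt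
  have hg := hG.comp x hΨ
  have d1 := (hg.clm_apply (hasFDerivAt_const P.z x)).clm_apply hW
  have d2 := (hg.clm_apply hW).clm_apply hW
  simp only [kg, dd, e1, e2]
  rw [show fderiv ℝ (fun x : E => G ((P.φ ϑ).symm x) P.z (P.w + (ϑ + 2 * P.κ * x 1) • P.z)) x = _
      from d1.fderiv,
    show fderiv ℝ (fun x : E => G ((P.φ ϑ).symm x) (P.w + (ϑ + 2 * P.κ * x 1) • P.z)
      (P.w + (ϑ + 2 * P.κ * x 1) • P.z)) x = _ from d2.fderiv, KG]
  generalize hW' : P.w + (ϑ + 2 * P.κ * x 1) • P.z = W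
  simp only [add_apply, ContinuousLinearMap.comp_apply,
    ContinuousLinearMap.flip_apply, ContinuousLinearMap.smulRight_apply,
    smul_apply, zero_apply, fderiv_es, fderiv_et, hW',
    Function.comp_apply, ct_es, ct_et, smul_eq_mul, map_smul, map_zero, mul_zero, mul_one,
    zero_smul]
  ring

theorem gram_pos {g : Bil} (hs : ∀ v w, g v w = g w v) (hp : ∀ v, v ≠ 0 → 0 < g v v) (P : Fr)
    (ϑ : ℝ) : 0 < g P.z P.z * g (P.w + ϑ • P.z) (P.w + ϑ • P.z) - g P.z (P.w + ϑ • P.z) ^ 2 := by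
  have h1 : P.η (P.w + ϑ • P.z) = 1 := by simp [P.ηw, P.ηz]
  have h2 : P.ξ (P.w + ϑ • P.z) = ϑ := by simp [P.ξw, P.ξz]
  generalize P.w + ϑ • P.z = W at h1 h2
  have hW : 0 < g W W := hp W fun h => by simp [h] at h1
  have hv : g W W • P.z - g P.z W • W ≠ 0 := fun h => by
    have a := congrArg P.η h
    have b := congrArg P.ξ h
    simp only [map_sub, map_smul, h1, h2, P.ηz, P.ξz, smul_eq_mul, map_zero] at a b
    have c : g P.z W = 0 := by linarith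
    rw [c] at b
    linarith
  have h3 := hp _ hv
  simp only [map_sub, map_smul, sub_apply, smul_apply,
    smul_eq_mul, hs W P.z] at h3
  by_contra hn
  nlinarith [mul_nonneg hW.le (neg_nonneg.2 (not_lt.1 hn))]

theorem exists_kappa {F : ℝ → E × ℝ × ℝ → ℝ} {x0 : E} {S : Set (ℝ × ℝ)} (hS : IsCompact S)
    (hF : ∀ κ s, ContinuousAt (F κ) (x0, s)) (hB : ∀ s ∈ S, 0 < F 1 (x0, s) - F 0 (x0, s))
    (hlin : ∀ κ s, F κ (x0, s) = F 0 (x0, s) + κ * (F 1 (x0, s) - F 0 (x0, s))) :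
    ∃ κ, ∀ᶠ y in 𝓝 x0, ∀ s ∈ S, 0 < F κ (y, s) := by
  have hF' : ∀ κ, Continuous fun s : ℝ × ℝ => F κ (x0, s) := fun κ =>
    continuous_iff_continuousAt.2 fun s =>
      ContinuousAt.comp (f := fun s : ℝ × ℝ => (x0, s)) (hF κ s) (by fun_prop)
  obtain ⟨C, hC⟩ := hS.exists_bound_of_continuousOn
    (f := fun s => F 0 (x0, s) / (F 1 (x0, s) - F 0 (x0, s)))
    ((hF' 0).continuousOn.div ((hF' 1).sub (hF' 0)).continuousOn fun s hs0 => (hB s hs0).ne')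
  have hpos : ∀ s ∈ S, 0 < F (C + 1) (x0, s) := fun s hs0 => by
    have a := (abs_le.1 (hC s hs0)).1
    have b := hB s hs0
    rw [le_div_iff₀ b] at a
    rw [hlin]
    linarith
  exact ⟨C + 1, hS.eventually_forall_of_forall_eventually (x₀ := x0)
    (P := fun y s => 0 < F (C + 1) (y, s)) fun s hs0 =>
      (hF (C + 1) s).eventually (lt_mem_nhds (hpos s hs0))⟩

/-- The curvature as a function of the parameters. -/
def FF (P : Fr) (G0 G1 : E → Bil) (D0 D1 : E → E →L[ℝ] Bil) (κ : ℝ) (q : E × ℝ × ℝ) : ℝ :=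
  KG P.z κ (G0 q.1 + q.2.2 • G1 q.1) (D0 q.1 + q.2.2 • D1 q.1)
    (P.w + (q.2.1 + 2 * κ * P.η (q.1 - P.x0)) • P.z)

theorem FF_cont (P : Fr) {G0 G1 : E → Bil} {D0 D1 : E → E →L[ℝ] Bil} (c0 : ContinuousAt G0 P.x0)
    (c1 : ContinuousAt G1 P.x0) (e0 : ContinuousAt D0 P.x0) (e1 : ContinuousAt D1 P.x0) (κ : ℝ)
    (s : ℝ × ℝ) : ContinuousAt (FF P G0 G1 D0 D1 κ) (P.x0, s) := by
  have a0 : ContinuousAt (fun q : E × ℝ × ℝ => G0 q.1) (P.x0, s) :=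
    ContinuousAt.comp (f := Prod.fst) c0 continuousAt_fst
  have a1 : ContinuousAt (fun q : E × ℝ × ℝ => G1 q.1) (P.x0, s) :=
    ContinuousAt.comp (f := Prod.fst) c1 continuousAt_fst
  have b0 : ContinuousAt (fun q : E × ℝ × ℝ => D0 q.1) (P.x0, s) :=
    ContinuousAt.comp (f := Prod.fst) e0 continuousAt_fst
  have b1 : ContinuousAt (fun q : E × ℝ × ℝ => D1 q.1) (P.x0, s) :=
    ContinuousAt.comp (f := Prod.fst) e1 continuousAt_fst
  have t : ContinuousAt (fun q : E × ℝ × ℝ => q.2.2) (P.x0, s) := continuousAt_snd.snd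
  have w : ContinuousAt (fun q : E × ℝ × ℝ => P.w + (q.2.1 + 2 * κ * P.η (q.1 - P.x0)) • P.z)
      (P.x0, s) := by fun_prop
  exact ContinuousAt.comp (g := fun q : Bil × (E →L[ℝ] Bil) × E => KG P.z κ q.1 q.2.1 q.2.2)
    (f := fun q : E × ℝ × ℝ => (G0 q.1 + q.2.2 • G1 q.1, D0 q.1 + q.2.2 • D1 q.1,
      P.w + (q.2.1 + 2 * κ * P.η (q.1 - P.x0)) • P.z))
    (continuous_KG P.z κ).continuousAt
    ((a0.add (t.smul a1)).prodMk ((b0.add (t.smul b1)).prodMk w))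

theorem FF_x0 (P : Fr) (G0 G1 : E → Bil) (D0 D1 : E → E →L[ℝ] Bil) (κ : ℝ) (s : ℝ × ℝ) :
    FF P G0 G1 D0 D1 κ (P.x0, s) = KG P.z κ (G0 P.x0 + s.2 • G1 P.x0) (D0 P.x0 + s.2 • D1 P.x0)
      (P.w + s.1 • P.z) := by
  rw [FF, sub_self, map_zero, mul_zero, add_zero]

theorem cell_kg {G0 G1 : E → Bil} {O : Set E} (hO : IsOpen O) (h0 : ContDiffOn ℝ ∞ G0 O)
    (h1 : ContDiffOn ℝ ∞ G1 O) (P : Fr) (hx : P.x0 ∈ O)
    (hs : ∀ v w, G0 P.x0 v w = G0 P.x0 w v) (hs' : ∀ v w, G1 P.x0 v w = G1 P.x0 w v)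
    (hp : ∀ v, v ≠ 0 → 0 < G0 P.x0 v v) (hp' : ∀ v, v ≠ 0 → 0 ≤ G1 P.x0 v v) :
    ∃ κ r : ℝ, 0 < r ∧ ∀ ϑ : ℝ, |ϑ| ≤ 1 → ∀ τ ∈ Icc (0 : ℝ) 1, ∀ y ∈ closedBall P.x0 r,
      0 < kg (Fr.pull { P with κ := κ } ϑ fun x => G0 x + τ • G1 x)
        (Fr.φ { P with κ := κ } ϑ y) := by
  have hOx := hO.mem_nhds hx
  have c0 := h0.contDiffAt hOx
  have c1 := h1.contDiffAt hOx
  have hsym : ∀ (τ : ℝ) v w, (G0 P.x0 + τ • G1 P.x0) v w = (G0 P.x0 + τ • G1 P.x0) w v :=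
    fun τ v w => by
      simp only [add_apply, smul_apply, hs v w, hs' v w]
  obtain ⟨κ, hev⟩ := exists_kappa (F := FF P G0 G1 (fderiv ℝ G0) (fderiv ℝ G1))
    (S := Icc (-1 : ℝ) 1 ×ˢ Icc (0 : ℝ) 1) (isCompact_Icc.prod isCompact_Icc)
    (FF_cont P c0.continuousAt c1.continuousAt (c0.continuousAt_fderiv (by simp))
      (c1.continuousAt_fderiv (by simp)))
    (fun s hs0 => by
      have := gram_pos (hsym s.2) (fun v hv => by
        simp only [add_apply, smul_apply, smul_eq_mul]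
        exact add_pos_of_pos_of_nonneg (hp v hv) (mul_nonneg hs0.2.1 (hp' v hv))) P s.1
      rw [FF_x0, FF_x0, KG, KG, hsym s.2 (P.w + s.1 • P.z) P.z]
      linarith)
    (fun κ s => by
      rw [FF_x0, FF_x0, FF_x0, KG, KG, KG]
      ring)
  obtain ⟨r, hr, hr'⟩ := nhds_basis_closedBall.eventually_iff.1 (hev.and hOx)
  refine ⟨κ, r, hr, fun ϑ hϑ τ hτ y hy => ?_⟩
  obtain ⟨a, b⟩ := hr' hy
  have d0 := ((h0.contDiffAt (hO.mem_nhds b)).differentiableAt (by simp)).hasFDerivAt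
  have d1 := ((h1.contDiffAt (hO.mem_nhds b)).differentiableAt (by simp)).hasFDerivAt
  rw [kg_pull { P with κ := κ } ϑ (G := fun x => G0 x + τ • G1 x) (d0.add (d1.const_smul τ))]
  exact a (ϑ, τ) ⟨abs_le.1 hϑ, hτ⟩

theorem exists_uv {g : Bil} (hs : ∀ v w, g v w = g w v) (hp : ∀ v, v ≠ 0 → 0 < g v v) :
    ∃ (u v : E) (α β : E →L[ℝ] ℝ), α u = 1 ∧ α v = 0 ∧ β u = 0 ∧ β v = 1 ∧ g u v < 0 ∧
      0 < g u (u + v) ∧ 0 < g v (u + v) := by
  have ha : 0 < g es es := hp es fun h => by simpa [h] using cs_es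
  obtain ⟨k, hk⟩ : ∃ k : ℝ, k * g es es = g es et := ⟨g es et / g es es, by field_simp⟩
  obtain ⟨f, hf⟩ : ∃ f : E, f = et - k • es := ⟨_, rfl⟩
  have f1 : ct f = 1 := by simp [hf, ct_es, ct_et]
  have f2 : cs f = -k := by simp [hf, cs_es, cs_et]
  have f3 : g es f = 0 := by simp [hf, hk]
  have f4 : g f es = 0 := by rw [hs, f3]
  have hd : 0 < g f f := hp f fun h => by simp [h] at f1
  obtain ⟨t, ht0, ht⟩ : ∃ t : ℝ, 0 < t ∧ g es es < t ^ 2 * g f f := by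
    refine ⟨g es es / g f f + 1, by positivity, ?_⟩
    have h1 : (g es es / g f f + 1) * g f f = g es es + g f f := by field_simp
    have h2 : 0 < g es es / g f f := by positivity
    nlinarith
  refine ⟨es + t • f, es - t • f, (1 / 2 : ℝ) • (cs + (k + t⁻¹) • ct),
    (1 / 2 : ℝ) • (cs + (k - t⁻¹) • ct), ?_, ?_, ?_, ?_, ?_, ?_, ?_⟩ <;>
    simp only [add_apply, smul_apply, sub_apply, map_add, map_sub, map_smul, smul_eq_mul, f1, f2,
      f3, f4, cs_es, ct_es]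
  · field_simp; ring
  · field_simp; ring
  · field_simp; ring
  · field_simp; ring
  · nlinarith
  · nlinarith
  · nlinarith

theorem dec_id {u v : E} {α β : E →L[ℝ] ℝ} (h1 : α u = 1) (h2 : α v = 0) (h3 : β u = 0)
    (h4 : β v = 1) {a b c : ℝ} (d1 : 1 - a * b ≠ 0) (d2 : 1 - a * (1 + c) ≠ 0)
    (d3 : 1 + c - b ≠ 0) (t : Bil) (ht : ∀ v w, t v w = t w v) :
    t ((1 - a * b)⁻¹ • (v + b • u)) ((1 - a * (1 + c))⁻¹ • ((1 + c) • u + v)) •
        tp (β - a • α) (β - a • α) +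
      t ((1 - a * b)⁻¹ • (u + a • v)) ((1 + c - b)⁻¹ • ((1 + c) • u + v)) •
        tp (α - b • β) (α - b • β) +
      t ((1 - a * (1 + c))⁻¹ • (u + a • v)) ((-(1 + c - b))⁻¹ • (v + b • u)) •
        tp (α - β - c • β) (α - β - c • β) = t := by
  refine ContinuousLinearMap.ext fun x => ContinuousLinearMap.ext fun y => ?_
  conv_rhs => rw [frame_decomp h1 h2 h3 h4 x, frame_decomp h1 h2 h3 h4 y]
  simp only [tp, add_apply, smul_apply, sub_apply, ContinuousLinearMap.smulRight_apply, map_add,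
    map_smul, smul_eq_mul, ht v u]
  field_simp
  ring

theorem cell_dec {h : E → Bil} {x0 : E} (hc : ContinuousAt h x0) (hs : ∀ v w, h x0 v w = h x0 w v)
    (hp : ∀ v, v ≠ 0 → 0 < h x0 v v) : ∃ (P : Fin 3 → Fr) (μ0 r : ℝ)
      (U U' : Fin 3 → (Fin 3 → ℝ) → E), (∀ l, (P l).x0 = x0) ∧ 0 < μ0 ∧ 0 < r ∧
      (∀ l, ContDiffOn ℝ ∞ (U l) (ball 0 μ0) ∧ ContDiffOn ℝ ∞ (U' l) (ball 0 μ0)) ∧
      ∀ μ ∈ ball (0 : Fin 3 → ℝ) μ0, (∀ y ∈ ball x0 r, ∀ l, 0 < h y (U l μ) (U' l μ)) ∧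
        ∀ t : Bil, (∀ v w, t v w = t w v) → ∑ l, t (U l μ) (U' l μ) •
          tp ((P l).ξ - μ l • (P l).η) ((P l).ξ - μ l • (P l).η) = t := by
  obtain ⟨u, v, α, β, h1, h2, h3, h4, g1, g2, g3⟩ := exists_uv hs hp
  let d : Fin 3 → (Fin 3 → ℝ) → ℝ :=
    ![fun μ => 1 - μ 0 * μ 1, fun μ => 1 - μ 0 * (1 + μ 2), fun μ => 1 + μ 2 - μ 1]
  let U : Fin 3 → (Fin 3 → ℝ) → E := ![fun μ => (d 0 μ)⁻¹ • (v + μ 1 • u),
    fun μ => (d 0 μ)⁻¹ • (u + μ 0 • v), fun μ => (d 1 μ)⁻¹ • (u + μ 0 • v)]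
  let U' : Fin 3 → (Fin 3 → ℝ) → E := ![fun μ => (d 1 μ)⁻¹ • ((1 + μ 2) • u + v),
    fun μ => (d 2 μ)⁻¹ • ((1 + μ 2) • u + v), fun μ => (-d 2 μ)⁻¹ • (v + μ 1 • u)]
  have hd : ∀ l, ContDiff ℝ ∞ (d l) := fun l => by
    fin_cases l
    · show ContDiff ℝ ∞ fun μ : Fin 3 → ℝ => 1 - μ 0 * μ 1
      fun_prop
    · show ContDiff ℝ ∞ fun μ : Fin 3 → ℝ => 1 - μ 0 * (1 + μ 2)
      fun_prop
    · show ContDiff ℝ ∞ fun μ : Fin 3 → ℝ => 1 + μ 2 - μ 1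
      fun_prop
  have hU : ∀ μ, (∀ l, d l μ ≠ 0) → ∀ l, ContDiffAt ℝ ∞ (U l) μ ∧ ContDiffAt ℝ ∞ (U' l) μ := by
    intro μ hμ l
    have i : ∀ l, ContDiffAt ℝ ∞ (fun μ => (d l μ)⁻¹) μ := fun l => (hd l).contDiffAt.inv (hμ l)
    have i' : ContDiffAt ℝ ∞ (fun μ => (-d 2 μ)⁻¹) μ :=
      (hd 2).contDiffAt.neg.inv (neg_ne_zero.2 (hμ 2))
    have w0 : ContDiffAt ℝ ∞ (fun μ : Fin 3 → ℝ => u + μ 0 • v) μ := by fun_prop
    have w1 : ContDiffAt ℝ ∞ (fun μ : Fin 3 → ℝ => v + μ 1 • u) μ := by fun_prop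
    have w2 : ContDiffAt ℝ ∞ (fun μ : Fin 3 → ℝ => (1 + μ 2) • u + v) μ := by fun_prop
    fin_cases l
    exacts [⟨(i 0).smul w1, (i 1).smul w2⟩, ⟨(i 0).smul w0, (i 2).smul w2⟩,
      ⟨(i 1).smul w0, i'.smul w1⟩]
  have hd0 : ∀ l, d l 0 ≠ 0 := fun l => by fin_cases l <;> simp [d]
  have hpos : ∀ l, 0 < h x0 (U l 0) (U' l 0) := fun l => by
    fin_cases l
    · simpa [U, U', d] using g3
    · simpa [U, U', d] using g2
    · simpa [U, U', d] using g1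
  have e1 : ∀ᶠ q : (Fin 3 → ℝ) × E in 𝓝 (0, x0), ∀ l, d l q.1 ≠ 0 := eventually_all.2 fun l =>
    (ContinuousAt.comp (f := Prod.fst) (x := ((0 : Fin 3 → ℝ), x0)) (hd l).continuous.continuousAt
      continuousAt_fst).eventually_ne (hd0 l)
  have e2 : ∀ᶠ q : (Fin 3 → ℝ) × E in 𝓝 (0, x0), ∀ l, 0 < h q.2 (U l q.1) (U' l q.1) :=
    eventually_all.2 fun l => by
      have a : ContinuousAt (fun q : (Fin 3 → ℝ) × E => h q.2) (0, x0) :=
        ContinuousAt.comp (f := Prod.snd) hc continuousAt_snd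
      have b : ContinuousAt (fun q : (Fin 3 → ℝ) × E => U l q.1) (0, x0) :=
        ContinuousAt.comp (f := Prod.fst) (hU 0 hd0 l).1.continuousAt continuousAt_fst
      have c : ContinuousAt (fun q : (Fin 3 → ℝ) × E => U' l q.1) (0, x0) :=
        ContinuousAt.comp (f := Prod.fst) (hU 0 hd0 l).2.continuousAt continuousAt_fst
      exact ((a.clm_apply b).clm_apply c).eventually (lt_mem_nhds (hpos l))
  obtain ⟨r, hr, hr'⟩ := nhds_basis_ball.eventually_iff.1 (e1.and e2)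
  rw [← ball_prod_same] at hr'
  have hne : ∀ μ ∈ ball (0 : Fin 3 → ℝ) r, ∀ l, d l μ ≠ 0 := fun μ hμ =>
    (hr' (x := (μ, x0)) ⟨hμ, mem_ball_self hr⟩).1
  refine ⟨![⟨x0, v, u, β, α, h4, h3, h2, h1, 0⟩, ⟨x0, u, v, α, β, h1, h2, h3, h4, 0⟩,
    ⟨x0, u, u + v, α - β, β, by simp [h1, h3], by simp [h1, h2, h3, h4], h3, by simp [h3, h4], 0⟩],
    r, r, U, U', fun l => by fin_cases l <;> rfl, hr, hr,
    fun l => ⟨fun μ hμ => (hU μ (hne μ hμ) l).1.contDiffWithinAt,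
      fun μ hμ => (hU μ (hne μ hμ) l).2.contDiffWithinAt⟩,
    fun μ hμ => ⟨fun y hy => (hr' (x := (μ, y)) ⟨hμ, hy⟩).2, fun t ht => ?_⟩⟩
  rw [Fin.sum_univ_three]
  exact dec_id h1 h2 h3 h4 (hne μ hμ 0) (hne μ hμ 1) (hne μ hμ 2) t ht

end Crest.Agent.R216.CovAAux2
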