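import Crest.Agent.R216.CovDefs
import Crest.Agent.R216.CovAAux2
import Crest.Agent.R216.MCl
import Crest.Agent.R216.CovAAux1

/-!
# Row 216: parabolic charts
-/

set_option autoImplicit false
set_option linter.unusedSectionVars false

noncomputable section

namespace Crest.Agent.R216

open Set Metric Filter
open scoped Manifold ContDiff Topology RealInnerProductSpace

universe u

variable {M : Type u} [TopologicalSpace M] [T2Space M] [CompactSpace M] [ChartedSpace E M]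
  [IsManifold (𝓡 2) ∞ M]

theorem Fr.φ_x0 (P : Fr) (ϑ : ℝ) : P.φ ϑ P.x0 = 0 :=
  CovAAux1.φ_x0 P ϑ
theorem Fr.symm_pt (P : Fr) (ϑ s t : ℝ) :
    (P.φ ϑ).symm (pt s t) = P.x0 + (s + ϑ * t + P.κ * t ^ 2) • P.z + t • P.w :=
  CovAAux1.symm_pt P ϑ s t
theorem Fr.cs_fderiv (P : Fr) (ϑ : ℝ) (y : E) : cs.comp (fderiv ℝ (P.φ ϑ) y) = P.σ ϑ y :=
  CovAAux1.cs_fderiv P ϑ y
theorem Fr.fderiv_symm_et (P : Fr) (ϑ : ℝ) (y : E) : fderiv ℝ (P.φ ϑ).symm (P.φ ϑ y) et =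
    P.w + (ϑ + 2 * P.κ * P.η (y - P.x0)) • P.z :=
  CovAAux1.fderiv_symm_et P ϑ y
theorem Fr.fderiv_symm_fderiv (P : Fr) (ϑ : ℝ) (y v : E) :
    fderiv ℝ (P.φ ϑ).symm (P.φ ϑ y) (fderiv ℝ (P.φ ϑ) y v) = v :=
  CovAAux1.fderiv_symm_fderiv P ϑ y v

theorem Ch.par_dQ (c : Ch M) (P : Fr) (ϑ : ℝ) {p : M} (hp : p ∈ c.e.source) (v : E) :
    (c.par P ϑ).dQ p v = fderiv ℝ (P.φ ϑ) (c.e p) (c.dQ p v) :=
  CovAAux1.par_dQ c P ϑ hp v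
theorem Ch.par_dP (c : Ch M) (P : Fr) (ϑ : ℝ) {x : E} (hx : x ∈ (c.par P ϑ).e.target) (v : E) :
    (c.par P ϑ).dP x v = c.dP ((P.φ ϑ).symm x) (fderiv ℝ (P.φ ϑ).symm x v) :=
  CovAAux1.par_dP c P ϑ hx v
theorem Ch.par_pull (c : Ch M) (P : Fr) (ϑ : ℝ) (T : M → Bil) {x : E}
    (hx : x ∈ (c.par P ϑ).e.target) : (c.par P ϑ).pull T x = P.pull ϑ (c.pull T) x :=
  CovAAux1.par_pull c P ϑ T hx
theorem Ch.par_wt (c : Ch M) (P : Fr) (ϑ : ℝ) {p : M} (hp : p ∈ c.e.source) :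
    (c.par P ϑ).wt p = c.dP (c.e p) (P.w + (ϑ + 2 * P.κ * P.η (c.e p - P.x0)) • P.z) :=
  CovAAux1.par_wt c P ϑ hp
theorem Ch.par_push (c : Ch M) (P : Fr) (ϑ : ℝ) (f : E → ℝ) (p : M) :
    (c.par P ϑ).push (fun x => f x • tp cs cs) p =
      c.push (fun y => f (P.φ ϑ y) • tp (P.σ ϑ y) (P.σ ϑ y)) p :=
  CovAAux1.par_push c P ϑ f p

section

variable {n : ℕ} (c : Fin n → Ch M) (P : Fin n → Fr) (β : ∀ j, ContDiffBump (P j).x0)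
  (h : ∀ j, closedBall (P j).x0 (β j).rOut ⊆ (c j).e.target) (ϑ : Fin n → ℝ)

theorem mkSys_tsupport (j : Fin n) :
    tsupport ((mkSys c P β h ϑ).χ j) = (P j).φ (ϑ j) '' closedBall (P j).x0 (β j).rOut :=
  CovAAux1.mkSys_tsupport c P β h ϑ j
theorem mkSys_ne (j : Fin n) (y : E) :
    (mkSys c P β h ϑ).χ j ((P j).φ (ϑ j) y) ≠ 0 ↔ y ∈ ball (P j).x0 (β j).rOut :=
  CovAAux1.mkSys_ne c P β h ϑ j y
theorem mkSys_Γ (j : Fin n) :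
    (mkSys c P β h ϑ).Γ j = (c j).e.symm '' sphere (P j).x0 (β j).rOut :=
  CovAAux1.mkSys_Γ c P β h ϑ j

end

/-- Strongly curved leaves. -/
theorem cell_kg {G0 G1 : E → Bil} {O : Set E} (hO : IsOpen O) (h0 : ContDiffOn ℝ ∞ G0 O)
    (h1 : ContDiffOn ℝ ∞ G1 O) (P : Fr) (hx : P.x0 ∈ O)
    (hs : ∀ v w, G0 P.x0 v w = G0 P.x0 w v) (hs' : ∀ v w, G1 P.x0 v w = G1 P.x0 w v)
    (hp : ∀ v, v ≠ 0 → 0 < G0 P.x0 v v) (hp' : ∀ v, v ≠ 0 → 0 ≤ G1 P.x0 v v) :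
    ∃ κ r : ℝ, 0 < r ∧ ∀ ϑ : ℝ, |ϑ| ≤ 1 → ∀ τ ∈ Icc (0 : ℝ) 1, ∀ y ∈ closedBall P.x0 r,
      0 < kg (Fr.pull { P with κ := κ } ϑ fun x => G0 x + τ • G1 x)
        (Fr.φ { P with κ := κ } ϑ y) := CovAAux2.cell_kg hO h0 h1 P hx hs hs' hp hp'

/-- Three directions adapted to a positive form. -/
theorem cell_dec {h : E → Bil} {x0 : E} (hc : ContinuousAt h x0) (hs : ∀ v w, h x0 v w = h x0 w v)
    (hp : ∀ v, v ≠ 0 → 0 < h x0 v v) : ∃ (P : Fin 3 → Fr) (μ0 r : ℝ)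
      (U U' : Fin 3 → (Fin 3 → ℝ) → E), (∀ l, (P l).x0 = x0) ∧ 0 < μ0 ∧ 0 < r ∧
      (∀ l, ContDiffOn ℝ ∞ (U l) (ball 0 μ0) ∧ ContDiffOn ℝ ∞ (U' l) (ball 0 μ0)) ∧
      ∀ μ ∈ ball (0 : Fin 3 → ℝ) μ0, (∀ y ∈ ball x0 r, ∀ l, 0 < h y (U l μ) (U' l μ)) ∧
        ∀ t : Bil, (∀ v w, t v w = t w v) → ∑ l, t (U l μ) (U' l μ) •
          tp ((P l).ξ - μ l • (P l).η) ((P l).ξ - μ l • (P l).η) = t :=
  CovAAux2.cell_dec hc hs hp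

theorem exists_cell {G0 G : M → Bil} (h0 : Met G0) (h : Met fun p => G p - G0 p) (p : M) :
    Nonempty (Cell G0 G p) :=
  CovAAux1.exists_cell cell_kg cell_dec h0 h p

end Crest.Agent.R216
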