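import Crest.Agent.R216.CovA

/-!
# Row 216: general position, radii and tilts
-/

set_option autoImplicit false
set_option linter.unusedSectionVars false

noncomputable section

namespace Crest.Agent.R216.CovBAux1

open Set Metric Filter MeasureTheory
open scoped Manifold ContDiff Topology RealInnerProductSpace

/-- Sard's theorem on the line. -/
theorem sard (f : ℝ → ℝ) : volume (f '' {x | HasDerivAt f 0 x}) = 0 := by
  exact addHaar_image_eq_zero_of_det_fderivWithin_eq_zero volume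
    (f' := fun _ => ContinuousLinearMap.toSpanSingleton ℝ 0)
    (fun x hx => (HasDerivAt.hasFDerivAt hx).hasFDerivWithinAt) fun x _ => by simp

theorem null_level {T S : ℝ → ℝ} {O : Set ℝ} (hT : ∀ θ ∈ O, DifferentiableAt ℝ T θ)
    (hS : ∀ θ ∈ O, DifferentiableAt ℝ S θ) {ϑ : ℝ}
    (h : volume {θ | deriv S θ / deriv T θ = ϑ} = 0) (s : ℝ) :
    volume (T '' {θ ∈ O | S θ - ϑ * T θ = s}) = 0 := by
  have h1 : volume {θ | S θ - ϑ * T θ = s ∧ ∀ᶠ z in 𝓝[≠] θ, S z - ϑ * T z ≠ s} = 0 := by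
    refine measure_null_of_locally_null _ fun θ hθ => ⟨{θ}, ?_, measure_singleton θ⟩
    have h2 := eventually_nhdsWithin_iff.1 hθ.2
    filter_upwards [mem_nhdsWithin_of_mem_nhds h2, self_mem_nhdsWithin] with z h3 h4
    by_contra h5
    exact h3 h5 h4.1
  have h2 := addHaar_image_eq_zero_of_differentiableOn_of_addHaar_eq_zero volume (f := T)
    (s := O ∩ ({θ | deriv S θ / deriv T θ = ϑ} ∪
      {θ | S θ - ϑ * T θ = s ∧ ∀ᶠ z in 𝓝[≠] θ, S z - ϑ * T z ≠ s}))
    (fun θ hθ => (hT θ hθ.1).differentiableWithinAt)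
    (measure_mono_null inter_subset_right (measure_union_null h h1))
  refine measure_mono_null ?_ (measure_union_null h2 (sard T))
  rw [← image_union]
  refine image_mono fun θ hθ => ?_
  have h3 := (hT θ hθ.1).hasDerivAt
  by_cases h4 : deriv T θ = 0
  · exact Or.inr (h4 ▸ h3)
  refine Or.inl ⟨hθ.1, ?_⟩
  by_cases h5 : deriv S θ / deriv T θ = ϑ
  · exact Or.inl h5
  refine Or.inr ⟨hθ.2, ((hS θ hθ.1).hasDerivAt.sub (h3.const_mul ϑ)).eventually_ne fun h6 => h5 ?_⟩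
  rw [div_eq_iff h4]
  linarith

theorem bad_tilt {γ : ℝ → E} {O : Set ℝ} (hO : IsOpen O) (hγ : ContDiffOn ℝ ∞ γ O)
    (P : Fr) : {ϑ : ℝ | ∃ s : ℝ,
      volume {t : ℝ | ∃ θ ∈ O, P.φ ϑ (γ θ) = pt s t} ≠ 0}.Countable := by
  have hd : ∀ θ ∈ O, DifferentiableAt ℝ γ θ := fun θ hθ =>
    (hγ.contDiffAt (hO.mem_nhds hθ)).differentiableAt (by simp)
  set T : ℝ → ℝ := fun θ => P.η (γ θ - P.x0) with hT
  set S : ℝ → ℝ := fun θ => P.ξ (γ θ - P.x0) - P.κ * P.η (γ θ - P.x0) ^ 2 with hS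
  refine (Measure.countable_meas_level_set_pos (μ := volume)
    ((measurable_deriv S).div (measurable_deriv T))).mono ?_
  rintro ϑ ⟨s, hs⟩
  refine pos_iff_ne_zero.2 fun h0 => hs (measure_mono_null ?_ (null_level (O := O) (T := T) (S := S)
    (fun θ hθ => ?_) (fun θ hθ => ?_) h0 s))
  · rintro t ⟨θ, hθ, h⟩
    have h1 : P.ξ (γ θ - P.x0) - ϑ * P.η (γ θ - P.x0) - P.κ * P.η (γ θ - P.x0) ^ 2 = s :=
      congrArg (fun x : E => x 0) h
    have h2 : P.η (γ θ - P.x0) = t := congrArg (fun x : E => x 1) h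
    refine ⟨θ, ⟨hθ, ?_⟩, h2⟩
    simp only [hS, hT]
    linarith
  · have := hd θ hθ
    fun_prop
  · have := hd θ hθ
    fun_prop

theorem circle_param {x y : E} {r : ℝ} (h : y ∈ sphere x r) :
    ∃ θ ∈ Icc (-Real.pi) Real.pi, y = x + r • pt (Real.cos θ) (Real.sin θ) := by
  have h1 : ‖(⟨(y - x) 0, (y - x) 1⟩ : ℂ)‖ = r := by
    rw [← mem_sphere_iff_norm.1 h, EuclideanSpace.norm_eq, Complex.norm_eq_sqrt_sq_add_sq]
    simp [Fin.sum_univ_two]
  refine ⟨Complex.arg ⟨(y - x) 0, (y - x) 1⟩,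
    ⟨(Complex.neg_pi_lt_arg _).le, Complex.arg_le_pi _⟩, ?_⟩
  have h2 := Complex.norm_mul_cos_arg ⟨(y - x) 0, (y - x) 1⟩
  have h3 := Complex.norm_mul_sin_arg ⟨(y - x) 0, (y - x) 1⟩
  rw [h1] at h2 h3
  rw [← sub_eq_iff_eq_add']
  ext i
  fin_cases i
  · exact h2.symm
  · exact h3.symm

theorem circle_mem (x : E) {r : ℝ} (hr : 0 ≤ r) (θ : ℝ) :
    x + r • pt (Real.cos θ) (Real.sin θ) ∈ sphere x r := by
  rw [mem_sphere_iff_norm, add_sub_cancel_left, norm_smul, Real.norm_of_nonneg hr,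
    EuclideanSpace.norm_eq]
  simp [pt, Fin.sum_univ_two]

theorem circle_smooth (x : E) (r : ℝ) :
    ContDiff ℝ ∞ fun θ : ℝ => x + r • pt (Real.cos θ) (Real.sin θ) := by
  refine contDiff_const.add (ContDiff.const_smul r ?_)
  rw [contDiff_euclidean]
  intro i
  fin_cases i
  · exact Real.contDiff_cos
  · exact Real.contDiff_sin

variable {M : Type*} [TopologicalSpace M] [T2Space M] [ChartedSpace E M] [IsManifold (𝓡 2) ∞ M]

theorem pair (c c' : Ch M) (x x' : E) {r : ℝ} (hr : 0 ≤ r) (h : sphere x r ⊆ c.e.target) :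
    ∀ᵐ v, ∀ ρ : ℝ, ρ ^ 2 = v → sphere x' ρ ⊆ c'.e.target →
      (c.e.symm '' sphere x r ∩ c'.e.symm '' sphere x' ρ).Finite := by
  set σ : ℝ → E := fun θ => x + r • pt (Real.cos θ) (Real.sin θ) with hσ
  set f : ℝ → ℝ := fun θ => ‖c.tr c' (σ θ) - x'‖ ^ 2 with hf
  have hσc : ∀ θ, σ θ ∈ c.e.target := fun θ => h (circle_mem x hr θ)
  have hγ : Continuous fun θ => c.e.symm (σ θ) :=
    c.e.continuousOn_symm.comp_continuous (circle_smooth x r).continuous hσc
  filter_upwards [measure_eq_zero_iff_ae_notMem.1 (sard f)] with v hv ρ hρ h'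
  have hK : IsClosed (c'.e.symm '' sphere x' ρ) :=
    ((isCompact_sphere x' ρ).image_of_continuousOn (c'.e.continuousOn_symm.mono h')).isClosed
  have hZ := (isCompact_Icc (a := -Real.pi) (b := Real.pi)).inter_right (hK.preimage hγ)
  have hval : ∀ θ, c.e.symm (σ θ) ∈ c'.e.symm '' sphere x' ρ → f θ = v := by
    rintro θ ⟨y, hy, e⟩
    have : c.tr c' (σ θ) = y := by
      change c'.e (c.e.symm (σ θ)) = y
      rw [← e, c'.e.right_inv (h' hy)]
    simp only [hf, this, mem_sphere_iff_norm.1 hy, hρ]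
  obtain ⟨t, -, ht⟩ := hZ.elim_nhds_subcover (fun θ => {z | z ≠ θ → f z ≠ v}) fun θ hθ => by
    obtain ⟨y, hy, e⟩ := hθ.2
    have h1 : σ θ ∈ c.e.target ∩ c.e.symm ⁻¹' c'.e.source :=
      ⟨hσc θ, (congrArg (· ∈ c'.e.source) e).mp (c'.e.map_target (h' hy))⟩
    have h2 : DifferentiableAt ℝ (fun θ => c.tr c' (σ θ) - x') θ :=
      (((((c.contDiffOn_tr c').contDiffAt ((c.isOpen_tr c').mem_nhds h1)).comp θ
        (circle_smooth x r).contDiffAt).differentiableAt (by simp))).sub_const x'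
    have h3 : HasDerivAt f (deriv f θ) θ := (h2.norm_sq ℝ).hasDerivAt
    exact eventually_nhdsWithin_iff.1 (h3.eventually_ne (c := v) fun h4 =>
      hv ⟨θ, h4 ▸ h3, hval θ hθ.2⟩)
  refine (t.finite_toSet.image fun θ => c.e.symm (σ θ)).subset ?_
  rintro p ⟨⟨y, hy, rfl⟩, hp⟩
  obtain ⟨θ, hθ, rfl⟩ := circle_param hy
  obtain ⟨θ', h1, h2⟩ := mem_iUnion₂.1 (ht ⟨hθ, hp⟩)
  obtain rfl : θ = θ' := by
    by_contra h3
    exact h2 h3 (hval θ hp)
  exact ⟨θ, h1, rfl⟩

theorem radii {n : ℕ} (c : Fin n → Ch M) (x0 : Fin n → E) (a b : Fin n → ℝ)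
    (ha : ∀ j, 0 < a j) (hab : ∀ j, a j < b j) (h : ∀ j, closedBall (x0 j) (b j) ⊆ (c j).e.target) :
    ∃ r : Fin n → ℝ, (∀ j, r j ∈ Ioo (a j) (b j)) ∧ ∀ i k, i ≠ k →
      ((c i).e.symm '' sphere (x0 i) (r i) ∩ (c k).e.symm '' sphere (x0 k) (r k)).Finite := by
  have hs : ∀ j, ∀ ρ ∈ Ioo (a j) (b j), sphere (x0 j) ρ ⊆ (c j).e.target := fun j ρ hρ =>
    (sphere_subset_closedBall.trans (closedBall_subset_closedBall hρ.2.le)).trans (h j)
  have key : ∀ s : Finset (Fin n), ∃ r : Fin n → ℝ, (∀ j, r j ∈ Ioo (a j) (b j)) ∧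
      ∀ i ∈ s, ∀ k ∈ s, i ≠ k →
      ((c i).e.symm '' sphere (x0 i) (r i) ∩ (c k).e.symm '' sphere (x0 k) (r k)).Finite := by
    intro s
    induction s using Finset.induction_on with
    | empty =>
      exact ⟨fun j => (a j + b j) / 2, fun j => ⟨by linarith [hab j], by linarith [hab j]⟩, by simp⟩
    | insert k s hk ih =>
      obtain ⟨r, h1, h2⟩ := ih
      have h3 := ae_all_iff.2 fun i => pair (c i) (c k) (x0 i) (x0 k) ((ha i).trans (h1 i).1).le
        (hs i _ (h1 i))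
      have h4 : a k ^ 2 < b k ^ 2 := pow_lt_pow_left₀ (hab k) (ha k).le two_ne_zero
      obtain ⟨v, hv, h5⟩ := Measure.exists_mem_of_measure_ne_zero_of_ae
        (μ := volume) (s := Ioo (a k ^ 2) (b k ^ 2)) (by simpa using h4) (ae_restrict_of_ae h3)
      have h6 : √v ∈ Ioo (a k) (b k) :=
        ⟨Real.lt_sqrt_of_sq_lt hv.1, (Real.sqrt_lt' ((ha k).trans (hab k))).2 hv.2⟩
      have h7 := fun i => h5 i √v (Real.sq_sqrt ((sq_nonneg _).trans hv.1.le)) (hs k _ h6)
      refine ⟨Function.update r k √v, fun j => ?_, fun i hi j hj hij => ?_⟩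
      · rcases eq_or_ne j k with rfl | hj
        · rwa [Function.update_self]
        · rw [Function.update_of_ne hj]
          exact h1 j
      · rcases eq_or_ne i k with rfl | hi'
        · rw [Function.update_self, Function.update_of_ne hij.symm, inter_comm]
          exact h7 j
        rcases eq_or_ne j k with rfl | hj'
        · rw [Function.update_self, Function.update_of_ne hij]
          exact h7 i
        rw [Function.update_of_ne hi', Function.update_of_ne hj']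
        exact h2 i ((Finset.mem_insert.1 hi).resolve_left hi') j
          ((Finset.mem_insert.1 hj).resolve_left hj') hij
  obtain ⟨r, h1, h2⟩ := key Finset.univ
  exact ⟨r, h1, fun i k => h2 i (Finset.mem_univ _) k (Finset.mem_univ _)⟩

end Crest.Agent.R216.CovBAux1
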