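import Crest.Agent.R216.CovA

/-!
# Row 216: generic tilts (proof of `exists_tilt`)
-/

set_option autoImplicit false
set_option linter.unusedSectionVars false

noncomputable section

namespace Crest.Agent.R216.CovBAux2

open Set Metric Filter
open scoped Manifold ContDiff Topology RealInnerProductSpace

universe u

variable {M : Type u} [TopologicalSpace M] [T2Space M] [CompactSpace M] [ChartedSpace E M]
  [IsManifold (𝓡 2) ∞ M]

theorem avoid {a : ℝ} (ha : 0 < a) {B : Set ℝ} (hB : B.Countable) : ∃ t, |t| ≤ a ∧ t ∉ B := by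
  obtain ⟨t, h1, h2⟩ := (hB.dense_compl ℝ).exists_mem_open isOpen_Ioo
    (nonempty_Ioo.2 (show -a < a by linarith))
  exact ⟨t, abs_le.2 ⟨h2.1.le, h2.2.le⟩, h1⟩

/-- Choice of parameters avoiding countably many conditions. -/
theorem select {ι : Type} [Fintype ι] (a : ι → ℝ) (ha : ∀ j, 0 < a j) (B : ι → Set ℝ)
    (hB : ∀ j, (B j).Countable) (R : ι → ι → ℝ → ℝ → Prop)
    (h1 : ∀ i k s, {t | R i k s t}.Countable) (h2 : ∀ i k t, {s | R i k s t}.Countable) :
    ∃ ϑ : ι → ℝ, (∀ j, |ϑ j| ≤ a j ∧ ϑ j ∉ B j) ∧ ∀ i k, i ≠ k → ¬ R i k (ϑ i) (ϑ k) := by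
  classical
  have key : ∀ s : Finset ι, ∃ ϑ : ι → ℝ, (∀ j ∈ s, |ϑ j| ≤ a j ∧ ϑ j ∉ B j) ∧
      ∀ i ∈ s, ∀ k ∈ s, i ≠ k → ¬ R i k (ϑ i) (ϑ k) := by
    intro s
    induction s using Finset.induction_on with
    | empty => exact ⟨0, by simp, by simp⟩
    | insert j s hj ih =>
      obtain ⟨ϑ, g1, g2⟩ := ih
      obtain ⟨t, t1, t2⟩ := avoid (ha j) (((hB j).union
        (countable_iUnion fun i => h1 i j (ϑ i))).union (countable_iUnion fun k => h2 j k (ϑ k)))
      simp only [mem_union, mem_iUnion, mem_ofPred_eq, not_or, not_exists] at t2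
      have hne : ∀ i ∈ s, i ≠ j := fun i hi e => hj (e ▸ hi)
      refine ⟨Function.update ϑ j t, fun i hi => ?_, fun i hi k hk hik => ?_⟩
      · rcases Finset.mem_insert.1 hi with rfl | hi
        · rw [Function.update_self]; exact ⟨t1, t2.1.1⟩
        · rw [Function.update_of_ne (hne i hi)]; exact g1 i hi
      · rcases Finset.mem_insert.1 hi with rfl | hi
        · rw [Function.update_self, Function.update_of_ne hik.symm]; exact t2.2 k
        · rw [Function.update_of_ne (hne i hi)]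
          rcases Finset.mem_insert.1 hk with rfl | hk
          · rw [Function.update_self]; exact t2.1.2 i
          · rw [Function.update_of_ne (hne k hk)]; exact g2 i hi k hk hik
  obtain ⟨ϑ, g1, g2⟩ := key Finset.univ
  exact ⟨ϑ, fun j => g1 j (Finset.mem_univ _),
    fun i k => g2 i (Finset.mem_univ _) k (Finset.mem_univ _)⟩

/-- The transversality function. -/
def tv (c c' : Ch M) (P P' : Fr) (p : M) (s t : ℝ) : ℝ :=
  P'.σ t (c'.e p) (c'.dQ p (c.dP (c.e p) (P.w + (s + 2 * P.κ * P.η (c.e p - P.x0)) • P.z)))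

theorem dQ_dP' (c : Ch M) {p : M} (hp : p ∈ c.e.source) (v : E) :
    c.dQ p (c.dP (c.e p) v) = v := by
  have := c.dQ_dP (c.e.map_source hp) v
  rwa [c.e.left_inv hp] at this

theorem tv_left (c c' : Ch M) (P P' : Fr) {p : M} (hp : p ∈ c.e.source) (hp' : p ∈ c'.e.source)
    (t : ℝ) : {s | tv c c' P P' p s t = 0}.Subsingleton := by
  intro s hs s' hs'
  by_contra hne
  simp only [mem_ofPred_eq, tv, map_add, map_smul, smul_eq_mul] at hs hs'
  set l := P'.σ t (c'.e p) with hl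
  have e1 : l (c'.dQ p (c.dP (c.e p) P.z)) = 0 := by
    refine (mul_eq_zero.1 ?_).resolve_left (sub_ne_zero.2 hne)
    linear_combination hs - hs'
  have e2 : l (c'.dQ p (c.dP (c.e p) P.w)) = 0 := by
    rw [e1] at hs; linarith
  have e3 : ∀ v, l (c'.dQ p (c.dP (c.e p) v)) = 0 := fun v => by
    rw [frame_decomp P.ξz P.ξw P.ηz P.ηw v]
    simp only [map_add, map_smul, e1, e2, smul_zero, add_zero]
  have e4 := e3 (c.dQ p (c'.dP (c'.e p) P'.z))
  rw [c.dP_dQ hp, dQ_dP' c' hp', hl] at e4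
  simp [Fr.σ, P'.ξz, P'.ηz] at e4

theorem tv_right (c c' : Ch M) (P P' : Fr) {p : M} (hp : p ∈ c.e.source) (hp' : p ∈ c'.e.source)
    (s : ℝ) : {t | tv c c' P P' p s t = 0}.Subsingleton := by
  intro t ht t' ht'
  by_contra hne
  simp only [mem_ofPred_eq, tv] at ht ht'
  set v := P.w + (s + 2 * P.κ * P.η (c.e p - P.x0)) • P.z with hv
  set u := c'.dQ p (c.dP (c.e p) v) with hu
  simp only [Fr.σ, sub_apply, smul_apply, smul_eq_mul] at ht ht'
  have e1 : P'.η u = 0 := by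
    refine (mul_eq_zero.1 ?_).resolve_left (sub_ne_zero.2 hne)
    linear_combination ht' - ht
  have e2 : P'.ξ u = 0 := by rw [e1] at ht; linarith
  have e3 : u = 0 := by
    rw [frame_decomp P'.ξz P'.ξw P'.ηz P'.ηw u, e1, e2]; simp
  have e4 : v = 0 := by
    rw [← dQ_dP' c hp v, ← c'.dP_dQ hp' (c.dP (c.e p) v), ← hu, e3, map_zero, map_zero]
  have e5 : P.η v = 1 := by simp [hv, P.ηw, P.ηz]
  rw [e4, map_zero] at e5
  exact zero_ne_one e5

/-- Parametrisation of a circle. -/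
def circ (x0 : E) (r θ : ℝ) : E := x0 + r • pt (Real.cos θ) (Real.sin θ)

theorem contDiff_circ (x0 : E) (r : ℝ) : ContDiff ℝ ∞ (circ x0 r) := by
  refine contDiff_const.add (ContDiff.const_smul r ?_)
  rw [contDiff_euclidean]
  intro i
  fin_cases i
  · exact Real.contDiff_cos
  · exact Real.contDiff_sin

theorem exists_circ {x0 x : E} {r : ℝ} (hx : x ∈ sphere x0 r) : ∃ θ, circ x0 r θ = x := by
  set ζ : ℂ := ⟨(x - x0) 0, (x - x0) 1⟩ with hζ
  have h1 : ‖ζ‖ = r := by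
    rw [← mem_sphere_iff_norm.1 hx, EuclideanSpace.norm_eq, Complex.norm_eq_sqrt_sq_add_sq,
      Fin.sum_univ_two]
    simp [hζ]
  refine ⟨ζ.arg, ?_⟩
  have h2 := Complex.norm_mul_cos_arg ζ
  have h3 := Complex.norm_mul_sin_arg ζ
  rw [h1] at h2 h3
  ext i
  fin_cases i
  · simp only [hζ, PiLp.sub_apply] at h2
    simp only [circ, pt, Fin.zero_eta, PiLp.add_apply, PiLp.smul_apply, Matrix.cons_val_zero,
      smul_eq_mul, hζ, PiLp.sub_apply]
    linarith
  · simp only [hζ, PiLp.sub_apply] at h3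
    simp only [circ, pt, Fin.mk_one, PiLp.add_apply, PiLp.smul_apply, Matrix.cons_val_one,
      Matrix.cons_val_zero, smul_eq_mul, hζ, PiLp.sub_apply]
    linarith

theorem cnt {α : Type*} {X Y : Set α} (hX : X.Countable) {Q : α → ℝ → Prop}
    (h : ∀ p ∈ Y, {t | Q p t}.Subsingleton) : {t | ∃ p ∈ X ∩ Y, Q p t}.Countable :=
  ((hX.mono (inter_subset_left (t := Y))).biUnion fun p hp => (h p hp.2).countable).mono
    fun _ ⟨_, hp, ht⟩ => mem_biUnion hp ht

theorem exists_tilt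
    (hbad : ∀ {γ : ℝ → E} {O : Set ℝ}, IsOpen O → ContDiffOn ℝ ∞ γ O → ∀ P : Fr,
      {ϑ : ℝ | ∃ s : ℝ,
        MeasureTheory.volume {t : ℝ | ∃ θ ∈ O, P.φ ϑ (γ θ) = pt s t} ≠ 0}.Countable)
    {n : ℕ} (c : Fin n → Ch M) (P : Fin n → Fr) (β : ∀ j, ContDiffBump (P j).x0)
    (h : ∀ j, closedBall (P j).x0 (β j).rOut ⊆ (c j).e.target)
    (h1 : ∀ i k, i ≠ k → ((c i).e.symm '' sphere (P i).x0 (β i).rOut ∩
      (c k).e.symm '' sphere (P k).x0 (β k).rOut).Finite) (ϑ0 : Fin n → ℝ) (h0 : ∀ j, 0 < ϑ0 j) :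
    ∃ ϑ : Fin n → ℝ, (∀ j, |ϑ j| ≤ ϑ0 j) ∧ (mkSys c P β h ϑ).GP := by
  set X : Set M := ⋃ i, ⋃ k, ⋃ _ : i ≠ k, (c i).e.symm '' sphere (P i).x0 (β i).rOut ∩
    (c k).e.symm '' sphere (P k).x0 (β k).rOut with hX
  have hXc : X.Countable := countable_iUnion fun i => countable_iUnion fun k =>
    countable_iUnion fun hik => (h1 i k hik).countable
  set O : Fin n → Fin n → Set ℝ := fun i k => circ (P i).x0 (β i).rOut ⁻¹'
    ((c i).e.target ∩ (c i).e.symm ⁻¹' (c k).e.source) with hO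
  set γ : Fin n → Fin n → ℝ → E := fun i k θ => (c i).tr (c k) (circ (P i).x0 (β i).rOut θ)
    with hγ
  obtain ⟨ϑ, g1, g2⟩ := select ϑ0 h0 (fun k => ⋃ i, {ϑ : ℝ | ∃ s : ℝ,
      MeasureTheory.volume {t : ℝ | ∃ θ ∈ O i k, (P k).φ ϑ (γ i k θ) = pt s t} ≠ 0})
    (fun k => countable_iUnion fun i => hbad
      (((c i).isOpen_tr (c k)).preimage (contDiff_circ _ _).continuous)
      (((c i).contDiffOn_tr (c k)).comp (contDiff_circ _ _).contDiffOn fun _ hθ => hθ) (P k))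
    (fun i k s t => ∃ p ∈ X ∩ ((c i).e.source ∩ (c k).e.source),
      tv (c i) (c k) (P i) (P k) p s t = 0)
    (fun i k s => cnt hXc fun p hp => tv_right (c i) (c k) (P i) (P k) hp.1 hp.2 s)
    (fun i k t => cnt hXc fun p hp => tv_left (c i) (c k) (P i) (P k) hp.1 hp.2 t)
  refine ⟨ϑ, fun j => (g1 j).1, fun i k hik => ?_, fun i k hik s => ?_,
    fun i i' k hii x hx hi hi' => ?_⟩
  · rw [mkSys_Γ, mkSys_Γ]; exact h1 i k hik
  · have g3 := (g1 k).2
    simp only [mem_iUnion, mem_ofPred_eq, not_exists, not_not] at g3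
    refine MeasureTheory.measure_mono_null (fun t ht => ?_) (g3 i s)
    obtain ⟨a1, a2⟩ := ht
    rw [mkSys_tsupport] at a1
    rw [mkSys_Γ] at a2
    obtain ⟨y, hy, hy'⟩ := a1
    obtain ⟨x, hx, hx'⟩ := a2
    obtain ⟨θ, rfl⟩ := exists_circ hx
    have a3 : ((mkSys c P β h ϑ).c k).e.symm (pt s t) = (c k).e.symm y := by
      rw [← hy']
      exact (((c k).par_spec (P k) (ϑ k)).2.2.2 _).trans (by rw [Homeomorph.symm_apply_apply])
    rw [a3] at hx'
    refine ⟨θ, ⟨h i (sphere_subset_closedBall hx), ?_⟩, ?_⟩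
    · rw [mem_preimage, hx']; exact (c k).e.map_target (h k hy)
    · simp only [hγ, Ch.tr]
      rw [hx', (c k).e.right_inv (h k hy), hy']
  · obtain ⟨y, rfl⟩ := ((P k).φ (ϑ k)).surjective x
    rw [mkSys_ne] at hx
    rw [mkSys_Γ] at hi hi'
    have a3 : ((mkSys c P β h ϑ).c k).e.symm ((P k).φ (ϑ k) y) = (c k).e.symm y :=
      (((c k).par_spec (P k) (ϑ k)).2.2.2 _).trans (by rw [Homeomorph.symm_apply_apply])
    have hy := h k (ball_subset_closedBall hx)
    rw [a3] at hi hi'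
    have hpk := (c k).e.map_target hy
    have hpi : (c k).e.symm y ∈ (c i).e.source := by
      obtain ⟨x, hx, hx'⟩ := hi
      rw [← hx']; exact (c i).e.map_target (h i (sphere_subset_closedBall hx))
    have hik : i ≠ k := by
      rintro rfl
      obtain ⟨x, hx1, hx'⟩ := hi
      have := (c i).e.symm.injOn (h i (sphere_subset_closedBall hx1)) hy hx'
      subst this
      exact (mem_ball.1 hx).ne (mem_sphere.1 hx1)
    intro h0'
    refine g2 i k hik ⟨(c k).e.symm y, ⟨?_, hpi, hpk⟩, ?_⟩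
    · exact mem_iUnion.2 ⟨i, mem_iUnion.2 ⟨i', mem_iUnion.2 ⟨hii, hi, hi'⟩⟩⟩
    · rw [Sys.v, a3] at h0'
      change ((c k).par (P k) (ϑ k)).dQ _ (((c i).par (P i) (ϑ i)).wt _) 0 = 0 at h0'
      rw [Ch.par_dQ _ _ _ hpk, Ch.par_wt _ _ _ hpi] at h0'
      rw [tv, ← Fr.cs_fderiv]
      exact h0'

end Crest.Agent.R216.CovBAux2
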