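import Crest.Agent.R216.CovA
import Crest.Agent.R216.CovBAux2
import Crest.Agent.R216.CovBAux1

/-!
# Row 216: general position
-/

set_option autoImplicit false
set_option linter.unusedSectionVars false

noncomputable section

namespace Crest.Agent.R216

open Set Metric Filter
open scoped Manifold ContDiff Topology RealInnerProductSpace

universe u

variable {M : Type u} [TopologicalSpace M] [T2Space M] [CompactSpace M] [ChartedSpace E M]
  [IsManifold (𝓡 2) ∞ M]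

/-- Generic radii. -/
theorem exists_radii {n : ℕ} (c : Fin n → Ch M) (x0 : Fin n → E) (a b : Fin n → ℝ)
    (ha : ∀ j, 0 < a j) (hab : ∀ j, a j < b j) (h : ∀ j, closedBall (x0 j) (b j) ⊆ (c j).e.target) :
    ∃ r : Fin n → ℝ, (∀ j, r j ∈ Ioo (a j) (b j)) ∧ ∀ i k, i ≠ k →
      ((c i).e.symm '' sphere (x0 i) (r i) ∩ (c k).e.symm '' sphere (x0 k) (r k)).Finite :=
  CovBAux1.radii c x0 a b ha hab h

/-- For all tilts except countably many, a curve meets the leaves in null sets. -/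
theorem countable_bad_tilt {γ : ℝ → E} {O : Set ℝ} (hO : IsOpen O) (hγ : ContDiffOn ℝ ∞ γ O)
    (P : Fr) : {ϑ : ℝ | ∃ s : ℝ,
      MeasureTheory.volume {t : ℝ | ∃ θ ∈ O, P.φ ϑ (γ θ) = pt s t} ≠ 0}.Countable :=
  CovBAux1.bad_tilt hO hγ P

/-- Generic tilts. -/
theorem exists_tilt {n : ℕ} (c : Fin n → Ch M) (P : Fin n → Fr) (β : ∀ j, ContDiffBump (P j).x0)
    (h : ∀ j, closedBall (P j).x0 (β j).rOut ⊆ (c j).e.target)
    (h1 : ∀ i k, i ≠ k → ((c i).e.symm '' sphere (P i).x0 (β i).rOut ∩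
      (c k).e.symm '' sphere (P k).x0 (β k).rOut).Finite) (ϑ0 : Fin n → ℝ) (h0 : ∀ j, 0 < ϑ0 j) :
    ∃ ϑ : Fin n → ℝ, (∀ j, |ϑ j| ≤ ϑ0 j) ∧ (mkSys c P β h ϑ).GP :=
  CovBAux2.exists_tilt (fun hO hγ P => countable_bad_tilt hO hγ P) c P β h h1 ϑ0 h0

end Crest.Agent.R216
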