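import Crest.Agent.R216.CovB

/-!
# Row 216: the system of discs
-/

set_option autoImplicit false
set_option linter.unusedSectionVars false

noncomputable section

namespace Crest.Agent.R216

open Set Metric Filter
open scoped Manifold ContDiff Topology RealInnerProductSpace

universe u

variable {M : Type u} [TopologicalSpace M] [T2Space M] [CompactSpace M] [ChartedSpace E M]
  [IsManifold (𝓡 2) ∞ M]

namespace CovCAux

theorem push_mem (c : Ch M) (t : E → Bil) {p : M} (hp : p ∈ c.e.source) (v w : E) :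
    c.push t p v w = t (c.e p) (c.dQ p v) (c.dQ p w) := by
  have h : c.push t p = (t (c.e p)).bilinearComp (c.dQ p) (c.dQ p) := if_pos hp
  rw [h]
  rfl

theorem push_notMem (c : Ch M) (t : E → Bil) {p : M} (hp : p ∉ c.e.source) (v w : E) :
    c.push t p v w = 0 := by
  have h : c.push t p = 0 := if_neg hp
  rw [h]
  rfl

/-- A function of the surface read in a chart and extended by zero. -/
def cut (c : Ch M) (f : M → ℝ) : E → ℝ := indicator c.e.target (c.rd f)

theorem cut_mem (c : Ch M) (f : M → ℝ) {x : E} (hx : x ∈ c.e.target) :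
    cut c f x = f (c.e.symm x) := indicator_of_mem hx _

theorem cut_notMem (c : Ch M) (f : M → ℝ) {x : E} (hx : x ∉ c.e.target) : cut c f x = 0 :=
  indicator_of_notMem hx _

theorem cut_nonneg (c : Ch M) {f : M → ℝ} (hf : ∀ p, 0 ≤ f p) (x : E) : 0 ≤ cut c f x :=
  indicator_nonneg (fun _ _ => hf _) x

theorem tsupport_cut (c : Ch M) {f : M → ℝ} (hs : tsupport f ⊆ c.e.source) :
    tsupport (cut c f) ⊆ c.e '' tsupport f := by
  have hK : IsCompact (c.e '' tsupport f) :=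
    (isClosed_tsupport f).isCompact.image_of_continuousOn (c.e.continuousOn.mono hs)
  refine closure_minimal (fun x hx => ?_) hK.isClosed
  by_cases hxt : x ∈ c.e.target
  · refine ⟨c.e.symm x, subset_tsupport _ ?_, c.e.right_inv hxt⟩
    have h1 : cut c f x ≠ 0 := hx
    rwa [cut_mem c f hxt] at h1
  · exact absurd (cut_notMem c f hxt) hx

theorem contDiff_cut (c : Ch M) {f : M → ℝ} (hf : Sm f) (hs : tsupport f ⊆ c.e.source) :
    ContDiff ℝ ∞ (cut c f) := by
  refine contDiff_iff_contDiffAt.2 fun x => ?_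
  by_cases hxt : x ∈ c.e.target
  · refine ((c.contDiffOn_rd hf).contDiffAt (c.e.open_target.mem_nhds hxt)).congr_of_eventuallyEq ?_
    filter_upwards [c.e.open_target.mem_nhds hxt] with y hy
    exact cut_mem c f hy
  · have h1 : x ∉ tsupport (cut c f) := fun hx => by
      obtain ⟨p, hp, rfl⟩ := tsupport_cut c hs hx
      exact hxt (c.e.map_source (hs hp))
    exact contDiffAt_const.congr_of_eventuallyEq (notMem_tsupport_iff_eventuallyEq.1 h1)

/-- A vector field in parabolic coordinates. -/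
def mv (P : Fr) (ϑ : ℝ) (U : E → E) (x : E) : E :=
  fderiv ℝ (P.φ ϑ) ((P.φ ϑ).symm x) (U ((P.φ ϑ).symm x))

theorem contDiffOn_mv (P : Fr) (ϑ : ℝ) {U : E → E} {s : Set E} (hU : ContDiffOn ℝ ∞ U s) :
    ContDiffOn ℝ ∞ (mv P ϑ U) ((P.φ ϑ).symm ⁻¹' s) := by
  have h1 : ContDiff ℝ ∞ (fderiv ℝ (P.φ ϑ)) := (P.contDiff_φ ϑ).fderiv_right (by simp)
  exact (h1.comp (P.contDiff_φ_symm ϑ)).contDiffOn.clm_apply
    (hU.comp (P.contDiff_φ_symm ϑ).contDiffOn fun x hx => hx)

theorem mem_par (c : Ch M) (P : Fr) (ϑ : ℝ) {x : E} :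
    x ∈ (c.par P ϑ).e.target ↔ (P.φ ϑ).symm x ∈ c.e.target := by
  rw [(c.par_spec P ϑ).2.1, Homeomorph.image_eq_preimage_symm]
  rfl

theorem pull_mv (c : Ch M) (P : Fr) (ϑ : ℝ) (T : M → Bil) (U U' : E → E) {y : E}
    (hy : y ∈ c.e.target) :
    (c.par P ϑ).pull T (P.φ ϑ y) (mv P ϑ U (P.φ ϑ y)) (mv P ϑ U' (P.φ ϑ y)) =
      c.pull T y (U y) (U' y) := by
  have h0 : (P.φ ϑ).symm (P.φ ϑ y) = y := (P.φ ϑ).symm_apply_apply y
  have hx : P.φ ϑ y ∈ (c.par P ϑ).e.target := (mem_par c P ϑ).2 (by rw [h0]; exact hy)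
  rw [c.par_pull P ϑ T hx]
  show c.pull T ((P.φ ϑ).symm (P.φ ϑ y))
    (fderiv ℝ (P.φ ϑ).symm (P.φ ϑ y) (fderiv ℝ (P.φ ϑ) ((P.φ ϑ).symm (P.φ ϑ y))
      (U ((P.φ ϑ).symm (P.φ ϑ y)))))
    (fderiv ℝ (P.φ ϑ).symm (P.φ ϑ y) (fderiv ℝ (P.φ ϑ) ((P.φ ϑ).symm (P.φ ϑ y))
      (U' ((P.φ ϑ).symm (P.φ ϑ y))))) = _
  rw [h0, P.fderiv_symm_fderiv, P.fderiv_symm_fderiv]

theorem cut_par (c : Ch M) (P : Fr) (ϑ : ℝ) (f : M → ℝ) {p : M} (hp : p ∈ c.e.source) :
    cut (c.par P ϑ) f (P.φ ϑ (c.e p)) = f p := by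
  have h1 : p ∈ (c.par P ϑ).e.source := by rw [(c.par_spec P ϑ).1]; exact hp
  rw [← (c.par_spec P ϑ).2.2.1 p, cut_mem _ _ ((c.par P ϑ).e.map_source h1),
    (c.par P ϑ).e.left_inv h1]

/-- The support of the cut-off function in parabolic coordinates. -/
theorem tsupport_cut_par (c : Ch M) (P : Fr) (ϑ : ℝ) {f : M → ℝ} {s : Set E}
    (hs : tsupport f ⊆ c.e.source ∩ c.e ⁻¹' s) :
    tsupport (cut (c.par P ϑ) f) ⊆ (P.φ ϑ).symm ⁻¹' s := by
  intro x hx
  have h1 : tsupport f ⊆ (c.par P ϑ).e.source := by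
    rw [(c.par_spec P ϑ).1]
    exact fun p hp => (hs hp).1
  obtain ⟨p, hp, rfl⟩ := tsupport_cut _ h1 hx
  rw [mem_preimage, (c.par_spec P ϑ).2.2.1 p, Homeomorph.symm_apply_apply]
  exact (hs hp).2

/-- The sum over the three discs of a cell. -/
theorem cell_sum (c : Ch M) (P : Fin 3 → Fr) (ϑ : Fin 3 → ℝ) {f : M → ℝ} {s : Set E}
    (hs : tsupport f ⊆ c.e.source ∩ c.e ⁻¹' s) {U U' : Fin 3 → E → E}
    (hd : ∀ y ∈ s, ∀ t : Bil, (∀ v w, t v w = t w v) →
      ∑ l, t (U l y) (U' l y) • tp ((P l).σ (ϑ l) y) ((P l).σ (ϑ l) y) = t)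
    {T : M → Bil} (hT : ∀ p v w, T p v w = T p w v) (p : M) (v w : E) :
    ∑ l, (c.par (P l) (ϑ l)).push (fun x => (cut (c.par (P l) (ϑ l)) f x *
      (c.par (P l) (ϑ l)).pull T x (mv (P l) (ϑ l) (U l) x) (mv (P l) (ϑ l) (U' l) x)) • tp cs cs)
        p v w = f p * T p v w := by
  simp only [Ch.par_push]
  by_cases hp : p ∈ c.e.source
  · simp only [push_mem c _ hp, cut_par c _ _ f hp, pull_mv c _ _ T _ _ (c.e.map_source hp),
      smul_apply, smul_eq_mul, mul_assoc, ← Finset.mul_sum]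
    by_cases hf : f p = 0
    · rw [hf, zero_mul, zero_mul]
    · congr 1
      have h1 := hd (c.e p) (hs (subset_tsupport _ hf)).2 (c.pull T (c.e p)) (c.pull_symm hT _)
      have h2 := congrArg (fun t : Bil => t (c.dQ p v) (c.dQ p w)) h1
      simp only [sum_apply, smul_apply, smul_eq_mul] at h2
      rw [h2, ← push_mem c _ hp, c.push_pull T hp]
  · have hf : f p = 0 := by
      by_contra hf
      exact hp (hs (subset_tsupport _ hf)).1
    simp only [push_notMem c _ hp, hf, Finset.sum_const_zero, zero_mul]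

end CovCAux

open CovCAux in
theorem exists_dec {G0 G : M → Bil} (h0 : Met G0) (h : Met fun p => G p - G0 p) :
    ∃ S : Sys M, S.GP ∧ Nonempty (Dec S G0 G) := by
  have C : ∀ p, Cell G0 G p := fun p => Classical.choice (exists_cell h0 h p)
  have ho : ∀ p, IsOpen ((C p).c.e.source ∩ (C p).c.e ⁻¹' ball ((C p).c.e p) ((C p).r / 3)) :=
    fun p => (C p).c.e.isOpen_inter_preimage isOpen_ball
  obtain ⟨t, ht⟩ := isCompact_univ.elim_finite_subcover _ ho fun p _ =>
    mem_iUnion.2 ⟨p, (C p).hp, mem_ball_self (by have := (C p).r0; positivity)⟩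
  let q : Fin t.card → M := fun a => t.equivFin.symm a
  obtain ⟨f, hf⟩ := SmoothPartitionOfUnity.exists_isSubordinate (𝓡 2) isClosed_univ
    (fun a : Fin t.card => (C (q a)).c.e.source ∩
      (C (q a)).c.e ⁻¹' ball ((C (q a)).c.e (q a)) ((C (q a)).r / 3)) (fun a => ho _)
      fun p hp => by
        obtain ⟨p', hq, h⟩ := mem_iUnion₂.1 (ht hp)
        refine mem_iUnion.2 ⟨t.equivFin ⟨p', hq⟩, ?_⟩
        have e1 : q (t.equivFin ⟨p', hq⟩) = p' :=
          congrArg Subtype.val (t.equivFin.symm_apply_apply ⟨p', hq⟩)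
        rw [e1]
        exact h
  let e : Fin (t.card * 3) ≃ Fin t.card × Fin 3 := finProdFinEquiv.symm
  let c : Fin (t.card * 3) → Ch M := fun j => (C (q (e j).1)).c
  let P : Fin (t.card * 3) → Fr := fun j => (C (q (e j).1)).P (e j).2
  let r : Fin (t.card * 3) → ℝ := fun j => (C (q (e j).1)).r
  have hr : ∀ j, 0 < r j := fun j => (C (q (e j).1)).r0
  have hx0 : ∀ j, (P j).x0 = (c j).e (q (e j).1) := fun j => (C (q (e j).1)).x0 (e j).2
  have hsub : ∀ j, closedBall (P j).x0 (r j) ⊆ (c j).e.target := fun j => by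
    rw [hx0 j]
    exact (C (q (e j).1)).sub
  obtain ⟨R, hR, hfin⟩ := exists_radii c (fun j => (P j).x0) (fun j => r j / 2) r
    (fun j => half_pos (hr j)) (fun j => half_lt_self (hr j)) hsub
  let β : ∀ j, ContDiffBump (P j).x0 := fun j => ⟨r j / 2, R j, half_pos (hr j), (hR j).1⟩
  have hβ : ∀ j, closedBall (P j).x0 (β j).rOut ⊆ (c j).e.target := fun j =>
    (closedBall_subset_closedBall (hR j).2.le).trans (hsub j)
  obtain ⟨ϑ, hϑ, hgp⟩ := exists_tilt c P β hβ hfin (fun j => (C (q (e j).1)).ϑ0)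
    fun j => (C (q (e j).1)).ϑpos
  have hϑ' : ∀ a l, |ϑ (e.symm (a, l))| ≤ (C (q a)).ϑ0 := fun a l => by
    have h1 := hϑ (e.symm (a, l))
    rw [e.apply_symm_apply] at h1
    exact h1
  choose U U' hU hd using fun a => (C (q a)).dec (fun l => ϑ (e.symm (a, l))) (hϑ' a)
  have hs3 : ∀ a, tsupport (f a) ⊆ (C (q a)).c.e.source ∩
      (C (q a)).c.e ⁻¹' ball ((C (q a)).c.e (q a)) (C (q a)).r := fun a p hp =>
    ⟨(hf a hp).1, ball_subset_ball (by have := (C (q a)).r0; linarith) (hf a hp).2⟩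
  refine ⟨mkSys c P β hβ ϑ, hgp, ⟨{
    kgp := fun j τ hτ x hx => ?_
    ρ := fun j => cut ((c j).par (P j) (ϑ j)) (f (e j).1)
    V := fun j => ((P j).φ (ϑ j)).symm ⁻¹' ball ((c j).e (q (e j).1)) (r j)
    U := fun j => mv (P j) (ϑ j) (U (e j).1 (e j).2)
    U' := fun j => mv (P j) (ϑ j) (U' (e j).1 (e j).2)
    smρ := fun j => contDiff_cut _ (f (e j).1).contMDiff ?_
    ρ0 := fun j => cut_nonneg _ (f.nonneg (e j).1)
    ρχ := fun j x hx => ?_
    hV := fun j => isOpen_ball.preimage ((P j).φ (ϑ j)).symm.continuous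
    ρV := fun j => tsupport_cut_par (c j) (P j) (ϑ j) (hs3 (e j).1)
    Vc := fun j x hx => (mem_par (c j) (P j) (ϑ j)).2
      ((C (q (e j).1)).sub (ball_subset_closedBall hx))
    smU := fun j => contDiffOn_mv _ _ (hU (e j).1 (e j).2).1
    smU' := fun j => contDiffOn_mv _ _ (hU (e j).1 (e j).2).2
    pos := fun j x hx => ?_
    sum := fun T hT p => ?_ }⟩⟩
  · obtain ⟨y, hy, rfl⟩ := (mkSys_tsupport c P β hβ ϑ j).subset hx
    refine (C (q (e j).1)).kgp (e j).2 (ϑ j) (hϑ j) τ hτ y ?_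
    rw [← hx0 j]
    exact closedBall_subset_closedBall (hR j).2.le hy
  · rw [((c j).par_spec (P j) (ϑ j)).1]
    exact fun p hp => (hf (e j).1 hp).1
  · have h1 := tsupport_cut_par (c j) (P j) (ϑ j) (hf (e j).1) (subset_tsupport _ hx)
    have h2 : ball ((c j).e (q (e j).1)) (r j / 3) ⊆ closedBall (P j).x0 (r j / 2) := by
      rw [← hx0 j]
      exact ball_subset_closedBall.trans (closedBall_subset_closedBall
        (by have := hr j; linarith))
    exact (β j).one_of_mem_closedBall (h2 h1)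
  · obtain ⟨y, rfl⟩ := ((P j).φ (ϑ j)).surjective x
    rw [mem_preimage, Homeomorph.symm_apply_apply] at hx
    have h1 := pull_mv (c j) (P j) (ϑ j) (fun p => G p - G0 p) (U (e j).1 (e j).2)
      (U' (e j).1 (e j).2) ((C (q (e j).1)).sub (ball_subset_closedBall hx))
    exact ((hd (e j).1 y hx).1 (e j).2).trans_eq h1.symm
  · ext1 v
    ext1 w
    let g : Fin t.card × Fin 3 → ℝ → ℝ := fun z θ =>
      ((C (q z.1)).c.par ((C (q z.1)).P z.2) θ).push (fun x =>
        (cut ((C (q z.1)).c.par ((C (q z.1)).P z.2) θ) (f z.1) x *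
          ((C (q z.1)).c.par ((C (q z.1)).P z.2) θ).pull T x
            (mv ((C (q z.1)).P z.2) θ (U z.1 z.2) x)
            (mv ((C (q z.1)).P z.2) θ (U' z.1 z.2) x)) • tp cs cs) p v w
    have h1 : ∀ a, ∑ l, g (a, l) (ϑ (e.symm (a, l))) = f a p * T p v w := fun a =>
      cell_sum (C (q a)).c (C (q a)).P (fun l => ϑ (e.symm (a, l))) (hs3 a)
        (fun y hy => (hd a y hy).2) hT p v w
    have h2 : ∑ a, f a p = 1 := by
      rw [← finsum_eq_sum_of_fintype]
      exact f.sum_eq_one (mem_univ p)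
    have h3 : ∀ j, g (e j) (ϑ j) = g (e j) (ϑ (e.symm (e j))) := fun j => by
      rw [e.symm_apply_apply]
    rw [sum_apply, sum_apply]
    refine Eq.trans (Finset.sum_congr rfl fun j _ => h3 j)
      ((e.sum_comp fun z => g z (ϑ (e.symm z))).trans ?_)
    rw [Fintype.sum_prod_type, Finset.sum_congr rfl fun a _ => h1 a, ← Finset.sum_mul, h2,
      one_mul]

end Crest.Agent.R216
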