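import Crest.Agent.R216.CovDefs
import Crest.Agent.R216.MCl

/-!
# Row 216: `C¹` smallness of tensors
-/

set_option autoImplicit false
set_option linter.unusedSectionVars false
set_option maxSynthPendingDepth 3

noncomputable section

namespace Crest.Agent.R216.CovDAux1

open Set Metric Filter
open scoped Manifold ContDiff Topology RealInnerProductSpace

universe u

variable {M : Type u} [TopologicalSpace M] [T2Space M] [CompactSpace M] [ChartedSpace E M]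
  [IsManifold (𝓡 2) ∞ M]

theorem ball_sub (𝒜 : Atl M) (a : Fin 𝒜.n) : ball (0 : E) 2 ⊆ (𝒜.c a).e.target :=
  (ball_subset_closedBall.trans (closedBall_subset_closedBall (by norm_num))).trans (𝒜.sub a)

theorem at_ (𝒜 : Atl M) {T : M → Bil} (hT : SmT T) (a : Fin 𝒜.n) {x : E} (hx : x ∈ ball (0 : E) 2)
    (m : ℕ) : ContDiffAt ℝ m ((𝒜.c a).pull T) x :=
  ((hT _).contDiffAt ((𝒜.c a).e.open_target.mem_nhds (ball_sub 𝒜 a hx))).of_le
    (by exact_mod_cast le_top)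

theorem chart (𝒜 : Atl M) (c : Ch M) {K : Set E} (hK : IsCompact K) (hc : K ⊆ c.e.target) :
    ∃ C : ℝ, 0 < C ∧ ∀ (δ : ℝ) (T : M → Bil), SmT T → Near1 𝒜 δ T → 0 ≤ δ →
      ∀ x ∈ K, ∀ m ≤ 1, ‖iteratedFDeriv ℝ m (c.pull T) x‖ ≤ C * δ := by
  obtain ⟨L, hL, h1, h2⟩ := exists_compact_between hK c.e.open_target hc
  have h : TB (Sc.one {q : ℝ × (M → Bil) // SmT q.2 ∧ Near1 𝒜 q.1 q.2 ∧ 0 ≤ q.1}) 1 0
      (fun q => q.1.1) fun q => q.1.2 :=
    TB.of_atl 𝒜 (fun q => q.2.1) (fun q => q.2.2.2) fun a => ⟨fun q => q.2.2.2,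
      fun q => (q.2.1 _).mono (ball_sub 𝒜 a), 1, fun q m hm x hx => by
        simpa [Sc.ctx, Sc.one] using q.2.2.1 a x hx m hm⟩
  obtain ⟨C, hC⟩ := (h.bd c _ isOpen_interior L hL interior_subset h2).le
  refine ⟨max C 1, lt_max_of_lt_right one_pos, fun δ T hT hN hδ x hx m hm =>
    (hC ⟨(δ, T), hT, hN, hδ⟩ m hm x (h1 hx)).trans ?_⟩
  simpa [Sc.ctx, Sc.one] using mul_le_mul_of_nonneg_right (le_max_left C 1) hδ

theorem of_TB (𝒜 : Atl M) {T : ℕ → M → Bil} {A : ℕ → ℝ} (hA : Tendsto A atTop (𝓝 0))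
    (h : TB (Sc.one ℕ) 1 0 A T) {δ : ℝ} (hδ : 0 < δ) : ∀ᶠ n in atTop, Near1 𝒜 δ (T n) := by
  refine eventually_all.2 fun a => ?_
  obtain ⟨C, hC⟩ := (h.atl 𝒜 a).le
  have h1 : Tendsto (fun n => C * A n) atTop (𝓝 0) := by simpa using hA.const_mul C
  filter_upwards [h1.eventually (gt_mem_nhds hδ)] with n hn x hx m hm
  refine (hC n m hm x hx).trans ?_
  simpa [Sc.ctx, Sc.one] using hn.le

theorem add {𝒜 : Atl M} {δ δ' : ℝ} {T T' : M → Bil} (h : Near1 𝒜 δ T) (h' : Near1 𝒜 δ' T')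
    (hT : SmT T) (hT' : SmT T') : Near1 𝒜 (δ + δ') fun p => T p + T' p := by
  intro a x hx m hm
  rw [funext ((𝒜.c a).pull_add T T'), fun_iteratedFDeriv_add_apply (at_ 𝒜 hT a hx m)
    (at_ 𝒜 hT' a hx m)]
  exact (norm_add_le _ _).trans (add_le_add (h a x hx m hm) (h' a x hx m hm))

theorem smul {𝒜 : Atl M} {δ : ℝ} {T : M → Bil} (h : Near1 𝒜 δ T) (hT : SmT T) (r : ℝ) :
    Near1 𝒜 (|r| * δ) fun p => r • T p := by
  intro a x hx m hm
  rw [funext ((𝒜.c a).pull_smul (fun _ => r) T)]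
  change ‖iteratedFDeriv ℝ m (fun y => r • (𝒜.c a).pull T y) x‖ ≤ _
  rw [iteratedFDeriv_const_smul_apply' (at_ 𝒜 hT a hx m), norm_smul, Real.norm_eq_abs]
  exact mul_le_mul_of_nonneg_left (h a x hx m hm) (abs_nonneg _)

theorem exists_near1 (𝒜 : Atl M) {T : M → Bil} (hT : SmT T) : ∃ C : ℝ, 0 < C ∧ Near1 𝒜 C T := by
  choose C h0 hC using fun a => ClA2.compact_bd (𝒜.c a).e.open_target (hT (𝒜.c a))
    (isCompact_closedBall 0 3) (𝒜.sub a) 1
  have := Finset.sum_nonneg (s := Finset.univ) fun a _ => h0 a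
  refine ⟨1 + ∑ a, C a, by positivity, fun a x hx m hm => (hC a m hm x
    (ball_subset_closedBall.trans (closedBall_subset_closedBall (by norm_num)) hx)).trans ?_⟩
  linarith [Finset.single_le_sum (fun a _ => h0 a) (Finset.mem_univ a)]

/-- the curvature as a function of the `1`-jet -/
def kj (q : Bil × (E →L[ℝ] Bil)) : ℝ :=
  (q.2 et es et - q.2 es et et / 2) * q.1 et et - q.1 es et * (q.2 et et et / 2)

theorem kg_eq {G : E → Bil} {x : E} {D : E →L[ℝ] Bil} (h : HasFDerivAt G D x) :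
    kg G x = kj (G x, D) := by
  have e : ∀ u v w, dd u (fun y => G y v w) x = D u v w := fun u v w => by
    rw [dd, ((h.clm_apply (hasFDerivAt_const v x)).clm_apply (hasFDerivAt_const w x)).fderiv]
    simp
  simp only [kg, kj, e]

theorem kg_stable {G0 G1 : E → Bil} {O K : Set E} (hO : IsOpen O) (h0 : ContDiffOn ℝ ∞ G0 O)
    (h1 : ContDiffOn ℝ ∞ G1 O) (hK : IsCompact K) (hKO : K ⊆ O)
    (h : ∀ τ ∈ Icc (0 : ℝ) 1, ∀ x ∈ K, 0 < kg (fun y => G0 y + τ • G1 y) x) :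
    ∃ δ : ℝ, 0 < δ ∧ ∀ τ ∈ Icc (0 : ℝ) 1, ∀ T : E → Bil, ContDiffOn ℝ ∞ T O →
      ∀ x ∈ K, (∀ m ≤ 1, ‖iteratedFDeriv ℝ m T x‖ ≤ δ) →
        0 < kg (fun y => G0 y + τ • G1 y + T y) x := by
  have hd : ∀ {G : E → Bil}, ContDiffOn ℝ ∞ G O → ∀ x ∈ K, HasFDerivAt G (fderiv ℝ G x) x :=
    fun hG x hx => ((hG.contDiffAt (hO.mem_nhds (hKO hx))).differentiableAt (by simp)).hasFDerivAt
  have hc : ∀ {W : Type} [TopologicalSpace W] {G : E → W}, ContinuousOn G O →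
      ContinuousOn (fun z : ℝ × E => G z.2) (Icc 0 1 ×ˢ K) :=
    fun hG => hG.comp continuousOn_snd fun z hz => hKO hz.2
  have hJ : ContinuousOn (fun z : ℝ × E => (G0 z.2 + z.1 • G1 z.2,
      fderiv ℝ G0 z.2 + z.1 • fderiv ℝ G1 z.2)) (Icc 0 1 ×ˢ K) :=
    ((hc h0.continuousOn).add (continuousOn_fst.smul (hc h1.continuousOn))).prodMk
      ((hc (h0.continuousOn_fderiv_of_isOpen hO (by simp))).add
        (continuousOn_fst.smul (hc (h1.continuousOn_fderiv_of_isOpen hO (by simp)))))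
  obtain ⟨δ, hδ, hs⟩ := ((isCompact_Icc.prod hK).image_of_continuousOn
    hJ).exists_cthickening_subset_open
    (isOpen_lt continuous_const (show Continuous kj by unfold kj; fun_prop)) (by
      rintro _ ⟨z, hz, rfl⟩
      exact (h z.1 hz.1 z.2 hz.2).trans_eq
        (kg_eq ((hd h0 _ hz.2).add ((hd h1 _ hz.2).const_smul z.1))))
  refine ⟨δ, hδ, fun τ hτ T hT x hx hb => lt_of_lt_of_eq (hs (mem_cthickening_of_dist_le _ _ _ _
    (mem_image_of_mem _ (show (τ, x) ∈ Icc 0 1 ×ˢ K from ⟨hτ, hx⟩)) ?_))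
    (kg_eq (((hd h0 _ hx).add ((hd h1 _ hx).const_smul τ)).add (hd hT x hx))).symm⟩
  have h2 := hb 0 zero_le_one
  have h3 := hb 1 le_rfl
  rw [norm_iteratedFDeriv_zero] at h2
  rw [norm_iteratedFDeriv_one] at h3
  rw [Prod.dist_eq, dist_eq_norm, dist_eq_norm]
  exact max_le (by simpa using h2) (by simpa using h3)

theorem smT_T (S : Sys M) {K : ℕ} (hK : 1 ≤ K) (j : Fin S.n) {b : E → ℝ}
    (hb : ContDiffOn ℝ ∞ b (S.c j).e.target) : SmT (S.T K j b) :=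
  (S.c j).smT_push (((((S.sm j).contDiffOn.pow K).mul hb).pow 2).smul contDiffOn_const) (S.cpt j)
    (S.sub j) fun x _ hx => by
      rw [image_eq_zero_of_notMem_tsupport hx, zero_pow (by omega)]
      simp

theorem T_smul (S : Sys M) (K : ℕ) (j : Fin S.n) (b : E → ℝ) (a : ℝ) (p : M) :
    S.T K j (fun x => a * b x) p = a ^ 2 • S.T K j b p := by
  simp only [Sys.T, Ch.push]
  split_ifs
  · ext1 v
    ext1 w
    simp
    ring
  · simp

end Crest.Agent.R216.CovDAux1
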