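import Crest.Agent.R216.CovDefs
import Crest.Agent.R216.MCl

/-!
# Row 216: many small steps, the amplitudes and the chain of metrics
-/

set_option autoImplicit false
set_option linter.unusedSectionVars false

noncomputable section

namespace Crest.Agent.R216.CovDAux2

open Set Metric Filter
open scoped Manifold ContDiff Topology RealInnerProductSpace

universe u

variable {M : Type u} [TopologicalSpace M] [T2Space M] [CompactSpace M] [ChartedSpace E M]
  [IsManifold (𝓡 2) ∞ M]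

/-- The properties of `Near1` and `kg` that are used. -/
structure BB (𝒜 : Atl M) : Prop where
  chart : ∀ (c : Ch M) {K : Set E}, IsCompact K → K ⊆ c.e.target →
    ∃ C : ℝ, 0 < C ∧ ∀ (δ : ℝ) (T : M → Bil), SmT T → Near1 𝒜 δ T → 0 ≤ δ →
      ∀ x ∈ K, ∀ m ≤ 1, ‖iteratedFDeriv ℝ m (c.pull T) x‖ ≤ C * δ
  add : ∀ {δ δ' : ℝ} {T T' : M → Bil}, Near1 𝒜 δ T → Near1 𝒜 δ' T' → SmT T → SmT T' →
    Near1 𝒜 (δ + δ') fun p => T p + T' p
  smul : ∀ {δ : ℝ} {T : M → Bil}, Near1 𝒜 δ T → SmT T → ∀ a : ℝ,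
    Near1 𝒜 (|a| * δ) fun p => a • T p
  ex : ∀ {T : M → Bil}, SmT T → ∃ C : ℝ, 0 < C ∧ Near1 𝒜 C T
  kg : ∀ {G0 G1 : E → Bil} {O K : Set E}, IsOpen O → ContDiffOn ℝ ∞ G0 O →
    ContDiffOn ℝ ∞ G1 O → IsCompact K → K ⊆ O →
    (∀ τ ∈ Icc (0 : ℝ) 1, ∀ x ∈ K, 0 < kg (fun y => G0 y + τ • G1 y) x) →
    ∃ δ : ℝ, 0 < δ ∧ ∀ τ ∈ Icc (0 : ℝ) 1, ∀ T : E → Bil, ContDiffOn ℝ ∞ T O →
      ∀ x ∈ K, (∀ m ≤ 1, ‖iteratedFDeriv ℝ m T x‖ ≤ δ) →
        0 < kg (fun y => G0 y + τ • G1 y + T y) x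

theorem near_mono {𝒜 : Atl M} {δ δ' : ℝ} {T : M → Bil} (h : Near1 𝒜 δ T) (hd : δ ≤ δ') :
    Near1 𝒜 δ' T := fun a x hx m hm => (h a x hx m hm).trans hd

theorem unif {n : ℕ} (f : Fin n → ℝ) (hf : ∀ j, 0 < f j) : ∃ δ : ℝ, 0 < δ ∧ ∀ j, δ ≤ f j := by
  have h : ∀ᶠ δ in 𝓝[>] (0 : ℝ), ∀ j, δ ≤ f j :=
    eventually_all.2 fun j => mem_of_superset (Ioc_mem_nhdsGT (hf j)) fun _ h => h.2
  obtain ⟨δ, h1, h2⟩ := (h.and self_mem_nhdsWithin).exists
  exact ⟨δ, h2, h1⟩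

theorem push_add (c : Ch M) (t t' : E → Bil) (p : M) :
    c.push (fun x => t x + t' x) p = c.push t p + c.push t' p := by
  unfold Ch.push
  ext1 v
  ext1 w
  split_ifs <;> simp

theorem push_smul (c : Ch M) (a : ℝ) (t : E → Bil) (p : M) :
    c.push (fun x => a • t x) p = a • c.push t p := by
  unfold Ch.push
  ext1 v
  ext1 w
  split_ifs <;> simp

theorem T_symm (S : Sys M) (K : ℕ) (j : Fin S.n) (b : E → ℝ) (p : M) (v w : E) :
    S.T K j b p v w = S.T K j b p w v := by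
  unfold Sys.T Ch.push
  split_ifs
  · simp [tp, mul_comm]
  · simp

theorem smT_T (S : Sys M) {K : ℕ} (hK : 1 ≤ K) (j : Fin S.n) {b : E → ℝ}
    (hb : ContDiffOn ℝ ∞ b (S.c j).e.target) : SmT (S.T K j b) := by
  have : IsBoundedSMul ℝ Bil := NormedSpace.toIsBoundedSMul (𝕜 := ℝ) (E := Bil)
  refine (S.c j).smT_push ?_ (S.cpt j) (S.sub j) fun x _ hx => ?_
  · exact ((((S.sm j).contDiffOn.pow K).mul hb).pow 2).smul contDiffOn_const
  · rw [image_eq_zero_of_notMem_tsupport hx, zero_pow (by omega)]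
    ext1 v
    ext1 w
    simp

theorem T_smul (S : Sys M) (K : ℕ) (j : Fin S.n) (b : E → ℝ) (a : ℝ) (p : M) :
    S.T K j (fun x => a * b x) p = a ^ 2 • S.T K j b p := by
  unfold Sys.T
  rw [← push_smul]
  congr 1
  funext x
  rw [smul_smul]
  congr 1
  ring

theorem smT_smul {T : M → Bil} (h : SmT T) (a : ℝ) : SmT fun p => a • T p :=
  h.smul (f := fun _ => a) contMDiff_const

theorem sum_per {V : Type*} [AddCommMonoid V] (f : ℕ → V) (n : ℕ) (hf : ∀ i, f (n + i) = f i)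
    (k r : ℕ) : ∑ i ∈ Finset.range (n * k + r), f i
      = k • ∑ i ∈ Finset.range n, f i + ∑ i ∈ Finset.range r, f i := by
  induction k with
  | zero => simp
  | succ k ih =>
    rw [show n * (k + 1) + r = n + (n * k + r) by ring, Finset.sum_range_add]
    simp only [hf]
    rw [ih, succ_nsmul', add_assoc]

variable {S : Sys M} {G0 G : M → Bil} {𝒜 : Atl M}

theorem supp_sub (D : Dec S G0 G) (j : Fin S.n) : tsupport (D.ρ j) ⊆ tsupport (S.χ j) :=
  closure_mono fun x hx => by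
    rw [Function.mem_support, D.ρχ j x hx]
    exact one_ne_zero

theorem smo (D : Dec S G0 G) (j : Fin S.n) {T : M → Bil} (hT : SmT T) :
    ContDiffOn ℝ ∞ (fun x => (S.c j).pull T x (D.U j x) (D.U' j x)) (D.V j) :=
  (((hT (S.c j)).mono (D.Vc j)).clm_apply (D.smU j)).clm_apply (D.smU' j)

theorem pos_stable (B : BB 𝒜) (D : Dec S G0 G) (h0 : SmT G0) (h : SmT G) (j : Fin S.n) :
    ∃ δ : ℝ, 0 < δ ∧ ∀ T : M → Bil, SmT T → Near1 𝒜 δ T → ∀ x ∈ tsupport (D.ρ j),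
      0 ≤ (S.c j).pull (fun p => G p - G0 p - T p) x (D.U j x) (D.U' j x) := by
  have hc : IsCompact (tsupport (D.ρ j)) :=
    (S.cpt j).of_isClosed_subset (isClosed_tsupport _) (supp_sub D j)
  obtain ⟨C, hC, hb⟩ := B.chart (S.c j) hc ((D.ρV j).trans (D.Vc j))
  obtain ⟨m, hm, hm'⟩ := hc.exists_forall_le' ((smo D j (h.sub h0)).continuousOn.mono (D.ρV j))
    fun x hx => D.pos j x (D.ρV j hx)
  obtain ⟨A, hA⟩ := hc.exists_bound_of_continuousOn
    (f := fun x => ‖D.U j x‖ * ‖D.U' j x‖)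
    (((D.smU j).continuousOn.norm.mul (D.smU' j).continuousOn.norm).mono (D.ρV j))
  have hA1 : 0 < |A| + 1 := by positivity
  refine ⟨m / (C * (|A| + 1)), by positivity, fun T hT hN x hx => ?_⟩
  have h1 := hb _ T hT hN (by positivity) x hx 0 zero_le_one
  rw [norm_iteratedFDeriv_zero] at h1
  have h2 : ‖D.U j x‖ * ‖D.U' j x‖ ≤ |A| + 1 :=
    ((le_abs_self _).trans (hA x hx)).trans ((le_abs_self A).trans (by linarith))
  have h3 := ((S.c j).pull T x).le_opNorm₂ (D.U j x) (D.U' j x)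
  have h4 : C * (m / (C * (|A| + 1))) * (|A| + 1) = m := by field_simp
  have h5 : ‖(S.c j).pull T x‖ * (‖D.U j x‖ * ‖D.U' j x‖)
      ≤ C * (m / (C * (|A| + 1))) * (|A| + 1) :=
    mul_le_mul h1 h2 (by positivity) (by positivity)
  rw [Ch.pull_sub (S.c j) (fun p => G p - G0 p) T]
  have h6 := hm' x hx
  have h7 := le_abs_self ((S.c j).pull T x (D.U j x) (D.U' j x))
  rw [Real.norm_eq_abs, mul_assoc] at h3
  simp only [sub_apply]
  linarith

theorem smf (D : Dec S G0 G) (j : Fin S.n) {T : M → Bil} (hT : SmT T) :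
    ContDiff ℝ ∞ fun x => D.ρ j x * (S.c j).pull T x (D.U j x) (D.U' j x) := by
  rw [contDiff_iff_contDiffAt]
  intro x
  by_cases hx : x ∈ tsupport (D.ρ j)
  · exact (D.smρ j).contDiffAt.mul ((smo D j hT).contDiffAt ((D.hV j).mem_nhds (D.ρV j hx)))
  · refine (contDiffAt_const (c := (0 : ℝ))).congr_of_eventuallyEq ?_
    filter_upwards [notMem_tsupport_iff_eventuallyEq.1 hx] with y hy
    rw [hy, Pi.zero_apply, zero_mul]

theorem T_sqrt (D : Dec S G0 G) (K : ℕ) (j : Fin S.n) {a : ℝ} {g : E → ℝ}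
    (hg : ∀ x, 0 ≤ a + D.ρ j x * g x) (p : M) :
    S.T K j (fun x => √(a + D.ρ j x * g x)) p = a • S.T K j (fun _ => 1) p +
      (S.c j).push (fun x => (D.ρ j x * g x) • tp cs cs) p := by
  unfold Sys.T
  rw [← push_smul, ← push_add]
  congr 1
  funext x
  have e : (S.χ j x ^ K * √(a + D.ρ j x * g x)) ^ 2
      = a * (S.χ j x ^ K * 1) ^ 2 + D.ρ j x * g x := by
    rw [mul_pow, Real.sq_sqrt (hg x)]
    by_cases h : D.ρ j x = 0
    · rw [h]
      ring
    · rw [D.ρχ j x h]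
      ring
  rw [e]
  ext1 v
  ext1 w
  simp only [add_apply, smul_apply, smul_eq_mul]
  ring

theorem amp (B : BB 𝒜) (D : Dec S G0 G) (h0 : SmT G0) (h : SmT G)
    (hs : ∀ p v w, G p v w = G p w v) (K : ℕ) (hK : 1 ≤ K) : ∃ η : ℝ, 0 < η ∧
      ∀ G0' : M → Bil, SmT G0' → (∀ p v w, G0' p v w = G0' p w v) →
        Near1 𝒜 η (fun p => G0' p - G0 p) → ∃ b : Fin S.n → E → ℝ,
          (∀ j, ContDiffOn ℝ ∞ (b j) (S.c j).e.target ∧ ∀ x ∈ (S.c j).e.target, 0 < b j x) ∧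
          ∀ p, ∑ j, S.T K j (b j) p = G p - G0' p := by
  choose f hf hf' using pos_stable B D h0 h
  obtain ⟨δ, hδ, hδ'⟩ := unif f hf
  have hT0 : SmT fun p => ∑ j, S.T K j (fun _ => 1) p :=
    SmT.sum Finset.univ fun j _ => smT_T S hK j contDiffOn_const
  obtain ⟨C, hC, hN0⟩ := B.ex hT0
  refine ⟨δ / 2, by positivity, fun G0' h0' hs' hN => ?_⟩
  obtain ⟨a, ha⟩ : ∃ a : ℝ, a = δ / 2 / C := ⟨_, rfl⟩
  have ha0 : 0 < a := by rw [ha]; positivity
  have hT : SmT fun p => (G0' p - G0 p) + a • ∑ j, S.T K j (fun _ => 1) p :=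
    (h0'.sub h0).add (smT_smul hT0 a)
  have hNT := B.add hN (B.smul hN0 hT0 a) (h0'.sub h0) (smT_smul hT0 a)
  have e1 : δ / 2 + |a| * C = δ := by
    rw [abs_of_pos ha0, ha]
    field_simp
    ring
  rw [e1] at hNT
  obtain ⟨H, hH⟩ : ∃ H : M → Bil, H = fun p =>
    G p - G0 p - ((G0' p - G0 p) + a • ∑ j, S.T K j (fun _ => 1) p) := ⟨_, rfl⟩
  have hH1 : SmT H := hH ▸ (h.sub h0).sub hT
  have hH2 : ∀ p, H p = G p - G0' p - a • ∑ j, S.T K j (fun _ => 1) p := fun p => by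
    rw [hH]
    ext1 v
    ext1 w
    simp only [add_apply, sub_apply]
    ring
  have hH3 : ∀ p v w, H p v w = H p w v := fun p v w => by
    rw [hH2]
    simp only [sub_apply, smul_apply, _root_.sum_apply, hs p v w, hs' p v w,
      T_symm S K _ _ p v w]
  have hpos : ∀ j x, 0 < a + D.ρ j x * (S.c j).pull H x (D.U j x) (D.U' j x) := fun j x => by
    by_cases hx : x ∈ tsupport (D.ρ j)
    · have h1 := hf' j _ hT (near_mono hNT (hδ' j)) x hx
      rw [← hH] at h1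
      have := mul_nonneg (D.ρ0 j x) h1
      linarith
    · rw [image_eq_zero_of_notMem_tsupport hx]
      linarith
  refine ⟨fun j x => √(a + D.ρ j x * (S.c j).pull H x (D.U j x) (D.U' j x)),
    fun j => ⟨?_, fun x _ => Real.sqrt_pos.2 (hpos j x)⟩, fun p => ?_⟩
  · exact ((contDiff_const.add (smf D j hH1)).sqrt fun x => (hpos j x).ne').contDiffOn
  · simp only [fun j => T_sqrt D K j (fun x => (hpos j x).le) p]
    rw [Finset.sum_add_distrib, D.sum H hH3 p, hH2]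
    ext1 v
    ext1 w
    simp only [add_apply, sub_apply, smul_apply, _root_.sum_apply, smul_eq_mul,
      ← Finset.mul_sum]
    ring

theorem kg_near (B : BB 𝒜) (D : Dec S G0 G) (h0 : SmT G0) (h : SmT G) (j : Fin S.n) :
    ∃ δ : ℝ, 0 < δ ∧ ∀ τ ∈ Icc (0 : ℝ) 1, ∀ T : M → Bil, SmT T → Near1 𝒜 δ T →
      ∀ x ∈ tsupport (S.χ j),
        0 < kg ((S.c j).pull fun p => G0 p + τ • (G p - G0 p) + T p) x := by
  have e : ∀ τ : ℝ, ((S.c j).pull fun p => G0 p + τ • (G p - G0 p)) = fun y =>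
      (S.c j).pull G0 y + τ • (S.c j).pull (fun p => G p - G0 p) y := fun τ => by
    funext y
    rw [Ch.pull_add (S.c j) G0 fun p => τ • (G p - G0 p),
      Ch.pull_smul (S.c j) (fun _ => τ) fun p => G p - G0 p]
    rfl
  obtain ⟨δ, hδ, hk⟩ := B.kg (S.c j).e.open_target (h0 (S.c j)) ((h.sub h0) (S.c j)) (S.cpt j)
    (S.sub j) fun τ hτ x hx => by
      have := D.kgp j τ hτ x hx
      rwa [e] at this
  obtain ⟨C, hC, hb⟩ := B.chart (S.c j) (S.cpt j) (S.sub j)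
  refine ⟨δ / C, by positivity, fun τ hτ T hT hN x hx => ?_⟩
  have h1 := hk τ hτ ((S.c j).pull T) (hT (S.c j)) x hx fun m hm => by
    have := hb _ T hT hN (by positivity) x hx m hm
    rwa [mul_div_cancel₀ _ hC.ne'] at this
  have e2 : ((S.c j).pull fun p => G0 p + τ • (G p - G0 p) + T p) = fun y =>
      (S.c j).pull G0 y + τ • (S.c j).pull (fun p => G p - G0 p) y + (S.c j).pull T y := by
    funext y
    rw [Ch.pull_add (S.c j) (fun p => G0 p + τ • (G p - G0 p)) T, e]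
  rw [e2]
  exact h1

theorem n_pos [Nonempty M] (D : Dec S G0 G) (hd : Met fun p => G p - G0 p) : 0 < S.n := by
  rcases Nat.eq_zero_or_pos S.n with hn | hn
  · obtain ⟨p⟩ := ‹Nonempty M›
    have h1 := D.sum _ hd.symm p
    have : IsEmpty (Fin S.n) := ⟨fun j => by have := j.2; omega⟩
    rw [Finset.univ_eq_empty, Finset.sum_empty] at h1
    have h2 := hd.pos p es (by simp [es])
    rw [← h1] at h2
    simp at h2
  · exact hn

theorem adm [Nonempty M] (B : BB 𝒜) (D : Dec S G0 G) (h0 : SmT G0)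
    (h : Met G) (hd : Met fun p => G p - G0 p) (K : ℕ) (hK : 1 ≤ K) : ∃ η : ℝ, 0 < η ∧
      ∀ G0' : M → Bil, SmT G0' → (∀ p v w, G0' p v w = G0' p w v) →
        Near1 𝒜 η (fun p => G0' p - G0 p) → S.Adm K G0' G := by
  have hn := n_pos D hd
  choose f hf hf' using kg_near B D h0 h.sm
  obtain ⟨δ, hδ, hδ'⟩ := unif f hf
  obtain ⟨η, hη, hamp⟩ := amp B D h0 h.sm h.symm K hK
  refine ⟨min η (δ / 2), by positivity, fun G0' h0' hs' hN => ?_⟩
  obtain ⟨b, hb, hsum⟩ := hamp G0' h0' hs' (near_mono hN (min_le_left _ _))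
  replace hN := near_mono hN (min_le_right _ _)
  obtain ⟨j, hj⟩ : ∃ j : ℕ → Fin S.n, j = fun q => ⟨q % S.n, Nat.mod_lt q hn⟩ := ⟨_, rfl⟩
  have hj1 : ∀ i, j (S.n + i) = j i := fun i => by
    rw [hj]
    exact Fin.ext (Nat.add_mod_left _ _)
  have hj2 : ∀ i : Fin S.n, j i = i := fun i => by
    rw [hj]
    exact Fin.ext (Nat.mod_eq_of_lt i.2)
  obtain ⟨P, hP⟩ : ∃ P : ℕ → M → Bil, P = fun r p =>
    ∑ i ∈ Finset.range r, S.T K (j i) (b (j i)) p := ⟨_, rfl⟩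
  have hP1 : ∀ r, SmT (P r) := fun r =>
    hP ▸ SmT.sum (Finset.range r) fun i _ => smT_T S hK (j i) (hb (j i)).1
  have hP2 : ∀ k r p, P (S.n * k + r) p = (k : ℝ) • (G p - G0' p) + P r p := fun k r p => by
    rw [hP]
    simp only
    rw [sum_per (fun i => S.T K (j i) (b (j i)) p) S.n (fun i => by rw [hj1]), Finset.sum_range]
    simp only [hj2, hsum]
    ext1 v
    ext1 w
    simp
  choose C hC hC' using fun r : Fin S.n => B.ex (hP1 r)
  obtain ⟨ε, hε, hε'⟩ := unif (fun r => δ / 2 / C r) fun r => by have := hC r; positivity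
  obtain ⟨N, hN'⟩ := exists_nat_one_div_lt hε
  obtain ⟨m, hm⟩ : ∃ m : ℝ, m = (N : ℝ) + 1 := ⟨_, rfl⟩
  rw [← hm, one_div] at hN'
  have hm0 : 0 < m := by rw [hm]; positivity
  refine ⟨S.n * (N + 1), j, fun q x => √m⁻¹ * b (j q) x, fun q p => G0' p + m⁻¹ • P q p,
    ?_, ?_, fun q hq => ⟨contDiffOn_const.mul (hb (j q)).1,
      fun x hx => mul_pos (Real.sqrt_pos.2 (inv_pos.2 hm0)) ((hb (j q)).2 x hx), fun p => ?_,
      fun x hx => ?_⟩⟩
  · funext p
    ext1 v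
    ext1 w
    simp [hP]
  · funext p
    have := hP2 (N + 1) 0 p
    rw [add_zero] at this
    beta_reduce
    rw [this, hP]
    ext1 v
    ext1 w
    simp only [add_apply, smul_apply, sub_apply, smul_eq_mul, Finset.range_zero, Finset.sum_empty,
      zero_apply, Nat.cast_add, Nat.cast_one, ← hm]
    field_simp
    ring
  · rw [T_smul, Real.sq_sqrt (inv_pos.2 hm0).le, hP]
    simp only [Finset.sum_range_succ]
    ext1 v
    ext1 w
    simp only [add_apply, smul_apply, smul_eq_mul]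
    ring
  · have hk : q / S.n ≤ N + 1 := Nat.div_le_of_le_mul hq.le
    have hk' : ((q / S.n : ℕ) : ℝ) ≤ m := by rw [hm]; exact_mod_cast hk
    obtain ⟨τ, hτ⟩ : ∃ τ : ℝ, τ = ((q / S.n : ℕ) : ℝ) / m := ⟨_, rfl⟩
    have hτ0 : 0 ≤ τ := by rw [hτ]; positivity
    have hτ1 : τ ≤ 1 := by rw [hτ]; exact div_le_one_of_le₀ hk' hm0.le
    have e : (fun p => G0' p + m⁻¹ • P q p) = fun p => G0 p + τ • (G p - G0 p) +
        ((1 - τ) • (G0' p - G0 p) + m⁻¹ • P (q % S.n) p) := by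
      funext p
      have := hP2 (q / S.n) (q % S.n) p
      rw [Nat.div_add_mod] at this
      rw [this, hτ]
      ext1 v
      ext1 w
      simp only [add_apply, smul_apply, sub_apply, smul_eq_mul]
      field_simp
      ring
    beta_reduce
    rw [e]
    have s1 := smT_smul (h0'.sub h0) (1 - τ)
    have s2 := smT_smul (hP1 (q % S.n)) m⁻¹
    refine hf' (j q) τ ⟨hτ0, hτ1⟩ _ (s1.add s2) (near_mono (B.add (B.smul hN (h0'.sub h0) (1 - τ))
      (B.smul (hC' ⟨q % S.n, Nat.mod_lt q hn⟩) (hP1 _) m⁻¹) s1 s2) ?_) x hx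
    have h1 := hC ⟨q % S.n, Nat.mod_lt q hn⟩
    have h2 := (le_div_iff₀ h1).1 (hN'.le.trans (hε' ⟨q % S.n, Nat.mod_lt q hn⟩))
    rw [abs_of_nonneg (by linarith), abs_of_pos (inv_pos.2 hm0)]
    have h3 := hδ' (j q)
    nlinarith

end Crest.Agent.R216.CovDAux2
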