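import Crest.Agent.R216.CovDefs
import Crest.Agent.R216.MCl
import Crest.Agent.R216.CovDAux2
import Crest.Agent.R216.CovDAux1

/-!
# Row 216: many small steps
-/

set_option autoImplicit false
set_option linter.unusedSectionVars false

noncomputable section

namespace Crest.Agent.R216

open Set Metric Filter
open scoped Manifold ContDiff Topology RealInnerProductSpace

universe u

variable {M : Type u} [TopologicalSpace M] [T2Space M] [CompactSpace M] [ChartedSpace E M]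
  [IsManifold (𝓡 2) ∞ M]

theorem Near1.chart (𝒜 : Atl M) (c : Ch M) {K : Set E} (hK : IsCompact K) (hc : K ⊆ c.e.target) :
    ∃ C : ℝ, 0 < C ∧ ∀ (δ : ℝ) (T : M → Bil), SmT T → Near1 𝒜 δ T → 0 ≤ δ →
      ∀ x ∈ K, ∀ m ≤ 1, ‖iteratedFDeriv ℝ m (c.pull T) x‖ ≤ C * δ :=
  CovDAux1.chart 𝒜 c hK hc

theorem Near1.of_TB (𝒜 : Atl M) {T : ℕ → M → Bil} {A : ℕ → ℝ} (hA : Tendsto A atTop (𝓝 0))
    (h : TB (Sc.one ℕ) 1 0 A T) {δ : ℝ} (hδ : 0 < δ) : ∀ᶠ n in atTop, Near1 𝒜 δ (T n) :=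
  CovDAux1.of_TB 𝒜 hA h hδ

theorem Near1.add {𝒜 : Atl M} {δ δ' : ℝ} {T T' : M → Bil} (h : Near1 𝒜 δ T) (h' : Near1 𝒜 δ' T')
    (hT : SmT T) (hT' : SmT T') : Near1 𝒜 (δ + δ') fun p => T p + T' p :=
  CovDAux1.add h h' hT hT'

theorem Near1.smul {𝒜 : Atl M} {δ : ℝ} {T : M → Bil} (h : Near1 𝒜 δ T) (hT : SmT T) (a : ℝ) :
    Near1 𝒜 (|a| * δ) fun p => a • T p :=
  CovDAux1.smul h hT a

theorem exists_near1 (𝒜 : Atl M) {T : M → Bil} (hT : SmT T) : ∃ C : ℝ, 0 < C ∧ Near1 𝒜 C T :=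
  CovDAux1.exists_near1 𝒜 hT

/-- The geodesic curvature is stable under `C¹` perturbations. -/
theorem kg_stable {G0 G1 : E → Bil} {O K : Set E} (hO : IsOpen O) (h0 : ContDiffOn ℝ ∞ G0 O)
    (h1 : ContDiffOn ℝ ∞ G1 O) (hK : IsCompact K) (hKO : K ⊆ O)
    (h : ∀ τ ∈ Icc (0 : ℝ) 1, ∀ x ∈ K, 0 < kg (fun y => G0 y + τ • G1 y) x) :
    ∃ δ : ℝ, 0 < δ ∧ ∀ τ ∈ Icc (0 : ℝ) 1, ∀ T : E → Bil, ContDiffOn ℝ ∞ T O →
      ∀ x ∈ K, (∀ m ≤ 1, ‖iteratedFDeriv ℝ m T x‖ ≤ δ) →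
        0 < kg (fun y => G0 y + τ • G1 y + T y) x :=
  CovDAux1.kg_stable hO h0 h1 hK hKO h

/-- The amplitudes. -/
theorem Dec.amp {S : Sys M} {G0 G : M → Bil} (D : Dec S G0 G) (h0 : SmT G0) (h : SmT G)
    (hs : ∀ p v w, G p v w = G p w v) (𝒜 : Atl M) (K : ℕ) (hK : 1 ≤ K) : ∃ η : ℝ, 0 < η ∧
      ∀ G0' : M → Bil, SmT G0' → (∀ p v w, G0' p v w = G0' p w v) →
        Near1 𝒜 η (fun p => G0' p - G0 p) → ∃ b : Fin S.n → E → ℝ,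
          (∀ j, ContDiffOn ℝ ∞ (b j) (S.c j).e.target ∧ ∀ x ∈ (S.c j).e.target, 0 < b j x) ∧
          ∀ p, ∑ j, S.T K j (b j) p = G p - G0' p :=
  CovDAux2.amp ⟨Near1.chart 𝒜, Near1.add, Near1.smul, exists_near1 𝒜, kg_stable⟩ D h0 h hs K hK

theorem Sys.smT_T (S : Sys M) {K : ℕ} (hK : 1 ≤ K) (j : Fin S.n) {b : E → ℝ}
    (hb : ContDiffOn ℝ ∞ b (S.c j).e.target) : SmT (S.T K j b) :=
  CovDAux1.smT_T S hK j hb

theorem Sys.T_smul (S : Sys M) (K : ℕ) (j : Fin S.n) (b : E → ℝ) (a : ℝ) (p : M) :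
    S.T K j (fun x => a * b x) p = a ^ 2 • S.T K j b p :=
  CovDAux1.T_smul S K j b a p

theorem Dec.adm [Nonempty M] {S : Sys M} {G0 G : M → Bil} (D : Dec S G0 G) (h0 : SmT G0)
    (h : Met G) (hd : Met fun p => G p - G0 p) (𝒜 : Atl M) (K : ℕ) (hK : 1 ≤ K) : ∃ η : ℝ, 0 < η ∧
      ∀ G0' : M → Bil, SmT G0' → (∀ p v w, G0' p v w = G0' p w v) →
        Near1 𝒜 η (fun p => G0' p - G0 p) → S.Adm K G0' G :=
  CovDAux2.adm ⟨Near1.chart 𝒜, Near1.add, Near1.smul, exists_near1 𝒜, kg_stable⟩ D h0 h hd K hK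

end Crest.Agent.R216
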