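import Crest.Agent.R216.LDefs

/-!
# Row 216: parabolic charts (definitions).  DO NOT change a definition of this file.
-/

set_option autoImplicit false
set_option linter.unusedSectionVars false

noncomputable section

namespace Crest.Agent.R216

open Set Metric Filter
open scoped Manifold ContDiff Topology RealInnerProductSpace

universe u

/-- A centre, a frame and a curvature. -/
structure Fr where
  x0 : E
  z : E
  w : E
  ξ : E →L[ℝ] ℝ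
  η : E →L[ℝ] ℝ
  ξz : ξ z = 1
  ξw : ξ w = 0
  ηz : η z = 0
  ηw : η w = 1
  κ : ℝ

/-- Parabolic coordinates. -/
def Fr.φ (P : Fr) (ϑ : ℝ) : E ≃ₜ E where
  toFun y := pt (P.ξ (y - P.x0) - ϑ * P.η (y - P.x0) - P.κ * P.η (y - P.x0) ^ 2) (P.η (y - P.x0))
  invFun x := P.x0 + (x 0 + ϑ * x 1 + P.κ * x 1 ^ 2) • P.z + x 1 • P.w
  left_inv y := by
    have h := frame_decomp P.ξz P.ξw P.ηz P.ηw (y - P.x0)
    simp only [pt]
    have e : y = P.x0 + (P.ξ (y - P.x0) • P.z + P.η (y - P.x0) • P.w) := by rw [← h]; abel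
    conv_rhs => rw [e]
    simp only [Matrix.cons_val_zero, Matrix.cons_val_one]
    module
  right_inv x := by
    have h1 : P.x0 + (x 0 + ϑ * x 1 + P.κ * x 1 ^ 2) • P.z + x 1 • P.w - P.x0
        = (x 0 + ϑ * x 1 + P.κ * x 1 ^ 2) • P.z + x 1 • P.w := by abel
    simp only [h1, map_add, map_smul, P.ξz, P.ξw, P.ηz, P.ηw, smul_eq_mul, pt]
    ext i
    fin_cases i
    · simp only [Fin.zero_eta, Fin.isValue, mul_one, mul_zero, add_zero, zero_add,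
        Matrix.cons_val_zero]
      ring
    · simp
  continuous_toFun := by
    unfold pt
    fun_prop
  continuous_invFun := by fun_prop

theorem Fr.contDiff_φ (P : Fr) (ϑ : ℝ) : ContDiff ℝ ∞ (P.φ ϑ) := by
  rw [contDiff_euclidean]
  intro i
  fin_cases i
  · change ContDiff ℝ ∞ fun y : E =>
      P.ξ (y - P.x0) - ϑ * P.η (y - P.x0) - P.κ * P.η (y - P.x0) ^ 2
    fun_prop
  · change ContDiff ℝ ∞ fun y : E => P.η (y - P.x0)
    fun_prop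

theorem Fr.contDiff_φ_symm (P : Fr) (ϑ : ℝ) : ContDiff ℝ ∞ (P.φ ϑ).symm := by
  change ContDiff ℝ ∞ fun x : E => P.x0 + (x 0 + ϑ * x 1 + P.κ * x 1 ^ 2) • P.z + x 1 • P.w
  fun_prop

/-- The differential of the coordinate `s`. -/
def Fr.σ (P : Fr) (ϑ : ℝ) (y : E) : E →L[ℝ] ℝ := P.ξ - (ϑ + 2 * P.κ * P.η (y - P.x0)) • P.η

/-- A metric of the plane in parabolic coordinates. -/
def Fr.pull (P : Fr) (ϑ : ℝ) (G : E → Bil) (x : E) : Bil :=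
  (G ((P.φ ϑ).symm x)).bilinearComp (fderiv ℝ (P.φ ϑ).symm x) (fderiv ℝ (P.φ ϑ).symm x)

section manifold

variable {M : Type*} [TopologicalSpace M] [ChartedSpace E M] [IsManifold (𝓡 2) ∞ M]

/-- The parabolic chart. -/
def Ch.par (c : Ch M) (P : Fr) (ϑ : ℝ) : Ch M :=
  (c.exists_trans (P.φ ϑ) (P.contDiff_φ ϑ) (P.contDiff_φ_symm ϑ)).choose

theorem Ch.par_spec (c : Ch M) (P : Fr) (ϑ : ℝ) : (c.par P ϑ).e.source = c.e.source ∧
    (c.par P ϑ).e.target = P.φ ϑ '' c.e.target ∧ (∀ p, (c.par P ϑ).e p = P.φ ϑ (c.e p)) ∧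
    ∀ x, (c.par P ϑ).e.symm x = c.e.symm ((P.φ ϑ).symm x) :=
  (c.exists_trans (P.φ ϑ) (P.contDiff_φ ϑ) (P.contDiff_φ_symm ϑ)).choose_spec

/-- The system of round discs with parabolic leaves. -/
def mkSys {n : ℕ} (c : Fin n → Ch M) (P : Fin n → Fr) (β : ∀ j, ContDiffBump (P j).x0)
    (h : ∀ j, closedBall (P j).x0 (β j).rOut ⊆ (c j).e.target) (ϑ : Fin n → ℝ) : Sys M where
  n := n
  c j := (c j).par (P j) (ϑ j)
  χ j := β j ∘ ((P j).φ (ϑ j)).symm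
  sm j := (β j).contDiff.comp ((P j).contDiff_φ_symm (ϑ j))
  nonneg j x := (β j).nonneg
  cpt j := (β j).hasCompactSupport.comp_homeomorph ((P j).φ (ϑ j)).symm
  sub j := by
    rw [((c j).par_spec (P j) (ϑ j)).2.1, tsupport_comp_eq_preimage, (β j).tsupport_eq]
    intro x hx
    exact ⟨_, h j hx, ((P j).φ (ϑ j)).apply_symm_apply x⟩

/-- `C¹` smallness of a tensor. -/
def Near1 (𝒜 : Atl M) (δ : ℝ) (T : M → Bil) : Prop :=
  ∀ a, ∀ x ∈ ball (0 : E) 2, ∀ m ≤ 1, ‖iteratedFDeriv ℝ m ((𝒜.c a).pull T) x‖ ≤ δ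

/-- A system of discs that decomposes the tensors near `G - G0`. -/
structure Dec (S : Sys M) (G0 G : M → Bil) where
  kgp : ∀ j, ∀ τ ∈ Icc (0 : ℝ) 1, ∀ x ∈ tsupport (S.χ j),
    0 < kg ((S.c j).pull fun p => G0 p + τ • (G p - G0 p)) x
  ρ : Fin S.n → E → ℝ
  V : Fin S.n → Set E
  U : Fin S.n → E → E
  U' : Fin S.n → E → E
  smρ : ∀ j, ContDiff ℝ ∞ (ρ j)
  ρ0 : ∀ j x, 0 ≤ ρ j x
  ρχ : ∀ j x, ρ j x ≠ 0 → S.χ j x = 1
  hV : ∀ j, IsOpen (V j)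
  ρV : ∀ j, tsupport (ρ j) ⊆ V j
  Vc : ∀ j, V j ⊆ (S.c j).e.target
  smU : ∀ j, ContDiffOn ℝ ∞ (U j) (V j)
  smU' : ∀ j, ContDiffOn ℝ ∞ (U' j) (V j)
  pos : ∀ j, ∀ x ∈ V j, 0 < (S.c j).pull (fun p => G p - G0 p) x (U j x) (U' j x)
  sum : ∀ T : M → Bil, (∀ p v w, T p v w = T p w v) → ∀ p,
    ∑ j, (S.c j).push (fun x => (ρ j x * (S.c j).pull T x (U j x) (U' j x)) • tp cs cs) p = T p

/-- Three foliated discs around a point. -/
structure Cell (G0 G : M → Bil) (p : M) where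
  c : Ch M
  hp : p ∈ c.e.source
  P : Fin 3 → Fr
  x0 : ∀ l, (P l).x0 = c.e p
  r : ℝ
  r0 : 0 < r
  sub : closedBall (c.e p) r ⊆ c.e.target
  ϑ0 : ℝ
  ϑpos : 0 < ϑ0
  kgp : ∀ l ϑ, |ϑ| ≤ ϑ0 → ∀ τ ∈ Icc (0 : ℝ) 1, ∀ y ∈ closedBall (c.e p) r,
    0 < kg ((c.par (P l) ϑ).pull fun q => G0 q + τ • (G q - G0 q)) ((P l).φ ϑ y)
  dec : ∀ ϑ : Fin 3 → ℝ, (∀ l, |ϑ l| ≤ ϑ0) → ∃ U U' : Fin 3 → E → E,
    (∀ l, ContDiffOn ℝ ∞ (U l) (ball (c.e p) r) ∧ ContDiffOn ℝ ∞ (U' l) (ball (c.e p) r)) ∧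
    ∀ y ∈ ball (c.e p) r, (∀ l, 0 < c.pull (fun q => G q - G0 q) y (U l y) (U' l y)) ∧
      ∀ t : Bil, (∀ v w, t v w = t w v) →
        ∑ l, t (U l y) (U' l y) • tp ((P l).σ (ϑ l) y) ((P l).σ (ϑ l) y) = t

end manifold

end Crest.Agent.R216
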