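import Crest.Agent.R216.LDefs

/-!
# Row 216: the frame of a step of large amplitude
-/

set_option autoImplicit false
set_option linter.unusedSectionVars false

noncomputable section

namespace Crest.Agent.R216

open Set Metric Filter
open scoped ContDiff Topology RealInnerProductSpace

universe u

theorem LSet.kg_eq (L : LSet) {x : E} (hx : x ∈ L.O) : kg (indE L.H) x =
    ⟪L.q x, L.A x⟫ * ⟪L.p x, L.p x⟫ - ⟪L.q x, L.p x⟫ * ⟪L.p x, L.A x⟫ := by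
  exact kg_ind (L.smH.contDiffAt (L.hO.mem_nhds hx)) EventuallyEq.rfl

theorem LFrameLAux.cd_smul {V : Type} [NormedAddCommGroup V] [NormedSpace ℝ V] {O : Set E}
    {a : E → ℝ} (ha : ContDiffOn ℝ ∞ a O) (v : V) : ContDiffOn ℝ ∞ (fun x => a x • v) O :=
  ha.smul_const v

theorem LSet.smooth (L : LSet) : ContDiffOn ℝ ∞ L.p L.O ∧ ContDiffOn ℝ ∞ L.q L.O ∧
    ContDiffOn ℝ ∞ L.A L.O ∧ ContDiffOn ℝ ∞ L.a L.O ∧ ContDiffOn ℝ ∞ L.G1 L.O := by
  have ha : ContDiffOn ℝ ∞ L.a L.O := (L.smχ.contDiffOn.pow L.K).mul L.smb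
  refine ⟨VecB2.cdOn_dd L.hO L.smH et, VecB2.cdOn_dd L.hO L.smH es,
    VecB2.cdOn_dd L.hO (VecB2.cdOn_dd L.hO L.smH et) et, ha, ?_⟩
  have h1 : ContDiffOn ℝ ∞ (indE L.H) L.O := fun x hx =>
    (ManB.contDiffAt_indE (L.smH.contDiffAt (L.hO.mem_nhds hx))).contDiffWithinAt
  exact h1.add (LFrameLAux.cd_smul (V := Bil) (ha.pow 2) (tp cs cs))

theorem LSet.a_nonneg (L : LSet) {x : E} (hx : x ∈ L.O) : 0 ≤ L.a x := by
  exact mul_nonneg (pow_nonneg (L.χ0 x) _) (L.b0 x hx).le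

theorem LSet.a_eq_zero (L : LSet) (hK : 1 ≤ L.K) {x : E} (hx : x ∈ L.O) :
    L.a x = 0 ↔ L.χ x = 0 := by
  rw [LSet.a, mul_eq_zero, pow_eq_zero_iff (by omega), or_iff_left (L.b0 x hx).ne']

theorem LSet.continuousOn_Kh (L : LSet) : ContinuousOn (Kh L.G1) L.O := by
  refine R216.continuousOn_Kh L.hO L.smooth.2.2.2.2 fun x hx => ?_
  have h1 : L.G1 x es es * L.G1 x et et - L.G1 x es et ^ 2 =
      gram (dd es L.H x) (dd et L.H x) + L.a x ^ 2 * ⟪dd et L.H x, dd et L.H x⟫ := by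
    have e1 : cs es = 1 := by simp [cs, es]
    have e2 : cs et = 0 := by simp [cs, et]
    simp only [LSet.G1, tp, _root_.add_apply, _root_.smul_apply,
      ContinuousLinearMap.smulRight_apply, indE_apply, gram, e1, e2, smul_eq_mul]
    ring
  have h2 := lt_of_le_of_ne (gram_nonneg _ _) (L.imm x hx).symm
  have h3 : 0 ≤ L.a x ^ 2 * ⟪dd et L.H x, dd et L.H x⟫ :=
    mul_nonneg (sq_nonneg _) real_inner_self_nonneg
  rw [h1]
  linarith

namespace LFrameLAux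

/-- The vector of the plane `(p, A)` that is normal to `p`. -/
def uu (p A : V4) : V4 := ⟪p, p⟫ • A - ⟪p, A⟫ • p

/-- The projection (up to a factor) on `(p, A) ᗮ` along `(q, p)`. -/
def vv (p q A y : V4) : V4 := pn p A (⟪y, uu p A⟫ • q - ⟪q, uu p A⟫ • y)

theorem inner_uu (p A y : V4) : ⟪y, uu p A⟫ = ⟪y, A⟫ * ⟪p, p⟫ - ⟪y, p⟫ * ⟪p, A⟫ := by
  simp only [uu, inner_sub_right, real_inner_smul_right]
  ring

theorem p_uu (p A : V4) : ⟪p, uu p A⟫ = 0 := by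
  rw [inner_uu]
  ring

theorem A_uu (p A : V4) : ⟪A, uu p A⟫ = gram p A := by
  rw [inner_uu, gram, real_inner_comm p A]
  ring

theorem gram_ne {p q A : V4} (h : ⟪q, uu p A⟫ ≠ 0) : gram p A ≠ 0 := fun h0 => by
  have h1 : ⟪uu p A, uu p A⟫ = 0 := by
    nth_rewrite 1 [uu]
    rw [inner_sub_left, real_inner_smul_left, real_inner_smul_left, p_uu, A_uu, h0]
    ring
  rw [inner_self_eq_zero.1 h1, inner_zero_right] at h
  exact h rfl

theorem vv_ne {p q A y : V4} (hg : gram q p ≠ 0) (h : ⟪q, uu p A⟫ ≠ 0) (hy : pn q p y ≠ 0) :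
    vv p q A y ≠ 0 := fun h0 => by
  obtain ⟨s, t, e⟩ := (pn_eq_zero_iff (gram_ne h)).1 h0
  have h1 := congrArg (fun z => ⟪z, uu p A⟫) e
  simp only [inner_sub_left, inner_add_left, real_inner_smul_left, p_uu, A_uu] at h1
  have h2 : t = 0 := by
    refine (mul_eq_zero.1 (?_ : t * gram p A = 0)).resolve_right (gram_ne h)
    linarith
  have h3 := congrArg (pn q p) e
  rw [h2, zero_smul, add_zero, pn_sub, pn_smul, pn_smul, pn_smul, pn_left hg, pn_right hg,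
    smul_zero, smul_zero, zero_sub, neg_eq_zero, smul_eq_zero] at h3
  exact h3.elim h hy

theorem vv_A {p q A : V4} (h : gram p A ≠ 0) : vv p q A A = gram p A • pn p A q := by
  rw [vv, pn_sub, pn_smul, pn_smul, pn_right h, smul_zero, sub_zero, A_uu]

theorem mix_ne {p q A n : V4} (hg : gram q p ≠ 0) (hn : pn q p n ≠ 0) {t : ℝ} (h0 : 0 ≤ t)
    (h1 : t ≤ 1) (h : t ≠ 0 → 0 < ⟪n, pn q p A⟫) : pn q p ((1 - t) • n + t • A) ≠ 0 := by
  by_cases ht : t = 0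
  · rwa [ht, sub_zero, one_smul, zero_smul, add_zero]
  intro h2
  have h3 := h ht
  have h4 : pn q p A ≠ 0 := fun h5 => by
    rw [h5, inner_zero_right] at h3
    exact lt_irrefl _ h3
  have h5 := inner_pn_pn hg ((1 - t) • n + t • A) A
  rw [h2, inner_zero_left, inner_add_left, real_inner_smul_left, real_inner_smul_left,
    ← inner_pn_pn hg A A] at h5
  have h6 : 0 < t * ⟪pn q p A, pn q p A⟫ :=
    mul_pos (lt_of_le_of_ne h0 (Ne.symm ht)) (real_inner_self_pos.2 h4)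
  have h7 : 0 ≤ (1 - t) * ⟪n, pn q p A⟫ := mul_nonneg (sub_nonneg.2 h1) h3.le
  linarith

theorem axis {m : V4} {g : ℝ} (hg : 0 < g) (h : g • m ≠ 0) :
    0 < ⟪m, ‖g • m‖⁻¹ • g • m⟫ ∧ m = ⟪m, ‖g • m‖⁻¹ • g • m⟫ • ‖g • m‖⁻¹ • g • m := by
  have hm : 0 < ‖m‖ := norm_pos_iff.2 (right_ne_zero_of_smul h)
  have e : ⟪m, ‖g • m‖⁻¹ • g • m⟫ = ‖m‖ := by
    rw [real_inner_smul_right, real_inner_smul_right, real_inner_self_eq_norm_sq, norm_smul,
      Real.norm_of_nonneg hg.le]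
    field_simp
  rw [e, norm_smul, Real.norm_of_nonneg hg.le, smul_smul, smul_smul]
  refine ⟨hm, ?_⟩
  rw [show ‖m‖ * (g * ‖m‖)⁻¹ * g = 1 by field_simp, one_smul]

theorem cd_pn {O : Set E} {a b y : E → V4} (ha : ContDiffOn ℝ ∞ a O) (hb : ContDiffOn ℝ ∞ b O)
    (hy : ContDiffOn ℝ ∞ y O) (hg : ∀ x ∈ O, gram (a x) (b x) ≠ 0) :
    ContDiffOn ℝ ∞ (fun x => pn (a x) (b x) (y x)) O :=
  contDiffOn_pn.comp (ha.prodMk (hb.prodMk hy)) hg

theorem cd_uu {O : Set E} {a b : E → V4} (ha : ContDiffOn ℝ ∞ a O) (hb : ContDiffOn ℝ ∞ b O) :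
    ContDiffOn ℝ ∞ (fun x => uu (a x) (b x)) O :=
  ((ha.inner ℝ ha).smul hb).sub ((ha.inner ℝ hb).smul ha)

end LFrameLAux

open LFrameLAux in
theorem exists_lframe (L : LSet) : Nonempty (LFrame L) := by
  obtain ⟨hp, hq, hA, ha, -⟩ := L.smooth
  have hk : ContDiffOn ℝ ∞ (fun x => ⟪L.q x, uu (L.p x) (L.A x)⟫) L.O := hq.inner ℝ (cd_uu hp hA)
  have hN : ContDiffOn ℝ ∞ (fun x => ⟪L.n x, pn (L.q x) (L.p x) (L.A x)⟫) L.O :=
    L.smn.inner ℝ (cd_pn hq hp hA L.imm)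
  have hNo := hN.continuousOn.isOpen_inter_preimage L.hO (isOpen_Ioi (a := (0 : ℝ)))
  have hO' := hk.continuousOn.isOpen_inter_preimage L.hO (isOpen_Ioi (a := (0 : ℝ)))
  have hcl : IsClosed (tsupport L.χ ∩ {x | L.χ x = 0}) :=
    (isClosed_tsupport _).inter (isClosed_eq L.smχ.continuous continuous_const)
  obtain ⟨ψ, hψ1, hψ0, hψ⟩ := exists_contMDiffMap_one_nhds_of_subset_interior
    (modelWithCornersSelf ℝ E) (n := ⊤) hcl
    (t := L.O ∩ (fun x => ⟪L.n x, pn (L.q x) (L.p x) (L.A x)⟫) ⁻¹' Ioi 0) (by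
      rw [hNo.interior_eq]
      refine fun x hx => ⟨L.sub hx.1, ?_⟩
      have h1 := L.npos x hx.1 hx.2
      rwa [sffE_eq (L.smH.contDiffAt (L.hO.mem_nhds (L.sub hx.1))) (L.imm x (L.sub hx.1)),
        II5_et] at h1)
  have hψs : ContDiff ℝ ∞ ψ := ψ.contMDiff.contDiff
  set O : Set E := (L.O ∩ (fun x => ⟪L.q x, uu (L.p x) (L.A x)⟫) ⁻¹' Ioi 0) ∩
    ({x | L.χ x ≠ 0} ∪ interior {x | ψ x = 1}) with hO
  have hOo : IsOpen O :=
    hO'.inter ((isOpen_ne_fun L.smχ.continuous continuous_const).union isOpen_interior)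
  have hsub : O ⊆ L.O := fun x hx => hx.1.1
  have hkO : ∀ x ∈ O, ⟪L.q x, uu (L.p x) (L.A x)⟫ ≠ 0 := fun x hx => ne_of_gt hx.1.2
  have hg : ∀ x ∈ O, gram (L.p x) (L.A x) ≠ 0 := fun x hx => gram_ne (hkO x hx)
  let v : E → V4 := fun x => vv (L.p x) (L.q x) (L.A x) ((1 - ψ x) • L.n x + ψ x • L.A x)
  have hv0 : ∀ x ∈ O, v x ≠ 0 := fun x hx =>
    vv_ne (L.imm x (hsub hx)) (hkO x hx) (mix_ne (L.imm x (hsub hx)) (L.ntr x (hsub hx))
      (hψ x).1 (hψ x).2 fun h => by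
        by_contra h1
        exact h (hψ0 x fun h2 => h1 h2.2))
  have hnb : ContDiffOn ℝ ∞ (fun x => (1 - ψ x) • L.n x + ψ x • L.A x) L.O :=
    ((contDiffOn_const.sub hψs.contDiffOn).smul L.smn).add (hψs.contDiffOn.smul hA)
  have hv : ContDiffOn ℝ ∞ v O := cd_pn (hp.mono hsub) (hA.mono hsub)
    ((((hnb.inner ℝ (cd_uu hp hA)).smul hq).sub (hk.smul hnb)).mono hsub) hg
  have he : ContDiffOn ℝ ∞ (fun x => ‖v x‖⁻¹ • v x) O :=
    ((hv.norm ℝ hv0).inv fun x hx => norm_ne_zero_iff.2 (hv0 x hx)).smul hv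
  have hm : ContDiffOn ℝ ∞ L.m O := cd_pn (hp.mono hsub) (hA.mono hsub) (hq.mono hsub) hg
  have hax : ∀ x ∈ O, ψ x = 1 → 0 < ⟪L.m x, ‖v x‖⁻¹ • v x⟫ ∧
      L.m x = ⟪L.m x, ‖v x‖⁻¹ • v x⟫ • ‖v x‖⁻¹ • v x := fun x hx h1 => by
    have e : v x = gram (L.p x) (L.A x) • L.m x := by
      simp only [v, h1, sub_self, zero_smul, one_smul, zero_add]
      exact vv_A (hg x hx)
    have h2 := hv0 x hx
    rw [e] at h2 ⊢
    exact axis (lt_of_le_of_ne (gram_nonneg _ _) (hg x hx).symm) h2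
  have hpos : ∀ x ∈ O, 0 < L.a x ^ 2 + ‖L.m x‖ ^ 2 := fun x hx => by
    rcases hx.2 with h1 | h1
    · have : L.a x ≠ 0 := mul_ne_zero (pow_ne_zero _ h1) (L.b0 x (hsub hx)).ne'
      positivity
    · have h2 := (hax x hx (interior_subset (s := {x | ψ x = 1}) h1)).1
      have : L.m x ≠ 0 := fun h3 => by
        rw [h3, inner_zero_left] at h2
        exact lt_irrefl _ h2
      positivity
  refine ⟨⟨O, hOo, fun x hx => ⟨⟨L.sub hx, ?_⟩, ?_⟩, hsub, fun x => ‖v x‖⁻¹ • v x,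
    fun x => (√(gram (L.p x) (L.A x)))⁻¹ • cr (L.p x) (L.A x) (‖v x‖⁻¹ • v x),
    fun x => √(L.a x ^ 2 + ‖L.m x‖ ^ 2), he, ?_, ?_, hg, fun x hx => ?_, fun x hx => ?_,
    fun x hx => ?_, fun _ _ => rfl, fun x hx => Real.sqrt_pos.2 (hpos x hx),
    fun x hx => Real.sq_sqrt (hpos x hx).le, fun x hx => ?_⟩⟩
  · have h1 := L.kgp x hx
    rwa [L.kg_eq (L.sub hx), ← inner_uu] at h1
  · by_cases h1 : L.χ x = 0
    · have h2 : x ∈ tsupport L.χ ∩ {x | L.χ x = 0} := ⟨hx, h1⟩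
      exact Or.inr (mem_interior_iff_mem_nhds.2 (hψ1.filter_mono (nhds_le_nhdsSet h2)))
    · exact Or.inl h1
  · have h1 : ContDiffOn ℝ ∞ (fun x => gram (L.p x) (L.A x)) O :=
      contDiff_gram.comp_contDiffOn ((hp.prodMk hA).mono hsub)
    have h2 : ContDiffOn ℝ ∞ (fun x => cr (L.p x) (L.A x) (‖v x‖⁻¹ • v x)) O :=
      contDiff_cr.comp_contDiffOn ((hp.mono hsub).prodMk ((hA.mono hsub).prodMk he))
    exact ((h1.sqrt hg).inv fun x hx =>
      (Real.sqrt_pos.2 (lt_of_le_of_ne (gram_nonneg _ _) (hg x hx).symm)).ne').smul h2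
  · exact (((ha.mono hsub).pow 2).add (hm.norm_sq ℝ)).sqrt fun x hx => (hpos x hx).ne'
  · rw [real_inner_smul_right, real_inner_comm]
    exact mul_eq_zero_of_right _ (inner_pn_1 (hg x hx) _)
  · rw [real_inner_smul_right, real_inner_comm]
    exact mul_eq_zero_of_right _ (inner_pn_2 (hg x hx) _)
  · rw [real_inner_self_eq_norm_sq, norm_smul, norm_inv, norm_norm,
      inv_mul_cancel₀ (norm_ne_zero_iff.2 (hv0 x hx)), one_pow]
  · refine hx.2.imp id fun h1 => ?_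
    filter_upwards [hOo.mem_nhds hx, mem_interior_iff_mem_nhds.1 h1] with y h2 h3
    exact hax y h2 h3

end Crest.Agent.R216
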