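import Crest.Agent.R216.GeoA
import Crest.Agent.R216.LFrameL

/-!
# Row 216: the invariants inside the disc (auxiliary file: the loop, far and near positivity)
-/

set_option autoImplicit false
set_option linter.unusedSectionVars false

noncomputable section

namespace Crest.Agent.R216.GeoBAux1

open Set Metric Filter
open scoped ContDiff Topology RealInnerProductSpace

theorem den_pos (L : LSet) {x : E} (hx : x ∈ L.O) :
    0 < (⟪L.q x, L.q x⟫ + L.a x ^ 2) * ⟪L.p x, L.p x⟫ - ⟪L.q x, L.p x⟫ ^ 2 := by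
  have h1 : 0 < gram (L.q x) (L.p x) := lt_of_le_of_ne (gram_nonneg _ _) (L.imm x hx).symm
  have h2 := mul_nonneg (sq_nonneg (L.a x)) (real_inner_self_nonneg (x := L.p x))
  rw [gram] at h1
  linarith

section

variable {L : LSet} {S : E → ℝ} {c0 C0 : ℝ} {O : Set E} {W : E × ℝ → V4}

theorem gram_ne (h : LLoop L S c0 C0 O W) {x : E} (hx : x ∈ O) (θ : ℝ) :
    gram (W (x, θ)) (L.p x) ≠ 0 := by
  rw [gram, h.WW x hx, real_inner_comm (L.p x) (W (x, θ)), h.Wp x hx,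
    real_inner_comm (L.q x) (L.p x)]
  exact (den_pos L (h.sub' hx)).ne'

/-- The derivatives of the three identities in an arbitrary direction. -/
theorem deriv (h : LLoop L S c0 C0 O W) {x : E} (hx : x ∈ O) (θ : ℝ) (u : E × ℝ) :
    ⟪dd u.1 L.p x, W (x, θ)⟫ + ⟪L.p x, dd u W (x, θ)⟫ =
      ⟪dd u.1 L.p x, L.q x⟫ + ⟪L.p x, dd u.1 L.q x⟫ ∧
    ⟪dd u.1 L.A x, W (x, θ)⟫ + ⟪L.A x, dd u W (x, θ)⟫ =
      ⟪dd u.1 L.A x, L.q x⟫ + ⟪L.A x, dd u.1 L.q x⟫ ∧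
    ⟪dd u W (x, θ), W (x, θ)⟫ = ⟪dd u.1 L.q x, L.q x⟫ + L.a x * dd u.1 L.a x := by
  obtain ⟨sp, sq', sA, sa, -⟩ := L.smooth
  have hn := L.hO.mem_nhds (h.sub' hx)
  have hO : IsOpen (O ×ˢ (univ : Set ℝ)) := h.hO.prod isOpen_univ
  have hm : (x, θ) ∈ O ×ˢ (univ : Set ℝ) := ⟨hx, trivial⟩
  have dp := (sp.contDiffAt hn).differentiableAt (by simp)
  have dq := (sq'.contDiffAt hn).differentiableAt (by simp)
  have dA := (sA.contDiffAt hn).differentiableAt (by simp)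
  have da := (sa.contDiffAt hn).differentiableAt (by simp)
  have dW := (h.sm.contDiffAt (hO.mem_nhds hm)).differentiableAt (by simp)
  have key : ∀ {f : E → V4}, DifferentiableAt ℝ f x →
      (∀ x ∈ O, ∀ θ, ⟪f x, W (x, θ)⟫ = ⟪f x, L.q x⟫) →
      ⟪dd u.1 f x, W (x, θ)⟫ + ⟪f x, dd u W (x, θ)⟫ =
        ⟪dd u.1 f x, L.q x⟫ + ⟪f x, dd u.1 L.q x⟫ := by
    intro f df hf
    have e := dd_congr hO (a := fun z : E × ℝ => ⟪f z.1, W z⟫)
      (b := fun z : E × ℝ => ⟪f z.1, L.q z.1⟫) (fun z hz => hf z.1 hz.1 z.2) hm u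
    rw [dd_inner (a := fun z : E × ℝ => f z.1) (df.comp (x, θ) differentiableAt_fst) dW,
      ClPA2.dd_lift f, ClPA2.dd_lift fun y => ⟪f y, L.q y⟫, dd_inner df dq] at e
    exact e
  refine ⟨key dp h.Wp, key dA h.WA, ?_⟩
  have e := dd_congr hO (a := fun z : E × ℝ => ⟪W z, W z⟫)
    (b := fun z : E × ℝ => ⟪L.q z.1, L.q z.1⟫ + L.a z.1 • L.a z.1)
    (fun z hz => by rw [smul_eq_mul, ← sq]; exact h.WW z.1 hz.1 z.2) hm u
  rw [dd_inner dW dW, ClPA2.dd_lift fun y => ⟪L.q y, L.q y⟫ + L.a y • L.a y,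
    dd_add (dq.inner ℝ dq) (da.fun_smul da), dd_inner dq dq, dd_smul da da,
    real_inner_comm (dd u W (x, θ)), real_inner_comm (dd u.1 L.q x), smul_eq_mul, smul_eq_mul] at e
  linarith

theorem pn_dθ (h : LLoop L S c0 C0 O W) {x : E} (hx : x ∈ O) (θ : ℝ) :
    pn (W (x, θ)) (L.p x) (dθ W (x, θ)) = dθ W (x, θ) := by
  obtain ⟨h1, -, h3⟩ := deriv h hx θ (0, 1)
  simp only [dd, map_zero, inner_zero_left, inner_zero_right, zero_add, mul_zero] at h1 h3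
  exact pn_of_orth h3 (by rw [real_inner_comm]; exact h1)

theorem inner_dx (h : LLoop L S c0 C0 O W) {x : E} (hx : x ∈ O) (θ : ℝ) :
    ⟪dx et W (x, θ), L.p x⟫ = ⟪dd et L.q x, L.p x⟫ ∧
    ⟪dx et W (x, θ), L.A x⟫ = ⟪dd et L.q x, L.A x⟫ - ⟪W (x, θ) - L.q x, dd et L.A x⟫ ∧
    ⟪dx et W (x, θ), W (x, θ)⟫ = ⟪dd et L.q x, L.q x⟫ + L.a x * dd et L.a x := by
  obtain ⟨h1, h2, h3⟩ := deriv h hx θ (et, 0)
  have h4 : ⟪dd et L.p x, W (x, θ)⟫ = ⟪dd et L.p x, L.q x⟫ := h.WA x hx θ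
  refine ⟨?_, ?_, h3⟩
  · rw [real_inner_comm (L.p x), real_inner_comm (L.p x)]
    linarith
  · rw [real_inner_comm (L.A x), real_inner_comm (L.A x), inner_sub_left,
      real_inner_comm (dd et L.A x), real_inner_comm (dd et L.A x)]
    linarith

end

theorem far_alg {p A W B : V4} {k Cb T : ℝ} (hg : gram W p ≠ 0) (hc : cr p A W ≠ 0)
    (hb : ‖cr p A W‖ ≤ Cb) (hT : 1 ≤ T) (hk : |k| < T) (h : Cb * T ≤ ⟪cr p A W, B⟫) :
    T ≤ ‖pn W p B‖ ∧ ∀ v : E, v ≠ 0 → 0 < f0 p W A B k v := by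
  have hC : 0 < Cb := (norm_pos_iff.2 hc).trans_le hb
  have key : ∀ y, |⟪cr p A W, y⟫| ≤ Cb * ‖pn W p y‖ := fun y => by
    rw [real_inner_comm, ← inner_pn_orth W p y (by rw [real_inner_comm, inner_cr_3])
      (by rw [real_inner_comm, inner_cr_1]), mul_comm]
    exact (abs_real_inner_le_norm _ _).trans (mul_le_mul_of_nonneg_left hb (norm_nonneg _))
  refine ⟨le_of_mul_le_mul_left (h.trans ((le_abs_self _).trans (key B))) hC, fun v hv => ?_⟩
  rw [f0]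
  by_cases h0 : v 0 = 0
  · have h1 : v 1 ≠ 0 := fun h1 => hv (by rw [E_decomp v, h0, h1, zero_smul, zero_smul, add_zero])
    have h2 : pn W p A ≠ 0 := fun h2 => hc (by
      have := norm_cr_sq hg A
      rw [h2, norm_zero, cr_swap12, cr_swap23, neg_neg] at this
      simpa using this)
    rw [h0, zero_smul, add_zero, pn_smul]
    have := norm_pos_iff.2 (smul_ne_zero h1 h2)
    nlinarith
  · have h1 := key (v 1 • A + v 0 • B)
    rw [inner_add_right, real_inner_smul_right, real_inner_smul_right, inner_cr_2, mul_zero,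
      zero_add, abs_mul] at h1
    have h2 : Cb * (|v 0| * T) ≤ Cb * ‖pn W p (v 1 • A + v 0 • B)‖ := by
      have := mul_le_mul_of_nonneg_left (h.trans (le_abs_self _)) (abs_nonneg (v 0))
      linarith
    have h3 := pow_le_pow_left₀ (by positivity) (le_of_mul_le_mul_left h2 hC) 2
    rw [mul_pow, sq_abs] at h3
    have h4 : 0 < T ^ 2 + k := by nlinarith [neg_abs_le k]
    have := mul_pos (sq_pos_of_ne_zero h0) h4
    linarith

theorem far_pos (L : LSet) (Λ0 : ℝ) : ∃ Λ : ℝ, ∀ {S : E → ℝ} {c0 C0 : ℝ} {O : Set E}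
    {W : E × ℝ → V4}, LLoop L S c0 C0 O W → ∀ x ∈ L.D, ∀ θ,
      Λ ≤ ⟪cr (L.p x) (L.A x) (W (x, θ)), dx et W (x, θ)⟫ →
      Λ0 ≤ ‖pn (W (x, θ)) (L.p x) (dx et W (x, θ))‖ ∧
      ∀ v : E, v ≠ 0 → 0 < f0 (L.p x) (W (x, θ)) (L.A x) (dx et W (x, θ)) (Kh L.G1 x) v := by
  obtain ⟨sp, sq', sA, sa, -⟩ := L.smooth
  obtain ⟨Cb, hCb⟩ := L.cpt.exists_bound_of_continuousOn
    (((sp.continuousOn.norm.mul sA.continuousOn.norm).mul
      (sq'.continuousOn.norm.add sa.continuousOn.abs)).mono L.sub)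
  obtain ⟨Kb, hKb⟩ := L.cpt.exists_bound_of_continuousOn (L.continuousOn_Kh.mono L.sub)
  refine ⟨Cb * max (max Λ0 1) (Kb + 1), fun {S c0 C0 O W} h x hx θ hΛ => ?_⟩
  have h1 : ‖W (x, θ)‖ ≤ ‖L.q x‖ + |L.a x| := by
    refine le_of_sq_le_sq ?_ (by positivity)
    have := h.WW x (h.sub hx) θ
    rw [real_inner_self_eq_norm_sq, real_inner_self_eq_norm_sq, ← sq_abs (L.a x)] at this
    nlinarith [mul_nonneg (norm_nonneg (L.q x)) (abs_nonneg (L.a x))]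
  have := far_alg (k := Kh L.G1 x) (gram_ne h (h.sub hx) θ) (h.nd x hx θ)
    ((norm_cr_le _ _ _).trans ((mul_le_mul_of_nonneg_left h1 (by positivity)).trans
      ((le_abs_self _).trans (hCb x hx)))) ((le_max_right _ _).trans (le_max_left _ _))
    ((lt_add_one _).trans_le' (hKb x hx) |>.trans_le (le_max_right _ _)) hΛ
  exact ⟨((le_max_left _ _).trans (le_max_left _ _)).trans this.1, this.2⟩

/-- The lower bound for `f0 ‖pn W p A‖ ^ 2` in terms of inner products. -/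
def Ph (e f g aw ap aa bw bp ba k : ℝ) (v : E) : ℝ :=
  (v 1 * (aa - tanp e f g aw ap aw ap) + v 0 * (ba - tanp e f g bw bp aw ap)) ^ 2 +
    v 0 ^ 2 * k * (aa - tanp e f g aw ap aw ap)

theorem Ph_eq {p W : V4} (hg : gram W p ≠ 0) (A B : V4) (k : ℝ) (v : E) :
    Ph ⟪W, W⟫ ⟪W, p⟫ ⟪p, p⟫ ⟪A, W⟫ ⟪A, p⟫ ⟪A, A⟫ ⟪B, W⟫ ⟪B, p⟫ ⟪B, A⟫ k v =
      ⟪pn W p (v 1 • A + v 0 • B), pn W p A⟫ ^ 2 + v 0 ^ 2 * k * ⟪pn W p A, pn W p A⟫ := by
  rw [Ph, ← inner_pn_tanp hg, ← inner_pn_tanp hg, pn_add, pn_smul, pn_smul, inner_add_left,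
    real_inner_smul_left, real_inner_smul_left]

theorem f0_pos {p W : V4} (hg : gram W p ≠ 0) {A B : V4} {k : ℝ} {v : E}
    (h : 0 < Ph ⟪W, W⟫ ⟪W, p⟫ ⟪p, p⟫ ⟪A, W⟫ ⟪A, p⟫ ⟪A, A⟫ ⟪B, W⟫ ⟪B, p⟫ ⟪B, A⟫ k v) :
    0 < f0 p W A B k v := by
  rw [Ph_eq hg] at h
  have h1 := real_inner_mul_inner_self_le (pn W p (v 1 • A + v 0 • B)) (pn W p A)
  rw [real_inner_self_eq_norm_sq (pn W p (v 1 • A + v 0 • B))] at h1
  by_contra hn
  have := mul_nonpos_of_nonpos_of_nonneg (not_lt.1 hn) (real_inner_self_nonneg (x := pn W p A))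
  rw [f0] at this
  linarith

theorem contOn_Ph {Z : Type} [TopologicalSpace Z] {K : Set Z} {e f g aw ap aa bw bp ba k : Z → ℝ}
    {v : Z → E} (he : ContinuousOn e K) (hf : ContinuousOn f K) (hg : ContinuousOn g K)
    (h1 : ContinuousOn aw K) (h2 : ContinuousOn ap K) (h3 : ContinuousOn aa K)
    (h4 : ContinuousOn bw K) (h5 : ContinuousOn bp K) (h6 : ContinuousOn ba K)
    (hk : ContinuousOn k K) (hv : ContinuousOn v K) (hd : ∀ z ∈ K, e z * g z - f z ^ 2 ≠ 0) :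
    ContinuousOn (fun z => Ph (e z) (f z) (g z) (aw z) (ap z) (aa z) (bw z) (bp z) (ba z) (k z)
      (v z)) K := by
  have ht : ∀ {a b : Z → ℝ}, ContinuousOn a K → ContinuousOn b K →
      ContinuousOn (fun z => tanp (e z) (f z) (g z) (a z) (b z) (aw z) (ap z)) K := fun ha hb =>
    ((((hg.mul ha).mul h1).sub (hf.mul ((ha.mul h2).add (hb.mul h1)))).add
      ((he.mul hb).mul h2)).div ((he.mul hg).sub (hf.pow 2)) hd
  have v0 : ContinuousOn (fun z => v z 0) K := cs.continuous.comp_continuousOn hv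
  have v1 : ContinuousOn (fun z => v z 1) K := ct.continuous.comp_continuousOn hv
  exact (((v1.mul (h3.sub (ht h1 h2))).add (v0.mul (h6.sub (ht h4 h5)))).pow 2).add
    (((v0.pow 2).mul hk).mul (h3.sub (ht h1 h2)))

theorem near_pos (L : LSet) (hK : 2 ≤ L.K) {Γ : Set E} (hΓ : IsCompact Γ) (hD : Γ ⊆ L.D)
    {v : E → E} (hv : ContinuousOn v Γ) (h : ∀ x ∈ Γ, L.χ x = 0 → 0 < i2 (sffE L.H x) (v x) et)
    (C0 : ℝ) : ∃ a0 : ℝ, 0 < a0 ∧ ∀ {S : E → ℝ} {c0 : ℝ} {O : Set E} {W : E × ℝ → V4},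
      LLoop L S c0 C0 O W → ∀ x ∈ Γ, L.a x < a0 → ∀ θ,
        0 < f0 (L.p x) (W (x, θ)) (L.A x) (dx et W (x, θ)) (Kh L.G1 x) (v x) := by
  obtain ⟨sp, sq', sA, sa, -⟩ := L.smooth
  have hO : Γ ⊆ L.O := hD.trans L.sub
  have cd : ∀ {V : Type} [NormedAddCommGroup V] [NormedSpace ℝ V] {f : E → V},
      ContDiffOn ℝ ∞ f L.O → ContinuousOn (dd et f) L.O := fun hf =>
    (hf.continuousOn_fderiv_of_isOpen L.hO (by simp)).clm_apply continuousOn_const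
  obtain ⟨R, hR⟩ := hΓ.exists_bound_of_continuousOn
    ((continuousOn_const (c := C0)).mul (sa.continuousOn.mono hO))
  set K : Set (E × V4) := Γ ×ˢ closedBall 0 R with hKdef
  have hKc : IsCompact K := hΓ.prod (isCompact_closedBall _ _)
  have lift : ∀ {V : Type} [TopologicalSpace V] {f : E → V}, ContinuousOn f Γ →
      ContinuousOn (fun z : E × V4 => f z.1) K := fun hf =>
    hf.comp continuousOn_fst fun z hz => hz.1
  have cp := lift (sp.continuousOn.mono hO)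
  have cq := lift (sq'.continuousOn.mono hO)
  have cA := lift (sA.continuousOn.mono hO)
  have ca := lift (sa.continuousOn.mono hO)
  have cq' := lift ((cd sq').mono hO)
  have cA' := lift ((cd sA).mono hO)
  have ca' := lift ((cd sa).mono hO)
  have ck := lift (L.continuousOn_Kh.mono hO)
  have cv := lift hv
  set Φ : E × V4 → ℝ := fun z => Ph (⟪L.q z.1, L.q z.1⟫ + L.a z.1 ^ 2) ⟪L.q z.1, L.p z.1⟫
    ⟪L.p z.1, L.p z.1⟫ ⟪L.A z.1, L.q z.1⟫ ⟪L.A z.1, L.p z.1⟫ ⟪L.A z.1, L.A z.1⟫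
    (⟪dd et L.q z.1, L.q z.1⟫ + L.a z.1 * dd et L.a z.1) ⟪dd et L.q z.1, L.p z.1⟫
    (⟪dd et L.q z.1, L.A z.1⟫ - ⟪z.2, dd et L.A z.1⟫) (Kh L.G1 z.1) (v z.1) with hΦ
  have cΦ : ContinuousOn Φ K :=
    contOn_Ph ((cq.inner cq).add (ca.pow 2)) (cq.inner cp) (cp.inner cp) (cA.inner cq)
      (cA.inner cp) (cA.inner cA) ((cq'.inner cq).add (ca.mul ca')) (cq'.inner cp)
      ((cq'.inner cA).sub (continuousOn_snd.inner cA')) ck cv
      fun z hz => (den_pos L (hO hz.1)).ne'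
  have hZ : IsClosed (K ∩ (fun z : E × V4 => (‖z.2‖ - C0 * L.a z.1, Φ z)) ⁻¹' (Iic 0 ×ˢ Iic 0)) :=
    ((continuousOn_snd.norm.sub (continuousOn_const.mul ca)).prodMk cΦ).preimage_isClosed_of_isClosed
      hKc.isClosed (isClosed_Iic.prod isClosed_Iic)
  obtain ⟨a0, ha0, hmin⟩ := (hKc.of_isClosed_subset hZ inter_subset_left).exists_forall_le'
    (ca.mono inter_subset_left) (a := 0) (by
      rintro ⟨x, w⟩ ⟨⟨hx, -⟩, h1, h2⟩
      refine lt_of_le_of_ne (L.a_nonneg (hO hx)) fun h0 => ?_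
      have h0 : L.a x = 0 := h0.symm
      have hχ := (L.a_eq_zero (by omega) (hO hx)).1 h0
      have hw : w = 0 := by simpa [h0] using h1
      have hH := L.smH.contDiffAt (L.hO.mem_nhds (hO hx))
      have hg := L.imm x (hO hx)
      have hG : ContDiffAt ℝ ∞ (indE L.H) x := Crest.Agent.R216.ManB.contDiffAt_indE hH
      have hk : Kh L.G1 x = Kh (indE L.H) x :=
        Kh_add_edge hG L.smχ.contDiffAt (L.smb.contDiffAt (L.hO.mem_nhds (hO hx))) hχ hK _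
      have h3 := h x hx hχ
      refine absurd h2 (not_le.2 (h3.trans_eq ?_))
      simp only [hΦ, h0, hw, inner_zero_left, sub_zero, zero_mul, add_zero, ne_eq,
        OfNat.ofNat_ne_zero, not_false_eq_true, zero_pow]
      rw [Ph_eq (p := L.p x) (W := L.q x) hg, hk, ← gauss hH (EventuallyEq.refl _ _) hg, i2]
      simp only [sffE_eq hH hg]
      rw [II5_gauss, II5_et, II5]
      simp [et, LSet.p, LSet.q, LSet.A])
  refine ⟨a0, ha0, fun {S c0 O W} hL x hx hlt θ => f0_pos (gram_ne hL (hL.sub (hD hx)) θ) ?_⟩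
  have hxO := hL.sub (hD hx)
  obtain ⟨e1, e2, e3⟩ := inner_dx hL hxO θ
  have hn := hL.near x (hD hx) θ
  rw [e1, e2, e3, hL.WW x hxO, hL.WA x hxO, real_inner_comm (L.p x) (W (x, θ)), hL.Wp x hxO,
    real_inner_comm (L.q x) (L.p x)]
  by_contra hneg
  exact absurd (hmin (x, W (x, θ) - L.q x) ⟨⟨hx, mem_closedBall_zero_iff.2
    (hn.trans ((le_abs_self _).trans (hR x hx)))⟩, sub_nonpos.2 hn, not_lt.1 hneg⟩) (not_le.2 hlt)

end Crest.Agent.R216.GeoBAux1
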