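import Crest.Agent.R216.GeoA
import Crest.Agent.R216.LFrameL

/-!
# Row 216: the jets of the new maps (auxiliary facts)
-/

set_option autoImplicit false
set_option linter.unusedSectionVars false

noncomputable section

namespace Crest.Agent.R216.GeoBAux2

open Set Metric Filter
open scoped ContDiff Topology RealInnerProductSpace

theorem gram_ne (L : LSet) {F : E → V4} {x : E} (hx : x ∈ L.O) (h : indE F x = L.G1 x) :
    gram (dd es F x) (dd et F x) ≠ 0 := by
  have h1 : ∀ v w, ⟪dd v F x, dd w F x⟫ =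
      ⟪dd v L.H x, dd w L.H x⟫ + L.a x ^ 2 * (v 0 * w 0) := fun v w => by
    rw [← indE_apply, h]
    rfl
  have h2 := lt_of_le_of_ne (gram_nonneg _ _) (L.imm x hx).symm
  have h3 : 0 ≤ L.a x ^ 2 * ⟪dd et L.H x, dd et L.H x⟫ :=
    mul_nonneg (sq_nonneg _) real_inner_self_nonneg
  have e1 : es 0 = 1 := by simp [es]
  have e2 : et 0 = 0 := by simp [et]
  rw [gram] at h2 ⊢
  rw [h1, h1, h1, e1, e2]
  refine ne_of_gt ?_
  nlinarith

theorem jets (L : LSet) {F : E → V4} (hs : ContDiffOn ℝ ∞ F L.O)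
    (h : ∀ x ∈ L.O, indE F x = L.G1 x) {x : E} (hx : x ∈ L.O) :
    ⟪pn (dd es F x) (dd et F x) (dd et (dd et F) x), pn (dd es F x) (dd et F x) (dd es (dd es F) x)⟫
      - ⟪pn (dd es F x) (dd et F x) (dd et (dd es F) x),
          pn (dd es F x) (dd et F x) (dd et (dd es F) x)⟫ = Kh L.G1 x ∧
    sffE F x = II5 (dd et F x) (dd es F x) (dd et (dd et F) x) (dd et (dd es F) x)
      (dd es (dd es F) x) := by
  have h1 := hs.contDiffAt (L.hO.mem_nhds hx)
  have h2 := gram_ne L hx (h x hx)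
  exact ⟨gauss h1 (eventuallyEq_of_mem (L.hO.mem_nhds hx) fun y hy => (h y hy).symm) h2,
    funext₂ (sffE_eq h1 h2)⟩

theorem ep_pos (n : ℕ) : 0 < ep n := by
  unfold ep
  positivity

theorem ep_le {η : ℝ} (h : 0 < η) : ∀ᶠ n in atTop, ep n ≤ η := by
  have := tendsto_one_div_add_atTop_nhds_zero_nat (𝕜 := ℝ)
  simp only [one_div] at this
  exact this.eventually_le_const h

theorem cont_dd {O : Set E} (hO : IsOpen O) {W : E × ℝ → V4} (h : ContDiffOn ℝ ∞ W (O ×ˢ univ))
    (u : E × ℝ) : ContinuousOn (dd u W) (O ×ˢ univ) :=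
  (h.continuousOn_fderiv_of_isOpen (hO.prod isOpen_univ) (by simp)).clm_apply continuousOn_const

theorem f0_pos {p q A B : V4} (k : ℝ) {v : E} (h : cr p A q ≠ 0) (h0 : v 0 = 0) (hv : v ≠ 0) :
    0 < f0 p q A B k v := by
  have h1 : cr q p A ≠ 0 := by rwa [cr_swap12, ← cr_swap23]
  have h2 : pn q p A ≠ 0 := fun e => h1 (by
    have := norm_cr_sq (gram_ne_of_cr h1) A
    rw [e, norm_zero] at this
    simpa using this)
  have h3 : v 1 ≠ 0 := fun e => hv (by rw [E_decomp v, h0, e]; simp)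
  rw [f0, h0, zero_smul, add_zero, pn_smul]
  have := pow_pos (norm_pos_iff.2 (smul_ne_zero h3 h2)) 2
  linarith

end Crest.Agent.R216.GeoBAux2
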