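import Crest.Agent.R216.GeoA
import Crest.Agent.R216.LFrameL
import Crest.Agent.R216.GeoBAux1
import Crest.Agent.R216.GeoBAux2

/-!
# Row 216: the invariants inside the disc
-/

set_option autoImplicit false
set_option linter.unusedSectionVars false

noncomputable section

namespace Crest.Agent.R216

open Set Metric Filter
open scoped ContDiff Topology RealInnerProductSpace

universe u

section

variable {L : LSet} {S : E → ℝ} {c0 C0 : ℝ} {O : Set E} {W : E × ℝ → V4}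

theorem LLoop.gram_ne (h : LLoop L S c0 C0 O W) {x : E} (hx : x ∈ O) (θ : ℝ) :
    gram (W (x, θ)) (L.p x) ≠ 0 :=
  GeoBAux1.gram_ne h hx θ

theorem LLoop.pn_dθ (h : LLoop L S c0 C0 O W) {x : E} (hx : x ∈ O) (θ : ℝ) :
    pn (W (x, θ)) (L.p x) (dθ W (x, θ)) = dθ W (x, θ) :=
  GeoBAux1.pn_dθ h hx θ

/-- The differentiated identities. -/
theorem LLoop.inner_dx (h : LLoop L S c0 C0 O W) {x : E} (hx : x ∈ O) (θ : ℝ) :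
    ⟪dx et W (x, θ), L.p x⟫ = ⟪dd et L.q x, L.p x⟫ ∧
    ⟪dx et W (x, θ), L.A x⟫ = ⟪dd et L.q x, L.A x⟫ - ⟪W (x, θ) - L.q x, dd et L.A x⟫ ∧
    ⟪dx et W (x, θ), W (x, θ)⟫ = ⟪dd et L.q x, L.q x⟫ + L.a x * dd et L.a x :=
  GeoBAux1.inner_dx h hx θ

end

/-- Where the loop turns quickly. -/
theorem far_pos (L : LSet) (Λ0 : ℝ) : ∃ Λ : ℝ, ∀ {S : E → ℝ} {c0 C0 : ℝ} {O : Set E}
    {W : E × ℝ → V4}, LLoop L S c0 C0 O W → ∀ x ∈ L.D, ∀ θ,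
      Λ ≤ ⟪cr (L.p x) (L.A x) (W (x, θ)), dx et W (x, θ)⟫ →
      Λ0 ≤ ‖pn (W (x, θ)) (L.p x) (dx et W (x, θ))‖ ∧
      ∀ v : E, v ≠ 0 → 0 < f0 (L.p x) (W (x, θ)) (L.A x) (dx et W (x, θ)) (Kh L.G1 x) v :=
  GeoBAux1.far_pos L Λ0

/-- Near the crossing points of the edge. -/
theorem near_pos (L : LSet) (hK : 2 ≤ L.K) {Γ : Set E} (hΓ : IsCompact Γ) (hD : Γ ⊆ L.D)
    {v : E → E} (hv : ContinuousOn v Γ) (h : ∀ x ∈ Γ, L.χ x = 0 → 0 < i2 (sffE L.H x) (v x) et)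
    (C0 : ℝ) : ∃ a0 : ℝ, 0 < a0 ∧ ∀ {S : E → ℝ} {c0 : ℝ} {O : Set E} {W : E × ℝ → V4},
      LLoop L S c0 C0 O W → ∀ x ∈ Γ, L.a x < a0 → ∀ θ,
        0 < f0 (L.p x) (W (x, θ)) (L.A x) (dx et W (x, θ)) (Kh L.G1 x) (v x) :=
  GeoBAux1.near_pos L hK hΓ hD hv h C0

/-- From the limit to the new maps. -/
theorem pos_of_jets {L : LSet} {S : E → ℝ} {c0 C0 : ℝ} {O : Set E} {W : E × ℝ → V4}
    (h : LLoop L S c0 C0 O W) {H' : ℕ → E → V4} (hj : LJets L W H')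
    (hs : ∀ n, ContDiffOn ℝ ∞ (H' n) L.O) (hm : ∀ᶠ n in atTop, ∀ x ∈ L.O, indE (H' n) x = L.G1 x)
    {Γ : Set E} (hΓ : IsCompact Γ) (hD : Γ ⊆ L.D) {v : E → E} (hv : ContinuousOn v Γ)
    (hp : ∀ x ∈ Γ, ∀ θ, v x 0 • dθ W (x, θ) = 0 →
      0 < f0 (L.p x) (W (x, θ)) (L.A x) (dx et W (x, θ)) (Kh L.G1 x) (v x)) :
    ∀ᶠ n in atTop, ∀ x ∈ Γ, 0 < ⟪nn H' n x, sffE (H' n) x (v x) (v x)⟫ := by
  have hO : Γ ⊆ O := hD.trans h.sub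
  have hO' : Γ ⊆ L.O := hO.trans h.sub'
  have hK : Γ ×ˢ Icc (0 : ℝ) 1 ⊆ O ×ˢ univ := prod_mono hO (subset_univ _)
  obtain ⟨s1, -, s3, -, -⟩ := L.smooth
  obtain ⟨η, hη, H⟩ := asym_pos (hΓ.prod (isCompact_Icc (a := (0 : ℝ)) (b := 1)))
    (p := fun z => L.p z.1) (q := W) (A := fun z => L.A z.1) (B := dx et W) (C := dθ W)
    (k := fun z => Kh L.G1 z.1) (v := fun z => v z.1)
    (s1.continuousOn.comp continuousOn_fst fun z hz => hO' hz.1) (h.sm.continuousOn.mono hK)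
    (s3.continuousOn.comp continuousOn_fst fun z hz => hO' hz.1)
    ((GeoBAux2.cont_dd h.hO h.sm _).mono hK) ((GeoBAux2.cont_dd h.hO h.sm _).mono hK)
    (L.continuousOn_Kh.comp continuousOn_fst fun z hz => hO' hz.1)
    (hv.comp continuousOn_fst fun z hz => hz.1) (fun z hz => h.gram_ne (hO hz.1) z.2)
    fun z hz e => hp z.1 hz.1 z.2 (by rw [← h.pn_dθ (hO hz.1) z.2]; exact e)
  filter_upwards [hj η hη, hm, GeoBAux2.ep_le hη] with n h1 h2 h3 x hx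
  obtain ⟨θ, hθ, a1, a2, a3, a4, a5⟩ := h1 x (hD hx)
  obtain ⟨b1, b2⟩ := GeoBAux2.jets L (hs n) h2 (hO' hx)
  rw [b2]
  exact H _ (GeoBAux2.ep_pos n) h3 (x, θ) ⟨hx, hθ⟩ _ _ _ _ _ a1 a2 a3 a4 a5 b1

theorem i2_of_jets (L : LSet) {x : E} (hx : x ∈ L.D) {v w : E} (hv : v 0 ≠ 0) (hw : w 0 ≠ 0) :
    ∃ Λ0 : ℝ, ∀ {S : E → ℝ} {c0 C0 : ℝ} {O : Set E} {W : E × ℝ → V4}, LLoop L S c0 C0 O W →
      ∀ {H' : ℕ → E → V4}, LJets L W H' → (∀ n, ContDiffOn ℝ ∞ (H' n) L.O) →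
      (∀ᶠ n in atTop, ∀ x ∈ L.O, indE (H' n) x = L.G1 x) →
      (∀ θ, dθ W (x, θ) = 0 → Λ0 ≤ ‖pn (W (x, θ)) (L.p x) (dx et W (x, θ))‖) →
      ∀ᶠ n in atTop, 0 < i2 (sffE (H' n) x) v w := by
  obtain ⟨Λ0, H⟩ := asym_i2 hv hw (max ‖L.A x‖ |Kh L.G1 x|)
  refine ⟨Λ0, fun {S c0 C0 O W} h {H'} hj hs hm hp => ?_⟩
  have hO : x ∈ O := h.sub hx
  have hc : ∀ {f : E × ℝ → V4}, ContinuousOn f (O ×ˢ univ) →
      ContinuousOn (fun θ => f (x, θ)) (Icc 0 1) := fun hf =>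
    hf.comp (Continuous.prodMk_right x).continuousOn fun _ _ => ⟨hO, trivial⟩
  obtain ⟨η, hη, H⟩ := H isCompact_Icc (L.p x) (L.A x) (Kh L.G1 x) (hc h.sm.continuousOn)
    (hc (GeoBAux2.cont_dd h.hO h.sm (et, 0))) (hc (GeoBAux2.cont_dd h.hO h.sm (0, 1)))
    (fun θ _ => h.gram_ne hO θ) (le_max_left _ _) (le_max_right _ _)
    fun θ _ e => hp θ (by rw [← h.pn_dθ hO θ]; exact e)
  filter_upwards [hj η hη, hm, GeoBAux2.ep_le hη] with n h1 h2 h3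
  obtain ⟨θ, hθ, a1, a2, a3, a4, a5⟩ := h1 x hx
  obtain ⟨b1, b2⟩ := GeoBAux2.jets L (hs n) h2 (h.sub' hO)
  rw [b2]
  exact H _ (GeoBAux2.ep_pos n) h3 θ hθ _ _ _ _ _ a1 a2 a3 a4 a5 b1

/-- The invariants inside the disc. -/
theorem inside (L : LSet) (hK : 2 ≤ L.K) {c0 : ℝ} (hc : 0 < c0) (C0 : ℝ) {α : Type*} [Finite α]
    {Γ : α → Set E} {v : α → E → E} (hΓ : ∀ i, IsCompact (Γ i)) (hD : ∀ i, Γ i ⊆ L.D)
    (hv : ∀ i, ContinuousOn (v i) (Γ i)) (hv0 : ∀ i, ∀ x ∈ Γ i, v i x ≠ 0)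
    (hnull : ∀ i (s : ℝ), MeasureTheory.volume {t : ℝ | pt s t ∈ Γ i} = 0)
    (hedge : ∀ i, ∀ x ∈ Γ i, L.χ x = 0 → 0 < i2 (sffE L.H x) (v i x) et)
    {X : Set (E × E × E)} (hX : X.Finite)
    (hX' : ∀ y ∈ X, (∃ i, y.1 ∈ Γ i) ∧ L.χ y.1 ≠ 0 ∧ y.2.1 0 ≠ 0 ∧ y.2.2 0 ≠ 0) :
    ∃ S : E → ℝ, Shift S ∧ ∀ {O : Set E} {W : E × ℝ → V4}, LLoop L S c0 C0 O W →
      ∀ {H' : ℕ → E → V4}, LJets L W H' → (∀ n, ContDiffOn ℝ ∞ (H' n) L.O) →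
      (∀ᶠ n in atTop, ∀ x ∈ L.O, indE (H' n) x = L.G1 x) →
      ∀ᶠ n in atTop, (∀ x ∈ L.D, 0 < ⟪nn H' n x, sffE (H' n) x et et⟫) ∧
        (∀ i, ∀ x ∈ Γ i, 0 < ⟪nn H' n x, sffE (H' n) x (v i x) (v i x)⟫) ∧
        ∀ y ∈ X, 0 < i2 (sffE (H' n) y.1) y.2.1 y.2.2 := by
  have := hX.to_subtype
  have hXD : ∀ y ∈ X, y.1 ∈ L.D := fun y hy => (hX' y hy).1.elim fun i hi => hD i hi
  choose a1 ha1 hn using fun i => near_pos L hK (hΓ i) (hD i) (hv i) (hedge i) C0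
  choose Λ1 hΛ1 using fun y : X =>
    i2_of_jets L (hXD y y.2) (hX' y y.2).2.2.1 (hX' y y.2).2.2.2
  obtain ⟨a0, h0, h1, h2⟩ : ∃ a0 : ℝ, 0 < a0 ∧ (∀ i, a0 ≤ a1 i) ∧ ∀ y : X, a0 ≤ L.a y.1.1 := by
    have h3 : ∀ y : X, 0 < L.a y.1.1 := fun y => lt_of_le_of_ne (L.a_nonneg (L.sub (hXD y y.2)))
      fun e => (hX' y y.2).2.1 ((L.a_eq_zero (by omega) (L.sub (hXD y y.2))).1 e.symm)
    have h4 : ∀ {t : ℝ}, 0 < t → ∀ᶠ a in 𝓝[>] (0 : ℝ), a ≤ t := fun ht =>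
      mem_of_superset (Ioc_mem_nhdsGT ht) fun _ h => h.2
    exact (Eventually.and (f := 𝓝[>] 0) self_mem_nhdsWithin ((eventually_all.2 fun i => h4 (ha1 i)).and
      (eventually_all.2 fun y => h4 (h3 y)))).exists
  obtain ⟨Λ0, hΛ0⟩ := Finite.exists_le Λ1
  obtain ⟨Λ, hΛ⟩ := far_pos L Λ0
  obtain ⟨S, hS, hS'⟩ := exists_shift (isCompact_iUnion hΓ) (fun s => by
    simp only [mem_iUnion, ofPred_exists]
    exact MeasureTheory.measure_iUnion_null fun i => hnull i s) ((Λ + C0) / (c0 * a0))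
  refine ⟨S, hS, fun {O W} h {H'} hj hs hm => ?_⟩
  have key : ∀ i, ∀ x ∈ Γ i, a0 ≤ L.a x → ∀ θ, dθ W (x, θ) = 0 →
      Λ ≤ ⟪cr (L.p x) (L.A x) (W (x, θ)), dx et W (x, θ)⟫ := fun i x hx ha θ e => by
    refine le_trans ?_ (h.turn x (hD i hx) θ e)
    have b1 := hS' x (mem_iUnion.2 ⟨i, hx⟩)
    rw [div_le_iff₀ (by positivity)] at b1
    have b2 := mul_le_mul_of_nonneg_left (mul_le_mul_of_nonneg_right ha (hS.mono x)) hc.le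
    linarith
  refine (pos_of_jets h hj hs hm (v := fun _ => et) L.cpt subset_rfl continuousOn_const
    fun x hx θ _ => GeoBAux2.f0_pos _ (h.nd x hx θ) (by simp [et]) (by simp [et])).and
    ((eventually_all.2 fun i => pos_of_jets h hj hs hm (hΓ i) (hD i) (hv i)
      fun x hx θ e => ?_).and ((eventually_all.2 fun y : X => hΛ1 y h hj hs hm
        fun θ e => ?_).mono fun n hn y hy => hn ⟨y, hy⟩))
  · rcases smul_eq_zero.1 e with e | e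
    · exact GeoBAux2.f0_pos _ (h.nd x (hD i hx) θ) e (hv0 i x hx)
    · rcases lt_or_ge (L.a x) a0 with ha | ha
      · exact hn i h x hx (ha.trans_le (h1 i)) θ
      · exact (hΛ h x (hD i hx) θ (key i x hx ha θ e)).2 _ (hv0 i x hx)
  · obtain ⟨i, hi⟩ := (hX' y y.2).1
    exact (hΛ0 y).trans (hΛ h _ (hD i hi) θ (key i _ hi (h2 y) θ e)).1

end Crest.Agent.R216
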