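import Crest.Agent.R216.Stab

/-!
# Row 216: gluing of the new transversal field (auxiliary file of `Large`)
-/

set_option autoImplicit false
set_option linter.unusedSectionVars false

noncomputable section

namespace Crest.Agent.R216.LargeAuxP

open Set Metric Filter
open scoped Manifold ContDiff Topology RealInnerProductSpace

universe u

variable {M : Type u} [TopologicalSpace M] [T2Space M] [CompactSpace M] [ChartedSpace E M]
  [IsManifold (𝓡 2) ∞ M]

theorem sm_dd {O : Set E} (hO : IsOpen O) {H : E → V4} (hH : ContDiffOn ℝ ∞ H O) (v : E) :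
    ContDiffOn ℝ ∞ (dd v H) O :=
  (hH.fderiv_of_isOpen hO (by simp)).clm_apply contDiffOn_const

theorem not_mem_image (c : Ch M) {f : E → ℝ} (hf : tsupport f ⊆ c.e.target) {x : E}
    (hx : x ∈ c.e.target) (h0 : f x = 0) : c.e.symm x ∈ (c.e.symm '' {y | f y ≠ 0})ᶜ := by
  rintro ⟨y, hy, e⟩
  rw [c.e.symm.injOn (hf (subset_tsupport _ hy)) hx e] at hy
  exact hy h0

theorem inv_of_pieces {S : Sys M} {F n : M → V4} (hF : Inv S F) (hn : Sm n)
    (hn1 : ∀ p v, dM F p v ≠ n p)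
    (hn2 : ∀ i, ∀ p ∈ S.Γ i, 0 < ⟪n p, sff F p ((S.c i).wt p) ((S.c i).wt p)⟫)
    (hfin : ∀ i k, i ≠ k → (S.Γ i ∩ S.Γ k).Finite) (j : Fin S.n) {F' : ℕ → M → V4}
    (hs : ∀ m, Sm (F' m)) (hi : ∀ᶠ m in atTop, Imm (F' m))
    (hc : Close ((S.c j).e.symm '' {y | S.χ j y ≠ 0})ᶜ F' F)
    (h1 : ∀ᶠ m in atTop, ∀ x ∈ tsupport (S.χ j), ∀ i, (i = j ∨ (S.c j).e.symm x ∈ S.Γ i) →
      0 < ⟪nn (fun m => (S.c j).rd (F' m)) m x,
        sffE ((S.c j).rd (F' m)) x (S.v j i x) (S.v j i x)⟫)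
    (h2 : ∀ᶠ m in atTop, ∀ i k, i ≠ k → ∀ x, S.χ j x ≠ 0 → (S.c j).e.symm x ∈ S.Γ i →
      (S.c j).e.symm x ∈ S.Γ k → 0 < i2 (sffE ((S.c j).rd (F' m)) x) (S.v j i x) (S.v j k x)) :
    ∀ᶠ m in atTop, Inv S (F' m) := by
  obtain ⟨ψ, ψs, ψc, ψt, ψ1, ψp⟩ := exists_cut hF.sm hF.imm hn hn2 hF.i2 j
  have hO := (S.c j).e.open_target
  -- the collar
  have col : ∀ i, ∀ᶠ m in atTop, ∀ x ∈ {x | (x ∈ tsupport ψ ∧ S.χ j x = 0) ∧
      (i = j ∨ (S.c j).e.symm x ∈ S.Γ i)},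
      0 < ⟪(1 - ψ x) • (S.c j).rd n x + ψ x • nn (fun m => (S.c j).rd (F' m)) m x,
        sffE ((S.c j).rd (F' m)) x (S.v j i x) (S.v j i x)⟫ := by
    intro i
    have hK : IsCompact {x | x ∈ tsupport ψ ∧ S.χ j x = 0} :=
      ψc.inter_right (isClosed_eq (S.sm j).continuous continuous_const)
    refine collar_pos (n0 := fun x => (1 - ψ x) • (S.c j).rd n x) hO ?_ (fun x hx => ψt hx.1.1)
      ((S.c j).contDiffOn_rd hF.sm) (fun x hx => hF.imm.gram_ne hF.sm _ hx)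
      (fun m => (S.c j).contDiffOn_rd (hs m)) (fun δ hδ => ?_)
      ((continuous_const.sub ψs.continuous).continuousOn.smul
        (((S.c j).contDiffOn_rd hn).continuousOn.mono fun x hx => ψt hx.1.1))
      ψs.continuous.continuousOn ((S.continuousOn_v j i).mono fun x hx => ⟨ψt hx.1.1, ?_⟩)
      fun x hx => ψp x hx.1.1 hx.1.2 i hx.2
    · by_cases hij : i = j
      · simpa only [hij, true_or, and_true] using hK
      · simpa only [hij, false_or, mem_ofPred_eq] using S.isCompact_inter j i hK fun x hx => ψt hx.1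
    · filter_upwards [hc (S.c j) _ ψc ψt δ hδ] with m hm x hx
      exact hm x hx.1.1 (not_mem_image _ (S.sub j) (ψt hx.1.1) hx.1.2)
    · rcases hx.2 with rfl | h
      · exact (S.c i).e.map_target (ψt hx.1.1)
      · exact S.Γ_subset i h
  -- outside
  have hZ : IsClosed ((S.c j).e.symm '' {y | ψ y ≠ 0})ᶜ :=
    ((S.c j).e.symm.isOpen_image_of_subset_source (isOpen_ne_fun ψs.continuous continuous_const)
      fun y hy => ψt (subset_tsupport _ hy)).isClosed_compl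
  have hZc : Close ((S.c j).e.symm '' {y | ψ y ≠ 0})ᶜ F' F :=
    hc.mono (compl_subset_compl.2 (image_mono fun y hy =>
      (ψ1 y (subset_tsupport _ hy)).trans_ne one_ne_zero))
  have o1 := hZc.tr hZ hF.sm hF.imm hs hn fun p _ => hn1 p
  have o2 := fun i => (hZc.mono inter_subset_left).pos hF.sm hF.imm hs hn (S.c i)
    ((S.isCompact_Γ i).inter_left hZ) (inter_subset_right.trans (S.Γ_subset i))
    fun p hp => hn2 i p hp.2
  have o3 := hc.i0 (S.isOpen_D j).isClosed_compl hF.sm hF.imm hs fun p _ => hF.i0 p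
  have o4 : ∀ i k, ∀ᶠ m in atTop, i ≠ k → ∀ p ∈ S.Γ i ∩ S.Γ k,
      p ∈ ((S.c j).e.symm '' {y | S.χ j y ≠ 0})ᶜ →
        0 < i2 (sff (F' m) p) ((S.c i).wt p) ((S.c k).wt p) := fun i k =>
    eventually_imp_distrib_left.2 fun hik => (hfin i k hik).eventually_all.2 fun p hp =>
      eventually_imp_distrib_left.2 fun hp' => hc.i2 hF.sm hF.imm hs hp' (hF.i2 i k hik p hp)
  filter_upwards [hi, h1, h2, eventually_all.2 col, o1, eventually_all.2 o2, o3,
    eventually_all.2 fun i => eventually_all.2 (o4 i)] with m hi h1 h2 col o1 o2 o3 o4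
  have ψ0 : ∀ x ∈ (S.c j).e.target, x ∉ tsupport ψ → ψ x = 0 := fun x _ hx =>
    image_eq_zero_of_notMem_tsupport hx
  obtain ⟨N, hN⟩ : ∃ N : M → V4, N = fun p => (1 - (S.c j).ext ψ p) • n p +
    (S.c j).ext (fun x => ψ x • nn (fun m => (S.c j).rd (F' m)) m x) p := ⟨_, rfl⟩
  have N1 : ∀ p ∈ ((S.c j).e.symm '' {y | ψ y ≠ 0})ᶜ, N p = n p := by
    intro p hp
    rw [hN]
    simp only [Ch.ext]
    split_ifs with h
    · have : ψ ((S.c j).e p) = 0 := by
        by_contra h0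
        exact hp ⟨_, h0, (S.c j).e.left_inv h⟩
      rw [this, zero_smul, sub_zero, one_smul, add_zero]
    · rw [sub_zero, one_smul, add_zero]
  have N2 : ∀ x, ψ x ≠ 0 → ∀ i, (i = j ∨ (S.c j).e.symm x ∈ S.Γ i) →
      0 < ⟪N ((S.c j).e.symm x), sff (F' m) ((S.c j).e.symm x) ((S.c i).wt ((S.c j).e.symm x))
        ((S.c i).wt ((S.c j).e.symm x))⟫ := by
    intro x hx i hi
    have hx1 : x ∈ tsupport ψ := subset_tsupport _ hx
    have e : N ((S.c j).e.symm x) =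
        (1 - ψ x) • (S.c j).rd n x + ψ x • nn (fun m => (S.c j).rd (F' m)) m x := by
      rw [hN, ← (S.c j).rd_ext (fun x => ψ x • nn (fun m => (S.c j).rd (F' m)) m x) (ψt hx1),
        ← (S.c j).rd_ext ψ (ψt hx1)]
      rfl
    rw [e, S.sff_v (hs m) j i i (ψt hx1)]
    by_cases h : S.χ j x = 0
    · exact col i x ⟨⟨hx1, h⟩, hi⟩
    · rw [ψ1 x (subset_tsupport _ h), sub_self, zero_smul, zero_add, one_smul]
      exact h1 x (subset_tsupport _ h) i hi
  refine ⟨hs m, hi, fun p => ?_, ⟨N, ?_, fun p v => ?_, fun i p hp => ?_⟩, fun i k hik p hp => ?_⟩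
  · by_cases hp : p ∈ (S.c j).e.symm '' {y | S.χ j y ≠ 0}
    · obtain ⟨x, hx, rfl⟩ := hp
      refine ⟨(S.c j).wt ((S.c j).e.symm x), fun h => ?_⟩
      have := N2 x ((ψ1 x (subset_tsupport _ hx)).trans_ne one_ne_zero) j (Or.inl rfl)
      rw [h, inner_zero_right] at this
      exact lt_irrefl _ this
    · exact o3 p hp
  · have hr := (S.c j).contDiffOn_rd (hs m)
    rw [hN]
    exact ((contMDiff_const.sub ((S.c j).sm_ext ψs.contDiffOn ψc ψt ψ0)).smul hn).add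
      ((S.c j).sm_ext (ψs.contDiffOn.smul ((sm_dd hO (sm_dd hO hr et) et).add
        ((sm_dd hO (sm_dd hO hr es) es).const_smul (ep m)))) ψc ψt fun x hx hx' => by
          rw [ψ0 x hx hx', zero_smul])
  · by_cases hp : p ∈ (S.c j).e.symm '' {y | ψ y ≠ 0}
    · obtain ⟨x, hx, rfl⟩ := hp
      intro h
      have := N2 x hx j (Or.inl rfl)
      rw [← h, inner_dM_sff] at this
      exact lt_irrefl _ this
    · rw [N1 p hp]
      exact o1 p hp v
  · by_cases hp' : p ∈ (S.c j).e.symm '' {y | ψ y ≠ 0}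
    · obtain ⟨x, hx, rfl⟩ := hp'
      exact N2 x hx i (Or.inr hp)
    · rw [N1 p hp']
      exact o2 i p ⟨hp', hp⟩
  · by_cases hp' : p ∈ (S.c j).e.symm '' {y | S.χ j y ≠ 0}
    · obtain ⟨x, hx, rfl⟩ := hp'
      rw [S.i2_v (hs m) j i k (S.sub j (subset_tsupport _ hx))]
      exact h2 i k hik x hx hp.1 hp.2
    · exact o4 i k hik p hp hp'

end Crest.Agent.R216.LargeAuxP
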