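import Crest.Agent.R216.LDefs

/-!
# Row 216: `i2_pos_of_large`, `asym_i2`, `exists_shift`
-/

set_option autoImplicit false
set_option linter.unusedSectionVars false

noncomputable section

namespace Crest.Agent.R216.GeoAAux2

open Set Metric Filter
open scoped ContDiff Topology RealInnerProductSpace

/-- The combination of the three normal vectors. -/
def cmb (v w : E) (a b c : V4) : V4 :=
  (v 1 * w 1) • a + (v 0 * w 1 + v 1 * w 0) • b + (v 0 * w 0) • c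

/-- The quantity `i2` as a function of the normal vectors and the curvature. -/
def Phi (v w : E) (a b c : V4) (k : ℝ) : ℝ :=
  ⟪cmb v w a b c, cmb w w a b c⟫ ^ 2 +
    (v 0 * w 1 - v 1 * w 0) ^ 2 * k * ⟪cmb w w a b c, cmb w w a b c⟫

theorem II5_eq (p q A B C : V4) (v w : E) :
    II5 p q A B C v w = cmb v w (pn q p A) (pn q p B) (pn q p C) := by
  simp only [II5, cmb, pn_add, pn_smul]

theorem i2_eq (p q A B C : V4) (v w : E) :
    i2 (II5 p q A B C) v w = Phi v w (pn q p A) (pn q p B) (pn q p C)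
      (⟪pn q p A, pn q p C⟫ - ⟪pn q p B, pn q p B⟫) := by
  rw [i2, II5_gauss, Phi, II5_eq, II5_eq]

theorem cmb_smul (v w : E) (a b c : V4) (ρ : ℝ) :
    cmb v w (ρ • a) (ρ • b) (ρ • c) = ρ • cmb v w a b c := by
  simp only [cmb]
  module

theorem Phi_smul (v w : E) (a b c : V4) (k ρ : ℝ) :
    Phi v w (ρ • a) (ρ • b) (ρ • c) (ρ ^ 2 * k) = ρ ^ 4 * Phi v w a b c k := by
  simp only [Phi, cmb_smul, real_inner_smul_left, real_inner_smul_right]
  ring

theorem continuous_Phi (v w : E) :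
    Continuous fun x : (V4 × V4 × ℝ) × V4 => Phi v w x.1.1 x.1.2.1 x.2 x.1.2.2 := by
  unfold Phi cmb
  fun_prop

theorem Phi_small {v w : E} (hv : v 0 ≠ 0) (hw : w 0 ≠ 0) : ∃ δ : ℝ, 0 < δ ∧ δ ≤ 1 ∧
    ∀ (a b c : V4) (k : ℝ), ‖a‖ < δ → ‖b‖ < δ → |k| < δ → ‖c‖ = 1 → 0 < Phi v w a b c k := by
  have h1 : ∀ᶠ y : V4 × V4 × ℝ in 𝓝 0, ∀ c ∈ sphere (0 : V4) 1, 0 < Phi v w y.1 y.2.1 c y.2.2 := by
    refine (isCompact_sphere (0 : V4) 1).eventually_forall_of_forall_eventually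
      (P := fun (y : V4 × V4 × ℝ) (c : V4) => 0 < Phi v w y.1 y.2.1 c y.2.2) fun c hc => ?_
    refine (continuous_Phi v w).continuousAt.eventually (lt_mem_nhds ?_)
    have hc1 : ‖c‖ = 1 := by simpa using hc
    have hcc : ⟪c, c⟫ = (1 : ℝ) := by rw [real_inner_self_eq_norm_sq, hc1]; norm_num
    simp only [Phi, cmb, Prod.fst_zero, Prod.snd_zero, smul_zero, zero_add, real_inner_smul_left,
      real_inner_smul_right, hcc, mul_zero, zero_mul, add_zero]
    positivity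
  obtain ⟨δ, hδ, h2⟩ := Metric.eventually_nhds_iff.1 h1
  refine ⟨min δ 1, lt_min hδ one_pos, min_le_right _ _, fun a b c k ha hb hk hc => ?_⟩
  have h3 : dist ((a, b, k) : V4 × V4 × ℝ) 0 < δ := by
    rw [dist_zero_right, Prod.norm_def, Prod.norm_def]
    exact max_lt (ha.trans_le (min_le_left _ _)) (max_lt (hb.trans_le (min_le_left _ _))
      (hk.trans_le (min_le_left _ _)))
  exact h2 h3 c (by simpa using hc)

theorem Phi_large {v w : E} (hv : v 0 ≠ 0) (hw : w 0 ≠ 0) (Cb : ℝ) : ∃ L : ℝ,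
    ∀ (a b c : V4) (k : ℝ), ‖a‖ ≤ Cb → |k| ≤ Cb → ⟪a, c⟫ - ⟪b, b⟫ = k →
      (L ≤ ‖b‖ ∨ L ≤ ‖c‖) → 0 < Phi v w a b c k := by
  obtain ⟨δ, hδ, hδ1, h⟩ := Phi_small hv hw
  set R : ℝ := 1 + 2 * |Cb| / δ ^ 2 with hR
  have hq : 0 ≤ 2 * |Cb| / δ ^ 2 := by positivity
  have hR1 : 1 ≤ R := by linarith
  have hR2 : 2 * |Cb| < δ ^ 2 * R := by
    have : δ ^ 2 * R = δ ^ 2 + 2 * |Cb| := by
      rw [hR]
      field_simp
    rw [this]
    have : 0 < δ ^ 2 := by positivity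
    linarith
  refine ⟨R + |Cb| * (R + 1) + 1, fun a b c k ha hk hg hL => ?_⟩
  have hCb : 0 ≤ Cb := (norm_nonneg _).trans ha
  rw [abs_of_nonneg hCb] at hL hR2
  have hb2 : ‖b‖ ^ 2 ≤ Cb * (‖c‖ + 1) := by
    rw [← real_inner_self_eq_norm_sq]
    have h1 := real_inner_le_norm a c
    have h2 : ‖a‖ * ‖c‖ ≤ Cb * ‖c‖ := mul_le_mul_of_nonneg_right ha (norm_nonneg _)
    have h3 := neg_abs_le k
    linarith
  have hpos : 0 ≤ Cb * (R + 1) := by positivity
  have hc : R ≤ ‖c‖ := by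
    rcases hL with hL | hL
    · by_contra hlt
      push Not at hlt
      have h1 : Cb * (‖c‖ + 1) ≤ Cb * (R + 1) := mul_le_mul_of_nonneg_left (by linarith) hCb
      have h2 : 1 ≤ ‖b‖ := by linarith
      nlinarith
    · linarith
  set ρ : ℝ := ‖c‖ with hρ
  have hρ1 : 1 ≤ ρ := hR1.trans hc
  have hρ0 : 0 < ρ := by linarith
  have hδ2 : δ ^ 2 ≤ δ := by nlinarith
  have hkey : 2 * Cb < δ ^ 2 * ρ :=
    hR2.trans_le (mul_le_mul_of_nonneg_left hc (by positivity))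
  have hkey2 : 2 * Cb < δ * ρ := hkey.trans_le (mul_le_mul_of_nonneg_right hδ2 hρ0.le)
  have hmain := h (ρ⁻¹ • a) (ρ⁻¹ • b) (ρ⁻¹ • c) (ρ⁻¹ ^ 2 * k) ?_ ?_ ?_ ?_
  · rw [Phi_smul] at hmain
    exact (mul_pos_iff_of_pos_left (by positivity)).1 hmain
  · rw [norm_smul, Real.norm_eq_abs, abs_of_pos (inv_pos.2 hρ0), inv_mul_lt_iff₀ hρ0]
    nlinarith
  · rw [norm_smul, Real.norm_eq_abs, abs_of_pos (inv_pos.2 hρ0), inv_mul_lt_iff₀ hρ0]
    refine lt_of_pow_lt_pow_left₀ 2 (by positivity) (hb2.trans_lt ?_)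
    have h1 : Cb * (ρ + 1) ≤ 2 * Cb * ρ := by nlinarith
    have h2 : 2 * Cb * ρ < δ ^ 2 * ρ * ρ := mul_lt_mul_of_pos_right hkey hρ0
    nlinarith
  · rw [abs_mul, abs_of_pos (by positivity), inv_pow, inv_mul_lt_iff₀ (by positivity)]
    have h1 : δ * ρ ≤ ρ ^ 2 * δ := by nlinarith [mul_pos hδ hρ0]
    linarith
  · rw [norm_smul, Real.norm_eq_abs, abs_of_pos (inv_pos.2 hρ0), ← hρ, inv_mul_cancel₀ hρ0.ne']

theorem i2_pos_of_large {v w : E} (hv : v 0 ≠ 0) (hw : w 0 ≠ 0) (Cb : ℝ) : ∃ L : ℝ,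
    ∀ (p q A B C : V4) (k : ℝ), ‖pn q p A‖ ≤ Cb → |k| ≤ Cb →
      ⟪pn q p A, pn q p C⟫ - ⟪pn q p B, pn q p B⟫ = k →
      (L ≤ ‖pn q p B‖ ∨ L ≤ ‖pn q p C‖) → 0 < i2 (II5 p q A B C) v w := by
  obtain ⟨L, hL⟩ := Phi_large hv hw Cb
  refine ⟨L, fun p q A B C k hA hk hg h => ?_⟩
  rw [i2_eq, hg]
  exact hL _ _ _ _ hA hk hg h

theorem continuousAt_pn {X : Type*} [TopologicalSpace X] {f g h : X → V4} {x : X}
    (hf : ContinuousAt f x) (hg : ContinuousAt g x) (hh : ContinuousAt h x)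
    (h0 : gram (f x) (g x) ≠ 0) : ContinuousAt (fun y => pn (f y) (g y) (h y)) x := by
  have ho : IsOpen {q : V4 × V4 × V4 | gram q.1 q.2.1 ≠ 0} :=
    isOpen_ne_fun (contDiff_gram.continuous.comp
      (continuous_fst.prodMk (continuous_fst.comp continuous_snd))) continuous_const
  have h1 : ContinuousAt (fun q : V4 × V4 × V4 => pn q.1 q.2.1 q.2.2) (f x, g x, h x) :=
    continuousOn_pn.continuousAt (ho.mem_nhds h0)
  exact ContinuousAt.comp (f := fun y => (f y, g y, h y)) h1 (hf.prodMk (hg.prodMk hh))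

theorem asym_i2 {v w : E} (hv : v 0 ≠ 0) (hw : w 0 ≠ 0) (Cb : ℝ) : ∃ L : ℝ,
    ∀ {K : Set ℝ}, IsCompact K → ∀ (p A : V4) (k : ℝ) {q B C : ℝ → V4}, ContinuousOn q K →
      ContinuousOn B K → ContinuousOn C K → (∀ z ∈ K, gram (q z) p ≠ 0) → ‖A‖ ≤ Cb → |k| ≤ Cb →
      (∀ z ∈ K, pn (q z) p (C z) = 0 → L ≤ ‖pn (q z) p (B z)‖) →
      ∃ η : ℝ, 0 < η ∧ ∀ ε : ℝ, 0 < ε → ε ≤ η → ∀ z ∈ K, ∀ p' q' A' B' C' : V4,
        ‖p' - p‖ ≤ η → ‖q' - q z‖ ≤ η → ‖A' - A‖ ≤ η → ‖B' - B z‖ ≤ η → ‖ε • C' - C z‖ ≤ η →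
        ⟪pn q' p' A', pn q' p' C'⟫ - ⟪pn q' p' B', pn q' p' B'⟫ = k →
        0 < i2 (II5 p' q' A' B' C') v w := by
  obtain ⟨L0, hL0⟩ := i2_pos_of_large hv hw (Cb + 1)
  refine ⟨L0 + 1, fun {K} hK p A k q B C hq hB hC hg hA hk hL => ?_⟩
  have hK' : IsCompact ((fun z => (q z, B z, C z)) '' K) :=
    hK.image_of_continuousOn (hq.prodMk (hB.prodMk hC))
  have h1 : ∀ᶠ y : ℝ × V4 × V4 × V4 × V4 in 𝓝 0, ∀ x ∈ (fun z => (q z, B z, C z)) '' K,
      gram (x.1 + y.2.2.1) (p + y.2.1) ≠ 0 ∧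
        (L0 < ‖pn (x.1 + y.2.2.1) (p + y.2.1) (x.2.1 + y.2.2.2.1)‖ ∨
          y.1 * L0 < ‖pn (x.1 + y.2.2.1) (p + y.2.1) (x.2.2 + y.2.2.2.2)‖) := by
    refine hK'.eventually_forall_of_forall_eventually
      (P := fun (y : ℝ × V4 × V4 × V4 × V4) (x : V4 × V4 × V4) =>
        gram (x.1 + y.2.2.1) (p + y.2.1) ≠ 0 ∧
        (L0 < ‖pn (x.1 + y.2.2.1) (p + y.2.1) (x.2.1 + y.2.2.2.1)‖ ∨
          y.1 * L0 < ‖pn (x.1 + y.2.2.1) (p + y.2.1) (x.2.2 + y.2.2.2.2)‖)) ?_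
    rintro _ ⟨z, hz, rfl⟩
    have hf : Continuous fun u : (ℝ × V4 × V4 × V4 × V4) × (V4 × V4 × V4) =>
        u.2.1 + u.1.2.2.1 := by fun_prop
    have hp : Continuous fun u : (ℝ × V4 × V4 × V4 × V4) × (V4 × V4 × V4) =>
        p + u.1.2.1 := by fun_prop
    have hb : Continuous fun u : (ℝ × V4 × V4 × V4 × V4) × (V4 × V4 × V4) =>
        u.2.2.1 + u.1.2.2.2.1 := by fun_prop
    have hc : Continuous fun u : (ℝ × V4 × V4 × V4 × V4) × (V4 × V4 × V4) =>
        u.2.2.2 + u.1.2.2.2.2 := by fun_prop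
    have hg0 : gram ((fun u : (ℝ × V4 × V4 × V4 × V4) × (V4 × V4 × V4) => u.2.1 + u.1.2.2.1)
        (0, (q z, B z, C z))) ((fun u : (ℝ × V4 × V4 × V4 × V4) × (V4 × V4 × V4) => p + u.1.2.1)
        (0, (q z, B z, C z))) ≠ 0 := by simpa using hg z hz
    refine Eventually.and ?_ ?_
    · exact (contDiff_gram.continuous.comp (hf.prodMk hp)).continuousAt.eventually_ne hg0
    · by_cases h0 : pn (q z) p (C z) = 0
      · refine Eventually.mono ?_ fun u hu => Or.inl hu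
        refine (continuousAt_pn hf.continuousAt hp.continuousAt hb.continuousAt
          hg0).norm.eventually (lt_mem_nhds ?_)
        have := hL z hz h0
        simp only [Prod.snd_zero, Prod.fst_zero, add_zero]
        linarith
      · refine Eventually.mono ?_ fun u hu => Or.inr hu
        have hl : ContinuousAt (fun u : (ℝ × V4 × V4 × V4 × V4) × (V4 × V4 × V4) => u.1.1 * L0)
            (0, (q z, B z, C z)) := by fun_prop
        refine hl.eventually_lt (continuousAt_pn hf.continuousAt hp.continuousAt hc.continuousAt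
          hg0).norm ?_
        simpa using h0
  obtain ⟨δ, hδ, h2⟩ := Metric.eventually_nhds_iff.1 h1
  refine ⟨min (δ / 2) 1, lt_min (by linarith) one_pos,
    fun ε hε hεη z hz p' q' A' B' C' h3 h4 h5 h6 h7 h8 => ?_⟩
  have hη : min (δ / 2) 1 < δ := (min_le_left _ _).trans_lt (by linarith)
  have h9 : dist ((ε, p' - p, q' - q z, B' - B z, ε • C' - C z) : ℝ × V4 × V4 × V4 × V4) 0 < δ := by
    rw [dist_zero_right, Prod.norm_def, Prod.norm_def, Prod.norm_def, Prod.norm_def]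
    refine max_lt ?_ (max_lt (h3.trans_lt hη) (max_lt (h4.trans_lt hη)
      (max_lt (h6.trans_lt hη) (h7.trans_lt hη))))
    rw [Real.norm_eq_abs, abs_of_pos hε]
    exact hεη.trans_lt hη
  obtain ⟨h10, h11⟩ := h2 h9 _ ⟨z, hz, rfl⟩
  simp only [add_sub_cancel] at h10 h11
  refine hL0 p' q' A' B' C' k ?_ (by linarith) h8 ?_
  · refine (norm_pn_le h10 A').trans ?_
    have h12 := norm_sub_norm_le A' A
    have h13 := h5.trans (min_le_right _ _)
    linarith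
  · rcases h11 with h11 | h11
    · exact Or.inl h11.le
    · rw [pn_smul, norm_smul, Real.norm_eq_abs, abs_of_pos hε] at h11
      exact Or.inr (lt_of_mul_lt_mul_left h11 hε.le).le

/-- A bounded increasing function with large derivative on a compact null set. -/
theorem exists_line {T : Set ℝ} (hT : IsCompact T) (h0 : MeasureTheory.volume T = 0) (Λ : ℝ) :
    ∃ σ β : ℝ → ℝ, ContDiff ℝ ∞ σ ∧ (∀ t, HasDerivAt σ (β t) t) ∧ Continuous β ∧
      (∀ t, 0 ≤ β t) ∧ (∀ t, |σ t| ≤ 1) ∧ ∀ t ∈ T, Λ < β t := by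
  set M : ℝ := max Λ 0 + 1 with hM
  have hM0 : 0 < M := by
    have := le_max_right Λ 0
    linarith
  have hMΛ : Λ < M := by
    have := le_max_left Λ 0
    linarith
  obtain ⟨J, hTJ, hJ, hJv⟩ := T.exists_isOpen_lt_of_lt (μ := MeasureTheory.volume)
    (ENNReal.ofReal M⁻¹) (by rw [h0]; exact ENNReal.ofReal_pos.2 (inv_pos.2 hM0))
  obtain ⟨f, hf0, hf1, hf⟩ := exists_contMDiffMap_zero_one_of_isClosed (n := ⊤)
    (modelWithCornersSelf ℝ ℝ) hJ.isClosed_compl hT.isClosed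
    (disjoint_compl_left_iff_subset.2 hTJ)
  have hfs : ContDiff ℝ ∞ (f : ℝ → ℝ) := f.contMDiff.contDiff
  have hβs : ContDiff ℝ ∞ fun t => M * f t := contDiff_const.mul hfs
  have hd : ∀ t, HasDerivAt (fun t => ∫ x in (0 : ℝ)..t, M * f x) (M * f t) t := fun t =>
    (hβs.continuous.integral_hasStrictDerivAt 0 t).hasDerivAt
  refine ⟨fun t => ∫ x in (0 : ℝ)..t, M * f x, fun t => M * f t, ?_, hd, hβs.continuous,
    fun t => mul_nonneg hM0.le (hf t).1, fun t => ?_, fun t ht => ?_⟩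
  · rw [contDiff_infty_iff_deriv]
    refine ⟨fun t => (hd t).differentiableAt, ?_⟩
    have : deriv (fun t => ∫ x in (0 : ℝ)..t, M * f x) = fun t => M * f t :=
      funext fun t => (hd t).deriv
    rw [this]
    exact hβs
  · have hJt : MeasureTheory.volume J ≠ ⊤ := (hJv.trans ENNReal.ofReal_lt_top).ne
    have h1 : ‖∫ x in (0 : ℝ)..t, f x‖ ≤ ∫ x in uIoc 0 t, ‖f x‖ :=
      intervalIntegral.norm_integral_le_integral_norm_uIoc
    have h2 : ∫ x in uIoc 0 t, ‖f x‖ ≤ ∫ x in uIoc 0 t, J.indicator (1 : ℝ → ℝ) x := by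
      refine MeasureTheory.integral_mono_of_nonneg (Eventually.of_forall fun x => norm_nonneg _)
        ?_ (Eventually.of_forall fun x => ?_)
      · refine MeasureTheory.Integrable.integrableOn ?_
        rw [MeasureTheory.integrable_indicator_iff hJ.measurableSet]
        exact MeasureTheory.integrableOn_const hJt
      · by_cases hx : x ∈ J
        · simp only [indicator_of_mem hx, Pi.one_apply, Real.norm_eq_abs, abs_of_nonneg (hf x).1]
          exact (hf x).2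
        · simp only [indicator_of_notMem hx, hf0 hx, Pi.zero_apply, norm_zero, le_refl]
    rw [MeasureTheory.integral_indicator_one hJ.measurableSet] at h2
    have h3 : (MeasureTheory.volume.restrict (uIoc 0 t)).real J ≤ M⁻¹ := by
      refine ENNReal.toReal_le_of_le_ofReal (inv_pos.2 hM0).le ?_
      exact (MeasureTheory.Measure.restrict_apply_le _ _).trans hJv.le
    beta_reduce
    rw [intervalIntegral.integral_const_mul, abs_mul, abs_of_pos hM0, ← Real.norm_eq_abs]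
    calc M * ‖∫ x in (0 : ℝ)..t, f x‖ ≤ M * M⁻¹ :=
          mul_le_mul_of_nonneg_left (h1.trans (h2.trans h3)) hM0.le
      _ = 1 := mul_inv_cancel₀ hM0.ne'
  · simp only [hf1 ht, Pi.one_apply, mul_one]
    exact hMΛ

theorem pt_eta (x : E) : pt (x 0) (x 1) = x := by
  ext i
  fin_cases i <;> simp [pt]

theorem exists_shift {Γ : Set E} (hΓ : IsCompact Γ)
    (h : ∀ s : ℝ, MeasureTheory.volume {t : ℝ | pt s t ∈ Γ} = 0) (Λ : ℝ) :
    ∃ S : E → ℝ, Shift S ∧ ∀ x ∈ Γ, Λ ≤ dd et S x := by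
  have hc0 : Continuous fun x : E => x 0 := by fun_prop
  have hc1 : Continuous fun x : E => x 1 := by fun_prop
  have hsl : ∀ s : ℝ, IsCompact {t : ℝ | pt s t ∈ Γ} := by
    intro s
    have h1 : {t : ℝ | pt s t ∈ Γ} = (fun x : E => x 1) '' (Γ ∩ {x | x 0 = s}) := by
      ext t
      constructor
      · intro ht
        exact ⟨pt s t, ⟨ht, by simp [pt]⟩, by simp [pt]⟩
      · rintro ⟨x, ⟨hx, rfl⟩, rfl⟩
        simpa only [mem_ofPred_eq, pt_eta] using hx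
    rw [h1]
    exact (hΓ.inter_right (isClosed_eq hc0 continuous_const)).image hc1
  choose σ β hσ hd hβ hβ0 hσ1 hΛ using fun s => exists_line (hsl s) (h s) Λ
  set U : ℝ → Set ℝ := fun s => ((fun x : E => x 0) '' (Γ ∩ {x | β s (x 1) ≤ Λ}))ᶜ with hU
  have hUo : ∀ s, IsOpen (U s) := fun s =>
    ((hΓ.inter_right (isClosed_le ((hβ s).comp hc1) continuous_const)).image
      hc0).isClosed.isOpen_compl
  have hUs : ∀ s, s ∈ U s := by
    rintro s ⟨x, ⟨hx, hx1⟩, rfl⟩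
    refine absurd (hΛ (x 0) (x 1) ?_) (not_lt.2 hx1)
    simpa only [mem_ofPred_eq, pt_eta] using hx
  have hP : IsCompact ((fun x : E => x 0) '' Γ) := hΓ.image hc0
  obtain ⟨I, hI⟩ := hP.elim_finite_subcover U hUo fun s _ => mem_iUnion.2 ⟨s, hUs s⟩
  obtain ⟨ρ, hρ⟩ := SmoothPartitionOfUnity.exists_isSubordinate (ι := I)
    (modelWithCornersSelf ℝ ℝ) hP.isClosed (fun i => U i) (fun i => hUo i) (by
      intro s hs
      obtain ⟨i, hi, hs'⟩ := mem_iUnion₂.1 (hI hs)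
      exact mem_iUnion.2 ⟨⟨i, hi⟩, hs'⟩)
  have hρs : ∀ i, ContDiff ℝ ∞ (ρ i : ℝ → ℝ) := fun i => (ρ i).contMDiff.contDiff
  have hdd : ∀ x : E, dd et (fun x : E => ∑ i : I, ρ i (x 0) * σ i (x 1)) x =
      ∑ i : I, ρ i (x 0) * β i (x 1) := by
    intro x
    have h1 : ∀ i : I, HasFDerivAt (fun x : E => ρ i (x 0) * σ i (x 1))
        (ρ i (x 0) • (β i (x 1) • ct) + σ i (x 1) • (deriv (ρ i) (x 0) • cs)) x := by
      intro i
      have h2 : HasFDerivAt (fun x : E => ρ i (x 0)) (deriv (ρ i) (x 0) • cs) x :=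
        HasDerivAt.comp_hasFDerivAt (f := fun x : E => x 0) x
          (((hρs i).differentiable (by simp)) (x 0)).hasDerivAt cs.hasFDerivAt
      have h3 : HasFDerivAt (fun x : E => σ i (x 1)) (β i (x 1) • ct) x :=
        HasDerivAt.comp_hasFDerivAt (f := fun x : E => x 1) x (hd i (x 1)) ct.hasFDerivAt
      exact h2.mul h3
    rw [dd, (HasFDerivAt.fun_sum fun i _ => h1 i).fderiv]
    simp [cs, ct, et]
  refine ⟨fun x : E => ∑ i : I, ρ i (x 0) * σ i (x 1), ⟨?_, fun x => ?_, fun x => ?_⟩,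
    fun x hx => ?_⟩
  · refine ContDiff.sum fun i _ => ?_
    exact ((hρs i).comp cs.contDiff).mul ((hσ i).comp ct.contDiff)
  · have h1 := ρ.sum_le_one (x 0)
    rw [finsum_eq_sum_of_fintype] at h1
    refine (Finset.abs_sum_le_sum_abs _ _).trans ((Finset.sum_le_sum fun i _ => ?_).trans h1)
    rw [abs_mul, abs_of_nonneg (ρ.nonneg i _)]
    exact mul_le_of_le_one_right (ρ.nonneg i _) (hσ1 i _)
  · rw [hdd]
    exact Finset.sum_nonneg fun i _ => mul_nonneg (ρ.nonneg i _) (hβ0 i _)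
  · have h1 := ρ.sum_eq_one (x := x 0) ⟨x, hx, rfl⟩
    rw [finsum_eq_sum_of_fintype] at h1
    rw [hdd]
    calc Λ = ∑ i : I, ρ i (x 0) * Λ := by rw [← Finset.sum_mul, h1, one_mul]
      _ ≤ _ := by
        refine Finset.sum_le_sum fun i _ => ?_
        by_cases h2 : ρ i (x 0) = 0
        · simp [h2]
        · refine mul_le_mul_of_nonneg_left ?_ (ρ.nonneg i _)
          by_contra h3
          exact hρ i (subset_tsupport _ h2) ⟨x, ⟨hx, (not_le.1 h3).le⟩, rfl⟩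

end Crest.Agent.R216.GeoAAux2
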