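import Crest.Agent.R216.WaveB

/-!
# Row 216: loops with a prescribed mean value (definitions).  DO NOT change a definition of this file.
-/

set_option autoImplicit false
set_option linter.unusedSectionVars false

noncomputable section

namespace Crest.Agent.R216

open Set Metric Filter
open scoped ContDiff Topology RealInnerProductSpace

universe u

/-- The fixed profile functions. -/
structure Prof where
  φ0 : ℝ → ℝ
  γ1 : ℝ → ℝ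
  γ2 : ℝ → ℝ
  η : Fin 3 → ℝ → ℝ
  smφ : ContDiff ℝ ∞ φ0
  sm1 : ContDiff ℝ ∞ γ1
  sm2 : ContDiff ℝ ∞ γ2
  smη : ∀ l, ContDiff ℝ ∞ (η l)
  φm : φ0 (-1) = -1
  φz : φ0 0 = 1
  γ1m : γ1 (-1) = 0
  γ1z : γ1 0 = 0
  γ2m : γ2 (-1) = 0
  γ2z : γ2 0 = 0
  bφ : ∀ y, |φ0 y| ≤ 1
  b1 : ∀ y, |γ1 y| ≤ 1
  b2 : ∀ y, |γ2 y| ≤ 1
  η0 : ∀ l y, 0 ≤ η l y
  ηpos : ∀ l, ∃ y ∈ Icc (-1 : ℝ) 1, 0 < η l y
  loc : ∀ l, ∀ y ∈ tsupport (η l),
    ∀ᶠ y' in 𝓝 y, φ0 y' = 1 ∧ γ1 y' = ![0, 1, 0] l ∧ γ2 y' = ![0, 0, 1] l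

/-- The profile of the angle. -/
def Prof.φ (P : Prof) (S S2 r co si y : ℝ) : ℝ :=
  S * P.φ0 y + S2 - r * co * P.γ1 y - r * si * P.γ2 y

/-- The normalised position on the circle. -/
def Tst (a φ : ℝ) : ℝ × ℝ := (φ * sc (a * φ), φ ^ 2 * c2 (a * φ))

/-- A family of odd reparametrisations of the circle. -/
structure Rep {X : Type} [NormedAddCommGroup X] [NormedSpace ℝ X] (O : Set X) (u : X × ℝ → ℝ) :
    Prop where
  sm : ContDiffOn ℝ ∞ u (O ×ˢ univ)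
  per : ∀ x ∈ O, ∀ θ, u (x, θ + 1) = u (x, θ) + 1
  odd : ∀ x ∈ O, ∀ θ, u (x, -θ) = -u (x, θ)
  pos : ∀ x ∈ O, ∀ θ, 0 < dθ u (x, θ)

end Crest.Agent.R216
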