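import Crest.Agent.R216.MDefs
import Crest.Agent.R216.LoopDefs

/-!
# Row 216: steps of large amplitude (definitions).  DO NOT change a definition of this file.
-/

set_option autoImplicit false
set_option linter.unusedSectionVars false

noncomputable section

namespace Crest.Agent.R216

open Set Metric Filter
open scoped Manifold ContDiff Topology RealInnerProductSpace

universe u

/-- The data of a step of large amplitude, in a chart. -/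
structure LSet where
  O : Set E
  hO : IsOpen O
  H : E → V4
  smH : ContDiffOn ℝ ∞ H O
  χ : E → ℝ
  smχ : ContDiff ℝ ∞ χ
  χ0 : ∀ x, 0 ≤ χ x
  cpt : IsCompact (tsupport χ)
  sub : tsupport χ ⊆ O
  b : E → ℝ
  smb : ContDiffOn ℝ ∞ b O
  b0 : ∀ x ∈ O, 0 < b x
  K : ℕ
  n : E → V4
  smn : ContDiffOn ℝ ∞ n O
  imm : ∀ x ∈ O, gram (dd es H x) (dd et H x) ≠ 0
  kgp : ∀ x ∈ tsupport χ, 0 < kg (indE H) x
  ntr : ∀ x ∈ O, pn (dd es H x) (dd et H x) (n x) ≠ 0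
  npos : ∀ x ∈ tsupport χ, χ x = 0 → 0 < ⟪n x, sffE H x et et⟫

namespace LSet

variable (L : LSet)

/-- The closed disc. -/
def D : Set E := tsupport L.χ
/-- The amplitude. -/
def a (x : E) : ℝ := L.χ x ^ L.K * L.b x
/-- `H_t`. -/
def p : E → V4 := dd et L.H
/-- `H_s`. -/
def q : E → V4 := dd es L.H
/-- `H_tt`. -/
def A : E → V4 := dd et (dd et L.H)
/-- The component of `H_s` in the plane of the wave. -/
def m (x : E) : V4 := pn (L.p x) (L.A x) (L.q x)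
/-- The new metric. -/
def G1 (x : E) : Bil := indE L.H x + L.a x ^ 2 • tp cs cs

/-- The family with one member. -/
structure Match (B : Base Unit) : Prop where
  F : B.F () = L.H
  χ : B.χ () = L.χ
  b : B.b () = L.b
  K : B.K = L.K
  κ : B.κ () = 1
  w : B.w () = et
  z : B.z () = es
  ξ : B.ξ () = cs
  M : B.c.M () = 1
  U : B.c.U () ⊆ L.O

end LSet

/-- A frame of the plane of the wave. -/
structure LFrame (L : LSet) where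
  O : Set E
  hO : IsOpen O
  sub : L.D ⊆ O
  sub' : O ⊆ L.O
  e1 : E → V4
  e2 : E → V4
  R : E → ℝ
  sm1 : ContDiffOn ℝ ∞ e1 O
  sm2 : ContDiffOn ℝ ∞ e2 O
  smR : ContDiffOn ℝ ∞ R O
  gne : ∀ x ∈ O, gram (L.p x) (L.A x) ≠ 0
  p1 : ∀ x ∈ O, ⟪L.p x, e1 x⟫ = 0
  A1 : ∀ x ∈ O, ⟪L.A x, e1 x⟫ = 0
  e11 : ∀ x ∈ O, ⟪e1 x, e1 x⟫ = 1
  rot : ∀ x ∈ O, e2 x = (√(gram (L.p x) (L.A x)))⁻¹ • cr (L.p x) (L.A x) (e1 x)
  R0 : ∀ x ∈ O, 0 < R x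
  hR : ∀ x ∈ O, R x ^ 2 = L.a x ^ 2 + ‖L.m x‖ ^ 2
  axis : ∀ x ∈ O, L.χ x ≠ 0 ∨ ∀ᶠ y in 𝓝 x, 0 < ⟪L.m y, e1 y⟫ ∧ L.m y = ⟪L.m y, e1 y⟫ • e1 y

/-- Admissible shifts. -/
structure Shift (S : E → ℝ) : Prop where
  sm : ContDiff ℝ ∞ S
  le : ∀ x, |S x| ≤ 1
  mono : ∀ x, 0 ≤ dd et S x

/-- The properties of the loop. -/
structure LLoop (L : LSet) (S : E → ℝ) (c0 C0 : ℝ) (O : Set E) (W : E × ℝ → V4) : Prop where
  hO : IsOpen O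
  sub : L.D ⊆ O
  sub' : O ⊆ L.O
  sm : ContDiffOn ℝ ∞ W (O ×ˢ univ)
  per : ∀ x ∈ O, ∀ θ, W (x, θ + 1) = W (x, θ)
  Wp : ∀ x ∈ O, ∀ θ, ⟪L.p x, W (x, θ)⟫ = ⟪L.p x, L.q x⟫
  WA : ∀ x ∈ O, ∀ θ, ⟪L.A x, W (x, θ)⟫ = ⟪L.A x, L.q x⟫
  WW : ∀ x ∈ O, ∀ θ, ⟪W (x, θ), W (x, θ)⟫ = ⟪L.q x, L.q x⟫ + L.a x ^ 2
  nd : ∀ x ∈ L.D, ∀ θ, cr (L.p x) (L.A x) (W (x, θ)) ≠ 0
  near : ∀ x ∈ L.D, ∀ θ, ‖W (x, θ) - L.q x‖ ≤ C0 * L.a x
  turn : ∀ x ∈ L.D, ∀ θ, dθ W (x, θ) = 0 →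
    c0 * (L.a x * dd et S x) - C0 ≤ ⟪cr (L.p x) (L.A x) (W (x, θ)), dx et W (x, θ)⟫

/-- The wave length. -/
def ep (n : ℕ) : ℝ := ((n : ℝ) + 1)⁻¹

/-- The two-jets of the new maps follow the loop. -/
def LJets (L : LSet) (W : E × ℝ → V4) (H' : ℕ → E → V4) : Prop :=
  ∀ δ : ℝ, 0 < δ → ∀ᶠ n in atTop, ∀ x ∈ L.D, ∃ θ ∈ Icc (0 : ℝ) 1,
    ‖dd et (H' n) x - L.p x‖ ≤ δ ∧ ‖dd es (H' n) x - W (x, θ)‖ ≤ δ ∧
    ‖dd et (dd et (H' n)) x - L.A x‖ ≤ δ ∧ ‖dd et (dd es (H' n)) x - dx et W (x, θ)‖ ≤ δ ∧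
    ‖ep n • dd es (dd es (H' n)) x - dθ W (x, θ)‖ ≤ δ

/-- The new transversal field. -/
def nn (H' : ℕ → E → V4) (n : ℕ) (x : E) : V4 :=
  dd et (dd et (H' n)) x + ep n • dd es (dd es (H' n)) x

section manifold

variable (M : Type*) [TopologicalSpace M] [ChartedSpace E M]

/-- A system of discs with foliations. -/
structure Sys where
  n : ℕ
  c : Fin n → Ch M
  χ : Fin n → E → ℝ
  sm : ∀ j, ContDiff ℝ ∞ (χ j)
  nonneg : ∀ j x, 0 ≤ χ j x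
  cpt : ∀ j, IsCompact (tsupport (χ j))
  sub : ∀ j, tsupport (χ j) ⊆ (c j).e.target

variable {M}

/-- The edge of a disc. -/
def Sys.Γ (S : Sys M) (j : Fin S.n) : Set M :=
  (S.c j).e.symm '' {x | x ∈ tsupport (S.χ j) ∧ S.χ j x = 0}

/-- The direction of the leaves of the disc `i` in the chart `k`. -/
def Sys.v (S : Sys M) (k i : Fin S.n) (x : E) : E :=
  (S.c k).dQ ((S.c k).e.symm x) ((S.c i).wt ((S.c k).e.symm x))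

/-- General position. -/
structure Sys.GP (S : Sys M) : Prop where
  gp1 : ∀ i k, i ≠ k → (S.Γ i ∩ S.Γ k).Finite
  gp2 : ∀ i k, i ≠ k → ∀ s : ℝ, MeasureTheory.volume
    {t : ℝ | pt s t ∈ tsupport (S.χ k) ∧ (S.c k).e.symm (pt s t) ∈ S.Γ i} = 0
  gp3 : ∀ i i' k, i ≠ i' → ∀ x, S.χ k x ≠ 0 → (S.c k).e.symm x ∈ S.Γ i →
    (S.c k).e.symm x ∈ S.Γ i' → S.v k i x 0 ≠ 0

/-- The invariant of the construction. -/
structure Inv (S : Sys M) (F : M → V4) : Prop where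
  sm : Sm F
  imm : Imm F
  i0 : ∀ p, ∃ v, sff F p v v ≠ 0
  i1 : ∃ n : M → V4, Sm n ∧ (∀ p v, dM F p v ≠ n p) ∧
    ∀ i, ∀ p ∈ S.Γ i, 0 < ⟪n p, sff F p ((S.c i).wt p) ((S.c i).wt p)⟫
  i2 : ∀ i k, i ≠ k → ∀ p ∈ S.Γ i ∩ S.Γ k, 0 < i2 (sff F p) ((S.c i).wt p) ((S.c k).wt p)

/-- The tensor that is added by a step. -/
def Sys.T (S : Sys M) (K : ℕ) (j : Fin S.n) (b : E → ℝ) : M → Bil :=
  (S.c j).push fun x => (S.χ j x ^ K * b x) ^ 2 • tp cs cs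

/-- The metric `G` is reached from `G0` by steps whose leaves are curved. -/
def Sys.Adm (S : Sys M) (K : ℕ) (G0 G : M → Bil) : Prop :=
  ∃ (Q : ℕ) (j : ℕ → Fin S.n) (b : ℕ → E → ℝ) (Gs : ℕ → M → Bil), Gs 0 = G0 ∧ Gs Q = G ∧
    ∀ q < Q, ContDiffOn ℝ ∞ (b q) (S.c (j q)).e.target ∧
      (∀ x ∈ (S.c (j q)).e.target, 0 < b q x) ∧
      (∀ p, Gs (q + 1) p = Gs q p + S.T K (j q) (b q) p) ∧
      ∀ x ∈ tsupport (S.χ (j q)), 0 < kg ((S.c (j q)).pull (Gs q)) x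

/-- Convexity in the direction `n`. -/
def Cvx (F n : M → V4) : Prop := ∀ p v, v ≠ 0 → 0 < ⟪n p, sff F p v v⟫

end manifold

end Crest.Agent.R216
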