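import Crest.Agent.R216.GeoAAux1
import Crest.Agent.R216.LDefs
import Crest.Agent.R216.GeoAAux2

/-!
# Row 216: positivity for small wave lengths
-/

set_option autoImplicit false
set_option linter.unusedSectionVars false

noncomputable section

namespace Crest.Agent.R216

open Set Metric Filter
open scoped ContDiff Topology RealInnerProductSpace

universe u

/-- Uniform neighbourhoods along a compact set. -/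
theorem exists_eta {Z Y : Type*} [TopologicalSpace Z] [PseudoMetricSpace Y] {K : Set Z}
    (hK : IsCompact K) {J : Z → Y} (hJ : ContinuousOn J K) {Ω : Set (Z × Y)}
    (hΩ : ∀ z ∈ K, Ω ∈ 𝓝[K ×ˢ univ] (z, J z)) :
    ∃ η : ℝ, 0 < η ∧ ∀ z ∈ K, ∀ y, dist y (J z) ≤ η → (z, y) ∈ Ω :=
  GeoA1.exists_eta hK hJ hΩ

theorem inner_nn_II5 {p q A B C : V4} (h : gram q p ≠ 0) {ε k : ℝ} (hε : ε ≠ 0)
    (hk : ⟪pn q p A, pn q p C⟫ - ⟪pn q p B, pn q p B⟫ = k) (v : E) :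
    ⟪A + ε • C, II5 p q A B C v v⟫ = f0 p q A B k v + ε * v 1 ^ 2 * (k + ‖pn q p B‖ ^ 2)
      + 2 * (v 1 * v 0) * ⟪pn q p (ε • C), pn q p B⟫ + v 0 ^ 2 * ‖pn q p (ε • C)‖ ^ 2 / ε :=
  GeoA1.inner_nn_II5 h hε hk v

theorem asym_pos {Z : Type*} [TopologicalSpace Z] {K : Set Z} (hK : IsCompact K)
    {p q A B C : Z → V4} {k : Z → ℝ} {v : Z → E} (hp : ContinuousOn p K) (hq : ContinuousOn q K)
    (hA : ContinuousOn A K) (hB : ContinuousOn B K) (hC : ContinuousOn C K)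
    (hk : ContinuousOn k K) (hv : ContinuousOn v K) (hg : ∀ z ∈ K, gram (q z) (p z) ≠ 0)
    (h : ∀ z ∈ K, v z 0 • pn (q z) (p z) (C z) = 0 → 0 < f0 (p z) (q z) (A z) (B z) (k z) (v z)) :
    ∃ η : ℝ, 0 < η ∧ ∀ ε : ℝ, 0 < ε → ε ≤ η → ∀ z ∈ K, ∀ p' q' A' B' C' : V4,
      ‖p' - p z‖ ≤ η → ‖q' - q z‖ ≤ η → ‖A' - A z‖ ≤ η → ‖B' - B z‖ ≤ η → ‖ε • C' - C z‖ ≤ η →
      ⟪pn q' p' A', pn q' p' C'⟫ - ⟪pn q' p' B', pn q' p' B'⟫ = k z →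
      0 < ⟪A' + ε • C', II5 p' q' A' B' C' (v z) (v z)⟫ :=
  GeoA1.asym_pos hK hp hq hA hB hC hk hv hg h

/-- A large second derivative dominates. -/
theorem i2_pos_of_large {v w : E} (hv : v 0 ≠ 0) (hw : w 0 ≠ 0) (Cb : ℝ) : ∃ L : ℝ,
    ∀ (p q A B C : V4) (k : ℝ), ‖pn q p A‖ ≤ Cb → |k| ≤ Cb →
      ⟪pn q p A, pn q p C⟫ - ⟪pn q p B, pn q p B⟫ = k →
      (L ≤ ‖pn q p B‖ ∨ L ≤ ‖pn q p C‖) → 0 < i2 (II5 p q A B C) v w :=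
  GeoAAux2.i2_pos_of_large hv hw Cb

theorem asym_i2 {v w : E} (hv : v 0 ≠ 0) (hw : w 0 ≠ 0) (Cb : ℝ) : ∃ L : ℝ,
    ∀ {K : Set ℝ}, IsCompact K → ∀ (p A : V4) (k : ℝ) {q B C : ℝ → V4}, ContinuousOn q K →
      ContinuousOn B K → ContinuousOn C K → (∀ z ∈ K, gram (q z) p ≠ 0) → ‖A‖ ≤ Cb → |k| ≤ Cb →
      (∀ z ∈ K, pn (q z) p (C z) = 0 → L ≤ ‖pn (q z) p (B z)‖) →
      ∃ η : ℝ, 0 < η ∧ ∀ ε : ℝ, 0 < ε → ε ≤ η → ∀ z ∈ K, ∀ p' q' A' B' C' : V4,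
        ‖p' - p‖ ≤ η → ‖q' - q z‖ ≤ η → ‖A' - A‖ ≤ η → ‖B' - B z‖ ≤ η → ‖ε • C' - C z‖ ≤ η →
        ⟪pn q' p' A', pn q' p' C'⟫ - ⟪pn q' p' B', pn q' p' B'⟫ = k →
        0 < i2 (II5 p' q' A' B' C') v w :=
  GeoAAux2.asym_i2 hv hw Cb

/-- A bounded function that increases quickly along the leaves on a set with null slices. -/
theorem exists_shift {Γ : Set E} (hΓ : IsCompact Γ)
    (h : ∀ s : ℝ, MeasureTheory.volume {t : ℝ | pt s t ∈ Γ} = 0) (Λ : ℝ) :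
    ∃ S : E → ℝ, Shift S ∧ ∀ x ∈ Γ, Λ ≤ dd et S x :=
  GeoAAux2.exists_shift hΓ h Λ

/-- Stability in the collar. -/
theorem collar_pos {O Y : Set E} (hO : IsOpen O) (hY : IsCompact Y) (hYO : Y ⊆ O) {H : E → V4}
    (hH : ContDiffOn ℝ ∞ H O) (hg : ∀ x ∈ O, gram (dd es H x) (dd et H x) ≠ 0)
    {H' : ℕ → E → V4} (hH' : ∀ n, ContDiffOn ℝ ∞ (H' n) O)
    (hc : ∀ δ : ℝ, 0 < δ → ∀ᶠ n in atTop, ∀ x ∈ Y, ∀ m ≤ 2,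
      ‖iteratedFDeriv ℝ m (fun y => H' n y - H y) x‖ ≤ δ)
    {n0 : E → V4} {ψ : E → ℝ} {v : E → E} (hn : ContinuousOn n0 Y) (hψ : ContinuousOn ψ Y)
    (hv : ContinuousOn v Y)
    (h : ∀ x ∈ Y, 0 < ⟪n0 x + ψ x • dd et (dd et H) x, sffE H x (v x) (v x)⟫) :
    ∀ᶠ n in atTop, ∀ x ∈ Y, 0 < ⟪n0 x + ψ x • nn H' n x, sffE (H' n) x (v x) (v x)⟫ :=
  GeoA1.collar_pos hO hY hYO hH hg hH' hc hn hψ hv h

end Crest.Agent.R216
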