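import Crest.Agent.R216.LDefs
import Crest.Agent.R216.MCl

/-!
# Row 216: auxiliary lemmas for `Stab.lean`, part A
-/

set_option autoImplicit false
set_option linter.unusedSectionVars false

noncomputable section

namespace Crest.Agent.R216.StabAuxA

open Set Metric Filter
open scoped Manifold ContDiff Topology RealInnerProductSpace

theorem contDiffAt_dd {H : E → V4} {x : E} (hH : ContDiffAt ℝ ∞ H x) (v : E) :
    ContDiffAt ℝ ∞ (dd v H) x :=
  (hH.fderiv_right (m := ∞) (by simp)).clm_apply contDiffAt_const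

theorem continuousAt_sffE {O : Set E} (hO : IsOpen O) {H : E → V4} (hH : ContDiffOn ℝ ∞ H O)
    (hg : ∀ x ∈ O, gram (dd es H x) (dd et H x) ≠ 0) {x : E} (hx : x ∈ O) {v : E → E}
    (hv : ContinuousAt v x) : ContinuousAt (fun y => sffE H y (v y) (v y)) x := by
  have h := hH.contDiffAt (hO.mem_nhds hx)
  have h0 : ContinuousAt (fun y => v y 0) x := by fun_prop
  have h1 : ContinuousAt (fun y => v y 1) x := by fun_prop
  have a := fun w => (contDiffAt_dd h w).continuousAt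
  have b := fun w w' => (contDiffAt_dd (contDiffAt_dd h w) w').continuousAt
  refine ContinuousAt.congr ?_ (eventually_of_mem (hO.mem_nhds hx) fun y hy =>
    (sffE_eq (hH.contDiffAt (hO.mem_nhds hy)) (hg y hy) _ _).symm)
  exact ContinuousAt.comp (g := fun q : V4 × V4 × V4 => pn q.1 q.2.1 q.2.2)
    (f := fun y => (dd es H y, dd et H y, (v y 1 * v y 1) • dd et (dd et H) y +
      (v y 0 * v y 1 + v y 1 * v y 0) • dd et (dd es H) y + (v y 0 * v y 0) • dd es (dd es H) y))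
    (continuousOn_pn.continuousAt ((isOpen_ne_fun (contDiff_gram.continuous.comp
      (f := fun q : V4 × V4 × V4 => (q.1, q.2.1)) (by fun_prop)) continuous_const).mem_nhds
      (hg x hx)))
    ((a es).prodMk ((a et).prodMk ((((h1.mul h1).smul (b _ _)).add
      (((h0.mul h1).add (h1.mul h0)).smul (b _ _))).add ((h0.mul h0).smul (b _ _)))))

theorem inner_tt {H : E → V4} {x : E} (hH : ContDiffAt ℝ ∞ H x)
    (hg : gram (dd es H x) (dd et H x) ≠ 0) (v : E) :
    ⟪dd et (dd et H) x, sffE H x v v⟫ = ⟪sffE H x et et, sffE H x v v⟫ := by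
  rw [sffE_eq hH hg, sffE_eq hH hg, II5_et, II5, inner_pn_pn hg]

theorem exists_bump {K U : Set E} (hK : IsCompact K) (hU : ∀ x ∈ K, U ∈ 𝓝 x) :
    ∃ ψ : E → ℝ, ContDiff ℝ ∞ ψ ∧ IsCompact (tsupport ψ) ∧ tsupport ψ ⊆ U ∧ (∀ x ∈ K, ψ x = 1) ∧
      ∀ x, ψ x ∈ Icc (0 : ℝ) 1 := by
  obtain ⟨L, hL, h1, h2⟩ := exists_compact_between hK isOpen_interior
    fun x hx => mem_interior_iff_mem_nhds.2 (hU x hx)
  obtain ⟨ψ, h3, h4, h5⟩ := exists_contMDiffMap_zero_one_of_isClosed (n := ⊤) 𝓘(ℝ, E)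
    (isOpen_interior (s := L)).isClosed_compl hK.isClosed (disjoint_compl_left_iff_subset.2 h1)
  have h6 : tsupport ψ ⊆ L := closure_minimal
    (fun x hx => interior_subset (by_contra fun h => hx (h3 h))) hL.isClosed
  exact ⟨ψ, ψ.contMDiff.contDiff, hL.of_isClosed_subset (isClosed_tsupport _) h6,
    h6.trans (h2.trans interior_subset), h4, h5⟩

theorem conv_pos {a b c : V4} {t : ℝ} (ht : t ∈ Icc (0 : ℝ) 1) (ha : 0 < ⟪a, c⟫)
    (hb : 0 < ⟪b, c⟫) : 0 < ⟪(1 - t) • a + t • b, c⟫ := by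
  rw [inner_add_left, real_inner_smul_left, real_inner_smul_left]
  exact convex_Ioi (𝕜 := ℝ) (0 : ℝ) ha hb (sub_nonneg.2 ht.2) ht.1 (sub_add_cancel _ _)

end Crest.Agent.R216.StabAuxA
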