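import Crest.Agent.R216.MCl

/-!
# Row 216: stability of open conditions on two-jets (auxiliary file of `Stab`)
-/

set_option autoImplicit false
set_option linter.unusedSectionVars false

noncomputable section

namespace Crest.Agent.R216.StabAuxB

open Set Metric Filter
open scoped Manifold ContDiff Topology RealInnerProductSpace

universe u

/-- A vector and a two-jet. -/
abbrev J6 : Type := V4 × V4 × V4 × V4 × V4 × V4

/-- The two-jet of `H` with the vector `N`. -/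
def jet (N : E → V4) (H : E → V4) (x : E) : J6 :=
  (N x, dd et H x, dd es H x, dd et (dd et H) x, dd et (dd es H) x, dd es (dd es H) x)

/-- The second fundamental form of a jet. -/
def II (y : J6) : E → E → V4 := II5 y.2.1 y.2.2.1 y.2.2.2.1 y.2.2.2.2.1 y.2.2.2.2.2

/-- The immersive jets. -/
def G : Set J6 := {y | gram y.2.2.1 y.2.1 ≠ 0}

theorem isOpen_G : IsOpen G :=
  isOpen_ne_fun (contDiff_gram.continuous.comp (f := fun y : J6 => (y.2.2.1, y.2.1)) (by fun_prop))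
    continuous_const

theorem cont_pn {a : J6 → V4} (ha : Continuous a) :
    ContinuousOn (fun y : J6 => pn y.2.2.1 y.2.1 (a y)) G :=
  continuousOn_pn.comp (f := fun y : J6 => (y.2.2.1, y.2.1, a y)) (by fun_prop) fun _ hy => hy

theorem cont_II (v w : E) : ContinuousOn (fun y => II y v w) G :=
  cont_pn (by fun_prop)

theorem sm_dd {O : Set E} (hO : IsOpen O) {f : E → V4} (hf : ContDiffOn ℝ ∞ f O) (v : E) :
    ContDiffOn ℝ ∞ (dd v f) O :=
  (hf.fderiv_of_isOpen hO (by simp)).clm_apply contDiffOn_const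

theorem diffAt {O : Set E} (hO : IsOpen O) {f : E → V4} (hf : ContDiffOn ℝ ∞ f O) {x : E}
    (hx : x ∈ O) : DifferentiableAt ℝ f x :=
  (hf.contDiffAt (hO.mem_nhds hx)).differentiableAt (by simp)

theorem norm_es : ‖es‖ = 1 := by simp [es]
theorem norm_et : ‖et‖ = 1 := by simp [et]

theorem dist_jet {O : Set E} (hO : IsOpen O) {H H' : E → V4} (hH : ContDiffOn ℝ ∞ H O)
    (hH' : ContDiffOn ℝ ∞ H' O) (N : E → V4) {x : E} (hx : x ∈ O) {δ : ℝ}
    (h : ∀ m ≤ 2, ‖iteratedFDeriv ℝ m (fun y => H' y - H y) x‖ ≤ δ) :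
    dist (jet N H' x) (jet N H x) ≤ δ := by
  have h1 : ∀ v, ‖v‖ = 1 → dist (dd v H' x) (dd v H x) ≤ δ := fun v hv => by
    rw [dist_eq_norm, ← dd_sub (diffAt hO hH' hx) (diffAt hO hH hx)]
    refine (norm_dd_le _ x v).trans ?_
    rw [hv, mul_one]
    exact h 1 one_le_two
  have h2 : ∀ v w, ‖v‖ = 1 → ‖w‖ = 1 → dist (dd v (dd w H') x) (dd v (dd w H) x) ≤ δ :=
    fun v w hv hw => by
      rw [dist_eq_norm, ← dd_sub (diffAt hO (sm_dd hO hH' w) hx) (diffAt hO (sm_dd hO hH w) hx),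
        ← dd_congr hO (fun y hy => dd_sub (diffAt hO hH' hy) (diffAt hO hH hy) w) hx]
      refine (norm_dd_dd_le ((hH'.sub hH).contDiffAt (hO.mem_nhds hx)) v w).trans ?_
      rw [hv, hw, mul_one, mul_one]
      exact h 2 le_rfl
  have h0 : 0 ≤ δ := (norm_nonneg _).trans (h 0 zero_le_two)
  simp only [jet, Prod.dist_eq, max_le_iff, dist_self]
  exact ⟨h0, h1 _ norm_et, h1 _ norm_es, h2 _ _ norm_et norm_et, h2 _ _ norm_et norm_es,
    h2 _ _ norm_es norm_es⟩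

variable {M : Type u} [TopologicalSpace M] [T2Space M] [CompactSpace M] [ChartedSpace E M]
  [IsManifold (𝓡 2) ∞ M] {Y : Set M} {F : M → V4} {F' : ℕ → M → V4}

theorem master (h : Close Y F' F) (hF : Sm F) (hF' : ∀ n, Sm (F' n)) (c : Ch M) {K : Set E}
    (hK : IsCompact K) (hKc : K ⊆ c.e.target) (hKY : ∀ x ∈ K, c.e.symm x ∈ Y) {N : M → V4}
    (hN : Sm N) {Ω : Set J6} (hΩ : IsOpen Ω) (h0 : ∀ x ∈ K, jet (c.rd N) (c.rd F) x ∈ Ω) :
    ∀ᶠ n in atTop, ∀ x ∈ K, jet (c.rd N) (c.rd (F' n)) x ∈ Ω := by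
  have hO := c.e.open_target
  have s0 := c.contDiffOn_rd hF
  have hc : ContinuousOn (jet (c.rd N) (c.rd F)) K :=
    ((c.contDiffOn_rd hN).prodMk ((sm_dd hO s0 _).prodMk ((sm_dd hO s0 _).prodMk
      ((sm_dd hO (sm_dd hO s0 _) _).prodMk ((sm_dd hO (sm_dd hO s0 _) _).prodMk
        (sm_dd hO (sm_dd hO s0 _) _)))))).continuousOn.mono hKc
  obtain ⟨δ, hδ, hs⟩ := (hK.image_of_continuousOn hc).exists_cthickening_subset_open hΩ
    (image_subset_iff.2 h0)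
  filter_upwards [h c K hK hKc δ hδ] with n hn x hx
  exact hs (mem_cthickening_of_dist_le _ _ δ _ (mem_image_of_mem _ hx)
    (dist_jet hO s0 (c.contDiffOn_rd (hF' n)) _ (hKc hx) (hn x hx (hKY x hx))))

/-- The same on a closed set, by means of an atlas. -/
theorem master' (h : Close Y F' F) (hY : IsClosed Y) (hF : Sm F) (hF' : ∀ n, Sm (F' n))
    {N : M → V4} (hN : Sm N) {Ω : Set J6} (hΩ : IsOpen Ω)
    (h0 : ∀ (c : Ch M), ∀ p ∈ c.e.source, p ∈ Y → jet (c.rd N) (c.rd F) (c.e p) ∈ Ω) :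
    ∀ᶠ n in atTop, ∀ p ∈ Y, ∃ c : Ch M, p ∈ c.e.source ∧
      jet (c.rd N) (c.rd (F' n)) (c.e p) ∈ Ω := by
  obtain ⟨𝒜⟩ := exists_atl (M := M)
  have hsub : ∀ a, closedBall (0 : E) 1 ⊆ (𝒜.c a).e.target := fun a =>
    (closedBall_subset_closedBall (by norm_num)).trans (𝒜.sub a)
  have h1 : ∀ a, ∀ᶠ n in atTop, ∀ x ∈ closedBall (0 : E) 1 ∩ (𝒜.c a).e.symm ⁻¹' Y,
      jet ((𝒜.c a).rd N) ((𝒜.c a).rd (F' n)) x ∈ Ω := fun a => by
    refine master h hF hF' (𝒜.c a) ?_ (inter_subset_left.trans (hsub a)) (fun x hx => hx.2) hN hΩ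
      fun x hx => ?_
    · exact (isCompact_closedBall 0 1).of_isClosed_subset
        (((𝒜.c a).e.continuousOn_symm.mono (hsub a)).preimage_isClosed_of_isClosed
          isClosed_closedBall hY) inter_subset_left
    · have := h0 (𝒜.c a) _ ((𝒜.c a).e.map_target (hsub a hx.1)) hx.2
      rwa [(𝒜.c a).e.right_inv (hsub a hx.1)] at this
  filter_upwards [eventually_all.2 h1] with n hn p hp
  obtain ⟨a, -, ha⟩ := Finset.exists_ne_zero_of_sum_ne_zero
    (s := Finset.univ) (f := fun a => 𝒜.ρ a p) (by rw [𝒜.sum p]; exact one_ne_zero)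
  obtain ⟨h2, h3⟩ := 𝒜.supp a p ha
  refine ⟨𝒜.c a, h2, hn a _ ⟨mem_closedBall_zero_iff.2 h3.le, ?_⟩⟩
  rw [mem_preimage, (𝒜.c a).e.left_inv h2]
  exact hp

theorem sff_jet (c : Ch M) {F : M → V4} (hF : Sm F) (N : E → V4) {p : M} (hp : p ∈ c.e.source)
    (hg : jet N (c.rd F) (c.e p) ∈ G) (v w : E) :
    sff F p (c.dP (c.e p) v) (c.dP (c.e p) w) = II (jet N (c.rd F) (c.e p)) v w := by
  have hx := c.e.map_source hp
  have h1 := c.sff_eq hF hx v w
  rw [c.e.left_inv hp] at h1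
  rw [h1]
  exact sffE_eq ((c.contDiffOn_rd hF).contDiffAt (c.e.open_target.mem_nhds hx)) hg v w

theorem sff_jet' (c : Ch M) {F : M → V4} (hF : Sm F) (N : E → V4) {p : M} (hp : p ∈ c.e.source)
    (hg : jet N (c.rd F) (c.e p) ∈ G) (v w : E) :
    sff F p v w = II (jet N (c.rd F) (c.e p)) (c.dQ p v) (c.dQ p w) := by
  rw [← sff_jet c hF N hp hg, c.dP_dQ hp, c.dP_dQ hp]

theorem tr_jet (c : Ch M) {F : M → V4} (hF : Sm F) {p : M} (hp : p ∈ c.e.source)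
    (hg : gram (dd es (c.rd F) (c.e p)) (dd et (c.rd F) (c.e p)) ≠ 0) (y : V4) :
    pn (dd es (c.rd F) (c.e p)) (dd et (c.rd F) (c.e p)) y ≠ 0 ↔ ∀ v, dM F p v ≠ y := by
  have hx := c.e.map_source hp
  have h1 : ∀ v, fderiv ℝ (c.rd F) (c.e p) v = dM F p (c.dP (c.e p) v) := fun v => by
    have := c.fderiv_rd hF hx v
    rwa [c.e.left_inv hp] at this
  refine (pn_ne_zero_iff (fderiv ℝ (c.rd F) (c.e p)) hg y).trans ⟨fun h v => ?_, fun h v => ?_⟩
  · rw [← c.dP_dQ hp v, ← h1]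
    exact h _
  · rw [h1]
    exact h _

theorem rd_apply (c : Ch M) (N : M → V4) {p : M} (hp : p ∈ c.e.source) :
    c.rd N (c.e p) = N p := congrArg N (c.e.left_inv hp)

theorem i0 (h : Close Y F' F) (hY : IsClosed Y) (hF : Sm F) (hi : Imm F)
    (hF' : ∀ n, Sm (F' n)) (h0 : ∀ p ∈ Y, ∃ v, sff F p v v ≠ 0) :
    ∀ᶠ n in atTop, ∀ p ∈ Y, ∃ v, sff (F' n) p v v ≠ 0 := by
  have hΩ : IsOpen (⋃ v : E, G ∩ (fun y => II y v v) ⁻¹' {0}ᶜ) := isOpen_iUnion fun v =>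
    (cont_II v v).isOpen_inter_preimage isOpen_G isOpen_compl_singleton
  filter_upwards [master' h hY hF hF' hF hΩ fun c p hp hpY => by
    obtain ⟨v, hv⟩ := h0 p hpY
    have hg : jet (c.rd F) (c.rd F) (c.e p) ∈ G := hi.gram_ne hF c (c.e.map_source hp)
    rw [sff_jet' c hF _ hp hg] at hv
    exact mem_iUnion.2 ⟨_, hg, hv⟩] with n hn p hp
  obtain ⟨c, hc, hj⟩ := hn p hp
  obtain ⟨v, hg, hv⟩ := mem_iUnion.1 hj
  refine ⟨c.dP (c.e p) v, ?_⟩
  rw [sff_jet c (hF' n) _ hc hg]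
  exact hv

theorem tr (h : Close Y F' F) (hY : IsClosed Y) (hF : Sm F) (hi : Imm F)
    (hF' : ∀ n, Sm (F' n)) {N : M → V4} (hN : Sm N) (h0 : ∀ p ∈ Y, ∀ v, dM F p v ≠ N p) :
    ∀ᶠ n in atTop, ∀ p ∈ Y, ∀ v, dM (F' n) p v ≠ N p := by
  have hΩ : IsOpen (G ∩ (fun y : J6 => pn y.2.2.1 y.2.1 y.1) ⁻¹' {0}ᶜ) :=
    (cont_pn continuous_fst).isOpen_inter_preimage isOpen_G isOpen_compl_singleton
  filter_upwards [master' h hY hF hF' hN hΩ fun c p hp hpY => by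
    have hg := hi.gram_ne hF c (c.e.map_source hp)
    refine ⟨hg, (tr_jet c hF hp hg _).2 ?_⟩
    simpa only [jet, rd_apply c N hp] using h0 p hpY] with n hn p hp
  obtain ⟨c, hc, hg, hj⟩ := hn p hp
  have := (tr_jet c (hF' n) hc hg _).1 hj
  simpa only [jet, rd_apply c N hc] using this

theorem pos (h : Close Y F' F) (hF : Sm F) (hi : Imm F) (hF' : ∀ n, Sm (F' n))
    {N : M → V4} (hN : Sm N) (c : Ch M) (hY : IsCompact Y) (hc : Y ⊆ c.e.source)
    (h0 : ∀ p ∈ Y, 0 < ⟪N p, sff F p (c.wt p) (c.wt p)⟫) :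
    ∀ᶠ n in atTop, ∀ p ∈ Y, 0 < ⟪N p, sff (F' n) p (c.wt p) (c.wt p)⟫ := by
  have hΩ : IsOpen (G ∩ (fun y : J6 => ⟪y.1, II y et et⟫) ⁻¹' Ioi 0) :=
    (continuousOn_fst.inner (𝕜 := ℝ) (cont_II et et)).isOpen_inter_preimage isOpen_G isOpen_Ioi
  filter_upwards [master h hF hF' c (hY.image_of_continuousOn (c.e.continuousOn.mono hc))
    (image_subset_iff.2 fun p hp => c.e.map_source (hc hp))
    (by rintro _ ⟨p, hp, rfl⟩; rwa [c.e.left_inv (hc hp)]) hN hΩ (by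
      rintro _ ⟨p, hp, rfl⟩
      have hg : jet (c.rd N) (c.rd F) (c.e p) ∈ G := hi.gram_ne hF c (c.e.map_source (hc hp))
      have := h0 p hp
      rw [Ch.wt, sff_jet c hF _ (hc hp) hg, ← rd_apply c N (hc hp)] at this
      exact ⟨hg, this⟩)] with n hn p hp
  obtain ⟨hg, hj⟩ := hn _ (mem_image_of_mem _ hp)
  rw [Ch.wt, sff_jet c (hF' n) _ (hc hp) hg, ← rd_apply c N (hc hp)]
  exact hj

theorem i2' (h : Close Y F' F) (hF : Sm F) (hi : Imm F) (hF' : ∀ n, Sm (F' n)) {p : M}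
    (hp : p ∈ Y) {v w : E} (h0 : 0 < i2 (sff F p) v w) :
    ∀ᶠ n in atTop, 0 < i2 (sff (F' n) p) v w := by
  obtain ⟨c, hc⟩ := exists_ch_chartAt (M := M) p
  have hs : p ∈ c.e.source := hc ▸ mem_chart_source E p
  have hcont : ContinuousOn (fun y : J6 => i2 (II y) (c.dQ p v) (c.dQ p w)) G :=
    (((cont_II _ _).inner (𝕜 := ℝ) (cont_II _ _)).pow 2).add
      ((((cont_II _ _).inner (𝕜 := ℝ) (cont_II _ _)).sub ((cont_II _ _).inner (𝕜 := ℝ) (cont_II _ _))).mul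
        ((cont_II _ _).inner (𝕜 := ℝ) (cont_II _ _)))
  have hΩ := hcont.isOpen_inter_preimage isOpen_G (isOpen_Ioi (a := 0))
  have key : ∀ {H : M → V4}, Sm H → jet (c.rd F) (c.rd H) (c.e p) ∈ G →
      i2 (sff H p) v w = i2 (II (jet (c.rd F) (c.rd H) (c.e p))) (c.dQ p v) (c.dQ p w) :=
    fun hH hg => by simp only [i2, sff_jet' c hH _ hs hg]
  filter_upwards [master h hF hF' c (isCompact_singleton (x := c.e p))
    (singleton_subset_iff.2 (c.e.map_source hs))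
    (by rintro _ rfl; rwa [c.e.left_inv hs]) hF hΩ (by
      rintro _ rfl
      have hg : jet (c.rd F) (c.rd F) (c.e p) ∈ G := hi.gram_ne hF c (c.e.map_source hs)
      exact ⟨hg, h0.trans_eq (key hF hg)⟩)] with n hn
  obtain ⟨hg, hj⟩ := hn _ rfl
  rw [key (hF' n) hg]
  exact hj

end Crest.Agent.R216.StabAuxB
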