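import Crest.Agent.R216.LDefs
import Crest.Agent.R216.MCl
import Crest.Agent.R216.GeoA
import Crest.Agent.R216.StabAuxA
import Crest.Agent.R216.StabAuxB

/-!
# Row 216: systems of discs; stability of the invariants
-/

set_option autoImplicit false
set_option linter.unusedSectionVars false

noncomputable section

namespace Crest.Agent.R216

open Set Metric Filter
open scoped Manifold ContDiff Topology RealInnerProductSpace

universe u

variable {M : Type u} [TopologicalSpace M] [T2Space M] [CompactSpace M] [ChartedSpace E M]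
  [IsManifold (𝓡 2) ∞ M]

/-! ## Part A: systems -/

namespace Sys

variable (S : Sys M)

theorem isCompact_Γ (j : Fin S.n) : IsCompact (S.Γ j) :=
  ((S.cpt j).inter_right (isClosed_eq (S.sm j).continuous continuous_const)).image_of_continuousOn
    ((S.c j).e.continuousOn_symm.mono fun _ hx => S.sub j hx.1)
theorem Γ_subset (j : Fin S.n) : S.Γ j ⊆ (S.c j).e.source := by
  rintro _ ⟨x, hx, rfl⟩
  exact (S.c j).e.map_target (S.sub j hx.1)
theorem isCompact_inter (k i : Fin S.n) {K : Set E} (hK : IsCompact K)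
    (hKc : K ⊆ (S.c k).e.target) : IsCompact {x | x ∈ K ∧ (S.c k).e.symm x ∈ S.Γ i} :=
  hK.of_isClosed_subset (((S.c k).e.continuousOn_symm.mono hKc).preimage_isClosed_of_isClosed
    hK.isClosed (S.isCompact_Γ i).isClosed) fun _ hx => hx.1
theorem continuousOn_v (k i : Fin S.n) :
    ContinuousOn (S.v k i) ((S.c k).e.target ∩ (S.c k).e.symm ⁻¹' (S.c i).e.source) := by
  have h : MapsTo ((S.c k).tr (S.c i)) ((S.c k).e.target ∩ (S.c k).e.symm ⁻¹' (S.c i).e.source)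
      ((S.c i).e.target ∩ (S.c i).e.symm ⁻¹' (S.c k).e.source) := fun x hx =>
    ⟨(S.c i).e.map_source hx.2, by
      rw [mem_preimage, Ch.tr, (S.c i).e.left_inv hx.2]
      exact (S.c k).e.map_target hx.1⟩
  refine ((((((S.c i).contDiffOn_tr (S.c k)).continuousOn_fderiv_of_isOpen
    ((S.c i).isOpen_tr (S.c k)) (by simp)).clm_apply (continuousOn_const (c := et))).comp
    ((S.c k).contDiffOn_tr (S.c i)).continuousOn h)).congr fun x hx => ?_
  rw [Function.comp_apply, (S.c i).fderiv_tr (S.c k) (h hx).1 (h hx).2, Ch.tr,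
    (S.c i).e.left_inv hx.2]
  rfl
theorem dP_v (k i : Fin S.n) {x : E} (hx : x ∈ (S.c k).e.target) :
    (S.c k).dP x (S.v k i x) = (S.c i).wt ((S.c k).e.symm x) := by
  have h := (S.c k).dP_dQ ((S.c k).e.map_target hx) ((S.c i).wt ((S.c k).e.symm x))
  rwa [(S.c k).e.right_inv hx] at h
theorem _root_.Crest.Agent.R216.StabAuxA.wt_ne (c : Ch M) {p : M} (hp : p ∈ c.e.source) :
    c.wt p ≠ 0 := fun h => by
  have h1 := c.dQ_dP (c.e.map_source hp) et
  rw [show c.dP (c.e p) et = 0 from h, map_zero] at h1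
  simpa [et] using congrArg (fun v : E => v 1) h1
theorem v_ne (k i : Fin S.n) {x : E} (hx : x ∈ (S.c k).e.target)
    (hi : (S.c k).e.symm x ∈ (S.c i).e.source) : S.v k i x ≠ 0 := fun h =>
  StabAuxA.wt_ne (S.c i) hi (by rw [← S.dP_v k i hx, h, map_zero])
theorem v_self (k : Fin S.n) {x : E} (hx : x ∈ (S.c k).e.target) : S.v k k x = et := by
  rw [v, Ch.wt, (S.c k).e.right_inv hx, (S.c k).dQ_dP hx]
theorem sff_v {F : M → V4} (hF : Sm F) (k i i' : Fin S.n) {x : E} (hx : x ∈ (S.c k).e.target) :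
    sff F ((S.c k).e.symm x) ((S.c i).wt ((S.c k).e.symm x)) ((S.c i').wt ((S.c k).e.symm x)) =
      sffE ((S.c k).rd F) x (S.v k i x) (S.v k i' x) := by
  rw [← (S.c k).sff_eq hF hx, S.dP_v k i hx, S.dP_v k i' hx]
theorem i2_v {F : M → V4} (hF : Sm F) (k i i' : Fin S.n) {x : E} (hx : x ∈ (S.c k).e.target) :
    i2 (sff F ((S.c k).e.symm x)) ((S.c i).wt ((S.c k).e.symm x)) ((S.c i').wt ((S.c k).e.symm x)) =
      i2 (sffE ((S.c k).rd F) x) (S.v k i x) (S.v k i' x) := by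
  simp only [i2, S.sff_v hF k _ _ hx]
theorem mem_Γ_self (k : Fin S.n) {x : E} (hx : x ∈ (S.c k).e.target) :
    (S.c k).e.symm x ∈ S.Γ k ↔ x ∈ tsupport (S.χ k) ∧ S.χ k x = 0 := by
  refine ⟨?_, fun h => ⟨x, h, rfl⟩⟩
  rintro ⟨y, hy, h⟩
  rwa [← (S.c k).e.symm.injOn (S.sub k hy.1) hx h]
theorem isOpen_D (k : Fin S.n) : IsOpen ((S.c k).e.symm '' {y | S.χ k y ≠ 0}) :=
  (S.c k).e.symm.isOpen_image_of_subset_source (isOpen_ne_fun (S.sm k).continuous continuous_const)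
    fun _ hy => S.sub k (subset_tsupport _ hy)

end Sys

theorem Ch.wt_ne (c : Ch M) {p : M} (hp : p ∈ c.e.source) : c.wt p ≠ 0 := StabAuxA.wt_ne c hp

/-- The second fundamental form is normal. -/
theorem inner_dM_sff (F : M → V4) (p : M) (u v w : E) : ⟪dM F p u, sff F p v w⟫ = 0 := by
  by_cases h : MDifferentiableAt (𝓡 2) 𝓘(ℝ, V4) F p
  · refine (Submodule.mem_orthogonal _ _).1 (Submodule.starProjection_apply_mem _ _) _ ⟨u, ?_⟩
    rw [dM, h.mfderiv]
    simp only [mfld_simps, fderivWithin_univ]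
    rfl
  · rw [dM, mfderiv_zero_of_not_mdifferentiableAt h]
    exact inner_zero_left _

theorem tr_iff_pn (c : Ch M) {F : M → V4} (hF : Sm F) (hi : Imm F) {x : E} (hx : x ∈ c.e.target)
    (y : V4) : (∀ v, dM F (c.e.symm x) v ≠ y) ↔
      pn (dd es (c.rd F) x) (dd et (c.rd F) x) y ≠ 0 := by
  refine Iff.trans ⟨fun h v => ?_, fun h v => ?_⟩
    (pn_ne_zero_iff (fderiv ℝ (c.rd F) x) (hi.gram_ne hF c hx) y).symm
  · rw [c.fderiv_rd hF hx]
    exact h _
  · have h1 := c.dP_dQ (c.e.map_target hx) v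
    rw [c.e.right_inv hx] at h1
    rw [← h1, ← c.fderiv_rd hF hx]
    exact h _

/-- The cut-off function for the new transversal field. -/
theorem exists_cut {S : Sys M} {F n : M → V4} (hF : Sm F) (hi : Imm F) (hn : Sm n)
    (h1 : ∀ i, ∀ p ∈ S.Γ i, 0 < ⟪n p, sff F p ((S.c i).wt p) ((S.c i).wt p)⟫)
    (h2 : ∀ i k, i ≠ k → ∀ p ∈ S.Γ i ∩ S.Γ k, 0 < i2 (sff F p) ((S.c i).wt p) ((S.c k).wt p))
    (j : Fin S.n) : ∃ ψ : E → ℝ, ContDiff ℝ ∞ ψ ∧ IsCompact (tsupport ψ) ∧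
      tsupport ψ ⊆ (S.c j).e.target ∧ (∀ x ∈ tsupport (S.χ j), ψ x = 1) ∧
      ∀ x ∈ tsupport ψ, S.χ j x = 0 → ∀ i, (i = j ∨ (S.c j).e.symm x ∈ S.Γ i) →
        0 < ⟪(1 - ψ x) • (S.c j).rd n x + ψ x • dd et (dd et ((S.c j).rd F)) x,
          sffE ((S.c j).rd F) x (S.v j i x) (S.v j i x)⟫ := by
  have hO := (S.c j).e.open_target
  have hH := (S.c j).contDiffOn_rd hF
  have hg := fun x (hx : x ∈ (S.c j).e.target) => hi.gram_ne hF (S.c j) hx
  obtain ⟨ψ, a1, a2, a3, a4, a5⟩ := StabAuxA.exists_bump (S.cpt j)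
    (U := {x | x ∈ (S.c j).e.target ∧ (S.χ j x = 0 →
      0 < ⟪(S.c j).rd n x, sffE ((S.c j).rd F) x et et⟫ ∧ ∀ i, i ≠ j → (S.c j).e.symm x ∈ S.Γ i →
        0 < ⟪sffE ((S.c j).rd F) x et et, sffE ((S.c j).rd F) x (S.v j i x) (S.v j i x)⟫)})
    fun x hx => by
      have hx' := S.sub j hx
      refine Eventually.and (hO.mem_nhds hx') ?_
      by_cases h0 : S.χ j x = 0
      swap
      · exact ((S.sm j).continuous.continuousAt.eventually_ne h0).mono fun y hy h => (hy h).elim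
      have hΓ := (S.mem_Γ_self j hx').2 ⟨hx, h0⟩
      have hc := StabAuxA.continuousAt_sffE hO hH hg hx' (continuousAt_const (y := et))
      refine (Eventually.and ?_ (eventually_all.2 fun i => ?_)).mono fun y hy _ => hy
      · refine continuousAt_const.eventually_lt (ContinuousAt.inner (𝕜 := ℝ)
          ((((S.c j).contDiffOn_rd hn).continuousOn).continuousAt (hO.mem_nhds hx')) hc) ?_
        have := h1 j _ hΓ
        rwa [S.sff_v hF j j j hx', S.v_self j hx'] at this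
      by_cases hij : i = j
      · exact Eventually.of_forall fun y h => (h hij).elim
      by_cases hi' : (S.c j).e.symm x ∈ S.Γ i
      swap
      · exact (((S.c j).e.continuousAt_symm hx').eventually
          ((S.isCompact_Γ i).isClosed.isOpen_compl.mem_nhds hi')).mono fun y hy _ h => (hy h).elim
      refine Eventually.mono ?_ fun y hy _ _ => hy
      refine continuousAt_const.eventually_lt (ContinuousAt.inner (𝕜 := ℝ) hc
        (StabAuxA.continuousAt_sffE hO hH hg hx' ((S.continuousOn_v j i).continuousAt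
          (((S.c j).isOpen_tr (S.c i)).mem_nhds ⟨hx', S.Γ_subset i hi'⟩)))) ?_
      have := h2 i j hij _ ⟨hi', hΓ⟩
      rw [S.i2_v hF j i j hx', S.v_self j hx'] at this
      exact pos_of_i2 this
  refine ⟨ψ, a1, a2, fun x hx => (a3 hx).1, a4, fun x hx h0 i hi' => ?_⟩
  obtain ⟨hx', b⟩ := a3 hx
  obtain ⟨b1, b2⟩ := b h0
  have e := StabAuxA.inner_tt (hH.contDiffAt (hO.mem_nhds hx')) (hg x hx')
  by_cases hij : i = j
  · subst hij
    rw [S.v_self i hx']
    refine StabAuxA.conv_pos (a5 x) b1 ?_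
    rw [e]
    refine real_inner_self_pos.2 fun h => ?_
    rw [h, inner_zero_right] at b1
    exact b1.false
  · have hΓ := hi'.resolve_left hij
    refine StabAuxA.conv_pos (a5 x) ?_ (by rw [e]; exact b2 i hij hΓ)
    rw [← S.sff_v hF j i i hx']
    exact h1 i _ hΓ

/-! ## Part B: stability -/

section stab

variable {Y : Set M} {F : M → V4} {F' : ℕ → M → V4}

theorem Close.mono (h : Close Y F' F) {Y' : Set M} (hY : Y' ⊆ Y) : Close Y' F' F :=
  fun c K hK hKc δ hδ => (h c K hK hKc δ hδ).mono fun _ hn x hx hxY => hn x hx (hY hxY)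

theorem Close.i0 (h : Close Y F' F) (hY : IsClosed Y) (hF : Sm F) (hi : Imm F)
    (hF' : ∀ n, Sm (F' n)) (h0 : ∀ p ∈ Y, ∃ v, sff F p v v ≠ 0) :
    ∀ᶠ n in atTop, ∀ p ∈ Y, ∃ v, sff (F' n) p v v ≠ 0 :=
  StabAuxB.i0 h hY hF hi hF' h0

theorem Close.tr (h : Close Y F' F) (hY : IsClosed Y) (hF : Sm F) (hi : Imm F)
    (hF' : ∀ n, Sm (F' n)) {N : M → V4} (hN : Sm N) (h0 : ∀ p ∈ Y, ∀ v, dM F p v ≠ N p) :
    ∀ᶠ n in atTop, ∀ p ∈ Y, ∀ v, dM (F' n) p v ≠ N p :=
  StabAuxB.tr h hY hF hi hF' hN h0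

theorem Close.pos (h : Close Y F' F) (hF : Sm F) (hi : Imm F) (hF' : ∀ n, Sm (F' n))
    {N : M → V4} (hN : Sm N) (c : Ch M) (hY : IsCompact Y) (hc : Y ⊆ c.e.source)
    (h0 : ∀ p ∈ Y, 0 < ⟪N p, sff F p (c.wt p) (c.wt p)⟫) :
    ∀ᶠ n in atTop, ∀ p ∈ Y, 0 < ⟪N p, sff (F' n) p (c.wt p) (c.wt p)⟫ :=
  StabAuxB.pos h hF hi hF' hN c hY hc h0

theorem Close.i2 (h : Close Y F' F) (hF : Sm F) (hi : Imm F) (hF' : ∀ n, Sm (F' n)) {p : M}
    (hp : p ∈ Y) {v w : E} (h0 : 0 < i2 (sff F p) v w) :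
    ∀ᶠ n in atTop, 0 < i2 (sff (F' n) p) v w :=
  StabAuxB.i2' h hF hi hF' hp h0

end stab

end Crest.Agent.R216
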