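import Crest.Agent.R216.LargeA
import Crest.Agent.R216.GeoB
import Crest.Agent.R216.Stab
import Crest.Agent.R216.LargeAuxP

/-!
# Row 216: a step of large amplitude
-/

set_option autoImplicit false
set_option linter.unusedSectionVars false

noncomputable section

namespace Crest.Agent.R216

open Set Metric Filter
open scoped Manifold ContDiff Topology RealInnerProductSpace

universe u

variable {M : Type u} [TopologicalSpace M] [T2Space M] [CompactSpace M] [ChartedSpace E M]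
  [IsManifold (𝓡 2) ∞ M]

/-- Gluing of the new transversal field. -/
theorem inv_of_pieces {S : Sys M} {F n : M → V4} (hF : Inv S F) (hn : Sm n)
    (hn1 : ∀ p v, dM F p v ≠ n p)
    (hn2 : ∀ i, ∀ p ∈ S.Γ i, 0 < ⟪n p, sff F p ((S.c i).wt p) ((S.c i).wt p)⟫)
    (hfin : ∀ i k, i ≠ k → (S.Γ i ∩ S.Γ k).Finite) (j : Fin S.n) {F' : ℕ → M → V4}
    (hs : ∀ m, Sm (F' m)) (hi : ∀ᶠ m in atTop, Imm (F' m))
    (hc : Close ((S.c j).e.symm '' {y | S.χ j y ≠ 0})ᶜ F' F)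
    (h1 : ∀ᶠ m in atTop, ∀ x ∈ tsupport (S.χ j), ∀ i, (i = j ∨ (S.c j).e.symm x ∈ S.Γ i) →
      0 < ⟪nn (fun m => (S.c j).rd (F' m)) m x,
        sffE ((S.c j).rd (F' m)) x (S.v j i x) (S.v j i x)⟫)
    (h2 : ∀ᶠ m in atTop, ∀ i k, i ≠ k → ∀ x, S.χ j x ≠ 0 → (S.c j).e.symm x ∈ S.Γ i →
      (S.c j).e.symm x ∈ S.Γ k → 0 < i2 (sffE ((S.c j).rd (F' m)) x) (S.v j i x) (S.v j k x)) :
    ∀ᶠ m in atTop, Inv S (F' m) :=
  LargeAuxP.inv_of_pieces hF hn hn1 hn2 hfin j hs hi hc h1 h2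

variable (M) in
theorem large_step : ∃ K : ℕ, 1 ≤ K ∧ ∀ (S : Sys M), S.GP → ∀ (F : M → V4), Inv S F →
    ∀ (j : Fin S.n) (b : E → ℝ), ContDiffOn ℝ ∞ b (S.c j).e.target →
      (∀ x ∈ (S.c j).e.target, 0 < b x) →
      (∀ x ∈ tsupport (S.χ j), 0 < kg ((S.c j).pull (ind F)) x) →
      ∃ F' : M → V4, Inv S F' ∧ ∀ p, ind F' p = ind F p + S.T K j b p := by
  obtain ⟨K0, hK0, hA⟩ := large_analytic M
  refine ⟨K0, by omega, ?_⟩
  intro S gp F hF j b hb hb0 hkg
  obtain ⟨n, hn, hn1, hn2⟩ := hF.i1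
  have hO : IsOpen (S.c j).e.target := (S.c j).e.open_target
  have hpull : ∀ {G : M → V4}, Sm G → ∀ x ∈ (S.c j).e.target,
      (S.c j).pull (ind G) =ᶠ[𝓝 x] indE ((S.c j).rd G) := by
    intro G hG x hx
    filter_upwards [hO.mem_nhds hx] with y hy
    exact (S.c j).pull_ind hG hy
  let L : LSet :=
    { O := (S.c j).e.target
      hO := hO
      H := (S.c j).rd F
      smH := (S.c j).contDiffOn_rd hF.sm
      χ := S.χ j
      smχ := S.sm j
      χ0 := S.nonneg j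
      cpt := S.cpt j
      sub := S.sub j
      b := b
      smb := hb
      b0 := hb0
      K := K0
      n := (S.c j).rd n
      smn := (S.c j).contDiffOn_rd hn
      imm := fun x hx => hF.imm.gram_ne hF.sm (S.c j) hx
      kgp := fun x hx => by
        rw [← kg_congr (hpull hF.sm x (S.sub j hx))]
        exact hkg x hx
      ntr := fun x hx => (tr_iff_pn (S.c j) hF.sm hF.imm hx _).1 (hn1 _)
      npos := fun x hx h0 => by
        have h1 := hn2 j _ ((S.mem_Γ_self j (S.sub j hx)).2 ⟨hx, h0⟩)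
        rw [S.sff_v hF.sm j j j (S.sub j hx), S.v_self j (S.sub j hx)] at h1
        exact h1 }
  obtain ⟨c0, C0, hc0, hS2⟩ := hA F (S.c j) L le_rfl hF.sm hF.imm hF.i0 rfl rfl
  have hne : ∀ i x, S.χ j x ≠ 0 → (S.c j).e.symm x ∈ S.Γ i → i ≠ j := by
    intro i x hx hi hij
    subst hij
    have hx' : x ∈ tsupport (S.χ i) := subset_tsupport _ hx
    exact hx ((S.mem_Γ_self i (S.sub i hx')).1 hi).2
  let X : Set (E × E × E) := {y | ∃ i k, i ≠ k ∧ S.χ j y.1 ≠ 0 ∧ (S.c j).e.symm y.1 ∈ S.Γ i ∧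
    (S.c j).e.symm y.1 ∈ S.Γ k ∧ y.2.1 = S.v j i y.1 ∧ y.2.2 = S.v j k y.1}
  have hX : X.Finite := by
    have h1 : ∀ i k : Fin S.n, ((fun p : M => (((S.c j).e p, S.v j i ((S.c j).e p),
        S.v j k ((S.c j).e p)) : E × E × E)) '' {p | i ≠ k ∧ p ∈ S.Γ i ∩ S.Γ k}).Finite := by
      intro i k
      refine Finite.image _ ?_
      by_cases hik : i = k
      · exact finite_empty.subset fun p hp => hp.1 hik
      · exact (gp.gp1 i k hik).subset fun p hp => hp.2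
    refine (finite_iUnion fun i => finite_iUnion fun k => h1 i k).subset ?_
    rintro ⟨x, v, w⟩ ⟨i, k, hik, hx, hi, hk, hv, hw⟩
    have hx' : x ∈ (S.c j).e.target := S.sub j (subset_tsupport _ hx)
    refine mem_iUnion.2 ⟨i, mem_iUnion.2 ⟨k, (S.c j).e.symm x, ⟨hik, hi, hk⟩, ?_⟩⟩
    have he : (S.c j).e ((S.c j).e.symm x) = x := (S.c j).e.right_inv hx'
    show ((S.c j).e ((S.c j).e.symm x), S.v j i ((S.c j).e ((S.c j).e.symm x)),
      S.v j k ((S.c j).e ((S.c j).e.symm x))) = (x, v, w)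
    rw [he]
    exact Prod.ext rfl (Prod.ext hv.symm hw.symm)
  obtain ⟨S2, hsh, hin⟩ := inside L hK0 hc0 C0 (α := {i : Fin S.n // i ≠ j})
    (Γ := fun i => {x | x ∈ tsupport (S.χ j) ∧ (S.c j).e.symm x ∈ S.Γ i.1})
    (v := fun i => S.v j i.1)
    (fun i => S.isCompact_inter j i.1 (S.cpt j) (S.sub j))
    (fun i x hx => hx.1)
    (fun i => (S.continuousOn_v j i.1).mono fun x hx => ⟨S.sub j hx.1, S.Γ_subset i.1 hx.2⟩)
    (fun i x hx => S.v_ne j i.1 (S.sub j hx.1) (S.Γ_subset i.1 hx.2))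
    (fun i s => gp.gp2 i.1 j i.2 s)
    (fun i x hx h0 => by
      have h1 := hF.i2 i.1 j i.2 _ ⟨hx.2, (S.mem_Γ_self j (S.sub j hx.1)).2 ⟨hx.1, h0⟩⟩
      rw [S.i2_v hF.sm j i.1 j (S.sub j hx.1), S.v_self j (S.sub j hx.1)] at h1
      exact h1)
    hX
    (by
      rintro ⟨x, v, w⟩ ⟨i, k, hik, hx, hi, hk, hv, hw⟩
      refine ⟨⟨⟨i, hne i x hx hi⟩, subset_tsupport _ hx, hi⟩, hx, ?_, ?_⟩
      · rw [hv]
        exact gp.gp3 i k j hik x hx hi hk
      · rw [hw]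
        exact gp.gp3 k i j (Ne.symm hik) x hx hk hi)
  obtain ⟨O, W, hl, F', hs, hm, hj, hcl⟩ := hS2 S2 hsh
  have hmet : ∀ᶠ m in atTop, ∀ x ∈ L.O, indE ((S.c j).rd (F' m)) x = L.G1 x := by
    filter_upwards [hm] with m hm x hx
    have h1 : ind (F' m) =
        fun p => ind F p + (S.c j).push (fun x => L.a x ^ 2 • tp cs cs) p := funext hm
    rw [← (S.c j).pull_ind (hs m) hx, h1, Ch.pull_add, (S.c j).pull_push _ hx,
      (S.c j).pull_ind hF.sm hx]
    rfl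
  have hres := hin hl hj (fun m => (S.c j).contDiffOn_rd (hs m)) hmet
  have ha : ContDiffOn ℝ ∞ L.a (S.c j).e.target := ((S.sm j).contDiffOn.pow K0).mul hb
  have ha0 : ∀ x ∈ (S.c j).e.target, x ∉ tsupport (S.χ j) → L.a x = 0 := by
    intro x _ hx
    have h0 : S.χ j x = 0 := image_eq_zero_of_notMem_tsupport hx
    show S.χ j x ^ K0 * b x = 0
    rw [h0, zero_pow (by omega), zero_mul]
  have hi : ∀ᶠ m in atTop, Imm (F' m) := by
    filter_upwards [hm] with m hm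
    have h1 : ind (F' m) =
        fun p => ind F p + (S.c j).push (fun x => L.a x ^ 2 • tp cs cs) p := funext hm
    refine imm_of_met ?_
    rw [h1]
    exact met_add_push (met_ind hF.sm hF.imm) (S.c j) ha (S.cpt j) (S.sub j) ha0
  have hInv := inv_of_pieces hF hn hn1 hn2 gp.gp1 j hs hi hcl
    (by
      filter_upwards [hres] with m hm x hx i hi
      by_cases hij : i = j
      · rw [hij, S.v_self j (S.sub j hx)]
        exact hm.1 x hx
      · exact hm.2.1 ⟨i, hij⟩ x ⟨hx, hi.resolve_left hij⟩)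
    (by
      filter_upwards [hres] with m hm i k hik x hx hi hk
      exact hm.2.2 (x, S.v j i x, S.v j k x) ⟨i, k, hik, hx, hi, hk, rfl, rfl⟩)
  obtain ⟨m, h1, h2⟩ := (hInv.and hm).exists
  exact ⟨F' m, h1, h2⟩

end Crest.Agent.R216
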