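import Crest.Agent.R216.Start
import Crest.Agent.R216.CovC
import Crest.Agent.R216.Large

/-!
# Row 216: the theorem
-/

set_option autoImplicit false
set_option linter.unusedSectionVars false

noncomputable section

namespace Crest.Agent.R216

open Set Metric Filter
open scoped Manifold ContDiff Topology RealInnerProductSpace

universe u

variable {M : Type u} [TopologicalSpace M] [T2Space M] [CompactSpace M] [ChartedSpace E M]
  [IsManifold (𝓡 2) ∞ M]

theorem exists_isometric {G : M → Bil} (hG : Met G) : ∃ F : M → V4, Sm F ∧ ind F = G := by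
  rcases isEmpty_or_nonempty M with hM | hM
  · exact ⟨fun _ => 0, contMDiff_const, funext fun p => hM.elim p⟩
  obtain ⟨K, hK, hstep⟩ := large_step M
  obtain ⟨𝒜⟩ := exists_atl (M := M)
  obtain ⟨F0, n, hF0, hi0, hn, hp, hc, hd⟩ := exists_start hG
  obtain ⟨S, hS, ⟨D⟩⟩ := exists_dec (met_ind hF0 hi0) hd
  obtain ⟨η, hη, hadm⟩ := D.adm (smT_ind hF0) hG hd 𝒜 K hK
  obtain ⟨F1, hF1, hnear⟩ := start_inv 𝒜 hS hF0 hi0 hn hc hp hη
  obtain ⟨Q, j, b, Gs, h0, hQ, hq⟩ := hadm (ind F1) (smT_ind hF1.sm) (ind_symm F1) hnear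
  have key : ∀ q, q ≤ Q → ∃ F : M → V4, Inv S F ∧ ind F = Gs q := by
    intro q
    induction q with
    | zero => exact fun _ => ⟨F1, hF1, h0.symm⟩
    | succ q ih =>
      intro hle
      obtain ⟨F, hF, he⟩ := ih (by omega)
      obtain ⟨h1, h2, h3, h4⟩ := hq q (by omega)
      obtain ⟨F', hF', he'⟩ := hstep S hS F hF (j q) (b q) h1 h2 (by rw [he]; exact h4)
      exact ⟨F', hF', funext fun p => by rw [he', h3, he]⟩
  obtain ⟨F, hF, he⟩ := key Q le_rfl
  exact ⟨F, hF.sm, he.trans hQ⟩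

end Crest.Agent.R216
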