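import Crest.Agent.R216.WaveB

/-!
# Row 216: change of scale, subfamilies and rotation of an `AData` (helper77)
-/

set_option autoImplicit false
set_option linter.unusedSectionVars false

noncomputable section

namespace Crest.Agent.R216.GadA1

open Set Metric Filter
open scoped ContDiff Topology RealInnerProductSpace

variable {ι : Type*} {B : Base ι}

/-- The same data at a larger scale. -/
def powD (A : AData B) (d : ℕ) (hd : 1 ≤ d) : AData (B.pow d hd) where
  gne := A.gne
  stg := Cl.toPow A.stg hd hd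
  bne := A.bne
  stbi := Cl.toPow A.stbi hd hd
  e1 := A.e1
  e2 := A.e2
  ste1 := Cl.toPow A.ste1 hd hd
  ste2 := Cl.toPow A.ste2 hd hd
  e1P := A.e1P
  e2P := A.e2P
  e11 := A.e11
  e22 := A.e22
  e12 := A.e12
  span := A.span
  R := A.R
  stR := Cl.toPow A.stR hd hd
  stRi := Cl.toPow A.stRi hd hd
  R0 := A.R0
  hR := A.hR
  φ := A.φ
  stφ := Cl.toPow A.stφ hd hd
  perφ := A.perφ
  even := A.even
  mcos := A.mcos
  msin := A.msin
  sh := A.sh
  stsh := Cl.toPow A.stsh hd hd
  r := A.r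
  str := Cl.toPow A.str hd hd
  stri := Cl.toPow A.stri hd hd
  r0 := A.r0
  ar := A.ar
  ζ := A.ζ
  smζ := A.smζ
  stζ := Cl.toPow A.stζ hd hd
  hζ := A.hζ
  β := A.β
  stβ l := Cl.toPow (A.stβ l) hd hd
  perβ := A.perβ
  meanβ := A.meanβ
  loc := A.loc

theorem stc {ι' X V : Type*} [NormedAddCommGroup X] [NormedSpace ℝ X] [NormedAddCommGroup V]
    [NormedSpace ℝ V] {c : Ctx ι X} {f : ι → X → V} (h : St c f) (φ : ι' → ι) :
    St (c.comap φ) fun i => f (φ i) :=
  fun k => (h k).reindex φ (fun _ => Subset.rfl) fun _ => le_rfl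

/-- A subfamily. -/
def comapD {ι' : Type*} (A : AData B) (ψ : ι' → ι) : AData (B.comap ψ) where
  gne i := A.gne (ψ i)
  stg := stc A.stg ψ
  bne i := A.bne (ψ i)
  stbi := stc A.stbi ψ
  e1 i := A.e1 (ψ i)
  e2 i := A.e2 (ψ i)
  ste1 := stc A.ste1 ψ
  ste2 := stc A.ste2 ψ
  e1P i := A.e1P (ψ i)
  e2P i := A.e2P (ψ i)
  e11 i := A.e11 (ψ i)
  e22 i := A.e22 (ψ i)
  e12 i := A.e12 (ψ i)
  span i := A.span (ψ i)
  R i := A.R (ψ i)
  stR := stc A.stR ψ
  stRi := stc A.stRi ψ
  R0 i := A.R0 (ψ i)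
  hR i := A.hR (ψ i)
  φ i := A.φ (ψ i)
  stφ := stc A.stφ ψ
  perφ i := A.perφ (ψ i)
  even i := A.even (ψ i)
  mcos i := A.mcos (ψ i)
  msin i := A.msin (ψ i)
  sh i := A.sh (ψ i)
  stsh := stc A.stsh ψ
  r i := A.r (ψ i)
  str := stc A.str ψ
  stri := stc A.stri ψ
  r0 i := A.r0 (ψ i)
  ar i := A.ar (ψ i)
  ζ i := A.ζ (ψ i)
  smζ i := A.smζ (ψ i)
  stζ := stc A.stζ ψ
  hζ i := A.hζ (ψ i)
  β l i := A.β l (ψ i)
  stβ l := stc (A.stβ l) ψ
  perβ l i := A.perβ l (ψ i)
  meanβ l i := A.meanβ l (ψ i)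
  loc l i := A.loc l (ψ i)

/-- The rotated first vector. -/
def r1 (A : AData B) (i : ι) (x : E) : V4 :=
  Real.cos (B.a i x * A.sh i x) • A.e1 i x + Real.sin (B.a i x * A.sh i x) • A.e2 i x

/-- The rotated second vector. -/
def r2 (A : AData B) (i : ι) (x : E) : V4 :=
  Real.cos (B.a i x * A.sh i x) • A.e2 i x - Real.sin (B.a i x * A.sh i x) • A.e1 i x

theorem st_r (A : AData B) : St (B.c.pow 6) (r1 A) ∧ St (B.c.pow 6) (r2 A) := by
  have h1 : Cl B.c 2 (fun _ => 1) fun i x => B.a i x * A.sh i x := by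
    simpa only [one_mul] using Cl.mul B.st_a A.stsh
  have h2 : St (B.c.pow 3) fun i => fderiv ℝ fun x => B.a i x * A.sh i x :=
    h1.fderiv.toPow (by norm_num) le_rfl
  have hc := St.cos h1.sm h2
  have hs := St.sin h1.sm h2
  have e1 : St (B.c.pow 3) A.e1 := Cl.toPow A.ste1 (by norm_num) (by norm_num)
  have e2 : St (B.c.pow 3) A.e2 := Cl.toPow A.ste2 (by norm_num) (by norm_num)
  exact ⟨St.add (St.bilin (ContinuousLinearMap.lsmul ℝ ℝ) hc e1)
      (St.bilin (ContinuousLinearMap.lsmul ℝ ℝ) hs e2),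
    St.sub (St.bilin (ContinuousLinearMap.lsmul ℝ ℝ) hc e2)
      (St.bilin (ContinuousLinearMap.lsmul ℝ ℝ) hs e1)⟩

theorem cont_φ (A : AData B) {i : ι} {x : E} (hx : x ∈ B.c.U i) :
    Continuous fun θ => B.a i x * A.φ i (x, θ) :=
  continuous_const.mul (continuous_slice (Cl.sm A.stφ i) hx)

theorem mean_comb (A : AData B) {i : ι} {x : E} (hx : x ∈ B.c.U i) (s t : ℝ) {f : E × ℝ → ℝ}
    (hf : ∀ θ, f (x, θ) =
      s * Real.cos (B.a i x * A.φ i (x, θ)) + t * Real.sin (B.a i x * A.φ i (x, θ))) :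
    A.R i x * mean f x = s * ⟪B.m i x, A.e1 i x⟫ + t * ⟪B.m i x, A.e2 i x⟫ := by
  have hc := cont_φ A hx
  rw [← A.mcos i x hx, ← A.msin i x hx]
  unfold mean
  simp only [hf]
  have c1 : Continuous fun θ => s * Real.cos (B.a i x * A.φ i (x, θ)) := by fun_prop
  have c2 : Continuous fun θ => t * Real.sin (B.a i x * A.φ i (x, θ)) := by fun_prop
  rw [intervalIntegral.integral_add (c1.intervalIntegrable _ _) (c2.intervalIntegrable _ _),
    intervalIntegral.integral_const_mul, intervalIntegral.integral_const_mul]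
  ring

/-- The rotated data. -/
def rotD (A : AData B) (h1 : St B.c (r1 A)) (h2 : St B.c (r2 A)) : AData B :=
  { A with
    e1 := r1 A
    e2 := r2 A
    ste1 := h1
    ste2 := h2
    e1P := fun i x hx => by
      obtain ⟨a, b⟩ := A.e1P i x hx
      obtain ⟨c, d⟩ := A.e2P i x hx
      constructor <;> simp [r1, inner_add_right, inner_smul_right, a, b, c, d]
    e2P := fun i x hx => by
      obtain ⟨a, b⟩ := A.e1P i x hx
      obtain ⟨c, d⟩ := A.e2P i x hx
      constructor <;> simp [r2, inner_sub_right, inner_smul_right, a, b, c, d]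
    e11 := fun i x hx => by
      have h21 : ⟪A.e2 i x, A.e1 i x⟫ = 0 := by rw [real_inner_comm]; exact A.e12 i x hx
      simp only [r1, inner_add_left, inner_add_right, real_inner_smul_left, real_inner_smul_right,
        A.e11 i x hx, A.e22 i x hx, A.e12 i x hx, h21]
      linear_combination Real.cos_sq_add_sin_sq (B.a i x * A.sh i x)
    e22 := fun i x hx => by
      have h21 : ⟪A.e2 i x, A.e1 i x⟫ = 0 := by rw [real_inner_comm]; exact A.e12 i x hx
      simp only [r2, inner_sub_left, inner_sub_right, real_inner_smul_left, real_inner_smul_right,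
        A.e11 i x hx, A.e22 i x hx, A.e12 i x hx, h21]
      linear_combination Real.cos_sq_add_sin_sq (B.a i x * A.sh i x)
    e12 := fun i x hx => by
      have h21 : ⟪A.e2 i x, A.e1 i x⟫ = 0 := by rw [real_inner_comm]; exact A.e12 i x hx
      simp only [r1, r2, inner_add_left, inner_sub_right, real_inner_smul_left,
        real_inner_smul_right, A.e11 i x hx, A.e22 i x hx, A.e12 i x hx, h21]
      ring
    span := fun i x hx y hy => by
      have h := A.span i x hx y hy
      have hp := Real.cos_sq_add_sin_sq (B.a i x * A.sh i x)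
      simp only [r1, r2, inner_add_right, inner_sub_right, real_inner_smul_right]
      generalize ⟪y, A.e1 i x⟫ = y1 at h ⊢
      generalize ⟪y, A.e2 i x⟫ = y2 at h ⊢
      rw [h]
      match_scalars
      · linear_combination (-y1) * hp
      · linear_combination (-y2) * hp
    φ := fun i q => A.φ i q - A.sh i q.1
    stφ := Cl.sub A.stφ (Cl.lift A.stsh)
    perφ := fun i x hx θ => by simp only [A.perφ i x hx θ]
    even := fun i x hx θ => by simp only [A.even i x hx θ]
    mcos := fun i x hx => by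
      rw [mean_comb A hx (Real.cos (B.a i x * A.sh i x)) (Real.sin (B.a i x * A.sh i x))
        (fun θ => by simp only [mul_sub, Real.cos_sub]; ring)]
      simp only [r1, inner_add_right, real_inner_smul_right]
    msin := fun i x hx => by
      rw [mean_comb A hx (-Real.sin (B.a i x * A.sh i x)) (Real.cos (B.a i x * A.sh i x))
        (fun θ => by simp only [mul_sub, Real.sin_sub]; ring)]
      simp only [r2, inner_sub_right, real_inner_smul_right]
      ring
    sh := fun _ _ => 0
    stsh := St.const (a := fun _ => (0 : ℝ)) ⟨0, fun _ => by simp⟩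
    loc := fun l i x hx θ => by
      refine (A.loc l i x hx θ).imp id fun h => ?_
      filter_upwards [h] with q hq
      rw [hq]
      ring }

theorem rotD_W (A : AData B) (h1 : St B.c (r1 A)) (h2 : St B.c (r2 A)) (i : ι) (q : E × ℝ) :
    (rotD A h1 h2).W i q = A.W i q := by
  have hp := Real.cos_sq_add_sin_sq (B.a i q.1 * A.sh i q.1)
  change B.Fs i q.1 - B.m i q.1 + A.R i q.1 •
    (Real.cos (B.a i q.1 * (A.φ i q - A.sh i q.1)) • r1 A i q.1
      + Real.sin (B.a i q.1 * (A.φ i q - A.sh i q.1)) • r2 A i q.1) = _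
  unfold AData.W
  congr 2
  simp only [r1, r2, mul_sub, Real.cos_sub, Real.sin_sub]
  match_scalars
  · linear_combination Real.cos (B.a i q.1 * A.φ i q) * hp
  · linear_combination Real.sin (B.a i q.1 * A.φ i q) * hp

end Crest.Agent.R216.GadA1
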