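import Crest.Agent.R216.WaveB

/-!
# Row 216: the loop `W` of an `AData` (auxiliary file of `GadA`)
-/

set_option autoImplicit false
set_option linter.unusedSectionVars false

noncomputable section

namespace Crest.Agent.R216.GadA2

open Set Metric Filter
open scoped ContDiff Topology RealInnerProductSpace

theorem idp_toPow {ι : Type*} {c : Ctx ι E} {χ : ι → E → ℝ} {p j d : ℕ} {A : ι → ℝ}
    {f : ι → E × ℝ → V4} (h : IdP c χ p j A f) (hd : 1 ≤ d) (hj : j ≤ d) :
    IdP (c.pow d) χ p 1 A f := by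
  obtain ⟨g, hg, hq, he⟩ := h
  exact ⟨g, hg.toPow hd hj, hq, he⟩

/-- The primitive does not see functions of the slow variable. -/
theorem prim_add_lift {f : E × ℝ → V4} {x : E} (hf : Continuous fun θ => f (x, θ)) (a : E → V4)
    (θ : ℝ) : prim (fun q => f q + a q.1) (x, θ) = prim f (x, θ) := by
  have h1 : mean (fun q => f q + a q.1) x = mean f x + a x := by
    rw [mean_add (g := fun q => a q.1) hf (continuous_const (y := a x)), mean_const]
  have h2 : ∀ θ, prim0 (fun q => f q + a q.1) (x, θ) = prim0 f (x, θ) := fun θ => by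
    simp only [prim0, h1, add_sub_add_right_eq_sub]
  rw [prim, prim, h2]
  exact congrArg _ (mean_congr h2)

variable {ι : Type*} {B : Base ι} (A : AData B)

theorem cl_ang : Cl B.c.cyl 2 (fun _ => 1) fun i q => B.a i q.1 * A.φ i q := by
  have h := (Cl.lift B.st_a).mul A.stφ
  simpa only [mul_one] using h

theorem lift1 {V : Type*} [NormedAddCommGroup V] [NormedSpace ℝ V] {f : ι → E → V}
    (h : St B.c f) : St (B.c.cyl.pow 1) fun i q => f i q.1 :=
  (Cl.lift h).toPow le_rfl le_rfl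

theorem st_cos : St (B.c.cyl.pow 3) fun i q => Real.cos (B.a i q.1 * A.φ i q) :=
  St.cos (cl_ang A).sm ((cl_ang A).fderiv.toPow (by norm_num) le_rfl)

theorem st_sin : St (B.c.cyl.pow 3) fun i q => Real.sin (B.a i q.1 * A.φ i q) :=
  St.sin (cl_ang A).sm ((cl_ang A).fderiv.toPow (by norm_num) le_rfl)

theorem st_W : St (B.c.cyl.pow 20) A.W := by
  have h1 : St (B.c.cyl.pow 20) fun i q => B.Fs i q.1 :=
    B.clFs.lift.toPow (by norm_num) (by norm_num)
  have h2 : St (B.c.cyl.pow 20) fun i q => B.m i q.1 :=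
    (B.cl_m A.stg).lift.toPow (by norm_num) (by norm_num)
  have h3 := St.bilin (ContinuousLinearMap.lsmul ℝ ℝ) (st_cos A) (lift1 A.ste1)
  have h4 := St.bilin (ContinuousLinearMap.lsmul ℝ ℝ) (st_sin A) (lift1 A.ste2)
  have h5 := (St.bilin (ContinuousLinearMap.lsmul ℝ ℝ) (lift1 A.stR) (h3.add h4)).mono
    (d' := 20) (by norm_num)
  exact (h1.sub h2).add h5

theorem sm_W (i : ι) : ContDiffOn ℝ ∞ (A.W i) (B.c.U i ×ˢ univ) := Cl.sm (st_W A) i

theorem cont_W {i : ι} {x : E} (hx : x ∈ B.c.U i) : Continuous fun θ => A.W i (x, θ) :=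
  continuous_slice (sm_W A i) hx

theorem per_W : Per B.c A.W := fun i x hx θ => by
  simp only [AData.W, A.perφ i x hx θ]

theorem even_W {i : ι} {x : E} (hx : x ∈ B.c.U i) (θ : ℝ) : A.W i (x, -θ) = A.W i (x, θ) := by
  simp only [AData.W, A.even i x hx θ]

theorem mean_W {i : ι} {x : E} (hx : x ∈ B.c.U i) : mean (A.W i) x = B.Fs i x := by
  have hc : Continuous fun θ => Real.cos (B.a i x * A.φ i (x, θ)) :=
    continuous_slice (Cl.sm (st_cos A) i) hx
  have hs : Continuous fun θ => Real.sin (B.a i x * A.φ i (x, θ)) :=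
    continuous_slice (Cl.sm (st_sin A) i) hx
  have h1 : mean (fun q => Real.cos (B.a i q.1 * A.φ i q) • A.e1 i q.1
      + Real.sin (B.a i q.1 * A.φ i q) • A.e2 i q.1) x =
      mean (fun q => Real.cos (B.a i q.1 * A.φ i q)) x • A.e1 i x
        + mean (fun q => Real.sin (B.a i q.1 * A.φ i q)) x • A.e2 i x := by
    rw [mean_add (f := fun q => Real.cos (B.a i q.1 * A.φ i q) • A.e1 i q.1)
      (g := fun q => Real.sin (B.a i q.1 * A.φ i q) • A.e2 i q.1)
      (hc.smul (continuous_const (y := A.e1 i x))) (hs.smul (continuous_const (y := A.e2 i x))),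
      mean_smul_const (A.e1 i), mean_smul_const (A.e2 i)]
  have h2 : mean (A.W i) x = (B.Fs i x - B.m i x) + A.R i x •
      mean (fun q => Real.cos (B.a i q.1 * A.φ i q) • A.e1 i q.1
        + Real.sin (B.a i q.1 * A.φ i q) • A.e2 i q.1) x := by
    rw [← mean_smul (A.R i), ← mean_const (fun x => B.Fs i x - B.m i x) x]
    exact mean_add (f := fun q => B.Fs i q.1 - B.m i q.1)
      (continuous_const (y := B.Fs i x - B.m i x))
      ((continuous_const (y := A.R i x)).smul ((hc.smul (continuous_const (y := A.e1 i x))).add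
        (hs.smul (continuous_const (y := A.e2 i x)))))
  rw [h2, h1, smul_add, smul_smul, smul_smul, A.mcos i x hx, A.msin i x hx,
    ← A.span i x hx _ (B.mP (A.gne i x hx)), sub_add_cancel]

theorem Y_P {i : ι} {x : E} (hx : x ∈ B.c.U i) (r s t : ℝ) :
    B.InP i x (r • (s • A.e1 i x + t • A.e2 i x)) := by
  obtain ⟨h1, h1'⟩ := A.e1P i x hx
  obtain ⟨h2, h2'⟩ := A.e2P i x hx
  constructor <;> simp [inner_smul_right, inner_add_right, h1, h1', h2, h2']

theorem inner_Y {i : ι} {x : E} (hx : x ∈ B.c.U i) (t : ℝ) :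
    ⟪A.R i x • (Real.cos t • A.e1 i x + Real.sin t • A.e2 i x),
      A.R i x • (Real.cos t • A.e1 i x + Real.sin t • A.e2 i x)⟫ =
      B.a i x ^ 2 + ‖B.m i x‖ ^ 2 := by
  have h21 : ⟪A.e2 i x, A.e1 i x⟫ = 0 := by rw [real_inner_comm]; exact A.e12 i x hx
  rw [← A.hR i x hx]
  simp only [real_inner_smul_left, real_inner_smul_right, inner_add_left, inner_add_right,
    A.e11 i x hx, A.e22 i x hx, A.e12 i x hx, h21]
  have := Real.cos_sq_add_sin_sq t
  linear_combination (A.R i x) ^ 2 * this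

theorem W_P {i : ι} {x : E} (hx : x ∈ B.c.U i) (θ : ℝ) :
    B.InP i x (A.W i (x, θ) - B.Fs i x) := by
  obtain ⟨h1, h1'⟩ := Y_P A hx (A.R i x) (Real.cos (B.a i x * A.φ i (x, θ)))
    (Real.sin (B.a i x * A.φ i (x, θ)))
  obtain ⟨h2, h2'⟩ := B.mP (A.gne i x hx)
  have e : A.W i (x, θ) - B.Fs i x = A.R i x • (Real.cos (B.a i x * A.φ i (x, θ)) • A.e1 i x
      + Real.sin (B.a i x * A.φ i (x, θ)) • A.e2 i x) - B.m i x := by
    simp only [AData.W]
    abel
  rw [e]
  exact ⟨by rw [inner_sub_right, h1, h2, sub_zero], by rw [inner_sub_right, h1', h2', sub_zero]⟩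

theorem dθ_prim {i : ι} {x : E} (hx : x ∈ B.c.U i) (θ : ℝ) :
    dθ (prim (A.W i)) (x, θ) = A.W i (x, θ) - B.Fs i x := by
  rw [R216.dθ_prim (B.c.hU i) (sm_W A i) hx, mean_W A hx]

theorem dθ_prim_W {i : ι} {x : E} (hx : x ∈ B.c.U i) (θ : ℝ) :
    B.Fs i x + dθ (prim (A.W i)) (x, θ) = A.W i (x, θ) := by
  rw [dθ_prim A hx, add_sub_cancel]

theorem norm_W {i : ι} {x : E} (hx : x ∈ B.c.U i) (θ : ℝ) :
    ‖A.W i (x, θ) - B.Fs i x + B.m i x‖ ^ 2 = B.a i x ^ 2 + ‖B.m i x‖ ^ 2 := by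
  have e : A.W i (x, θ) - B.Fs i x + B.m i x =
      A.R i x • (Real.cos (B.a i x * A.φ i (x, θ)) • A.e1 i x
        + Real.sin (B.a i x * A.φ i (x, θ)) • A.e2 i x) := by
    simp only [AData.W]
    abel
  rw [e, ← real_inner_self_eq_norm_sq, inner_Y A hx]

theorem inner_W {i : ι} {x : E} (hx : x ∈ B.c.U i) (θ : ℝ) :
    ⟪A.W i (x, θ), A.W i (x, θ)⟫ = ⟪B.Fs i x, B.Fs i x⟫ + B.a i x ^ 2 := by
  have hY := inner_Y A hx (B.a i x * A.φ i (x, θ))
  have h1 := B.inner_m (Y_P A hx (A.R i x) (Real.cos (B.a i x * A.φ i (x, θ)))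
    (Real.sin (B.a i x * A.φ i (x, θ))))
  have h2 := B.inner_m (B.mP (A.gne i x hx))
  have e : A.W i (x, θ) = B.Fs i x - B.m i x +
      A.R i x • (Real.cos (B.a i x * A.φ i (x, θ)) • A.e1 i x
        + Real.sin (B.a i x * A.φ i (x, θ)) • A.e2 i x) := rfl
  rw [e]
  generalize A.R i x • (Real.cos (B.a i x * A.φ i (x, θ)) • A.e1 i x
    + Real.sin (B.a i x * A.φ i (x, θ)) • A.e2 i x) = Y at hY h1 ⊢
  rw [← real_inner_self_eq_norm_sq] at hY
  simp only [inner_add_left, inner_add_right, inner_sub_left, inner_sub_right]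
  rw [real_inner_comm (B.Fs i x) Y, real_inner_comm (B.m i x) Y,
    real_inner_comm (B.Fs i x) (B.m i x)]
  linarith

/-- The oscillating part, visibly divisible by the amplitude. -/
theorem idp_V : IdP (B.c.pow 4) B.χ B.K 5 B.κ fun i q =>
    A.R i q.1 • ((-(B.a i q.1 * A.φ i q * cc (B.a i q.1 * A.φ i q))) • A.e1 i q.1
      + (B.a i q.1 * A.φ i q * sc (B.a i q.1 * A.φ i q)) • A.e2 i q.1) := by
  have hang : St (B.c.cyl.pow 2) fun i q => B.a i q.1 * A.φ i q :=
    (cl_ang A).toPow (by norm_num) le_rfl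
  have hper : ∀ Φ : ℝ → ℝ, Per (B.c.pow 4) fun i q => Φ (B.a i q.1 * A.φ i q) :=
    fun Φ i x hx θ => by simp only [A.perφ i x hx θ]
  have hcc : IdP (B.c.pow 4) B.χ 0 1 (fun _ => 1) fun i q => cc (B.a i q.1 * A.φ i q) :=
    IdP.of_cl hang.cc (hper cc)
  have hsc : IdP (B.c.pow 4) B.χ 0 1 (fun _ => 1) fun i q => sc (B.a i q.1 * A.φ i q) :=
    IdP.of_cl hang.sc (hper sc)
  have hφ : IdP (B.c.pow 4) B.χ 0 1 (fun _ => 1) A.φ :=
    IdP.of_cl (Cl.toPow A.stφ (by norm_num) (by norm_num)) A.perφ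
  have ha : IdP (B.c.pow 4) B.χ B.K 1 B.κ fun i q => B.a i q.1 := by
    obtain ⟨g, hg, he⟩ := B.idl_a
    exact Idl.lift ⟨g, hg.toPow (by norm_num) (by norm_num), he⟩
  have hR : IdP (B.c.pow 4) B.χ 0 1 (fun _ => 1) fun i q => A.R i q.1 :=
    (Idl.of_cl (Cl.toPow A.stR (by norm_num) (by norm_num))).lift
  have h1 : IdP (B.c.pow 4) B.χ 0 1 (fun _ => 1) fun i q => A.e1 i q.1 :=
    (Idl.of_cl (Cl.toPow A.ste1 (by norm_num) (by norm_num))).lift
  have h2 : IdP (B.c.pow 4) B.χ 0 1 (fun _ => 1) fun i q => A.e2 i q.1 :=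
    (Idl.of_cl (Cl.toPow A.ste2 (by norm_num) (by norm_num))).lift
  have h := hR.smul ((((ha.smul hφ).smul hcc).neg.smul h1).add (((ha.smul hφ).smul hsc).smul h2))
  simpa only [mul_one, one_mul, add_zero, zero_add, smul_eq_mul] using h

theorem idp_prim : IdP (B.c.pow 20) B.χ B.K 1 B.κ fun i => prim (A.W i) := by
  have h := idp_toPow (idp_V A).prim (d := 5) (by norm_num) le_rfl
  rw [Ctx.pow_pow] at h
  refine h.congr fun i x hx θ => ?_
  rw [← prim_add_lift (cont_W A hx) (fun x => -(B.Fs i x - B.m i x + A.R i x • A.e1 i x)) θ]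
  refine prim_congr (fun θ => ?_) θ
  simp only [AData.W, mul_cc, mul_sc]
  module

theorem prim_P {i : ι} {x : E} (hx : x ∈ B.c.U i) (θ : ℝ) :
    B.InP i x (prim (A.W i) (x, θ)) := by
  have hc : Continuous fun θ => A.W i (x, θ) + -B.Fs i x := (cont_W A hx).add continuous_const
  rw [← prim_add_lift (cont_W A hx) (fun x => -B.Fs i x) θ]
  constructor
  · rw [← prim_inner (f := fun q => A.W i q + -B.Fs i q.1) hc (B.Ft i) θ]
    exact prim_zero (fun θ => by simpa only [sub_eq_add_neg] using (W_P A hx θ).1) θ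
  · rw [← prim_inner (f := fun q => A.W i q + -B.Fs i q.1) hc (B.Ftt i) θ]
    exact prim_zero (fun θ => by simpa only [sub_eq_add_neg] using (W_P A hx θ).2) θ

theorem mean_st {i : ι} {x : E} (hx : x ∈ B.c.U i) :
    mean (fun q => ⟪dθ (prim (A.W i)) q, dx (B.w i) (prim (A.W i)) q⟫) x = 0 := by
  have hp : ∀ y ∈ B.c.U i, ∀ θ, prim (A.W i) (y, θ + 1) = prim (A.W i) (y, θ) :=
    fun y hy => prim_periodic (cont_W A hy) (per_W A i y hy)
  have ho : ∀ y ∈ B.c.U i, ∀ θ, prim (A.W i) (y, -θ) = -prim (A.W i) (y, θ) :=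
    fun y hy => prim_even (per_W A i y hy) (even_W A hy) (cont_W A hy)
  refine ClPA2.mean_odd (fun θ => ?_) fun θ => ?_
  · exact congrArg₂ _ (dx_periodic (B.c.hU i) hp _ hx θ) (dx_periodic (B.c.hU i) hp _ hx θ)
  · rw [dx_odd (B.c.hU i) (contDiffOn_prim (B.c.hU i) (sm_W A i)) ho _ hx θ, dθ_prim A hx,
      dθ_prim A hx, even_W A hx, inner_neg_right]

end Crest.Agent.R216.GadA2
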