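import Crest.Agent.R216.WaveB
import Crest.Agent.R216.GadAAux1
import Crest.Agent.R216.GadAAux2

/-!
# Row 216: the leading term of the wave from a loop
-/

set_option autoImplicit false
set_option linter.unusedSectionVars false

noncomputable section

namespace Crest.Agent.R216

open Set Metric Filter
open scoped ContDiff Topology RealInnerProductSpace

universe u

/-- Rotation of the frame: the shift can be removed. -/
theorem AData.rot : ∃ (d : ℕ) (hd : 1 ≤ d), ∀ {ι : Type u} {B : Base ι} (A : AData B),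
    ∃ A' : AData (B.pow d hd), (∀ i x, A'.sh i x = 0) ∧ ∀ i q, A'.W i q = A.W i q :=
  ⟨6, by norm_num, fun A => ⟨GadA1.rotD (GadA1.powD A 6 (by norm_num)) (GadA1.st_r A).1
    (GadA1.st_r A).2, fun _ _ => rfl, fun i q => GadA1.rotD_W _ _ _ i q⟩⟩

/-- An `AData` at a larger scale. -/
theorem AData.pow {ι : Type u} {B : Base ι} (A : AData B) (d : ℕ) (hd : 1 ≤ d) :
    ∃ A' : AData (B.pow d hd), A'.sh = A.sh ∧ A'.W = A.W :=
  ⟨GadA1.powD A d hd, rfl, rfl⟩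

/-- A subfamily. -/
theorem AData.comap {ι ι' : Type*} {B : Base ι} (A : AData B) (φ : ι' → ι) :
    ∃ A' : AData (B.comap φ), ∀ i, A'.W i = A.W (φ i) :=
  ⟨GadA1.comapD A φ, fun _ => rfl⟩

section

variable {ι : Type*} {B : Base ι} (A : AData B)

theorem AData.st_W : St (B.c.cyl.pow 20) A.W := GadA2.st_W A
theorem AData.per_W : Per B.c A.W := GadA2.per_W A
theorem AData.mean_W {i : ι} {x : E} (hx : x ∈ B.c.U i) : mean (A.W i) x = B.Fs i x :=
  GadA2.mean_W A hx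
theorem AData.W_P {i : ι} {x : E} (hx : x ∈ B.c.U i) (θ : ℝ) :
    B.InP i x (A.W i (x, θ) - B.Fs i x) := GadA2.W_P A hx θ
theorem AData.dθ_prim_W {i : ι} {x : E} (hx : x ∈ B.c.U i) (θ : ℝ) :
    B.Fs i x + dθ (prim (A.W i)) (x, θ) = A.W i (x, θ) := GadA2.dθ_prim_W A hx θ
theorem AData.norm_W {i : ι} {x : E} (hx : x ∈ B.c.U i) (θ : ℝ) :
    ‖A.W i (x, θ) - B.Fs i x + B.m i x‖ ^ 2 = B.a i x ^ 2 + ‖B.m i x‖ ^ 2 :=
  GadA2.norm_W A hx θ
theorem AData.inner_W {i : ι} {x : E} (hx : x ∈ B.c.U i) (θ : ℝ) :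
    ⟪A.W i (x, θ), A.W i (x, θ)⟫ = ⟪B.Fs i x, B.Fs i x⟫ + B.a i x ^ 2 :=
  GadA2.inner_W A hx θ

end

/-- The leading term. -/
theorem AData.lead : ∃ (d : ℕ), 1 ≤ d ∧ ∀ {ι : Type u} {B : Base ι} (A : AData B),
    IdP (B.c.pow d) B.χ B.K 1 B.κ (fun i => prim (A.W i)) ∧
      (∀ i, ∀ x ∈ B.c.U i, ∀ θ, B.InP i x (prim (A.W i) (x, θ))) ∧
      ∀ i, ∀ x ∈ B.c.U i,
        mean (fun q => ⟪dθ (prim (A.W i)) q, dx (B.w i) (prim (A.W i)) q⟫) x = 0 :=
  ⟨20, by norm_num, fun A => ⟨GadA2.idp_prim A, fun _ _ hx θ => GadA2.prim_P A hx θ,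
    fun _ _ hx => GadA2.mean_st A hx⟩⟩

end Crest.Agent.R216
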