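import Crest.Agent.R216.GadA

/-!
# Row 216: the gadget `Γ`
-/

set_option autoImplicit false
set_option linter.unusedSectionVars false

noncomputable section

namespace Crest.Agent.R216

open Set Metric Filter
open scoped ContDiff Topology RealInnerProductSpace

universe u

namespace GadBAux

variable {ι X V : Type*} [NormedAddCommGroup X] [NormedSpace ℝ X] [NormedAddCommGroup V]
  [NormedSpace ℝ V] {c : Ctx ι X} {d d' : ℕ}

theorem st1 {f : ι → X → V} (h : St c f) : St (c.pow 1) f := by rwa [Ctx.pow_one]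

theorem mul {a b : ι → X → ℝ} (h : St (c.pow d) a) (h' : St (c.pow d') b) :
    St (c.pow (d + d')) fun i x => a i x * b i x := St.bilin (ContinuousLinearMap.mul ℝ ℝ) h h'

theorem smul {a : ι → X → ℝ} {f : ι → X → V} (h : St (c.pow d) a) (h' : St (c.pow d') f) :
    St (c.pow (d + d')) fun i x => a i x • f i x := St.bilin (ContinuousLinearMap.lsmul ℝ ℝ) h h'

theorem lift {f : ι → X → V} (h : St (c.pow d) f) : St (c.cyl.pow d) fun i q => f i q.1 :=
  Cl.lift h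

theorem exists_P : ∃ P : V4 →L[ℝ] V4 →L[ℝ] V4 →L[ℝ] V4, ∀ e v y, P e v y = ⟪e, y⟫ • v :=
  ⟨(ContinuousLinearMap.smulRightL ℝ V4 V4).comp (innerSL ℝ), fun _ _ _ => rfl⟩

theorem cont {f : ι → X × ℝ → V} (h : St c.cyl f) {i : ι} {x : X} (hx : x ∈ c.U i) :
    Continuous fun θ : ℝ => f i (x, θ) :=
  (Cl.sm h i).continuousOn.comp_continuous (by fun_prop) fun _ => ⟨hx, mem_univ _⟩

variable {B : Base ι} (A : AData B) {i : ι} {x : E}

theorem inP (hx : x ∈ B.c.U i) (s t : ℝ) : B.InP i x (s • A.e1 i x + t • A.e2 i x) := by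
  constructor <;>
    simp only [inner_add_right, inner_smul_right, (A.e1P i x hx).1, (A.e1P i x hx).2,
      (A.e2P i x hx).1, (A.e2P i x hx).2, mul_zero, add_zero]

theorem inner_W (hx : x ∈ B.c.U i) (θ s t : ℝ) :
    ⟪A.W i (x, θ), s • A.e1 i x + t • A.e2 i x⟫ = A.R i x *
      (Real.cos (B.a i x * A.φ i (x, θ)) * s + Real.sin (B.a i x * A.φ i (x, θ)) * t) := by
  have h21 : ⟪A.e2 i x, A.e1 i x⟫ = 0 := by rw [real_inner_comm]; exact A.e12 i x hx
  rw [AData.W, inner_add_left, inner_sub_left, B.inner_m (inP A hx s t), sub_self, zero_add]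
  simp only [inner_add_left, inner_add_right, inner_smul_left, inner_smul_right, A.e11 i x hx,
    A.e22 i x hx, A.e12 i x hx, h21, conj_trivial]
  ring

theorem loc (hs : ∀ i x, A.sh i x = 0) (hx : x ∈ B.c.U i) (θ : ℝ) (l : Fin 3) :
    A.β l i (x, θ) = 0 ∨ B.a i x * A.φ i (x, θ) =
      -(B.a i x * A.r i x * ![0, Real.cos (A.ζ i x), Real.sin (A.ζ i x)] l) :=
  (A.loc l i x hx θ).imp (fun h => h.eq_of_nhds) fun h => by
    rw [h.eq_of_nhds, hs]
    ring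

theorem half_le (hx : x ∈ B.c.U i) : 1 / 2 ≤
    Real.cos (A.ζ i x) * Real.cos (A.ζ i x) * sc (B.a i x * A.r i x * Real.cos (A.ζ i x)) +
      Real.sin (A.ζ i x) * Real.sin (A.ζ i x) * sc (B.a i x * A.r i x * Real.sin (A.ζ i x)) := by
  have h1 : 1 / 2 ≤ sc (B.a i x * A.r i x * Real.cos (A.ζ i x)) := half_le_sc (by
    rw [abs_mul]
    exact mul_le_one₀ (A.ar i x hx) (abs_nonneg _) (Real.abs_cos_le_one _))
  have h2 : 1 / 2 ≤ sc (B.a i x * A.r i x * Real.sin (A.ζ i x)) := half_le_sc (by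
    rw [abs_mul]
    exact mul_le_one₀ (A.ar i x hx) (abs_nonneg _) (Real.abs_sin_le_one _))
  have h3 := mul_le_mul_of_nonneg_left h1 (mul_self_nonneg (Real.cos (A.ζ i x)))
  have h4 := mul_le_mul_of_nonneg_left h2 (mul_self_nonneg (Real.sin (A.ζ i x)))
  nlinarith [Real.cos_sq_add_sin_sq (A.ζ i x)]

/-- The coefficients of the gadget in the frame `e1, e2`. -/
theorem coef (A : AData B) : ∃ ρ p₀ s₁ t₁ s₂ t₂ : ι → E → ℝ, St (B.c.pow 33) ρ ∧
    St (B.c.pow 33) p₀ ∧ St (B.c.pow 33) s₁ ∧ St (B.c.pow 33) t₁ ∧ St (B.c.pow 33) s₂ ∧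
    St (B.c.pow 33) t₂ ∧ ∀ i, ∀ x ∈ B.c.U i, ρ i x = B.ρ i x ∧ s₁ i x + s₂ i x = B.ρ i x ∧
      p₀ i x + t₁ i x + t₂ i x = 0 ∧
      Real.cos (B.a i x * A.r i x * Real.cos (A.ζ i x)) * s₁ i x =
        Real.sin (B.a i x * A.r i x * Real.cos (A.ζ i x)) * t₁ i x ∧
      Real.cos (B.a i x * A.r i x * Real.sin (A.ζ i x)) * s₂ i x =
        Real.sin (B.a i x * A.r i x * Real.sin (A.ζ i x)) * t₂ i x := by
  have hc := St.cos A.smζ (st1 A.stζ)
  have hs := St.sin A.smζ (st1 A.stζ)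
  have har := mul (st1 B.st_a) (st1 A.str)
  have u1 := mul har hc
  have u2 := mul har hs
  have hD := St.inv (St.add (mul (mul hc hc) (St.sc u1)) (mul (mul hs hs) (St.sc u2)))
    ⟨2, fun i x hx => by
      have h1 := (half_le A hx).trans (le_abs_self _)
      have h2 := one_le_pow₀ (n := 1 + 1 + 2 * (1 + 1 + 1)) (B.c.hM i)
      nlinarith⟩
  have hμ := mul (mul (st1 A.stbi) (st1 A.stri)) hD
  have c1 := mul hμ hc
  have c2 := mul hμ hs
  have t1 := mul c1 (St.cos (c := B.c) (Cl.sm u1 :) u1.fderiv)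
  have t2 := mul c2 (St.cos (c := B.c) (Cl.sm u2 :) u2.fderiv)
  refine ⟨_, _, _, _, _, _, (mul (st1 B.st_a) (st1 A.stbi)).mono (by norm_num),
    Cl.neg (St.add t1 t2), mul c1 (St.sin (c := B.c) (Cl.sm u1 :) u1.fderiv), t1,
    mul c2 (St.sin (c := B.c) (Cl.sm u2 :) u2.fderiv), t2, fun i x hx => ?_⟩
  have hb := A.bne i x hx
  have hr := (A.r0 i x hx).ne'
  have hD0 := (one_half_pos.trans_le (half_le A hx)).ne'
  have ha : B.a i x = B.ρ i x * B.b i x := rfl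
  refine ⟨by rw [ha, mul_inv_cancel_right₀ hb], ?_, by ring, by ring, by ring⟩
  rw [← mul_sc (B.a i x * A.r i x * Real.cos (A.ζ i x)),
    ← mul_sc (B.a i x * A.r i x * Real.sin (A.ζ i x))]
  generalize sc (B.a i x * A.r i x * Real.cos (A.ζ i x)) = S₁ at hD0 ⊢
  generalize sc (B.a i x * A.r i x * Real.sin (A.ζ i x)) = S₂ at hD0 ⊢
  have key := mul_inv_cancel₀ hD0
  generalize (Real.cos (A.ζ i x) * Real.cos (A.ζ i x) * S₁ +
    Real.sin (A.ζ i x) * Real.sin (A.ζ i x) * S₂)⁻¹ = Di at key ⊢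
  rw [ha]
  field_simp
  linear_combination B.ρ i x * key

end GadBAux

open GadBAux in
theorem AData.gadΓ : ∃ (d : ℕ), 1 ≤ d ∧ ∀ {ι : Type u} {B : Base ι} (A : AData B),
    (∀ i x, A.sh i x = 0) → ∃ Γ : ι → E × ℝ → V4 →L[ℝ] V4, St (B.c.pow d).cyl Γ ∧ Per B.c Γ ∧
      (∀ i, ∀ x ∈ B.c.U i, ∀ θ y, B.InP i x (Γ i (x, θ) y) ∧ ⟪A.W i (x, θ), Γ i (x, θ) y⟫ = 0) ∧
      ∀ i, ∀ x ∈ B.c.U i, ∀ y, B.InP i x y → mean (fun q => Γ i q y) x = B.ρ i x • y := by
  refine ⟨36, by norm_num, fun {ι B} A hsh => ?_⟩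
  obtain ⟨P, hP⟩ := exists_P
  obtain ⟨ρ, p₀, s₁, t₁, s₂, t₂, a1, a2, a3, a4, a5, a6, h⟩ := coef A
  have e1 := st1 A.ste1
  have e2 := st1 A.ste2
  have g0 := smul (st1 (A.stβ 0))
    (lift (St.add (St.bilin P e1 (smul a2 e2)) (St.bilin P e2 (smul a1 e2))))
  have g1 := smul (st1 (A.stβ 1)) (lift (St.bilin P e1 (St.add (smul a3 e1) (smul a4 e2))))
  have g2 := smul (st1 (A.stβ 2)) (lift (St.bilin P e1 (St.add (smul a5 e1) (smul a6 e2))))
  refine ⟨_, St.add (St.add g0 g1) g2, fun i x hx θ => ?_, fun i x hx θ y => ?_,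
    fun i x hx y hy => ?_⟩
  · simp only [A.perβ _ i x hx θ]
  · obtain ⟨-, -, -, b4, b5⟩ := h i x hx
    have e : (A.β 0 i (x, θ) • (P (A.e1 i x) (p₀ i x • A.e2 i x) + P (A.e2 i x) (ρ i x • A.e2 i x)) +
        A.β 1 i (x, θ) • P (A.e1 i x) (s₁ i x • A.e1 i x + t₁ i x • A.e2 i x) +
        A.β 2 i (x, θ) • P (A.e1 i x) (s₂ i x • A.e1 i x + t₂ i x • A.e2 i x)) y =
        (⟪A.e1 i x, y⟫ * (A.β 1 i (x, θ) * s₁ i x + A.β 2 i (x, θ) * s₂ i x)) • A.e1 i x +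
        (A.β 0 i (x, θ) * (⟪A.e1 i x, y⟫ * p₀ i x + ⟪A.e2 i x, y⟫ * ρ i x) + ⟪A.e1 i x, y⟫ *
          (A.β 1 i (x, θ) * t₁ i x + A.β 2 i (x, θ) * t₂ i x)) • A.e2 i x := by
      simp only [add_apply, smul_apply, hP]
      module
    simp only [e]
    refine ⟨inP A hx _ _, ?_⟩
    have k0 : A.β 0 i (x, θ) * Real.sin (B.a i x * A.φ i (x, θ)) = 0 := by
      rcases GadBAux.loc A hsh hx θ 0 with h0 | h0 <;> simp [h0]
    have k1 : A.β 1 i (x, θ) * (Real.cos (B.a i x * A.φ i (x, θ)) * s₁ i x +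
        Real.sin (B.a i x * A.φ i (x, θ)) * t₁ i x) = 0 := by
      rcases GadBAux.loc A hsh hx θ 1 with h0 | h0 <;> simp [h0, b4]
    have k2 : A.β 2 i (x, θ) * (Real.cos (B.a i x * A.φ i (x, θ)) * s₂ i x +
        Real.sin (B.a i x * A.φ i (x, θ)) * t₂ i x) = 0 := by
      rcases GadBAux.loc A hsh hx θ 2 with h0 | h0 <;> simp [h0, b5]
    rw [GadBAux.inner_W A hx]
    linear_combination A.R i x * ((⟪A.e1 i x, y⟫ * p₀ i x + ⟪A.e2 i x, y⟫ * ρ i x) * k0 +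
      ⟪A.e1 i x, y⟫ * k1 + ⟪A.e1 i x, y⟫ * k2)
  · obtain ⟨b1, b2, b3, -, -⟩ := h i x hx
    have c0 := cont (A.stβ 0) hx
    have c1 := cont (A.stβ 1) hx
    have c2 := cont (A.stβ 2) hx
    have m : ∀ (l : Fin 3) (v : V4), ∫ θ in (0 : ℝ)..1, A.β l i (x, θ) • v = v := fun l v => by
      rw [intervalIntegral.integral_smul_const]
      exact (congrArg (· • v) (A.meanβ l i x hx)).trans (one_smul _ _)
    simp only [mean, add_apply, smul_apply]
    rw [intervalIntegral.integral_add (Continuous.intervalIntegrable (by fun_prop) _ _)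
        (Continuous.intervalIntegrable (by fun_prop) _ _),
      intervalIntegral.integral_add (Continuous.intervalIntegrable (by fun_prop) _ _)
        (Continuous.intervalIntegrable (by fun_prop) _ _), m, m, m]
    conv_rhs => rw [A.span i x hx y hy]
    simp only [hP]
    rw [b1, real_inner_comm (A.e1 i x) y, real_inner_comm (A.e2 i x) y,
      show p₀ i x = -(t₁ i x + t₂ i x) by linarith, show s₂ i x = B.ρ i x - s₁ i x by linarith]
    module

end Crest.Agent.R216
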