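import Crest.Agent.R216.LDefs

/-!
# Row 216: positivity for small wave lengths, proofs (part 1)
-/

set_option autoImplicit false
set_option linter.unusedSectionVars false

noncomputable section

namespace Crest.Agent.R216.GeoA1

open Set Metric Filter
open scoped ContDiff Topology RealInnerProductSpace

theorem exists_eta {Z Y : Type*} [TopologicalSpace Z] [PseudoMetricSpace Y] {K : Set Z}
    (hK : IsCompact K) {J : Z → Y} (hJ : ContinuousOn J K) {Ω : Set (Z × Y)}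
    (hΩ : ∀ z ∈ K, Ω ∈ 𝓝[K ×ˢ univ] (z, J z)) :
    ∃ η : ℝ, 0 < η ∧ ∀ z ∈ K, ∀ y, dist y (J z) ≤ η → (z, y) ∈ Ω := by
  refine hK.induction_on (p := fun s => ∃ η : ℝ, 0 < η ∧ ∀ z ∈ s, ∀ y, dist y (J z) ≤ η → (z, y) ∈ Ω)
    ⟨1, one_pos, fun _ h => h.elim⟩ (fun s t hst ⟨η, h0, h⟩ => ⟨η, h0, fun z hz => h z (hst hz)⟩)
    (fun s t ⟨η, h0, h⟩ ⟨η', h0', h'⟩ => ⟨min η η', lt_min h0 h0', fun z hz y hy =>
      hz.elim (fun hz => h z hz y (hy.trans (min_le_left _ _)))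
        fun hz => h' z hz y (hy.trans (min_le_right _ _))⟩) fun z hz => ?_
  have h1 := hΩ z hz
  rw [nhdsWithin_prod_eq, nhdsWithin_univ, mem_prod_iff] at h1
  obtain ⟨U, hU, V, hV, hUV⟩ := h1
  obtain ⟨r, hr, hrV⟩ := Metric.mem_nhds_iff.1 hV
  have h2 : J ⁻¹' ball (J z) (r / 2) ∈ 𝓝[K] z := hJ z hz (ball_mem_nhds _ (half_pos hr))
  refine ⟨_, inter_mem hU h2, r / 2, half_pos hr, fun w hw y hy => hUV ⟨hw.1, hrV ?_⟩⟩
  have h3 : dist (J w) (J z) < r / 2 := hw.2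
  have := dist_triangle y (J w) (J z)
  show dist y (J z) < r
  linarith

theorem inner_nn_II5 {p q A B C : V4} (h : gram q p ≠ 0) {ε k : ℝ} (hε : ε ≠ 0)
    (hk : ⟪pn q p A, pn q p C⟫ - ⟪pn q p B, pn q p B⟫ = k) (v : E) :
    ⟪A + ε • C, II5 p q A B C v v⟫ = f0 p q A B k v + ε * v 1 ^ 2 * (k + ‖pn q p B‖ ^ 2)
      + 2 * (v 1 * v 0) * ⟪pn q p (ε • C), pn q p B⟫ + v 0 ^ 2 * ‖pn q p (ε • C)‖ ^ 2 / ε := by
  rw [II5, ← inner_pn_pn h, f0, ← hk]
  simp only [← real_inner_self_eq_norm_sq, pn_add, pn_smul, inner_add_left, inner_add_right,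
    real_inner_smul_left, real_inner_smul_right]
  rw [real_inner_comm (pn q p A) (pn q p B), real_inner_comm (pn q p A) (pn q p C),
    real_inner_comm (pn q p B) (pn q p C)]
  field_simp
  ring

theorem cwa_gram {α : Type*} [TopologicalSpace α] {s : Set α} {x : α} {a b : α → V4}
    (ha : ContinuousWithinAt a s x) (hb : ContinuousWithinAt b s x) :
    ContinuousWithinAt (fun t => gram (a t) (b t)) s x :=
  contDiff_gram.continuous.continuousAt.comp_continuousWithinAt (ha.prodMk hb)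

theorem cwa_pn {α : Type*} [TopologicalSpace α] {s : Set α} {x : α} {a b y : α → V4}
    (ha : ContinuousWithinAt a s x) (hb : ContinuousWithinAt b s x)
    (hy : ContinuousWithinAt y s x) (h : gram (a x) (b x) ≠ 0) :
    ContinuousWithinAt (fun t => pn (a t) (b t) (y t)) s x := by
  have ho : IsOpen {q : V4 × V4 × V4 | gram q.1 q.2.1 ≠ 0} :=
    isOpen_ne_fun (contDiff_gram.continuous.comp (continuous_fst.prodMk continuous_snd.fst))
      continuous_const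
  exact ContinuousAt.comp_continuousWithinAt (f := fun t => (a t, b t, y t))
    (continuousOn_pn.continuousAt (ho.mem_nhds h)) (ha.prodMk (hb.prodMk hy))

/-- The space of jets and wave lengths. -/
abbrev Jet : Type := V4 × V4 × V4 × V4 × V4 × ℝ

theorem dist_jet {p q A B C p' q' A' B' C' : V4} {ε η : ℝ} (h0 : 0 ≤ ε) (h : ε ≤ η)
    (h1 : ‖p' - p‖ ≤ η) (h2 : ‖q' - q‖ ≤ η) (h3 : ‖A' - A‖ ≤ η) (h4 : ‖B' - B‖ ≤ η)
    (h5 : ‖C' - C‖ ≤ η) : dist ((p', q', A', B', C', ε) : Jet) (p, q, A, B, C, 0) ≤ η := by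
  simp only [Prod.dist_eq, max_le_iff]
  simp only [dist_eq_norm, sub_zero, Real.norm_of_nonneg h0]
  exact ⟨h1, h2, h3, h4, h5, h⟩

theorem asym_pos {Z : Type*} [TopologicalSpace Z] {K : Set Z} (hK : IsCompact K)
    {p q A B C : Z → V4} {k : Z → ℝ} {v : Z → E} (hp : ContinuousOn p K) (hq : ContinuousOn q K)
    (hA : ContinuousOn A K) (hB : ContinuousOn B K) (hC : ContinuousOn C K)
    (hk : ContinuousOn k K) (hv : ContinuousOn v K) (hg : ∀ z ∈ K, gram (q z) (p z) ≠ 0)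
    (h : ∀ z ∈ K, v z 0 • pn (q z) (p z) (C z) = 0 → 0 < f0 (p z) (q z) (A z) (B z) (k z) (v z)) :
    ∃ η : ℝ, 0 < η ∧ ∀ ε : ℝ, 0 < ε → ε ≤ η → ∀ z ∈ K, ∀ p' q' A' B' C' : V4,
      ‖p' - p z‖ ≤ η → ‖q' - q z‖ ≤ η → ‖A' - A z‖ ≤ η → ‖B' - B z‖ ≤ η → ‖ε • C' - C z‖ ≤ η →
      ⟪pn q' p' A', pn q' p' C'⟫ - ⟪pn q' p' B', pn q' p' B'⟫ = k z →
      0 < ⟪A' + ε • C', II5 p' q' A' B' C' (v z) (v z)⟫ := by
  let G : Z × Jet → ℝ := fun w => f0 w.2.1 w.2.2.1 w.2.2.2.1 w.2.2.2.2.1 (k w.1) (v w.1) +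
    w.2.2.2.2.2.2 * v w.1 1 ^ 2 * k w.1
  let N : Z × Jet → ℝ := fun w => ‖(w.2.2.2.2.2.2 * v w.1 1) • pn w.2.2.1 w.2.1 w.2.2.2.2.1 +
    v w.1 0 • pn w.2.2.1 w.2.1 w.2.2.2.2.2.1‖ ^ 2
  obtain ⟨η, h0, hη⟩ := exists_eta hK (J := fun z => ((p z, q z, A z, B z, C z, 0) : Jet))
    (hp.prodMk (hq.prodMk (hA.prodMk (hB.prodMk (hC.prodMk continuousOn_const)))))
    (Ω := {w | gram w.2.2.1 w.2.1 ≠ 0 ∧ (0 < G w ∨ 0 < w.2.2.2.2.2.2 * G w + N w)}) fun z hz => by
      set w0 : Z × Jet := (z, (p z, q z, A z, B z, C z, 0)) with hw0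
      have c1 : ContinuousWithinAt (fun w : Z × Jet => w.2.1) (K ×ˢ univ) w0 := by fun_prop
      have c2 : ContinuousWithinAt (fun w : Z × Jet => w.2.2.1) (K ×ˢ univ) w0 := by fun_prop
      have c3 : ContinuousWithinAt (fun w : Z × Jet => w.2.2.2.1) (K ×ˢ univ) w0 := by fun_prop
      have c4 : ContinuousWithinAt (fun w : Z × Jet => w.2.2.2.2.1) (K ×ˢ univ) w0 := by fun_prop
      have c5 : ContinuousWithinAt (fun w : Z × Jet => w.2.2.2.2.2.1) (K ×ˢ univ) w0 := by fun_prop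
      have c6 : ContinuousWithinAt (fun w : Z × Jet => w.2.2.2.2.2.2) (K ×ˢ univ) w0 := by fun_prop
      have ck : ContinuousWithinAt (fun w : Z × Jet => k w.1) (K ×ˢ univ) w0 :=
        ContinuousWithinAt.comp (f := Prod.fst) (hk z hz) continuousWithinAt_fst fun w hw => hw.1
      have cv : ContinuousWithinAt (fun w : Z × Jet => v w.1) (K ×ˢ univ) w0 :=
        ContinuousWithinAt.comp (f := Prod.fst) (hv z hz) continuousWithinAt_fst fun w hw => hw.1
      have cv' : ∀ i, ContinuousWithinAt (fun w : Z × Jet => v w.1 i) (K ×ˢ univ) w0 := fun i =>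
        (EuclideanSpace.proj i : E →L[ℝ] ℝ).continuous.continuousAt.comp_continuousWithinAt cv
      have cG : ContinuousWithinAt G (K ×ˢ univ) w0 :=
        (((cwa_pn c2 c1 (((cv' 1).smul c3).add ((cv' 0).smul c4)) (hg z hz)).norm.pow 2).add
          (((cv' 0).pow 2).mul ck)).add ((c6.mul ((cv' 1).pow 2)).mul ck)
      have cN : ContinuousWithinAt N (K ×ˢ univ) w0 :=
        (((c6.mul (cv' 1)).smul (cwa_pn c2 c1 c4 (hg z hz))).add
          ((cv' 0).smul (cwa_pn c2 c1 c5 (hg z hz)))).norm.pow 2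
      have e1 := (cwa_gram c2 c1).eventually_ne (hg z hz)
      by_cases hz0 : v z 0 • pn (q z) (p z) (C z) = 0
      · have : 0 < G w0 := by simpa [G, w0] using h z hz hz0
        filter_upwards [e1, cG.eventually (lt_mem_nhds this)] with w h1 h2 using ⟨h1, Or.inl h2⟩
      · have : 0 < w0.2.2.2.2.2.2 * G w0 + N w0 := by
          simp only [N, w0, zero_mul, zero_smul, zero_add]
          exact pow_pos (norm_pos_iff.2 hz0) 2
        filter_upwards [e1, ((c6.mul cG).add cN).eventually (lt_mem_nhds this)] with w h1 h2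
          using ⟨h1, Or.inr h2⟩
  refine ⟨η, h0, fun ε hε hεη z hz p' q' A' B' C' h1 h2 h3 h4 h5 hk' => ?_⟩
  obtain ⟨g, hor⟩ := hη z hz (p', q', A', B', ε • C', ε) (dist_jet hε.le hεη h1 h2 h3 h4 h5)
  have e : ⟪A' + ε • C', II5 p' q' A' B' C' (v z) (v z)⟫ =
      G (z, (p', q', A', B', ε • C', ε)) + N (z, (p', q', A', B', ε • C', ε)) / ε := by
    rw [inner_nn_II5 g hε.ne' hk']
    simp only [G, N, norm_add_sq_real, norm_smul, real_inner_smul_left, real_inner_smul_right,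
      mul_pow, Real.norm_eq_abs, sq_abs]
    rw [real_inner_comm (pn q' p' B') (pn q' p' (ε • C'))]
    field_simp
    ring
  have hN : 0 ≤ N (z, (p', q', A', B', ε • C', ε)) := sq_nonneg _
  rw [e]
  rcases hor with h6 | h6
  · exact add_pos_of_pos_of_nonneg h6 (div_nonneg hN hε.le)
  · have := div_pos h6 hε
    rwa [add_div, mul_div_cancel_left₀ _ hε.ne'] at this

theorem collar_pos {O Y : Set E} (hO : IsOpen O) (hY : IsCompact Y) (hYO : Y ⊆ O) {H : E → V4}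
    (hH : ContDiffOn ℝ ∞ H O) (hg : ∀ x ∈ O, gram (dd es H x) (dd et H x) ≠ 0)
    {H' : ℕ → E → V4} (hH' : ∀ n, ContDiffOn ℝ ∞ (H' n) O)
    (hc : ∀ δ : ℝ, 0 < δ → ∀ᶠ n in atTop, ∀ x ∈ Y, ∀ m ≤ 2,
      ‖iteratedFDeriv ℝ m (fun y => H' n y - H y) x‖ ≤ δ)
    {n0 : E → V4} {ψ : E → ℝ} {v : E → E} (hn : ContinuousOn n0 Y) (hψ : ContinuousOn ψ Y)
    (hv : ContinuousOn v Y)
    (h : ∀ x ∈ Y, 0 < ⟪n0 x + ψ x • dd et (dd et H) x, sffE H x (v x) (v x)⟫) :
    ∀ᶠ n in atTop, ∀ x ∈ Y, 0 < ⟪n0 x + ψ x • nn H' n x, sffE (H' n) x (v x) (v x)⟫ := by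
  have sm : ∀ {F : E → V4}, ContDiffOn ℝ ∞ F O → ∀ w, ContDiffOn ℝ ∞ (dd w F) O := fun hF w =>
    (hF.fderiv_of_isOpen (m := ∞) hO le_rfl).clm_apply contDiffOn_const
  have ct : ∀ {F : E → V4}, ContDiffOn ℝ ∞ F O → ContinuousOn F Y := fun hF =>
    hF.continuousOn.mono hYO
  obtain ⟨η, h0, hη⟩ := exists_eta hY (J := fun x => ((dd et H x, dd es H x, dd et (dd et H) x,
      dd et (dd es H) x, dd es (dd es H) x, 0) : Jet))
    ((ct (sm hH _)).prodMk ((ct (sm hH _)).prodMk ((ct (sm (sm hH _) _)).prodMk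
      ((ct (sm (sm hH _) _)).prodMk ((ct (sm (sm hH _) _)).prodMk continuousOn_const)))))
    (Ω := {w | gram w.2.2.1 w.2.1 ≠ 0 ∧
      0 < ⟪n0 w.1 + ψ w.1 • (w.2.2.2.1 + w.2.2.2.2.2.2 • w.2.2.2.2.2.1),
        II5 w.2.1 w.2.2.1 w.2.2.2.1 w.2.2.2.2.1 w.2.2.2.2.2.1 (v w.1) (v w.1)⟫}) fun z hz => by
      set w0 : E × Jet := (z, (dd et H z, dd es H z, dd et (dd et H) z,
        dd et (dd es H) z, dd es (dd es H) z, 0)) with hw0
      have c1 : ContinuousWithinAt (fun w : E × Jet => w.2.1) (Y ×ˢ univ) w0 := by fun_prop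
      have c2 : ContinuousWithinAt (fun w : E × Jet => w.2.2.1) (Y ×ˢ univ) w0 := by fun_prop
      have c3 : ContinuousWithinAt (fun w : E × Jet => w.2.2.2.1) (Y ×ˢ univ) w0 := by fun_prop
      have c4 : ContinuousWithinAt (fun w : E × Jet => w.2.2.2.2.1) (Y ×ˢ univ) w0 := by fun_prop
      have c5 : ContinuousWithinAt (fun w : E × Jet => w.2.2.2.2.2.1) (Y ×ˢ univ) w0 := by fun_prop
      have c6 : ContinuousWithinAt (fun w : E × Jet => w.2.2.2.2.2.2) (Y ×ˢ univ) w0 := by fun_prop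
      have cn : ContinuousWithinAt (fun w : E × Jet => n0 w.1) (Y ×ˢ univ) w0 :=
        ContinuousWithinAt.comp (f := Prod.fst) (hn z hz) continuousWithinAt_fst fun w hw => hw.1
      have cψ : ContinuousWithinAt (fun w : E × Jet => ψ w.1) (Y ×ˢ univ) w0 :=
        ContinuousWithinAt.comp (f := Prod.fst) (hψ z hz) continuousWithinAt_fst fun w hw => hw.1
      have cv : ContinuousWithinAt (fun w : E × Jet => v w.1) (Y ×ˢ univ) w0 :=
        ContinuousWithinAt.comp (f := Prod.fst) (hv z hz) continuousWithinAt_fst fun w hw => hw.1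
      have cv' : ∀ i, ContinuousWithinAt (fun w : E × Jet => v w.1 i) (Y ×ˢ univ) w0 := fun i =>
        (EuclideanSpace.proj i : E →L[ℝ] ℝ).continuous.continuousAt.comp_continuousWithinAt cv
      have cI : ContinuousWithinAt (fun w : E × Jet =>
          II5 w.2.1 w.2.2.1 w.2.2.2.1 w.2.2.2.2.1 w.2.2.2.2.2.1 (v w.1) (v w.1)) (Y ×ˢ univ) w0 :=
        cwa_pn c2 c1 (((((cv' 1).mul (cv' 1)).smul c3).add
          ((((cv' 0).mul (cv' 1)).add ((cv' 1).mul (cv' 0))).smul c4)).add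
            (((cv' 0).mul (cv' 0)).smul c5)) (hg z (hYO hz))
      have cF := (cn.add (cψ.smul (c3.add (c6.smul c5)))).inner (𝕜 := ℝ) cI
      have e1 := (cwa_gram c2 c1).eventually_ne (hg z (hYO hz))
      have h1 := h z hz
      rw [sffE_eq (hH.contDiffAt (hO.mem_nhds (hYO hz))) (hg z (hYO hz))] at h1
      filter_upwards [e1, cF.eventually (lt_mem_nhds (by simpa [w0] using h1))] with w h1 h2
        using ⟨h1, h2⟩
  have hep : ∀ᶠ n in atTop, ep n ≤ η := by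
    have := tendsto_one_div_add_atTop_nhds_zero_nat (𝕜 := ℝ)
    filter_upwards [this.eventually (ge_mem_nhds h0)] with n hn
    simpa [ep] using hn
  filter_upwards [hep, hc η h0] with n h1 h2 x hx
  have a1 := hH.contDiffAt (hO.mem_nhds (hYO hx))
  have a2 := (hH' n).contDiffAt (hO.mem_nhds (hYO hx))
  have b1 : ∀ w : E, ‖w‖ = 1 → ‖dd w (H' n) x - dd w H x‖ ≤ η := fun w hw => by
    rw [← dd_sub (a2.differentiableAt (by simp)) (a1.differentiableAt (by simp))]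
    simpa [hw] using (norm_dd_le _ x w).trans
      (mul_le_mul_of_nonneg_right (h2 x hx 1 (by norm_num)) (norm_nonneg w))
  have b2 : ∀ w w' : E, ‖w‖ = 1 → ‖w'‖ = 1 →
      ‖dd w (dd w' (H' n)) x - dd w (dd w' H) x‖ ≤ η := fun w w' hw hw' => by
    have e : dd w (dd w' (H' n)) x - dd w (dd w' H) x =
        dd w (dd w' fun y => H' n y - H y) x := by
      rw [dd_dd_eq a2, dd_dd_eq a1, dd_dd_eq (a2.sub a1),
        fun_iteratedFDeriv_sub_apply (a2.of_le (WithTop.coe_le_coe.2 le_top))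
          (a1.of_le (WithTop.coe_le_coe.2 le_top))]
      rfl
    have := norm_dd_dd_le (a2.sub a1) w w'
    rw [hw, hw', mul_one, mul_one] at this
    rw [e]
    exact this.trans (h2 x hx 2 le_rfl)
  have hs : ‖es‖ = 1 := by simp [es]
  have ht : ‖et‖ = 1 := by simp [et]
  obtain ⟨g, hpos⟩ := hη x hx (dd et (H' n) x, dd es (H' n) x, dd et (dd et (H' n)) x,
      dd et (dd es (H' n)) x, dd es (dd es (H' n)) x, ep n)
    (dist_jet (by unfold ep; positivity) h1 (b1 _ ht) (b1 _ hs) (b2 _ _ ht ht) (b2 _ _ ht hs)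
      (b2 _ _ hs hs))
  rw [sffE_eq a2 g]
  exact hpos

end Crest.Agent.R216.GeoA1
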