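import Crest.Agent.R216.Basic

/-!
# Row 216: two-jets (definitions).  DO NOT change a definition of this file.
-/

set_option autoImplicit false

noncomputable section

namespace Crest.Agent.R216

open scoped RealInnerProductSpace

/-- The second fundamental form in terms of `p = F_t, q = F_s, A = F_tt, B = F_st, C = F_ss`. -/
def II5 (p q A B C : V4) (v w : E) : V4 :=
  pn q p ((v 1 * w 1) • A + (v 0 * w 1 + v 1 * w 0) • B + (v 0 * w 0) • C)

/-- Inner product of the tangential parts, from the products with `F_s, F_t`. -/
def tanp (e f g xs xt ys yt : ℝ) : ℝ :=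
  (g * xs * ys - f * (xs * yt + xt * ys) + e * xt * yt) / (e * g - f ^ 2)

/-- The curvature (times the Gram determinant) of a metric on the plane. -/
def Kh (G : E → Bil) (x : E) : ℝ :=
  -(dd es (dd es fun y => G y et et) x) / 2 + dd es (dd et fun y => G y es et) x
    - dd et (dd et fun y => G y es es) x / 2
    - tanp (G x es es) (G x es et) (G x et et)
        (dd et (fun y => G y es et) x - dd es (fun y => G y et et) x / 2)
        (dd et (fun y => G y et et) x / 2)
        (dd es (fun y => G y es es) x / 2)
        (dd es (fun y => G y es et) x - dd et (fun y => G y es es) x / 2)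
    + tanp (G x es es) (G x es et) (G x et et)
        (dd et (fun y => G y es es) x / 2) (dd es (fun y => G y et et) x / 2)
        (dd et (fun y => G y es es) x / 2) (dd es (fun y => G y et et) x / 2)

/-- The quantity that is kept positive at the crossing points. -/
def i2 (II : E → E → V4) (v w : E) : ℝ :=
  ⟪II v w, II w w⟫ ^ 2 + (⟪II v v, II w w⟫ - ⟪II v w, II v w⟫) * ⟪II w w, II w w⟫

/-- The limit of `⟪A + ε C, II v v⟫` at a turning point of the loop. -/
def f0 (p q A B : V4) (k : ℝ) (v : E) : ℝ := ‖pn q p (v 1 • A + v 0 • B)‖ ^ 2 + v 0 ^ 2 * k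

/-- The point with coordinates `(s, t)`. -/
def pt (s t : ℝ) : E := !₂[s, t]

/-- The cross product of the tangent vectors with a second derivative. -/
def crD (F : E → V4) (x z w : E) : V4 := cr (dd w F x) (dd z F x) (dd w (dd w F) x)

end Crest.Agent.R216
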