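import Crest.Agent.R216.LDefs
import Crest.Agent.R216.MCl

/-!
# Row 216: auxiliary file for `LargeA.lean` (part 1)
-/

set_option autoImplicit false
set_option linter.unusedSectionVars false

noncomputable section

namespace Crest.Agent.R216.LargeAAux1

open Set Metric Filter
open scoped Manifold ContDiff Topology RealInnerProductSpace

universe u

variable {M : Type u} [TopologicalSpace M] [T2Space M] [CompactSpace M] [ChartedSpace E M]
  [IsManifold (𝓡 2) ∞ M]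

theorem of_local {ι : Type*} {σ : Sc ι} {F : ι → M → V4} (hs : ∀ i, Sm (F i))
    (h : ∀ p : M, ∃ (c : Ch M) (U : Set E) (C : ℝ), p ∈ c.e.source ∧ U ∈ 𝓝 (c.e p) ∧
      ∀ i, ∀ x ∈ U, ∃ v : E, ‖v‖ ≤ 1 ∧ 1 ≤ C * (σ.M i * ‖crv (c.rd (F i)) x v‖)) : Ndg σ F := by
  intro c K hK hKc
  choose d U C hd hU hC using h
  have h1 : ∀ p, ∃ K' : Set E, K' ∈ 𝓝 ((d p).e p) ∧ K' ⊆ U p ∩ (d p).e.target ∧ IsCompact K' :=
    fun p => local_compact_nhds (inter_mem (hU p)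
      ((d p).e.open_target.mem_nhds ((d p).e.map_source (hd p))))
  choose K' hK1 hK2 hK3 using h1
  obtain ⟨t, ht⟩ := CompactSpace.elim_nhds_subcover
    (fun p => (d p).e.source ∩ (d p).e ⁻¹' K' p) fun p =>
      inter_mem ((d p).e.open_source.mem_nhds (hd p)) ((d p).e.continuousAt (hd p) (hK1 p))
  choose B hB0 hB using fun p => MClC.transfer c (d p) hK hKc (hK3 p)
    ((hK2 p).trans inter_subset_right)
  refine ⟨∑ a ∈ t, |C a| * B a, fun i x hx => ?_⟩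
  have hx2 : c.e.symm x ∈ ⋃ p ∈ t, (d p).e.source ∩ (d p).e ⁻¹' K' p := ht ▸ mem_univ _
  obtain ⟨a, ha, h1, h2⟩ := mem_iUnion₂.1 hx2
  obtain ⟨v, hv, h3⟩ := hC a i _ (hK2 a h2).1
  obtain ⟨w, hw, h4⟩ := hB a (F i) (hs i) x hx h1 h2 v hv
  have hM : 0 ≤ σ.M i := zero_le_one.trans (σ.hM i)
  refine ⟨w, hw, h3.trans ?_⟩
  have h5 : |C a| * B a ≤ ∑ a ∈ t, |C a| * B a := Finset.single_le_sum
    (f := fun a => |C a| * B a) (fun a _ => mul_nonneg (abs_nonneg _) (hB0 a)) ha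
  calc C a * (σ.M i * ‖crv ((d a).rd (F i)) ((d a).e (c.e.symm x)) v‖)
      ≤ |C a| * (σ.M i * (B a * ‖crv (c.rd (F i)) x w‖)) := by
        gcongr
        exact le_abs_self _
    _ = |C a| * B a * (σ.M i * ‖crv (c.rd (F i)) x w‖) := by ring
    _ ≤ _ := by gcongr

theorem contDiffOn_dd {V : Type*} [NormedAddCommGroup V] [NormedSpace ℝ V] {H : E → V} {O : Set E}
    (hO : IsOpen O) (hH : ContDiffOn ℝ ∞ H O) (v : E) : ContDiffOn ℝ ∞ (dd v H) O :=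
  (hH.fderiv_of_isOpen (m := ∞) hO (by simp)).clm_apply contDiffOn_const

theorem continuousOn_crv {H : E → V4} {O : Set E} (hO : IsOpen O) (hH : ContDiffOn ℝ ∞ H O)
    (v : E) : ContinuousOn (fun x => crv H x v) O :=
  contDiff_cr.continuous.comp_continuousOn
    (f := fun x => (dd et H x, dd es H x, dd v (dd v H) x))
    ((contDiffOn_dd hO hH et).continuousOn.prodMk ((contDiffOn_dd hO hH es).continuousOn.prodMk
      (contDiffOn_dd hO (contDiffOn_dd hO hH v) v).continuousOn))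

theorem crv_lower {F : M → V4} (hF : Sm F) (hi : Imm F) (h0 : ∀ p, ∃ v, sff F p v v ≠ 0) (c : Ch M)
    {K : Set E} (hK : IsCompact K) (hKc : K ⊆ c.e.target) :
    ∃ C : ℝ, 0 ≤ C ∧ ∀ x ∈ K, ∃ v : E, ‖v‖ ≤ 1 ∧ 1 ≤ C * ‖crv (c.rd F) x v‖ := by
  refine hK.induction_on (p := fun S => ∃ C : ℝ, 0 ≤ C ∧ ∀ x ∈ S, ∃ v : E, ‖v‖ ≤ 1 ∧
    1 ≤ C * ‖crv (c.rd F) x v‖) ⟨0, le_rfl, fun x hx => hx.elim⟩ ?_ ?_ ?_
  · rintro S S' hS ⟨C, hC, h⟩
    exact ⟨C, hC, fun x hx => h x (hS hx)⟩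
  · rintro S S' ⟨C, hC, h⟩ ⟨C', hC', h'⟩
    refine ⟨C + C', add_nonneg hC hC', ?_⟩
    rintro x (hx | hx)
    · obtain ⟨v, hv, h1⟩ := h x hx
      exact ⟨v, hv, h1.trans (by gcongr; linarith)⟩
    · obtain ⟨v, hv, h1⟩ := h' x hx
      exact ⟨v, hv, h1.trans (by gcongr; linarith)⟩
  · intro x hx
    have hx' := hKc hx
    have hU := c.e.open_target.mem_nhds hx'
    have hH := (c.contDiffOn_rd hF).contDiffAt hU
    obtain ⟨v, hv⟩ := h0 (c.e.symm x)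
    have e1 : c.dP x (c.dQ (c.e.symm x) v) = v := by
      have := c.dP_dQ (c.e.map_target hx') v
      rwa [c.e.right_inv hx'] at this
    rw [← e1, c.sff_eq hF hx'] at hv
    generalize c.dQ (c.e.symm x) v = w at hv
    have hg := hi.gram_ne hF c hx'
    have h1 : crv (c.rd F) x w ≠ 0 := by
      intro h2
      have h3 := norm_cr_sffE hH hg w
      rw [crv] at h2
      rw [h2, norm_zero, zero_pow two_ne_zero] at h3
      exact mul_ne_zero hg (pow_ne_zero 2 (norm_ne_zero_iff.2 hv)) h3.symm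
    have hw : 0 < ‖w‖ + 1 := by positivity
    have h4 : crv (c.rd F) x ((‖w‖ + 1)⁻¹ • w) ≠ 0 := by
      rw [MClC.crv_smul hH]
      exact smul_ne_zero (pow_ne_zero 2 (inv_ne_zero hw.ne')) h1
    have h5 : ‖(‖w‖ + 1)⁻¹ • w‖ ≤ 1 := by
      rw [norm_smul, Real.norm_of_nonneg (inv_nonneg.2 hw.le), inv_mul_le_iff₀ hw]
      linarith
    generalize (‖w‖ + 1)⁻¹ • w = z at h4 h5
    have h6 := ((continuousOn_crv c.e.open_target (c.contDiffOn_rd hF) z).continuousAt hU).norm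
    have h7 : 0 < ‖crv (c.rd F) x z‖ := norm_pos_iff.2 h4
    refine ⟨{y | ‖crv (c.rd F) x z‖ / 2 < ‖crv (c.rd F) y z‖},
      mem_nhdsWithin_of_mem_nhds (h6.eventually (lt_mem_nhds (half_lt_self h7))),
      2 / ‖crv (c.rd F) x z‖, by positivity, fun y hy => ⟨z, h5, ?_⟩⟩
    rw [div_mul_eq_mul_div, le_div_iff₀ h7]
    have : ‖crv (c.rd F) x z‖ / 2 < ‖crv (c.rd F) y z‖ := hy
    linarith

theorem ljets_crv_lower {L : LSet} {S : E → ℝ} {c0 C0 : ℝ} {O : Set E} {W : E × ℝ → V4}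
    (h : LLoop L S c0 C0 O W) {H' : ℕ → E → V4} (hj : LJets L W H') :
    ∃ C : ℝ, 0 ≤ C ∧ ∀ᶠ n in atTop, ∀ x ∈ L.D, 1 ≤ C * ‖crv (H' n) x et‖ := by
  have hK : IsCompact (L.D ×ˢ Icc (0 : ℝ) 1) := L.cpt.prod isCompact_Icc
  have hm : MapsTo Prod.fst (L.D ×ˢ Icc (0 : ℝ) 1) L.O := fun q hq => L.sub hq.1
  have cp : ContinuousOn (fun q : E × ℝ => L.p q.1) (L.D ×ˢ Icc (0 : ℝ) 1) :=
    (contDiffOn_dd L.hO L.smH et).continuousOn.comp continuousOn_fst hm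
  have cA : ContinuousOn (fun q : E × ℝ => L.A q.1) (L.D ×ˢ Icc (0 : ℝ) 1) :=
    (contDiffOn_dd L.hO (contDiffOn_dd L.hO L.smH et) et).continuousOn.comp continuousOn_fst hm
  have cW : ContinuousOn W (L.D ×ˢ Icc (0 : ℝ) 1) :=
    h.sm.continuousOn.mono (prod_mono h.sub (subset_univ _))
  have cc : ContinuousOn (fun q : E × ℝ => ‖cr (L.p q.1) (L.A q.1) (W q)‖)
      (L.D ×ˢ Icc (0 : ℝ) 1) :=
    (contDiff_cr.continuous.comp_continuousOn (f := fun q : E × ℝ => (L.p q.1, L.A q.1, W q))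
      (cp.prodMk (cA.prodMk cW))).norm
  obtain ⟨m, hm0, hm⟩ := hK.exists_forall_le' cc (a := 0)
    fun q hq => norm_pos_iff.2 (h.nd q.1 hq.1 q.2)
  obtain ⟨B1, hB1⟩ := hK.exists_bound_of_continuousOn cp
  obtain ⟨B2, hB2⟩ := hK.exists_bound_of_continuousOn cA
  obtain ⟨B3, hB3⟩ := hK.exists_bound_of_continuousOn cW
  obtain ⟨B, hB0, b1, b2, b3⟩ : ∃ B : ℝ, 0 < B ∧ B1 ≤ B ∧ B2 + 1 ≤ B ∧ B3 + 1 ≤ B :=
    ⟨|B1| + |B2| + |B3| + 1, by positivity,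
      by linarith [le_abs_self B1, abs_nonneg B2, abs_nonneg B3],
      by linarith [le_abs_self B2, abs_nonneg B1, abs_nonneg B3],
      by linarith [le_abs_self B3, abs_nonneg B1, abs_nonneg B2]⟩
  obtain ⟨δ, hδ, hδ1, hδ2⟩ : ∃ δ : ℝ, 0 < δ ∧ δ ≤ 1 ∧ δ ≤ m / (6 * B ^ 2) :=
    ⟨min 1 (m / (6 * B ^ 2)), by positivity, min_le_left _ _, min_le_right _ _⟩
  refine ⟨2 / m, by positivity, (hj δ hδ).mono fun n hn x hx => ?_⟩
  obtain ⟨θ, hθ, j1, j2, j3, -, -⟩ := hn x hx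
  have k1 := (hB1 (x, θ) ⟨hx, hθ⟩).trans b1
  have k2 := hB2 (x, θ) ⟨hx, hθ⟩
  have k3 := hB3 (x, θ) ⟨hx, hθ⟩
  have k4 := hm (x, θ) ⟨hx, hθ⟩
  dsimp only at k1 k2 k4
  have k5 : ‖dd es (H' n) x‖ ≤ B := by linarith [norm_le_insert' (dd es (H' n) x) (W (x, θ))]
  have k6 : ‖dd et (dd et (H' n)) x‖ ≤ B := by
    linarith [norm_le_insert' (dd et (dd et (H' n)) x) (L.A x)]
  have k7 : ‖W (x, θ)‖ ≤ B := by linarith
  have k8 : ‖crv (H' n) x et - cr (L.p x) (W (x, θ)) (L.A x)‖ ≤ δ * B * B + B * δ * B + B * B * δ := by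
    refine (norm_cr_sub_le _ _ _ _ _ _).trans ?_
    gcongr
  have k9 := norm_le_insert (crv (H' n) x et) (cr (L.p x) (W (x, θ)) (L.A x))
  rw [cr_swap23, norm_neg, ← cr_swap23] at k9
  rw [le_div_iff₀ (by positivity)] at hδ2
  rw [div_mul_eq_mul_div, le_div_iff₀ hm0]
  nlinarith

theorem ljets_of_close {L : LSet} {W : E × ℝ → V4} {H' H'' : ℕ → E → V4} (hj : LJets L W H')
    (h1 : ∀ n, ContDiffOn ℝ ∞ (H' n) L.O) (h2 : ∀ n, ContDiffOn ℝ ∞ (H'' n) L.O)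
    (h : ∀ δ : ℝ, 0 < δ → ∀ᶠ n in atTop, ∀ x ∈ L.D, ∀ m ≤ 2,
      ‖iteratedFDeriv ℝ m (fun y => H'' n y - H' n y) x‖ ≤ δ) : LJets L W H'' := by
  intro δ hδ
  filter_upwards [hj (δ / 2) (half_pos hδ), h (δ / 2) (half_pos hδ)] with n hn hn' x hx
  obtain ⟨θ, hθ, j1, j2, j3, j4, j5⟩ := hn x hx
  have hU := L.hO.mem_nhds (L.sub hx)
  have a1 := (h1 n).contDiffAt hU
  have a2 := (h2 n).contDiffAt hU
  have d1 : ∀ v : E, ‖v‖ = 1 → ‖dd v (H'' n) x - dd v (H' n) x‖ ≤ δ / 2 := fun v hv => by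
    rw [← dd_sub (a2.differentiableAt (by simp)) (a1.differentiableAt (by simp))]
    exact (norm_dd_le _ x v).trans (by rw [hv, mul_one]; exact hn' x hx 1 one_le_two)
  have d2 : ∀ v w : E, ‖v‖ = 1 → ‖w‖ = 1 →
      ‖dd v (dd w (H'' n)) x - dd v (dd w (H' n)) x‖ ≤ δ / 2 := fun v w hv hw => by
    have e : dd v (dd w fun y => H'' n y - H' n y) x =
        dd v (dd w (H'' n)) x - dd v (dd w (H' n)) x := by
      rw [dd_dd_eq (a2.sub a1), dd_dd_eq a2, dd_dd_eq a1, fun_iteratedFDeriv_sub_apply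
        (a2.of_le (WithTop.coe_le_coe.2 le_top)) (a1.of_le (WithTop.coe_le_coe.2 le_top))]
      rfl
    rw [← e]
    exact (norm_dd_dd_le (a2.sub a1) v w).trans
      (by rw [hv, hw, mul_one, mul_one]; exact hn' x hx 2 le_rfl)
  have tri : ∀ a b c : V4, ‖a - b‖ ≤ δ / 2 → ‖b - c‖ ≤ δ / 2 → ‖a - c‖ ≤ δ := fun a b c h1 h2 =>
    (norm_sub_le_norm_sub_add_norm_sub a b c).trans (by linarith)
  refine ⟨θ, hθ, tri _ _ _ (d1 _ MClC.norm_et) j1, tri _ _ _ (d1 _ MClC.norm_es) j2,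
    tri _ _ _ (d2 _ _ MClC.norm_et MClC.norm_et) j3, tri _ _ _ (d2 _ _ MClC.norm_et MClC.norm_es) j4,
    tri _ _ _ ?_ j5⟩
  have e0 : 0 ≤ ep n := by unfold ep; positivity
  have e1 : ep n ≤ 1 := inv_le_one_of_one_le₀ (le_add_of_nonneg_left n.cast_nonneg)
  rw [← smul_sub, norm_smul, Real.norm_of_nonneg e0]
  exact (mul_le_of_le_one_left (norm_nonneg _) e1).trans (d2 _ _ MClC.norm_es MClC.norm_es)

theorem jet_zero_ext (c c' : Ch M) {u : E → V4} (hu : ContDiff ℝ ∞ u) {χ : E → ℝ}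
    (hK : IsCompact (tsupport χ)) (hKc : tsupport χ ⊆ c.e.target)
    (h0 : ∀ x, χ x = 0 → ∀ m ≤ 2, iteratedFDeriv ℝ m u x = 0) {x : E} (hx : x ∈ c'.e.target)
    (hx' : c'.e.symm x ∉ c.e.symm '' {y | χ y ≠ 0}) :
    ∀ m ≤ 2, iteratedFDeriv ℝ m (c'.rd (c.ext u)) x = 0 := by
  intro m hm
  by_cases hp : c'.e.symm x ∈ c.e.source
  · have hU := (c'.isOpen_tr c).mem_nhds (⟨hx, hp⟩ : x ∈ c'.e.target ∩ c'.e.symm ⁻¹' c.e.source)
    have e1 : c'.rd (c.ext u) =ᶠ[𝓝 x] u ∘ c'.tr c := by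
      filter_upwards [hU] with y hy
      exact if_pos hy.2
    have h1 : χ (c'.tr c x) = 0 := by
      by_contra h2
      exact hx' ⟨_, h2, c.e.left_inv hp⟩
    rw [(e1.iteratedFDeriv ℝ m).self_of_nhds, iteratedFDeriv_comp hu.contDiffAt
      ((c'.contDiffOn_tr c).contDiffAt hU) (WithTop.coe_le_coe.2 le_top)]
    refine Finset.sum_eq_zero fun q _ => ?_
    ext1 v
    have h3 : ftaylorSeries ℝ u (c'.tr c x) q.length = 0 := h0 _ h1 _ (q.length_le.trans hm)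
    rw [FormalMultilinearSeries.compAlongOrderedFinpartition_apply, h3]
    rfl
  · have h1 : ∀ y ∈ c.e.target, y ∉ tsupport χ → u y = 0 := fun y _ hy => by
      have h2 := h0 y (image_eq_zero_of_notMem_tsupport hy) 0 (Nat.zero_le _)
      rw [← norm_eq_zero, norm_iteratedFDeriv_zero, norm_eq_zero] at h2
      exact h2
    have h3 := c.ext_eventually_zero hK hKc h1 (p := c'.e.symm x)
      fun ⟨y, hy, e⟩ => hp (e ▸ c.e.map_target (hKc hy))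
    have e1 : c'.rd (c.ext u) =ᶠ[𝓝 x] fun _ => 0 := (c'.e.continuousAt_symm hx).eventually h3
    rw [(e1.iteratedFDeriv ℝ m).self_of_nhds, iteratedFDeriv_fun_zero]
    rfl

theorem met_add_push {G : M → Bil} (hG : Met G) (c : Ch M) {a : E → ℝ}
    (ha : ContDiffOn ℝ ∞ a c.e.target) {K : Set E} (hK : IsCompact K) (hKc : K ⊆ c.e.target)
    (h0 : ∀ x ∈ c.e.target, x ∉ K → a x = 0) :
    Met fun p => G p + c.push (fun x => a x ^ 2 • tp cs cs) p := by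
  have e : ∀ p v w, c.push (fun x => a x ^ 2 • tp cs cs) p v w =
      c.ext a p ^ 2 * (cs (c.dQ p v) * cs (c.dQ p w)) := fun p v w => by
    unfold Ch.push Ch.ext
    split_ifs
    · simp [tp]
    · simp
  have : IsBoundedSMul ℝ Bil := NormedSpace.toIsBoundedSMul (𝕜 := ℝ) (E := Bil)
  refine ⟨hG.sm.add (c.smT_push ((ha.pow 2).smul contDiffOn_const) hK hKc fun x hx hx' => ?_),
    fun p v w => ?_, fun p v hv => ?_⟩
  · ext1 v
    ext1 w
    simp [h0 x hx hx']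
  · simp only [add_apply, e, hG.symm p v w, mul_comm (cs (c.dQ p v))]
  · simp only [add_apply, e]
    exact add_pos_of_pos_of_nonneg (hG.pos p v hv) (mul_nonneg (sq_nonneg _) (mul_self_nonneg _))

end Crest.Agent.R216.LargeAAux1
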