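import Crest.Agent.R216.Stage

/-!
# Row 216: the iteration and the openness theorem (auxiliary file of `ThmO`)
-/

set_option autoImplicit false
set_option linter.unusedSectionVars false

noncomputable section

namespace Crest.Agent.R216.ThmOAuxB

open Set Metric Filter
open scoped Manifold ContDiff Topology RealInnerProductSpace

universe u

variable {M : Type u} [TopologicalSpace M] [T2Space M] [CompactSpace M] [ChartedSpace E M]
  [IsManifold (𝓡 2) ∞ M]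

theorem mem_target (𝒜 : Atl M) (a : Fin 𝒜.n) {x : E} (hx : x ∈ ball (0 : E) 2) :
    x ∈ (𝒜.c a).e.target :=
  𝒜.sub a (closedBall_subset_closedBall (by norm_num) (ball_subset_closedBall hx))

theorem itf_sub (c : Ch M) {F F' : M → V4} (hF : Sm F) (hF' : Sm F') {x : E}
    (hx : x ∈ c.e.target) (m : ℕ) : iteratedFDeriv ℝ m (c.rd fun q => F' q - F q) x =
      iteratedFDeriv ℝ m (c.rd F') x - iteratedFDeriv ℝ m (c.rd F) x :=
  iteratedFDeriv_sub_apply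
    (((c.contDiffOn_rd hF').contDiffAt (c.e.open_target.mem_nhds hx)).of_le (by exact_mod_cast le_top))
    (((c.contDiffOn_rd hF).contDiffAt (c.e.open_target.mem_nhds hx)).of_le (by exact_mod_cast le_top))

/-- The sequence of the stages. -/
theorem seq (𝒜 : Atl M) : ∃ P : ℕ, 5 ≤ P ∧ ∀ {G : M → Bil}, Met G → ∃ Λ : ℝ, 0 < Λ ∧ ∀ l : ℝ,
    Λ ≤ l → ∀ F : M → V4, HO 𝒜 G P l F → ∃ (p : ℕ → ℕ) (L : ℕ → ℝ) (Fs : ℕ → M → V4),
      Fs 0 = F ∧ (∀ n, HO 𝒜 G (p n) (L n) (Fs n)) ∧ (∀ n, 2 ^ n * l ≤ L n) ∧ (∀ n, 1 ≤ L n) ∧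
      (∀ n, 1 ≤ p n) ∧ ∀ m : ℕ, ∃ n₀ : ℕ, (m ≤ 2 → n₀ = 0) ∧ ∀ n, n₀ ≤ n → ∀ a,
        ∀ x ∈ ball (0 : E) 2,
          ‖iteratedFDeriv ℝ m ((𝒜.c a).rd fun q => Fs (n + 1) q - Fs n q) x‖ ≤ (L n)⁻¹ := by
  obtain ⟨b, hb, h⟩ := stage 𝒜
  refine ⟨20 * b, by omega, fun {G} hG => ?_⟩
  have h' := h hG
  choose! Λ hΛ using h'
  refine ⟨max 2 (Λ (20 * b) (20 * b)), by positivity, fun l hl F hF => ?_⟩
  let S := {s : ℕ × ℝ × (M → V4) //
    20 * b ≤ s.1 ∧ 2 ≤ s.2.1 ∧ Λ s.1 s.1 ≤ s.2.1 ∧ HO 𝒜 G s.1 s.2.1 s.2.2}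
  have step : ∀ s : S, ∃ s' : S, 2 * s.1.2.1 ≤ s'.1.2.1 ∧ s.1.1 ≤ s'.1.1 ∧
      (Λ s.1.1 (s.1.1 + 1) ≤ s.1.2.1 → Λ (s.1.1 + 1) (s.1.1 + 1) ≤ s.1.2.1 → s.1.1 + 1 ≤ s'.1.1) ∧
      ∀ a, ∀ x ∈ ball (0 : E) 2, ∀ m : ℕ, 2 * b * (m + 1) + 4 ≤ s.1.1 →
        ‖iteratedFDeriv ℝ m ((𝒜.c a).rd fun q => s'.1.2.2 q - s.1.2.2 q) x‖ ≤ s.1.2.1⁻¹ := by
    rintro ⟨⟨p, L, H⟩, h1, h2, h3, h4⟩
    dsimp only at h1 h2 h3 h4 ⊢
    have h5 : 2 * L ≤ L ^ b := by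
      have := pow_le_pow_right₀ (show 1 ≤ L by linarith) hb
      nlinarith
    by_cases hc : Λ p (p + 1) ≤ L ∧ Λ (p + 1) (p + 1) ≤ L
    · obtain ⟨H', k1, k2⟩ := hΛ p (p + 1) h1 (Nat.le_succ p) L hc.1 H h4
      exact ⟨⟨(p + 1, L ^ b, H'), by dsimp only; omega, by dsimp only; linarith,
        by dsimp only; linarith [hc.2], k1⟩, h5, Nat.le_succ p, fun _ _ => le_rfl, k2⟩
    · obtain ⟨H', k1, k2⟩ := hΛ p p h1 le_rfl L h3 H h4
      exact ⟨⟨(p, L ^ b, H'), h1, by dsimp only; linarith, by dsimp only; linarith, k1⟩, h5, le_rfl,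
        fun a b => (hc ⟨a, b⟩).elim, k2⟩
  choose nxt hn using step
  obtain ⟨s, s0, hs⟩ : ∃ s : ℕ → S, (s 0).1 = (20 * b, l, F) ∧ ∀ n, s (n + 1) = nxt (s n) :=
    ⟨fun n => nxt^[n] ⟨(20 * b, l, F), le_rfl, (le_max_left _ _).trans hl,
      (le_max_right _ _).trans hl, hF⟩, rfl, fun n => Function.iterate_succ_apply' _ _ _⟩
  have hl2 : 2 ≤ l := (le_max_left _ _).trans hl
  have hL : ∀ n, 2 ^ n * l ≤ (s n).1.2.1 := by
    intro n
    induction n with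
    | zero => rw [s0, pow_zero, one_mul]
    | succ n ih =>
      have := (hn (s n)).1
      rw [hs, pow_succ]
      linarith
  have hmono : Monotone fun n => (s n).1.1 :=
    monotone_nat_of_le_succ fun n => by rw [hs]; exact (hn (s n)).2.1
  have hT : Tendsto (fun n => (s n).1.2.1) atTop atTop :=
    tendsto_atTop_mono hL
      ((tendsto_pow_atTop_atTop_of_one_lt one_lt_two).atTop_mul_const (by linarith))
  have hp : ∀ q, ∃ n, q ≤ (s n).1.1 := by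
    intro q
    induction q with
    | zero => exact ⟨0, Nat.zero_le _⟩
    | succ q ih =>
      obtain ⟨n, hq⟩ := ih
      obtain ⟨k, k1, k2, k3⟩ := ((eventually_ge_atTop n).and
        ((hT.eventually_ge_atTop (Λ q (q + 1))).and
          (hT.eventually_ge_atTop (Λ (q + 1) (q + 1))))).exists
      rcases (hq.trans (hmono k1)).eq_or_lt with e | e
      · refine ⟨k + 1, ?_⟩
        have := (hn (s k)).2.2.1
        rw [← hs, ← (show q = (s k).1.1 from e)] at this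
        exact this k2 k3
      · exact ⟨k, e⟩
  refine ⟨fun n => (s n).1.1, fun n => (s n).1.2.1, fun n => (s n).1.2.2, by simp only [s0],
    fun n => (s n).2.2.2.2, hL, fun n => by linarith [(s n).2.2.1],
    fun n => le_trans (by omega) (s n).2.1, fun m => ?_⟩
  by_cases hm : m ≤ 2
  · refine ⟨0, fun _ => rfl, fun n _ a x hx => ?_⟩
    simp only [hs]
    refine (hn (s n)).2.2.2 a x hx m (le_trans ?_ (s n).2.1)
    nlinarith
  · obtain ⟨n₀, h₀⟩ := hp (2 * b * (m + 1) + 4)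
    refine ⟨n₀, fun h => (hm h).elim, fun n hn₀ a x hx => ?_⟩
    simp only [hs]
    exact (hn (s n)).2.2.2 a x hx m (h₀.trans (hmono hn₀))

theorem ind_eq (𝒜 : Atl M) {G : M → Bil} {p : ℕ → ℕ} {L : ℕ → ℝ} {Fs : ℕ → M → V4} {F' : M → V4}
    (h : ∀ n, HO 𝒜 G (p n) (L n) (Fs n)) (hL : Tendsto L atTop atTop) (h1 : ∀ n, 1 ≤ L n)
    (hp : ∀ n, 1 ≤ p n) (hF' : Sm F') (hc : ∀ a, ∀ x ∈ ball (0 : E) 2,
      Tendsto (fun n => iteratedFDeriv ℝ 1 ((𝒜.c a).rd (Fs n)) x) atTop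
        (𝓝 (iteratedFDeriv ℝ 1 ((𝒜.c a).rd F') x))) : ind F' = G := by
  funext q
  obtain ⟨a, -, ha⟩ := Finset.exists_ne_zero_of_sum_ne_zero ((𝒜.sum q).trans_ne one_ne_zero)
  obtain ⟨hq, hq1⟩ := 𝒜.supp a q ha
  have hx : (𝒜.c a).e q ∈ ball (0 : E) 2 := mem_ball_zero_iff.2 (by linarith)
  refine (𝒜.c a).eq_of_pull hq ?_
  generalize (𝒜.c a).e q = x at hx
  have hxt := mem_target 𝒜 a hx
  have t0 : ∀ k : ℕ → ℕ, (∀ n, 1 ≤ k n) → Tendsto (fun n => (L n ^ k n)⁻¹) atTop (𝓝 0) :=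
    fun k hk => (tendsto_atTop_mono (fun n => le_self_pow₀ (h1 n) (by have := hk n; omega))
      hL).inv_tendsto_atTop
  have t1 : ∀ v : E, Tendsto (fun n => fderiv ℝ ((𝒜.c a).rd (Fs n)) x v) atTop
      (𝓝 (fderiv ℝ ((𝒜.c a).rd F') x v)) := fun v => by
    have := ((continuous_eval_const (fun _ : Fin 1 => v)).tendsto _).comp (hc a x hx)
    simpa only [Function.comp_def, iteratedFDeriv_one_apply] using this
  have t2 : Tendsto (fun n => (𝒜.c a).pull G x - indE ((𝒜.c a).rd (Fs n)) x -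
      (L n ^ p n)⁻¹ • (𝒜.c a).pull G x) atTop (𝓝 0) := by
    refine squeeze_zero_norm (E := Bil) (fun n => ?_) (t0 (fun n => p n + 1) fun n => by omega)
    have := (h n).bG a x hx 0 (Nat.zero_le _)
    rw [norm_iteratedFDeriv_zero, pow_zero, mul_one,
      (𝒜.c a).pull_sub (fun q => G q - ind (Fs n) q) (fun q => (L n ^ p n)⁻¹ • G q),
      (𝒜.c a).pull_sub, (𝒜.c a).pull_smul (fun _ => (L n ^ p n)⁻¹),
      (𝒜.c a).pull_ind (h n).sm hxt] at this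
    exact this
  rw [(𝒜.c a).pull_ind hF' hxt]
  ext1 v
  ext1 w
  have t3 := (((continuous_eval_const w).comp (continuous_eval_const v)).tendsto _).comp t2
  have t4 := (tendsto_const_nhds (x := (𝒜.c a).pull G x v w).sub ((t1 v).inner (𝕜 := ℝ) (t1 w))).sub
    ((t0 p hp).mul_const ((𝒜.c a).pull G x v w))
  have := tendsto_nhds_unique t3 t4
  simp only [Function.comp_apply, zero_apply, zero_mul, sub_zero] at this
  exact (sub_eq_zero.1 this.symm).symm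

theorem iterO (𝒜 : Atl M) (lim : ∀ {F : ℕ → M → V4}, (∀ n, Sm (F n)) → ∀ {τ : ℕ → ℝ}, Summable τ →
      (∀ m : ℕ, ∀ᶠ n in atTop, ∀ a, ∀ x ∈ ball (0 : E) 2,
        ‖iteratedFDeriv ℝ m ((𝒜.c a).rd fun q => F (n + 1) q - F n q) x‖ ≤ τ n) →
      ∃ F' : M → V4, Sm F' ∧ ∀ a, ∀ x ∈ ball (0 : E) 2, ∀ m : ℕ,
        Tendsto (fun n => iteratedFDeriv ℝ m ((𝒜.c a).rd (F n)) x) atTop
          (𝓝 (iteratedFDeriv ℝ m ((𝒜.c a).rd F') x))) :
    ∃ P : ℕ, 5 ≤ P ∧ ∀ {G : M → Bil}, Met G → ∃ Λ : ℝ, ∀ l : ℝ, Λ ≤ l →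
    ∀ F : M → V4, HO 𝒜 G P l F → ∃ F' : M → V4, Sm F' ∧ ind F' = G ∧
      ∀ a, ∀ x ∈ ball (0 : E) 2, ∀ m ≤ 2,
        ‖iteratedFDeriv ℝ m ((𝒜.c a).rd fun q => F' q - F q) x‖ ≤ 2 / l := by
  obtain ⟨P, hP, h⟩ := seq 𝒜
  refine ⟨P, hP, fun {G} hG => ?_⟩
  obtain ⟨Λ, hΛ, h⟩ := h hG
  refine ⟨Λ, fun l hl F hF => ?_⟩
  obtain ⟨p, L, Fs, rfl, h1, h2, h3, h4, h5⟩ := h l hl F hF
  have hl0 : 0 < l := hΛ.trans_le hl
  have hτ : ∀ n, (L n)⁻¹ ≤ 2 / l / 2 / 2 ^ n := fun n =>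
    (inv_anti₀ (by positivity) (h2 n)).trans (le_of_eq (by field_simp))
  obtain ⟨F', hF', hc⟩ := lim (fun n => (h1 n).sm) (summable_geometric_two' (2 / l)) fun m => by
    obtain ⟨n₀, -, h6⟩ := h5 m
    filter_upwards [eventually_ge_atTop n₀] with n hn a x hx
    exact (h6 n hn a x hx).trans (hτ n)
  refine ⟨F', hF', ind_eq 𝒜 h1 (tendsto_atTop_mono h2
    ((tendsto_pow_atTop_atTop_of_one_lt one_lt_two).atTop_mul_const hl0)) h3 h4 hF'
    fun a x hx => hc a x hx 1, fun a x hx m hm => ?_⟩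
  obtain ⟨n₀, h0, h6⟩ := h5 m
  rw [itf_sub _ hF.sm hF' (mem_target 𝒜 a hx), ← dist_eq_norm, dist_comm]
  refine dist_le_of_le_geometric_two_of_tendsto₀ (fun n => ?_) (hc a x hx m)
  rw [dist_comm, dist_eq_norm, ← itf_sub _ (h1 n).sm (h1 (n + 1)).sm (mem_target 𝒜 a hx)]
  exact (h6 n (by rw [h0 hm]; exact Nat.zero_le n) a x hx).trans (hτ n)

theorem thmO (iter : ∀ 𝒜 : Atl M, ∃ P : ℕ, 5 ≤ P ∧ ∀ {G : M → Bil}, Met G → ∃ Λ : ℝ, ∀ l : ℝ,
      Λ ≤ l → ∀ F : M → V4, HO 𝒜 G P l F → ∃ F' : M → V4, Sm F' ∧ ind F' = G ∧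
        ∀ a, ∀ x ∈ ball (0 : E) 2, ∀ m ≤ 2,
          ‖iteratedFDeriv ℝ m ((𝒜.c a).rd fun q => F' q - F q) x‖ ≤ 2 / l) :
    ∃ N : ℕ, ∀ {G : M → Bil}, Met G → ∀ F : ℕ → M → V4,
    MB Sc.nat N 1 (fun _ => 1) F →
    TB Sc.nat N 0 (fun n => (Sc.nat.M n ^ N)⁻¹) (fun n q => G q - ind (F n) q) →
    Ndg Sc.nat F → ∃ F' : ℕ → M → V4, (∀ᶠ n in atTop, ind (F' n) = G) ∧
      MB (Sc.one ℕ) 2 0 (fun n => (Sc.nat.M n)⁻¹) fun n q => F' n q - F n q := by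
  obtain ⟨𝒜⟩ := exists_atl (M := M)
  obtain ⟨P, hP, h⟩ := iter 𝒜
  refine ⟨kp P, fun {G} hG F hF hT hN => ?_⟩
  obtain ⟨Λ, h⟩ := h hG
  have hM := Sc.nat.hM
  have hM0 : ∀ n, 0 < Sc.nat.M n := fun n => one_pos.trans_le (hM n)
  have hMT : Tendsto Sc.nat.M atTop atTop :=
    tendsto_atTop_add_const_right _ _ tendsto_natCast_atTop_atTop
  obtain ⟨δ, hδ⟩ : ∃ δ : ℕ → ℝ, δ = fun n => ((Sc.nat.M n ^ 2) ^ P)⁻¹ := ⟨_, rfl⟩
  have δ0 : ∀ n, 0 ≤ δ n := fun n => by rw [hδ]; positivity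
  have δ1 : ∀ n, δ n ≤ 1 := fun n => by
    rw [hδ]
    exact inv_le_one_of_one_le₀ (one_le_pow₀ (one_le_pow₀ (hM n)))
  have s1 : ∀ n, √(1 - δ n) ≤ 1 := fun n => Real.sqrt_le_one.2 (by linarith [δ0 n])
  have s2 : ∀ n, 1 - δ n ≤ √(1 - δ n) := fun n =>
    Real.le_sqrt_of_sq_le (by nlinarith [δ0 n, δ1 n])
  have hF1 : MB Sc.nat (kp P) 1 (fun _ => 1) fun n q => √(1 - δ n) • F n q :=
    hF.csmul (C := 1) (fun _ => zero_le_one) fun n => by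
      rw [abs_of_nonneg (Real.sqrt_nonneg _)]
      linarith [s1 n]
  have hT1 : TB Sc.nat (kp P) 0 (fun n => (Sc.nat.M n ^ kp P)⁻¹) fun n q =>
      G q - ind (fun q => √(1 - δ n) • F n q) q - δ n • G q := by
    have := hT.csmul (a := fun n => 1 - δ n) (C := 1) hT.nonneg fun n => by
      rw [abs_of_nonneg (by linarith [δ1 n])]
      exact mul_le_mul_of_nonneg_right (by linarith [δ0 n]) (hT.nonneg n)
    convert this using 3 with n q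
    rw [ind_smul (hF.sm n), Real.sq_sqrt (by linarith [δ1 n])]
    module
  have k2 : 2 ≤ kp P := by unfold kp; omega
  have hD : MB (Sc.one ℕ) 2 0 (fun n => (Sc.nat.M n ^ 7)⁻¹)
      fun n q => √(1 - δ n) • F n q - F n q := by
    have := ((hF.mono k2 le_rfl).csmul (a := fun n => √(1 - δ n) - 1) (A' := δ) (C := 1) δ0
      fun n => by
        rw [abs_of_nonpos (by linarith [s1 n])]
        linarith [s2 n]).scale (σ' := Sc.one ℕ) (j' := 0) (A' := fun n => (Sc.nat.M n ^ 7)⁻¹)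
      (C := 1) (fun n => (inv_pos.2 (pow_pos (hM0 n) _)).le) fun n m hm => by
        have := hM0 n
        simp only [hδ, Sc.one, one_pow, mul_one, one_mul]
        rw [← pow_mul, inv_mul_le_iff₀ (by positivity), ← div_eq_mul_inv,
          le_div_iff₀ (by positivity), ← pow_add]
        exact pow_le_pow_right₀ (hM n) (by omega)
    simpa only [sub_smul, one_smul] using this
  obtain ⟨Λ', hN1⟩ := hN.persist (hF.mono k2 le_rfl) hD
  have good : ∀ᶠ n in atTop, Λ ≤ Sc.nat.M n ^ 2 ∧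
      HO 𝒜 G P (Sc.nat.M n ^ 2) fun q => √(1 - δ n) • F n q := by
    choose Λ₁ e1 using fun a => (hF1.atl 𝒜 a).absorb
    choose Λ₂ e2 using fun a => (hT1.atl 𝒜 a).absorb
    choose C e3 using fun a => hN1 (𝒜.c a) (closedBall 0 3) (isCompact_closedBall _ _) (𝒜.sub a)
    filter_upwards [hMT.eventually_ge_atTop Λ, hMT.eventually_ge_atTop Λ',
      eventually_all.2 fun a => hMT.eventually_ge_atTop (Λ₁ a),
      eventually_all.2 fun a => hMT.eventually_ge_atTop (Λ₂ a),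
      eventually_all.2 fun a => hMT.eventually_ge_atTop (C a)] with n n0 n' n1 n2 n3
    have := hM0 n
    refine ⟨n0.trans (le_self_pow₀ (hM n) two_ne_zero), hF1.sm n, fun a x hx m hm => ?_,
      fun a x hx m hm => ?_, fun a x hx => ?_⟩
    · refine (e1 a n _ (n1 a) m hm x hx).trans ?_
      change Sc.nat.M n * (1 * Sc.nat.M n ^ (1 + m)) ≤ _
      rw [one_mul, ← pow_succ', ← pow_mul]
      exact pow_le_pow_right₀ (hM n) (by omega)
    · have e := e2 a n _ (n2 a) m hm x hx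
      rw [hδ] at e ⊢
      refine e.trans ?_
      change Sc.nat.M n * ((Sc.nat.M n ^ kp P)⁻¹ * Sc.nat.M n ^ (0 + m)) ≤ _
      rw [← pow_mul, ← pow_mul, mul_left_comm, ← pow_succ', inv_mul_le_iff₀ (by positivity),
        mul_left_comm, le_inv_mul_iff₀ (by positivity), ← pow_add, ← pow_add]
      exact pow_le_pow_right₀ (hM n) (by unfold kp; omega)
    · obtain ⟨v, hv, e⟩ := e3 a ⟨n, n'⟩ x
        (closedBall_subset_closedBall (by norm_num) (ball_subset_closedBall hx))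
      refine ⟨v, hv, e.trans ?_⟩
      rw [sq, mul_assoc]
      exact mul_le_mul_of_nonneg_right (n3 a) (mul_nonneg this.le (norm_nonneg _))
  have ex : ∀ n, ∃ F' : M → V4, Sm F' ∧ ((Λ ≤ Sc.nat.M n ^ 2 ∧
      HO 𝒜 G P (Sc.nat.M n ^ 2) fun q => √(1 - δ n) • F n q) → ind F' = G) ∧
      ∀ a, ∀ x ∈ ball (0 : E) 2, ∀ m ≤ 2, ‖iteratedFDeriv ℝ m ((𝒜.c a).rd
        fun q => F' q - √(1 - δ n) • F n q) x‖ ≤ 2 / Sc.nat.M n ^ 2 := fun n => by
    by_cases hg : Λ ≤ Sc.nat.M n ^ 2 ∧ HO 𝒜 G P (Sc.nat.M n ^ 2) fun q => √(1 - δ n) • F n q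
    · obtain ⟨F', f1, f2, f3⟩ := h _ hg.1 _ hg.2
      exact ⟨F', f1, fun _ => f2, f3⟩
    · refine ⟨_, hF1.sm n, fun h => (hg h).elim, fun a x hx m _ => ?_⟩
      rw [itf_sub _ (hF1.sm n) (hF1.sm n) (mem_target 𝒜 a hx), sub_self, norm_zero]
      positivity
  choose F' f1 f2 f3 using ex
  refine ⟨F', good.mono f2, ?_⟩
  have i0 : ∀ n, 0 ≤ (Sc.nat.M n)⁻¹ := fun n => (inv_pos.2 (hM0 n)).le
  have fs : ∀ n, Sm fun q => F' n q - √(1 - δ n) • F n q := fun n => (f1 n).sub (hF1.sm n)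
  have a1 : MB (Sc.one ℕ) 2 0 (fun n => (Sc.nat.M n)⁻¹)
      fun n q => F' n q - √(1 - δ n) • F n q := by
    refine MB.of_atl 𝒜 fs i0 fun a => ⟨i0, fun n => ((𝒜.c a).contDiffOn_rd (fs n)).mono
      fun x hx => mem_target 𝒜 a hx, 2, fun n m hm x hx => (f3 n a x hx m hm).trans ?_⟩
    simp only [Sc.ctx, Sc.one, one_pow, mul_one, div_eq_mul_inv]
    exact mul_le_mul_of_nonneg_left (inv_anti₀ (hM0 n) (le_self_pow₀ (hM n) two_ne_zero))
      zero_le_two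
  have a2 := hD.size (A' := fun n => (Sc.nat.M n)⁻¹) (j' := 0) (C := 1) i0 fun n => by
    simp only [pow_zero, mul_one, one_mul]
    exact inv_anti₀ (hM0 n) (le_self_pow₀ (hM n) (by norm_num))
  simpa only [sub_add_sub_cancel] using a1.add a2

end Crest.Agent.R216.ThmOAuxB
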