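import Crest.Agent.R216.Man

/-!
# Row 216: limits of sequences that converge with all the derivatives
-/

set_option autoImplicit false
set_option linter.unusedSectionVars false

noncomputable section

namespace Crest.Agent.R216.ThmOAuxL

open Set Metric Filter
open scoped Manifold ContDiff Topology

section
variable {X V : Type*} [NormedAddCommGroup X] [NormedSpace ℝ X] [NormedAddCommGroup V]
  [NormedSpace ℝ V] [CompleteSpace V]

theorem unif {α W : Type*} [NormedAddCommGroup W] [CompleteSpace W] {U : Set α} {a : ℕ → α → W}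
    {τ : ℕ → ℝ} (hτ : Summable τ) (h : ∀ᶠ n in atTop, ∀ x ∈ U, ‖a (n + 1) x - a n x‖ ≤ τ n) :
    ∃ b : α → W, TendstoUniformlyOn a b atTop U := by
  have h1 := tendstoUniformlyOn_tsum_nat_eventually (f := fun n x => a (n + 1) x - a n x) hτ h
  refine ⟨fun x => (∑' n, (a (n + 1) x - a n x)) + a 0 x, ?_⟩
  rw [Metric.tendstoUniformlyOn_iff] at h1 ⊢
  intro ε hε
  filter_upwards [h1 ε hε] with n hn x hx
  have h2 := hn x hx
  rw [Finset.sum_range_sub fun n => a n x] at h2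
  rwa [← sub_add_cancel (a n x) (a 0 x), dist_add_right]

theorem limit_on {U : Set X} (hU : IsOpen U) {f : ℕ → X → V} (hf : ∀ n, ContDiffOn ℝ ∞ (f n) U)
    {τ : ℕ → ℝ} (hτ : Summable τ) (h : ∀ m : ℕ, ∀ᶠ n in atTop, ∀ x ∈ U,
      ‖iteratedFDeriv ℝ m (fun y => f (n + 1) y - f n y) x‖ ≤ τ n) :
    ContDiffOn ℝ ∞ (fun x => limUnder atTop fun n => f n x) U ∧ ∀ x ∈ U, ∀ m : ℕ,
      Tendsto (fun n => iteratedFDeriv ℝ m (f n) x) atTop
        (𝓝 (iteratedFDeriv ℝ m (fun x => limUnder atTop fun n => f n x) x)) := by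
  have hat : ∀ n, ∀ x ∈ U, ContDiffAt ℝ ∞ (f n) x := fun n x hx =>
    (hf n).contDiffAt (hU.mem_nhds hx)
  have hD : ∀ m : ℕ, ∃ D : X → X [×m]→L[ℝ] V,
      TendstoUniformlyOn (fun n => iteratedFDeriv ℝ m (f n)) D atTop U := fun m => by
    refine unif hτ ((h m).mono fun n hn x hx => ?_)
    rw [← fun_iteratedFDeriv_sub_apply ((hat _ x hx).of_le (by exact_mod_cast le_top))
      ((hat _ x hx).of_le (by exact_mod_cast le_top))]
    exact hn x hx
  choose D hD using hD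
  have hder : ∀ m : ℕ, ∀ x ∈ U, HasFDerivAt (D m) (D (m + 1) x).curryLeft x := fun m x hx => by
    let e := continuousMultilinearCurryLeftEquiv ℝ (fun _ : Fin (m + 1) => X) V
    refine hasFDerivAt_of_tendstoUniformlyOn (l := atTop)
      (f := fun n => iteratedFDeriv ℝ m (f n))
      (f' := fun n => e ∘ iteratedFDeriv ℝ (m + 1) (f n)) (g' := e ∘ D (m + 1)) hU
      (e.isometry.uniformContinuous.comp_tendstoUniformlyOn (hD (m + 1))) (fun n y hy => ?_)
      (fun y hy => (hD m).tendsto_at hy) hx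
    rw [← fderiv_iteratedFDeriv]
    exact ((hat n y hy).differentiableAt_iteratedFDeriv
      (by exact_mod_cast ENat.natCast_lt_top m)).hasFDerivAt
  have hT : HasFTaylorSeriesUpToOn (∞ : ℕ∞ω) (fun x => limUnder atTop fun n => f n x)
      (fun x m => D m x) U := by
    refine ⟨fun x hx => ?_, fun m _ x hx => (hder m x hx).hasFDerivWithinAt,
      fun m _ x hx => (hder m x hx).continuousAt.continuousWithinAt⟩
    refine (Tendsto.limUnder_eq ?_).symm
    exact ((continuousMultilinearCurryFin0 ℝ X V).continuous.tendsto _).comp ((hD 0).tendsto_at hx)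
  refine ⟨hT.contDiffOn, fun x hx m => ?_⟩
  rw [← iteratedFDerivWithin_of_isOpen m hU hx,
    ← hT.eq_iteratedFDerivWithin_of_uniqueDiffOn (by exact_mod_cast le_top) hU.uniqueDiffOn hx]
  exact (hD m).tendsto_at hx

end

theorem exists_limit {M : Type*} [TopologicalSpace M] [ChartedSpace E M] [IsManifold (𝓡 2) ∞ M]
    (𝒜 : Atl M) {F : ℕ → M → V4} (hF : ∀ n, Sm (F n)) {τ : ℕ → ℝ}
    (hτ : Summable τ) (h : ∀ m : ℕ, ∀ᶠ n in atTop, ∀ a, ∀ x ∈ ball (0 : E) 2,
      ‖iteratedFDeriv ℝ m ((𝒜.c a).rd fun q => F (n + 1) q - F n q) x‖ ≤ τ n) :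
    ∃ F' : M → V4, Sm F' ∧ ∀ a, ∀ x ∈ ball (0 : E) 2, ∀ m : ℕ,
      Tendsto (fun n => iteratedFDeriv ℝ m ((𝒜.c a).rd (F n)) x) atTop
        (𝓝 (iteratedFDeriv ℝ m ((𝒜.c a).rd F') x)) := by
  have key := fun a => limit_on (U := ball (0 : E) 2) isOpen_ball
    (f := fun n => (𝒜.c a).rd (F n)) (fun n => ((𝒜.c a).contDiffOn_rd (hF n)).mono
      ((ball_subset_closedBall.trans (closedBall_subset_closedBall (by norm_num))).trans
        (𝒜.sub a))) hτ fun m => (h m).mono fun n hn => hn a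
  refine ⟨fun p => limUnder atTop fun n => F n p, sm_of_ch fun p => ?_, fun a => (key a).2⟩
  obtain ⟨a, -, ha⟩ := Finset.exists_ne_zero_of_sum_ne_zero
    (show ∑ a, 𝒜.ρ a p ≠ 0 by rw [𝒜.sum]; exact one_ne_zero)
  obtain ⟨h1, h2⟩ := 𝒜.supp a p ha
  exact ⟨𝒜.c a, h1, (key a).1.contDiffAt (isOpen_ball.mem_nhds
    (mem_ball_zero_iff.2 (h2.trans (by norm_num))))⟩

end Crest.Agent.R216.ThmOAuxL
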