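import Crest.Agent.R216.Stage
import Crest.Agent.R216.ThmOAuxB
import Crest.Agent.R216.ThmOAuxL

/-!
# Row 216: openness of the set of realisable metrics
-/

set_option autoImplicit false
set_option linter.unusedSectionVars false

noncomputable section

namespace Crest.Agent.R216

open Set Metric Filter
open scoped Manifold ContDiff Topology RealInnerProductSpace

universe u

variable {M : Type u} [TopologicalSpace M] [T2Space M] [CompactSpace M] [ChartedSpace E M]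
  [IsManifold (𝓡 2) ∞ M]

/-- Limits of sequences that converge with all the derivatives. -/
theorem exists_limit (𝒜 : Atl M) {F : ℕ → M → V4} (hF : ∀ n, Sm (F n)) {τ : ℕ → ℝ}
    (hτ : Summable τ) (h : ∀ m : ℕ, ∀ᶠ n in atTop, ∀ a, ∀ x ∈ ball (0 : E) 2,
      ‖iteratedFDeriv ℝ m ((𝒜.c a).rd fun q => F (n + 1) q - F n q) x‖ ≤ τ n) :
    ∃ F' : M → V4, Sm F' ∧ ∀ a, ∀ x ∈ ball (0 : E) 2, ∀ m : ℕ,
      Tendsto (fun n => iteratedFDeriv ℝ m ((𝒜.c a).rd (F n)) x) atTop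
        (𝓝 (iteratedFDeriv ℝ m ((𝒜.c a).rd F') x)) :=
  ThmOAuxL.exists_limit 𝒜 hF hτ h

theorem iterO (𝒜 : Atl M) : ∃ P : ℕ, 5 ≤ P ∧ ∀ {G : M → Bil}, Met G → ∃ Λ : ℝ, ∀ l : ℝ, Λ ≤ l →
    ∀ F : M → V4, HO 𝒜 G P l F → ∃ F' : M → V4, Sm F' ∧ ind F' = G ∧
      ∀ a, ∀ x ∈ ball (0 : E) 2, ∀ m ≤ 2,
        ‖iteratedFDeriv ℝ m ((𝒜.c a).rd fun q => F' q - F q) x‖ ≤ 2 / l :=
  ThmOAuxB.iterO 𝒜 fun hF _ hτ h => exists_limit 𝒜 hF hτ h

variable (M) in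
/-- Approximate solutions of high order can be corrected. -/
theorem thmO : ∃ N : ℕ, ∀ {G : M → Bil}, Met G → ∀ F : ℕ → M → V4,
    MB Sc.nat N 1 (fun _ => 1) F →
    TB Sc.nat N 0 (fun n => (Sc.nat.M n ^ N)⁻¹) (fun n q => G q - ind (F n) q) →
    Ndg Sc.nat F → ∃ F' : ℕ → M → V4, (∀ᶠ n in atTop, ind (F' n) = G) ∧
      MB (Sc.one ℕ) 2 0 (fun n => (Sc.nat.M n)⁻¹) fun n q => F' n q - F n q :=
  ThmOAuxB.thmO iterO

end Crest.Agent.R216
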