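import Crest.Agent.R216.LargeW
import Crest.Agent.R216.ThmO
import Crest.Agent.R216.LargeAAux1

/-!
# Row 216: the analytic part of a step of large amplitude
-/

set_option autoImplicit false
set_option linter.unusedSectionVars false

noncomputable section

namespace Crest.Agent.R216

open Set Metric Filter
open scoped Manifold ContDiff Topology RealInnerProductSpace

universe u

variable {M : Type u} [TopologicalSpace M] [T2Space M] [CompactSpace M] [ChartedSpace E M]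
  [IsManifold (𝓡 2) ∞ M]

theorem Ndg.of_local {ι : Type*} {σ : Sc ι} {F : ι → M → V4} (hs : ∀ i, Sm (F i))
    (h : ∀ p : M, ∃ (c : Ch M) (U : Set E) (C : ℝ), p ∈ c.e.source ∧ U ∈ 𝓝 (c.e p) ∧
      ∀ i, ∀ x ∈ U, ∃ v : E, ‖v‖ ≤ 1 ∧ 1 ≤ C * (σ.M i * ‖crv (c.rd (F i)) x v‖)) : Ndg σ F :=
  LargeAAux1.of_local hs h

/-- A map with non-vanishing second fundamental form. -/
theorem crv_lower {F : M → V4} (hF : Sm F) (hi : Imm F) (h0 : ∀ p, ∃ v, sff F p v v ≠ 0) (c : Ch M)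
    {K : Set E} (hK : IsCompact K) (hKc : K ⊆ c.e.target) :
    ∃ C : ℝ, 0 ≤ C ∧ ∀ x ∈ K, ∃ v : E, ‖v‖ ≤ 1 ∧ 1 ≤ C * ‖crv (c.rd F) x v‖ :=
  LargeAAux1.crv_lower hF hi h0 c hK hKc

/-- On the disc the second fundamental form of the new maps does not vanish. -/
theorem LJets.crv_lower {L : LSet} {S : E → ℝ} {c0 C0 : ℝ} {O : Set E} {W : E × ℝ → V4}
    (h : LLoop L S c0 C0 O W) {H' : ℕ → E → V4} (hj : LJets L W H') :
    ∃ C : ℝ, 0 ≤ C ∧ ∀ᶠ n in atTop, ∀ x ∈ L.D, 1 ≤ C * ‖crv (H' n) x et‖ :=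
  LargeAAux1.ljets_crv_lower h hj

theorem LJets.of_close {L : LSet} {W : E × ℝ → V4} {H' H'' : ℕ → E → V4} (hj : LJets L W H')
    (h1 : ∀ n, ContDiffOn ℝ ∞ (H' n) L.O) (h2 : ∀ n, ContDiffOn ℝ ∞ (H'' n) L.O)
    (h : ∀ δ : ℝ, 0 < δ → ∀ᶠ n in atTop, ∀ x ∈ L.D, ∀ m ≤ 2,
      ‖iteratedFDeriv ℝ m (fun y => H'' n y - H' n y) x‖ ≤ δ) : LJets L W H'' :=
  LargeAAux1.ljets_of_close hj h1 h2 h

/-- A vanishing two-jet vanishes in every chart. -/
theorem jet_zero_ext (c c' : Ch M) {u : E → V4} (hu : ContDiff ℝ ∞ u) {χ : E → ℝ}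
    (hK : IsCompact (tsupport χ)) (hKc : tsupport χ ⊆ c.e.target)
    (h0 : ∀ x, χ x = 0 → ∀ m ≤ 2, iteratedFDeriv ℝ m u x = 0) {x : E} (hx : x ∈ c'.e.target)
    (hx' : c'.e.symm x ∉ c.e.symm '' {y | χ y ≠ 0}) :
    ∀ m ≤ 2, iteratedFDeriv ℝ m (c'.rd (c.ext u)) x = 0 :=
  LargeAAux1.jet_zero_ext c c' hu hK hKc h0 hx hx'

theorem met_add_push {G : M → Bil} (hG : Met G) (c : Ch M) {a : E → ℝ}
    (ha : ContDiffOn ℝ ∞ a c.e.target) {K : Set E} (hK : IsCompact K) (hKc : K ⊆ c.e.target)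
    (h0 : ∀ x ∈ c.e.target, x ∉ K → a x = 0) :
    Met fun p => G p + c.push (fun x => a x ^ 2 • tp cs cs) p :=
  LargeAAux1.met_add_push hG c ha hK hKc h0

namespace LargeAAux2

theorem u_zero {u : E → V4} {χ : E → ℝ} (h0 : ∀ x, χ x = 0 → ∀ m ≤ 2, iteratedFDeriv ℝ m u x = 0)
    {x : E} (hx : x ∉ tsupport χ) : u x = 0 := by
  have h := norm_eq_zero.2 (h0 x (image_eq_zero_of_notMem_tsupport hx) 0 (by norm_num))
  rwa [norm_iteratedFDeriv_zero, norm_eq_zero] at h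

theorem rd_add_ext (c : Ch M) (F : M → V4) (u : E → V4) {x : E} (hx : x ∈ c.e.target) :
    (c.rd fun q => F q + c.ext u q) =ᶠ[𝓝 x] fun y => c.rd F y + u y := by
  filter_upwards [c.e.open_target.mem_nhds hx] with y hy
  rw [← c.rd_ext u hy]
  rfl

theorem rd_off (c c' : Ch M) (F : M → V4) {u : E → V4} {K : Set E} (hK : IsCompact K)
    (hKc : K ⊆ c.e.target) (h0 : ∀ x ∈ c.e.target, x ∉ K → u x = 0) {x : E} (hx : x ∈ c'.e.target)
    (hx' : c'.e.symm x ∉ c.e.symm '' K) :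
    (c'.rd fun q => F q + c.ext u q) =ᶠ[𝓝 x] c'.rd F := by
  filter_upwards [(c'.e.continuousAt_symm hx).eventually (c.ext_eventually_zero hK hKc h0 hx')]
    with y hy
  change F _ + c.ext u _ = F _
  rw [hy, add_zero]

theorem ndg {F : M → V4} (hF : Sm F) (hi : Imm F) (h0 : ∀ p, ∃ v, sff F p v v ≠ 0) (c : Ch M)
    {K : Set E} (hK : IsCompact K) (hKc : K ⊆ c.e.target) {u : ℕ → E → V4}
    (hu : ∀ n, ContDiff ℝ ∞ (u n)) (hu0 : ∀ n, ∀ x ∈ c.e.target, x ∉ K → u n x = 0) {C : ℝ}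
    (hC : 0 ≤ C) (h : ∀ n, ∀ x ∈ K, 1 ≤ C * ‖crv (fun y => c.rd F y + u n y) x et‖) :
    Ndg Sc.nat fun n q => F q + c.ext (u n) q := by
  have hM : ∀ (n : ℕ) {a b t : ℝ}, 0 ≤ a → a ≤ b → 0 ≤ t → 1 ≤ a * t →
      1 ≤ b * (Sc.nat.M n * t) := fun n a b t ha hab ht h =>
    h.trans (mul_le_mul hab (le_mul_of_one_le_left ht (Sc.nat.hM n)) ht (ha.trans hab))
  refine Ndg.of_local (fun n => hF.add (c.sm_ext (hu n).contDiffOn hK hKc (hu0 n))) fun p => ?_
  by_cases hp : p ∈ c.e.source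
  · obtain ⟨K', hK1, hK2, hK3⟩ :=
      local_compact_nhds (c.e.open_target.mem_nhds (c.e.map_source hp))
    obtain ⟨C', hC', h'⟩ := crv_lower hF hi h0 c hK3 hK2
    refine ⟨c, K', max C C', hp, hK1, fun n x hx => ?_⟩
    by_cases hxK : x ∈ K
    · refine ⟨et, MClC.norm_et.le, ?_⟩
      rw [MClC.crv_congr (rd_add_ext c F (u n) (hK2 hx))]
      exact hM n hC (le_max_left _ _) (norm_nonneg _) (h n x hxK)
    · obtain ⟨v, hv, hv'⟩ := h' x hx
      refine ⟨v, hv, ?_⟩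
      rw [MClC.crv_congr (rd_off c c F hK hKc (hu0 n) (hK2 hx) ?_)]
      · exact hM n hC' (le_max_right _ _) (norm_nonneg _) hv'
      · rintro ⟨y, hy, he⟩
        exact hxK (c.e.symm.injOn (hKc hy) (hK2 hx) he ▸ hy)
  · obtain ⟨c', hc'⟩ := exists_ch_chartAt p
    have hp' : p ∈ c'.e.source := hc' ▸ mem_chart_source E p
    have h1 : IsClosed (c.e.symm '' K) :=
      (hK.image_of_continuousOn (c.e.continuousOn_symm.mono hKc)).isClosed
    have h2 : c'.e p ∈ c'.e.target ∩ c'.e.symm ⁻¹' (c.e.symm '' K)ᶜ := by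
      refine ⟨c'.e.map_source hp', ?_⟩
      rintro ⟨y, hy, he⟩
      rw [c'.e.left_inv hp'] at he
      exact hp (he ▸ c.e.map_target (hKc hy))
    obtain ⟨K', hK1, hK2, hK3⟩ :=
      local_compact_nhds ((c'.e.isOpen_inter_preimage_symm h1.isOpen_compl).mem_nhds h2)
    obtain ⟨C', hC', h'⟩ := crv_lower hF hi h0 c' hK3 fun x hx => (hK2 hx).1
    refine ⟨c', K', C', hp', hK1, fun n x hx => ?_⟩
    obtain ⟨v, hv, hv'⟩ := h' x hx
    refine ⟨v, hv, ?_⟩
    rw [MClC.crv_congr (rd_off c c' F hK hKc (hu0 n) (hK2 hx).1 (hK2 hx).2)]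
    exact hM n hC' le_rfl (norm_nonneg _) hv'

theorem push_err (c : Ch M) (a b t : E → Bil) (p : M) : c.push t p - c.push (fun x => a x - b x) p =
    -c.push (fun x => a x - (b x + t x)) p := by
  unfold Ch.push
  split_ifs
  · ext1 v
    ext1 w
    simp only [sub_apply, neg_apply, ContinuousLinearMap.bilinearComp_apply, add_apply]
    ring
  · ext1 v
    ext1 w
    simp

theorem M_le (n n0 : ℕ) : Sc.nat.M n ≤ Sc.nat.M (max n n0) ∧
    Sc.nat.M (max n n0) ≤ Sc.nat.M n0 * Sc.nat.M n := by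
  have h1 : (0 : ℝ) ≤ n := n.cast_nonneg
  have h2 : (0 : ℝ) ≤ n0 := n0.cast_nonneg
  change (n : ℝ) + 1 ≤ (max n n0 : ℕ) + 1 ∧ ((max n n0 : ℕ) : ℝ) + 1 ≤ (n0 + 1) * (n + 1)
  rw [Nat.cast_max]
  exact ⟨by linarith [le_max_left (n : ℝ) n0], by
    rcases max_choice (n : ℝ) n0 with h | h <;> rw [h] <;> nlinarith⟩

end LargeAAux2

variable (M) in
theorem large_analytic : ∃ K0 : ℕ, 2 ≤ K0 ∧ ∀ (F : M → V4) (c : Ch M) (L : LSet), K0 ≤ L.K →
    Sm F → Imm F → (∀ p, ∃ v, sff F p v v ≠ 0) → L.O = c.e.target → L.H = c.rd F →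
    ∃ c0 C0 : ℝ, 0 < c0 ∧ ∀ S2 : E → ℝ, Shift S2 → ∃ (O : Set E) (W : E × ℝ → V4),
      LLoop L S2 c0 C0 O W ∧ ∃ F' : ℕ → M → V4, (∀ n, Sm (F' n)) ∧
        (∀ᶠ n in atTop, ∀ p,
          ind (F' n) p = ind F p + c.push (fun x => L.a x ^ 2 • tp cs cs) p) ∧
        LJets L W (fun n => c.rd (F' n)) ∧
        Close (c.e.symm '' {y | L.χ y ≠ 0})ᶜ F' F := by
  obtain ⟨N, hN⟩ := thmO M
  obtain ⟨K0, hK0, hW⟩ := large_wave N
  refine ⟨K0, hK0, fun F c L hK hF hi h0 hO hH => ?_⟩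
  obtain ⟨c0, C0, hc0, hW⟩ := hW L hK
  refine ⟨c0, C0, hc0, fun S2 hS2 => ?_⟩
  obtain ⟨O, W, h, u, hu, hu0, hCu, hCe, hj⟩ := hW S2 hS2
  refine ⟨O, W, h, ?_⟩
  have hD : IsCompact L.D := L.cpt
  have hOc : O ⊆ c.e.target := hO ▸ h.sub'
  have hDc : L.D ⊆ c.e.target := h.sub.trans hOc
  have hz : ∀ n, ∀ x ∈ c.e.target, x ∉ L.D → u n x = 0 := fun n x _ hx =>
    LargeAAux2.u_zero (hu0 n) hx
  have ha0 : ∀ x ∈ c.e.target, x ∉ L.D → L.a x = 0 := fun x _ hx => by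
    rw [LSet.a, image_eq_zero_of_notMem_tsupport hx, zero_pow (by omega), zero_mul]
  have hG := met_add_push (met_ind hF hi) c (a := L.a)
    ((L.smχ.pow L.K).contDiffOn.mul (hO ▸ L.smb)) hD hDc ha0
  obtain ⟨C, hC, hcr⟩ := LJets.crv_lower h hj
  obtain ⟨n0, hn0⟩ := eventually_atTop.1 hcr
  have hM0 : ∀ n, 0 < Sc.nat.M n := fun n => zero_lt_one.trans_le (Sc.nat.hM n)
  have hext : ∀ n, Sm (c.ext (u n)) := fun n => c.sm_ext (hu n).contDiffOn hD hDc (hz n)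
  have hMB : MB Sc.nat N 1 (fun _ => 1) fun n q => F q + c.ext (u (max n n0)) q := by
    refine (((MB.fixed hF).add (MB.ext c h.hO hD h.sub hOc (hCu N) hz)).comap
      fun n => max n n0).scale (fun _ => zero_le_one) (C := Sc.nat.M n0 ^ N) fun n m hm => ?_
    change 1 * Sc.nat.M (max n n0) ^ (0 + m) ≤ _
    rw [one_mul, one_mul, zero_add]
    refine (pow_le_pow_left₀ (hM0 _).le (LargeAAux2.M_le n n0).2 m).trans ?_
    rw [mul_pow]
    exact mul_le_mul (pow_le_pow_right₀ (Sc.nat.hM _) hm)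
      (pow_le_pow_right₀ (Sc.nat.hM _) (by omega)) (pow_pos (hM0 _) _).le (pow_pos (hM0 _) _).le
  have hTB : TB Sc.nat N 0 (fun n => (Sc.nat.M n ^ N)⁻¹) fun n q =>
      (ind F q + c.push (fun x => L.a x ^ 2 • tp cs cs) q) -
        ind (fun q => F q + c.ext (u (max n n0)) q) q := by
    have h1 := (TB.push c h.hO hD h.sub hOc (hCe N) fun n x hx hxD => by
      have e : (fun y => L.H y + u n y) =ᶠ[𝓝 x] L.H := by
        filter_upwards [hD.isClosed.isOpen_compl.mem_nhds hxD] with y hy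
        rw [LargeAAux2.u_zero (hu0 n) hy, add_zero]
      rw [LSet.G1, ha0 x hx hxD, indE, indE, e.fderiv_eq]
      ext1 v
      ext1 w
      simp).neg
    have h2 : (fun n q => (ind F q + c.push (fun x => L.a x ^ 2 • tp cs cs) q) -
        ind (fun q => F q + c.ext (u n) q) q) = fun n q =>
        -c.push (fun x => indE (fun y => L.H y + u n y) x - L.G1 x) q := by
      funext n q
      have h3 := LargeAAux2.push_err c (indE fun y => c.rd F y + u n y) (indE (c.rd F))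
        (fun x => L.a x ^ 2 • tp cs cs) q
      rw [← ind_add_ext c hF (hu n).contDiffOn hD hDc (hz n) q] at h3
      simp only [LSet.G1, hH]
      rw [← h3]
      abel
    rw [← h2] at h1
    refine (h1.comap fun n => max n n0).scale (fun n => (inv_pos.2 (pow_pos (hM0 _) _)).le)
      (C := 1) fun n m hm => ?_
    change (Sc.nat.M (max n n0) ^ N)⁻¹ * Sc.nat.M (max n n0) ^ (0 + m) ≤ _
    obtain ⟨r, rfl⟩ := Nat.exists_eq_add_of_le hm
    have e : ∀ k, (Sc.nat.M k ^ (m + r))⁻¹ * Sc.nat.M k ^ (0 + m) = (Sc.nat.M k ^ r)⁻¹ :=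
      fun k => by
        have := (hM0 k).ne'
        field_simp
        ring
    rw [one_mul, e, e]
    exact inv_anti₀ (pow_pos (hM0 _) _) (pow_le_pow_left₀ (hM0 _).le (LargeAAux2.M_le n n0).1 r)
  obtain ⟨F', hF'G, hF'⟩ := hN hG _ hMB hTB (LargeAAux2.ndg hF hi h0 c hD hDc
    (fun n => hu (max n n0)) (fun n => hz (max n n0)) hC fun n =>
      hH ▸ hn0 (max n n0) (le_max_right _ _))
  have hsm : ∀ n, Sm (F' n) := fun n =>
    ((hF'.sm n).add (hMB.sm n)).congr fun q => (sub_add_cancel _ _).symm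
  have hcl : Close univ (fun n q => F' n q - c.ext (u (max n n0)) q) F := by
    refine Close.of_MB (A := fun n => (Sc.nat.M n)⁻¹) ?_ ?_ univ
    · exact tendsto_inv_atTop_zero.comp
        (tendsto_atTop_add_const_right _ 1 tendsto_natCast_atTop_atTop)
    · simpa only [sub_sub, add_comm] using hF'
  refine ⟨F', hsm, hF'G.mono fun n hn p => congrFun hn p, ?_, fun c' K hK hKc δ hδ => ?_⟩
  · refine hj.of_close (fun n => L.smH.add (hu n).contDiffOn)
      (fun n => hO ▸ c.contDiffOn_rd (hsm n)) fun δ hδ => ?_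
    filter_upwards [hcl c _ hD hDc δ hδ, eventually_ge_atTop n0] with n hn hn' x hx m hm
    refine le_trans (le_of_eq (congrArg _ (EventuallyEq.iteratedFDeriv ℝ ?_ m).eq_of_nhds))
      (hn x hx (mem_univ _) m hm)
    filter_upwards [c.e.open_target.mem_nhds (hDc hx)] with y hy
    rw [max_eq_left hn', hH, ← c.rd_ext (u n) hy, add_comm, ← sub_sub]
    rfl
  · filter_upwards [hcl c' K hK hKc δ hδ] with n hn x hx hx' m hm
    have hU := c'.e.open_target.mem_nhds (hKc hx)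
    have e : (c'.rd fun p => F' n p - F p) =
        (c'.rd fun p => F' n p - c.ext (u (max n n0)) p - F p) + c'.rd (c.ext (u (max n n0))) := by
      funext y
      simp only [Ch.rd, Pi.add_apply]
      abel
    rw [e, iteratedFDeriv_add_apply
      (((c'.contDiffOn_rd (((hsm n).sub (hext _)).sub hF)).contDiffAt hU).of_le
        (by exact_mod_cast le_top))
      (((c'.contDiffOn_rd (hext _)).contDiffAt hU).of_le (by exact_mod_cast le_top)),
      jet_zero_ext c c' (hu _) L.cpt hDc (hu0 _) (hKc hx) hx' m hm, add_zero]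
    exact hn x hx (mem_univ _) m hm

end Crest.Agent.R216
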