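import Crest.Agent.R216.LoopDefs

/-!
# Row 216: loops, part 1 (profiles, convex hulls of arcs, substitution)
-/

set_option autoImplicit false
set_option linter.unusedSectionVars false

noncomputable section

namespace Crest.Agent.R216.LoopAux1

open Set Metric Filter
open scoped ContDiff Topology RealInnerProductSpace

/-- A bump with the radii `r` and `2 r`. -/
def bump (c r : ℝ) (hr : 0 < r) : ContDiffBump c := ⟨r, 2 * r, hr, by linarith⟩

theorem bump_one {c r : ℝ} (hr : 0 < r) {y : ℝ} (h : |y - c| ≤ r) : bump c r hr y = 1 :=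
  (bump c r hr).one_of_mem_closedBall (mem_closedBall_iff_norm.2 h)

theorem bump_zero {c r : ℝ} (hr : 0 < r) {y : ℝ} (h : y ≤ c - 2 * r ∨ c + 2 * r ≤ y) :
    bump c r hr y = 0 := by
  refine (bump c r hr).zero_of_le_dist ?_
  show 2 * r ≤ dist y c
  rw [Real.dist_eq, le_abs]
  rcases h with h | h
  · right; linarith
  · left; linarith

theorem bump_abs {c r : ℝ} (hr : 0 < r) (y : ℝ) : |bump c r hr y| ≤ 1 := by
  rw [abs_of_nonneg (bump c r hr).nonneg]
  exact (bump c r hr).le_one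

theorem exists_prof : Nonempty Prof := by
  have h1 : (0 : ℝ) < 1 / 20 := by norm_num
  have h2 : (0 : ℝ) < 1 / 100 := by norm_num
  set ce : Fin 3 → ℝ := ![3 / 20, 2 / 5, 7 / 10] with hce
  refine ⟨⟨fun y => 2 * Real.smoothTransition (y + 1) - 1, bump (2 / 5) _ h1, bump (7 / 10) _ h1,
    fun l => bump (ce l) _ h2, ?_, (bump _ _ h1).contDiff, (bump _ _ h1).contDiff,
    fun l => (bump _ _ h2).contDiff, ?_, ?_, bump_zero h1 (by norm_num), bump_zero h1 (by norm_num),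
    bump_zero h1 (by norm_num), bump_zero h1 (by norm_num), fun y => ?_, bump_abs h1, bump_abs h1,
    fun l y => (bump _ _ h2).nonneg, fun l => ⟨ce l, ?_, ?_⟩, fun l y hy => ?_⟩⟩
  · exact (contDiff_const.mul
      (Real.smoothTransition.contDiff.comp (contDiff_id.add contDiff_const))).sub contDiff_const
  · simp
  · simp
    norm_num
  · rw [abs_le]
    constructor
    · linarith [Real.smoothTransition.nonneg (y + 1)]
    · linarith [Real.smoothTransition.le_one (y + 1)]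
  · fin_cases l <;> simp [hce] <;> norm_num
  · rw [bump_one h2 (by norm_num)]
    exact one_pos
  · rw [ContDiffBump.tsupport_eq] at hy
    have hy' : y ∈ ball (ce l) (1 / 20) :=
      closedBall_subset_ball (show (2 * (1 / 100) : ℝ) < 1 / 20 by norm_num) hy
    filter_upwards [isOpen_ball.mem_nhds hy'] with z hz
    rw [mem_ball, Real.dist_eq, abs_lt] at hz
    have hφ : 0 ≤ z → 2 * Real.smoothTransition (z + 1) - 1 = 1 := fun h => by
      rw [Real.smoothTransition.one_of_one_le (by linarith)]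
      norm_num
    fin_cases l
    · have hz' : -(1 / 20) < z - 3 / 20 ∧ z - 3 / 20 < 1 / 20 := hz
      exact ⟨hφ (by linarith [hz'.1]), bump_zero h1 (Or.inl (by linarith [hz'.2])),
        bump_zero h1 (Or.inl (by linarith [hz'.2]))⟩
    · have hz' : -(1 / 20) < z - 2 / 5 ∧ z - 2 / 5 < 1 / 20 := hz
      exact ⟨hφ (by linarith [hz'.1]), bump_one h1 (abs_le.2 ⟨hz'.1.le, hz'.2.le⟩),
        bump_zero h1 (Or.inl (by linarith [hz'.2]))⟩
    · have hz' : -(1 / 20) < z - 7 / 10 ∧ z - 7 / 10 < 1 / 20 := hz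
      exact ⟨hφ (by linarith [hz'.1]), bump_zero h1 (Or.inr (by linarith [hz'.1])),
        bump_one h1 (abs_le.2 ⟨hz'.1.le, hz'.2.le⟩)⟩

theorem contDiff_Tst : ContDiff ℝ ∞ fun q : ℝ × ℝ => Tst q.1 q.2 :=
  (contDiff_snd.mul (contDiff_sc.comp (contDiff_fst.mul contDiff_snd))).prodMk
    ((contDiff_snd.pow 2).mul (contDiff_c2.comp (contDiff_fst.mul contDiff_snd)))

theorem seg {C : Set (ℝ × ℝ)} (hC : Convex ℝ C) {p q x : ℝ} (h1 : (p, q) ∈ C) (h2 : (-p, q) ∈ C)
    (hx : |x| ≤ |p|) : (x, q) ∈ C := by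
  have hc : Convex ℝ {x : ℝ | (x, q) ∈ C} := by
    intro x hx y hy a b ha hb hab
    have := hC hx hy ha hb hab
    rwa [Prod.smul_mk, Prod.smul_mk, Prod.mk_add_mk, ← add_smul, hab, one_smul] at this
  rw [abs_le] at hx
  rcases le_total 0 p with hp | hp
  · rw [abs_of_nonneg hp] at hx
    exact hc.ordConnected.out h2 h1 hx
  · rw [abs_of_nonpos hp, neg_neg] at hx
    exact hc.ordConnected.out h1 h2 hx

theorem Tst_eq {a : ℝ} (ha : a ≠ 0) (φ : ℝ) :
    Tst a φ = (Real.sin (a * φ) / a, (1 - Real.cos (a * φ)) / a ^ 2) := by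
  rw [Tst, ← mul_sc, ← mul_c2]
  congr 1 <;> field_simp

theorem hull_full {a S S2 τ1 τ2 : ℝ} (ha : a ≠ 0) (hS : Real.pi ≤ |a| * S)
    (h : (1 - a ^ 2 * τ2) ^ 2 + (a * τ1) ^ 2 < 1) :
    (τ1, τ2) ∈ interior (convexHull ℝ (Tst a '' Icc (S2 - S) (S2 + S))) := by
  have ha' : 0 < |a| := abs_pos.2 ha
  have hper : Function.Periodic (Tst a) (2 * Real.pi / |a|) := by
    intro t
    rw [Tst_eq ha, Tst_eq ha, mul_add]
    rcases lt_or_gt_of_ne ha with h0 | h0
    · rw [abs_of_neg h0, show a * (2 * Real.pi / -a) = -(2 * Real.pi) by field_simp,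
        ← sub_eq_add_neg, Real.sin_sub_two_pi, Real.cos_sub_two_pi]
    · rw [abs_of_pos h0, show a * (2 * Real.pi / a) = 2 * Real.pi by field_simp,
        Real.sin_add_two_pi, Real.cos_add_two_pi]
  have hall : ∀ ψ : ℝ, (Real.sin ψ / a, (1 - Real.cos ψ) / a ^ 2) ∈
      convexHull ℝ (Tst a '' Icc (S2 - S) (S2 + S)) := by
    intro ψ
    obtain ⟨φ, hφ, he⟩ := hper.exists_mem_Ico (by positivity) (ψ / a) (S2 - S)
    rw [Tst_eq ha, mul_div_cancel₀ _ ha] at he
    have : 2 * Real.pi / |a| ≤ 2 * S := by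
      rw [div_le_iff₀ ha']
      linarith
    exact subset_convexHull _ _ ⟨φ, ⟨hφ.1, by linarith [hφ.2]⟩, he.symm⟩
  have hW : IsOpen {z : ℝ × ℝ | (1 - a ^ 2 * z.2) ^ 2 + (a * z.1) ^ 2 < 1} :=
    isOpen_lt (by fun_prop) continuous_const
  refine interior_maximal (fun z hz => ?_) hW h
  have hz' : (1 - a ^ 2 * z.2) ^ 2 + (a * z.1) ^ 2 < 1 := hz
  set y := 1 - a ^ 2 * z.2 with hy
  have hy1 : -1 ≤ y ∧ y ≤ 1 := by constructor <;> nlinarith [sq_nonneg (a * z.1)]
  have h1 := hall (Real.arccos y)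
  have h2 := hall (-Real.arccos y)
  have e : (1 - y) / a ^ 2 = z.2 := by rw [hy]; field_simp; ring
  rw [Real.cos_arccos hy1.1 hy1.2, e] at h1
  rw [Real.cos_neg, Real.sin_neg, neg_div, Real.cos_arccos hy1.1 hy1.2, e] at h2
  refine seg (convex_convexHull ℝ _) h1 h2 ?_
  rw [abs_div, le_div_iff₀ ha', ← abs_mul, Real.sin_arccos, abs_of_nonneg (Real.sqrt_nonneg _)]
  refine Real.abs_le_sqrt ?_
  nlinarith

theorem hull_axis {a m R S S2 : ℝ} (hm : 0 < m) (hR : 0 < R) (h : R ^ 2 = a ^ 2 + m ^ 2)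
    (hS : 3 ≤ R * (S - 1)) (hS2 : |S2| ≤ 1) :
    ((0 : ℝ), 1 / (R * (R + m))) ∈ interior (convexHull ℝ (Tst a '' Icc (S2 - S) (S2 + S))) := by
  have hS1 : 0 < S - 1 := (mul_pos_iff_of_pos_left hR).1 (by linarith)
  have hpi := Real.pi_pos
  have hRm : 0 < R * (R + m) := by positivity
  obtain ⟨s, hs0, hs1, hs2, hs3⟩ : ∃ s : ℝ, 0 < s ∧ s ≤ S - 1 ∧ |a * s| < Real.pi ∧
      1 / (R * (R + m)) < s ^ 2 * c2 (a * s) := by
    rcases le_or_gt (|a| * (S - 1)) (Real.pi / 2) with h1 | h1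
    · have h2 : |a * (S - 1)| < Real.pi := by
        rw [abs_mul, abs_of_pos hS1]
        linarith
      refine ⟨S - 1, hS1, le_rfl, h2, lt_of_lt_of_le ?_
        (mul_le_mul_of_nonneg_left (le_c2 h2.le) (sq_nonneg _))⟩
      rw [← mul_div_assoc, div_lt_div_iff₀ hRm (by positivity)]
      have h3 : 9 ≤ (R * (S - 1)) ^ 2 := by nlinarith
      have h4 : Real.pi ^ 2 < 16 := by nlinarith [Real.pi_lt_four]
      have h5 : 0 ≤ (S - 1) ^ 2 * (R * m) := by positivity
      nlinarith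
    · have ha : 0 < |a| := by
        rcases (abs_nonneg a).eq_or_lt with h0 | h0
        · rw [← h0, zero_mul] at h1
          linarith
        · exact h0
      have h2 : |a * (Real.pi / 2 / |a|)| = Real.pi / 2 := by
        rw [abs_mul, abs_of_pos (by positivity : 0 < Real.pi / 2 / |a|)]
        field_simp
      refine ⟨Real.pi / 2 / |a|, by positivity, ?_, by linarith, ?_⟩
      · rw [div_le_iff₀ ha]
        linarith
      · have h3 := mul_c2 (a * (Real.pi / 2 / |a|))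
        rw [← Real.cos_abs, h2, Real.cos_pi_div_two, sub_zero, mul_pow, mul_assoc] at h3
        have h4 : 0 < a ^ 2 := by rw [← sq_abs]; positivity
        rw [eq_one_div_of_mul_eq_one_right h3]
        exact one_div_lt_one_div_of_lt h4 (by nlinarith [mul_pos hR hm])
  rw [abs_le] at hS2
  set C := convexHull ℝ (Tst a '' Icc (S2 - S) (S2 + S)) with hC
  have hCc : Convex ℝ C := convex_convexHull ℝ _
  set p := s * sc (a * s) with hp
  set q := s ^ 2 * c2 (a * s) with hq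
  have hp0 : 0 < p := mul_pos hs0 (sc_pos hs2)
  have hq0 : 0 < q := lt_trans (by positivity) hs3
  have h0 : ((0 : ℝ), (0 : ℝ)) ∈ C :=
    subset_convexHull _ _ ⟨0, ⟨by linarith [hS2.2], by linarith [hS2.1]⟩, by simp [Tst]⟩
  have h1 : (p, q) ∈ C :=
    subset_convexHull _ _ ⟨s, ⟨by linarith [hS2.2], by linarith [hS2.1]⟩, rfl⟩
  have h2 : (-p, q) ∈ C :=
    subset_convexHull _ _ ⟨-s, ⟨by linarith [hS2.2], by linarith [hS2.1]⟩, by
      simp only [Tst, mul_neg, sc_neg, c2_neg, neg_mul, neg_sq, hp, hq]⟩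
  have hW : IsOpen {z : ℝ × ℝ | z.2 < q ∧ |z.1| * q < p * z.2} :=
    (isOpen_lt continuous_snd continuous_const).inter
      (isOpen_lt (continuous_fst.abs.mul continuous_const) (continuous_const.mul continuous_snd))
  refine interior_maximal (fun z hz => ?_) hW ⟨hs3, by simpa using mul_pos hp0 (inv_pos.2 hRm)⟩
  obtain ⟨hz1, hz2⟩ := hz
  have hz0 : 0 < z.2 := 
    (mul_pos_iff_of_pos_left hp0).1 ((mul_nonneg (abs_nonneg _) hq0.le).trans_lt hz2)
  have h3 : (z.1 * q / z.2, q) ∈ C := by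
    refine seg hCc h1 h2 ?_
    rw [abs_div, abs_mul, abs_of_pos hq0, abs_of_pos hz0, abs_of_pos hp0, div_le_iff₀ hz0]
    exact hz2.le
  have h4 := hCc h3 h0 (a := z.2 / q) (b := 1 - z.2 / q) (by positivity)
    (sub_nonneg.2 ((div_le_one hq0).2 hz1.le)) (by ring)
  convert h4 using 1
  ext <;> simp <;> field_simp

theorem subst {X : Type} [NormedAddCommGroup X] [NormedSpace ℝ X] [FiniteDimensional ℝ X]
    {ι Y : Type*} [NormedAddCommGroup Y] [NormedSpace ℝ Y] {c : Ctx ι Y} {d : ℕ}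
    {Φ : X × ℝ → ℝ} {O K : Set X} (hO : IsOpen O) (hK : IsCompact K) (hKO : K ⊆ O)
    (hΦ : ContDiffOn ℝ ∞ Φ (O ×ˢ univ)) (hp : ∀ x ∈ O, ∀ θ, Φ (x, θ + 1) = Φ (x, θ))
    {g : ι → Y → X} (hg : St (c.pow d) g) (hm : ∀ i, MapsTo (g i) (c.U i) K) :
    St (c.pow (2 * d)).cyl fun i q => Φ (g i q.1, q.2) := by
  have := FiniteDimensional.proper_real X
  obtain ⟨K', hK', h1, h2⟩ := exists_compact_between hK hO hKO
  have hG : St (c.cyl.pow d) fun i (q : Y × ℝ) => g i q.1 := Cl.lift hg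
  refine St.comp_left (c := c.cyl) (f := fun i (q : Y × ℝ) => (g i q.1, q.2)) (hO.prod isOpen_univ)
    hΦ (fun i => (Cl.sm hG i).prodMk contDiffOn_snd) (fun i q hq => ⟨hKO (hm i hq.1), trivial⟩)
    (fun m => ?_) ?_
  · obtain ⟨C, hC⟩ := (Bd.of_compact_cyl (k := m)
      (c := (⟨fun _ => interior K', fun _ => 1, fun _ => isOpen_interior, fun _ => le_rfl⟩ :
        Ctx Unit X)) hO hΦ hp hK' h2 fun _ => interior_subset).le
    refine ⟨C, fun i q hq => (hC () m le_rfl _ ⟨h1 (hm i hq.1), trivial⟩).trans (le_of_eq ?_)⟩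
    simp [Ctx.cyl]
  · have h3 := Cl.clm (L := fun _ => ContinuousLinearMap.compL ℝ (Y × ℝ) X (X × ℝ)
      (ContinuousLinearMap.inl ℝ X ℝ)) ⟨_, fun _ => le_rfl⟩ hG.fderiv
    have h4 : St (c.cyl.pow (2 * d)) fun (_ : ι) (_ : Y × ℝ) =>
        (ContinuousLinearMap.inr ℝ X ℝ).comp (ContinuousLinearMap.snd ℝ Y ℝ) :=
      St.const ⟨_, fun _ => le_rfl⟩
    refine Cl.congr (Cl.add h3 h4) fun i q hq => ?_
    rw [(ClAuxB.diffAt hG i q hq).fderiv_prodMk differentiableAt_snd, fderiv_snd]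
    ext <;> simp

end Crest.Agent.R216.LoopAux1
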