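import Crest.Agent.R216.Rep

/-!
# Row 216: the loop from the reparametrisation lemma
-/

set_option autoImplicit false
set_option linter.unusedSectionVars false

noncomputable section

namespace Crest.Agent.R216

open Set Metric Filter
open scoped ContDiff Topology RealInnerProductSpace

namespace LoopAux2

variable {X : Type} [NormedAddCommGroup X] [NormedSpace ℝ X] [FiniteDimensional ℝ X]

theorem contDiff_Tst : ContDiff ℝ ∞ fun q : ℝ × ℝ => Tst q.1 q.2 :=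
  (contDiff_snd.mul (contDiff_sc.comp (contDiff_fst.mul contDiff_snd))).prodMk
    ((contDiff_snd.pow 2).mul (contDiff_c2.comp (contDiff_fst.mul contDiff_snd)))

theorem contDiffOn_fst' {O : Set X} {a : X → ℝ} (ha : ContDiffOn ℝ ∞ a O) :
    ContDiffOn ℝ ∞ (fun q : X × ℝ => a q.1) (O ×ˢ univ) :=
  ha.comp contDiffOn_fst fun _ hz => hz.1

theorem contDiffOn_prof (P : Prof) {O : Set X} (S r : ℝ) {co si S2 : X → ℝ}
    (hco : ContDiffOn ℝ ∞ co O) (hsi : ContDiffOn ℝ ∞ si O) (hS2 : ContDiffOn ℝ ∞ S2 O)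
    {y : X × ℝ → ℝ} (hy : ContDiffOn ℝ ∞ y (O ×ˢ univ)) :
    ContDiffOn ℝ ∞ (fun q : X × ℝ => P.φ S (S2 q.1) r (co q.1) (si q.1) (y q)) (O ×ˢ univ) :=
  (((contDiffOn_const.mul (P.smφ.comp_contDiffOn hy)).add (contDiffOn_fst' hS2)).sub
    ((contDiffOn_const.mul (contDiffOn_fst' hco)).mul (P.sm1.comp_contDiffOn hy))).sub
    ((contDiffOn_const.mul (contDiffOn_fst' hsi)).mul (P.sm2.comp_contDiffOn hy))

theorem image_sub (P : Prof) (a S S2 r co si : ℝ) :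
    Tst a '' Icc (S2 - S) (S2 + S) ⊆ (fun y => Tst a (P.φ S S2 r co si y)) '' Icc (-1) 1 := by
  rintro _ ⟨s, hs, rfl⟩
  have hc : Continuous (P.φ S S2 r co si) :=
    (((continuous_const.mul P.smφ.continuous).add continuous_const).sub
      (continuous_const.mul P.sm1.continuous)).sub (continuous_const.mul P.sm2.continuous)
  have h1 : P.φ S S2 r co si (-1) = S2 - S := by
    simp only [Prof.φ, P.φm, P.γ1m, P.γ2m]; ring
  have h2 : P.φ S S2 r co si 0 = S2 + S := by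
    simp only [Prof.φ, P.φz, P.γ1z, P.γ2z]; ring
  have h3 := intermediate_value_Icc (show (-1 : ℝ) ≤ 0 by norm_num) hc.continuousOn
  rw [h1, h2] at h3
  obtain ⟨y, hy, e⟩ := h3 hs
  exact ⟨y, ⟨hy.1, hy.2.trans zero_le_one⟩, by simp only [e]⟩

theorem contDiffOn_cos {O : Set X} {u : X × ℝ → ℝ} (hu : Rep O u) :
    ContDiffOn ℝ ∞ (fun q => Real.cos (2 * Real.pi * u q)) (O ×ˢ univ) :=
  Real.contDiff_cos.comp_contDiffOn (contDiffOn_const.mul hu.sm)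

theorem cos_per {O : Set X} {u : X × ℝ → ℝ} (hu : Rep O u) {x : X} (hx : x ∈ O) (θ : ℝ) :
    Real.cos (2 * Real.pi * u (x, θ + 1)) = Real.cos (2 * Real.pi * u (x, θ)) := by
  rw [hu.per x hx, mul_add, mul_one, Real.cos_add_two_pi]

theorem cos_even {O : Set X} {u : X × ℝ → ℝ} (hu : Rep O u) {x : X} (hx : x ∈ O) (θ : ℝ) :
    Real.cos (2 * Real.pi * u (x, -θ)) = Real.cos (2 * Real.pi * u (x, θ)) := by
  rw [hu.odd x hx, mul_neg, Real.cos_neg]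

theorem mean_pos {O : Set X} {u : X × ℝ → ℝ} (hu : Rep O u) {x : X} (hx : x ∈ O) {η : ℝ → ℝ}
    (hη : Continuous η) (h0 : ∀ y, 0 ≤ η y) (h1 : ∃ y ∈ Icc (-1 : ℝ) 1, 0 < η y) :
    0 < mean (fun q => η (Real.cos (2 * Real.pi * u q))) x := by
  obtain ⟨y, hy, hy'⟩ := h1
  have hc := continuous_slice hu.sm hx
  have e0 : u (x, 0) = 0 := by
    have := hu.odd x hx 0
    rw [neg_zero] at this
    linarith
  have e1 : u (x, 1) = 1 := by
    have := hu.per x hx 0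
    rwa [zero_add, e0, zero_add] at this
  have h3 := intermediate_value_Icc (show (0 : ℝ) ≤ 1 by norm_num) hc.continuousOn
  rw [e0, e1] at h3
  have hπ := Real.pi_pos
  obtain ⟨θ, hθ, e⟩ := h3 (show Real.arccos y / (2 * Real.pi) ∈ Icc (0 : ℝ) 1 from
    ⟨div_nonneg (Real.arccos_nonneg y) (by positivity),
      (div_le_one (by positivity)).2 (by linarith [Real.arccos_le_pi y])⟩)
  refine intervalIntegral.integral_pos zero_lt_one
    (hη.comp (continuous_slice (contDiffOn_cos hu) hx)).continuousOn (fun _ _ => h0 _)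
    ⟨θ, hθ, ?_⟩
  have e' : u (x, θ) = Real.arccos y / (2 * Real.pi) := e
  change 0 < η (Real.cos (2 * Real.pi * u (x, θ)))
  rwa [e', mul_div_cancel₀ _ (by positivity), Real.cos_arccos hy.1 hy.2]

theorem mean_sin {a : ℝ} {φ : ℝ → ℝ} (hφ : Continuous φ) {τ1 τ2 : ℝ}
    (h : ∫ θ in (0 : ℝ)..1, Tst a (φ θ) = (τ1, τ2)) :
    ∫ θ in (0 : ℝ)..1, Real.sin (a * φ θ) = a * τ1 := by
  have hc : Continuous fun θ => Tst a (φ θ) :=
    contDiff_Tst.continuous.comp (continuous_const.prodMk hφ)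
  have h1 := (ContinuousLinearMap.fst ℝ ℝ ℝ).intervalIntegral_comp_comm
    (μ := MeasureTheory.volume) (hc.intervalIntegrable 0 1)
  rw [h] at h1
  have h2 : τ1 = ∫ θ in (0 : ℝ)..1, φ θ * sc (a * φ θ) := h1.symm
  rw [h2, ← intervalIntegral.integral_const_mul]
  refine intervalIntegral.integral_congr fun θ _ => ?_
  simp only [← mul_sc, mul_assoc]

theorem mean_cos {a : ℝ} {φ : ℝ → ℝ} (hφ : Continuous φ) {τ1 τ2 : ℝ}
    (h : ∫ θ in (0 : ℝ)..1, Tst a (φ θ) = (τ1, τ2)) :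
    ∫ θ in (0 : ℝ)..1, Real.cos (a * φ θ) = 1 - a ^ 2 * τ2 := by
  have hc : Continuous fun θ => Tst a (φ θ) :=
    contDiff_Tst.continuous.comp (continuous_const.prodMk hφ)
  have h1 := (ContinuousLinearMap.snd ℝ ℝ ℝ).intervalIntegral_comp_comm
    (μ := MeasureTheory.volume) (hc.intervalIntegrable 0 1)
  rw [h] at h1
  have h2 : τ2 = ∫ θ in (0 : ℝ)..1, φ θ ^ 2 * c2 (a * φ θ) := h1.symm
  have h3 : Continuous fun θ => Real.cos (a * φ θ) := by fun_prop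
  have h4 : ∫ θ in (0 : ℝ)..1, (1 - Real.cos (a * φ θ)) =
      1 - ∫ θ in (0 : ℝ)..1, Real.cos (a * φ θ) := by
    rw [intervalIntegral.integral_sub (continuous_const.intervalIntegrable _ _)
      (h3.intervalIntegrable _ _)]
    simp
  have h5 : a ^ 2 * τ2 = ∫ θ in (0 : ℝ)..1, (1 - Real.cos (a * φ θ)) := by
    rw [h2, ← intervalIntegral.integral_const_mul]
    refine intervalIntegral.integral_congr fun θ _ => ?_
    simp only [← mul_c2, mul_pow, mul_assoc]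
  rw [h5, h4]
  ring

theorem exists_loop (P : Prof) {O K : Set X} (hO : IsOpen O) (hK : IsCompact K) (hKO : K ⊆ O)
    (S r : ℝ) {a co si S2 τ1 τ2 : X → ℝ} (ha : ContDiffOn ℝ ∞ a O) (hco : ContDiffOn ℝ ∞ co O)
    (hsi : ContDiffOn ℝ ∞ si O) (hS2 : ContDiffOn ℝ ∞ S2 O) (hτ1 : ContDiffOn ℝ ∞ τ1 O)
    (hτ2 : ContDiffOn ℝ ∞ τ2 O)
    (h : ∀ x ∈ K, (τ1 x, τ2 x) ∈
      interior (convexHull ℝ (Tst (a x) '' Icc (S2 x - S) (S2 x + S)))) :
    ∃ O' : Set X, IsOpen O' ∧ K ⊆ O' ∧ O' ⊆ O ∧ ∃ (u φ : X × ℝ → ℝ) (β : Fin 3 → X × ℝ → ℝ),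
      Rep O' u ∧
      (∀ q, φ q = P.φ S (S2 q.1) r (co q.1) (si q.1) (Real.cos (2 * Real.pi * u q))) ∧
      ContDiffOn ℝ ∞ φ (O' ×ˢ univ) ∧ (∀ l, ContDiffOn ℝ ∞ (β l) (O' ×ˢ univ)) ∧
      ∀ x ∈ O', (∀ θ, φ (x, θ + 1) = φ (x, θ)) ∧ (∀ θ, φ (x, -θ) = φ (x, θ)) ∧
        mean (fun q => Real.sin (a q.1 * φ q)) x = a x * τ1 x ∧
        mean (fun q => Real.cos (a q.1 * φ q)) x = 1 - a x ^ 2 * τ2 x ∧
        ∀ l, (∀ θ, β l (x, θ + 1) = β l (x, θ)) ∧ mean (β l) x = 1 ∧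
          ∀ θ, (β l =ᶠ[𝓝 (x, θ)] fun _ => 0) ∨
            φ =ᶠ[𝓝 (x, θ)] fun q => S + S2 q.1 - r * ![0, co q.1, si q.1] l := by
  have hf : ContDiffOn ℝ ∞
      (fun q : X × ℝ => Tst (a q.1) (P.φ S (S2 q.1) r (co q.1) (si q.1) q.2)) (O ×ˢ univ) :=
    contDiff_Tst.comp_contDiffOn
      ((contDiffOn_fst' ha).prodMk (contDiffOn_prof P S r hco hsi hS2 contDiffOn_snd))
  obtain ⟨O', hO', hKO', hO'O, u, hu, hm⟩ := reparam hO hK hKO hf (hτ1.prodMk hτ2) fun x hx =>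
    interior_mono (convexHull_mono (image_sub P (a x) S (S2 x) r (co x) (si x))) (h x hx)
  have hφ := contDiffOn_prof P S r (hco.mono hO'O) (hsi.mono hO'O) (hS2.mono hO'O)
    (contDiffOn_cos hu)
  have he : ∀ l, ContDiffOn ℝ ∞ (fun q => P.η l (Real.cos (2 * Real.pi * u q))) (O' ×ˢ univ) :=
    fun l => (P.smη l).comp_contDiffOn (contDiffOn_cos hu)
  have hpos : ∀ l, ∀ x ∈ O', 0 < mean (fun q => P.η l (Real.cos (2 * Real.pi * u q))) x :=
    fun l x hx => mean_pos hu hx (P.smη l).continuous (P.η0 l) (P.ηpos l)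
  refine ⟨O', hO', hKO', hO'O, u, _, fun l q => P.η l (Real.cos (2 * Real.pi * u q)) /
    mean (fun q => P.η l (Real.cos (2 * Real.pi * u q))) q.1, hu, fun _ => rfl, hφ,
    fun l => (he l).div (contDiffOn_fst' (contDiffOn_mean hO' (he l)))
      fun q hq => (hpos l q.1 hq.1).ne', fun x hx => ⟨fun θ => ?_, fun θ => ?_, ?_, ?_, fun l =>
        ⟨fun θ => ?_, ?_, fun θ => ?_⟩⟩⟩
  · simp only [cos_per hu hx]
  · simp only [cos_even hu hx]
  · exact mean_sin (a := a x) (τ1 := τ1 x) (τ2 := τ2 x)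
      (φ := fun θ => P.φ S (S2 x) r (co x) (si x) (Real.cos (2 * Real.pi * u (x, θ))))
      (continuous_slice hφ hx) (hm x hx)
  · exact mean_cos (a := a x) (τ1 := τ1 x) (τ2 := τ2 x)
      (φ := fun θ => P.φ S (S2 x) r (co x) (si x) (Real.cos (2 * Real.pi * u (x, θ))))
      (continuous_slice hφ hx) (hm x hx)
  · simp only [cos_per hu hx]
  · exact (intervalIntegral.integral_div _ fun θ =>
      P.η l (Real.cos (2 * Real.pi * u (x, θ)))).trans (div_self (hpos l x hx).ne')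
  · have hc : ContinuousAt (fun q => Real.cos (2 * Real.pi * u q)) (x, θ) :=
      (contDiffOn_cos hu).continuousOn.continuousAt
        ((hO'.prod isOpen_univ).mem_nhds ⟨hx, trivial⟩)
    by_cases hy : Real.cos (2 * Real.pi * u (x, θ)) ∈ tsupport (P.η l)
    · right
      filter_upwards [hc.eventually (P.loc l _ hy)] with q hq
      simp only [Prof.φ, hq.1, hq.2.1, hq.2.2]
      fin_cases l <;> simp
    · left
      filter_upwards [hc.eventually (notMem_tsupport_iff_eventuallyEq.1 hy)] with q hq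
      simp only [hq, Pi.zero_apply, zero_div]

theorem exists_small_loop (P : Prof)
    (hull : ∀ {a m : ℝ}, 0 < m → 1 ^ 2 = a ^ 2 + m ^ 2 →
      ((0 : ℝ), 1 / (1 * (1 + m))) ∈ interior (convexHull ℝ (Tst a '' Icc (0 - 4) (0 + 4)))) :
    ∃ O : Set (ℝ × ℝ × ℝ), IsOpen O ∧
    Icc (-1 / 2) (1 / 2) ×ˢ Icc (-1) 1 ×ˢ Icc (-1) 1 ⊆ O ∧
    ∃ (φ : (ℝ × ℝ × ℝ) × ℝ → ℝ) (β : Fin 3 → (ℝ × ℝ × ℝ) × ℝ → ℝ),
      ContDiffOn ℝ ∞ φ (O ×ˢ univ) ∧ (∀ l, ContDiffOn ℝ ∞ (β l) (O ×ˢ univ)) ∧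
      ∀ x ∈ O, (∀ θ, φ (x, θ + 1) = φ (x, θ)) ∧ (∀ θ, φ (x, -θ) = φ (x, θ)) ∧
        mean (fun q => Real.sin (q.1.1 * φ q)) x = 0 ∧
        mean (fun q => Real.cos (q.1.1 * φ q)) x = √(1 - x.1 ^ 2) ∧
        ∀ l, (∀ θ, β l (x, θ + 1) = β l (x, θ)) ∧ mean (β l) x = 1 ∧
          ∀ θ, (β l =ᶠ[𝓝 (x, θ)] fun _ => 0) ∨
            φ =ᶠ[𝓝 (x, θ)] fun q => 4 - ![0, q.1.2.1, q.1.2.2] l := by
  have hO : IsOpen {x : ℝ × ℝ × ℝ | 0 < 1 - x.1 ^ 2} := isOpen_lt continuous_const (by fun_prop)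
  have hKO : Icc (-1 / 2 : ℝ) (1 / 2) ×ˢ Icc (-1 : ℝ) 1 ×ˢ Icc (-1 : ℝ) 1 ⊆
      {x : ℝ × ℝ × ℝ | 0 < 1 - x.1 ^ 2} := fun x hx => by
    have h1 := hx.1.1
    have h2 := hx.1.2
    change 0 < 1 - x.1 ^ 2
    nlinarith
  have hτ : ContDiffOn ℝ ∞ (fun x : ℝ × ℝ × ℝ => 1 / (1 * (1 + √(1 - x.1 ^ 2))))
      {x : ℝ × ℝ × ℝ | 0 < 1 - x.1 ^ 2} :=
    contDiffOn_const.div (contDiffOn_const.mul (contDiffOn_const.add
      ((contDiffOn_const.sub (contDiffOn_fst.pow 2)).sqrt fun x hx => ne_of_gt hx)))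
      fun x _ => by positivity
  obtain ⟨O, h1, h2, h3, u, φ, β, -, -, h4, h5, h6⟩ := exists_loop P hO
    (isCompact_Icc.prod (isCompact_Icc.prod isCompact_Icc)) hKO 4 1 (a := fun x => x.1)
    (co := fun x => x.2.1) (si := fun x => x.2.2) (S2 := fun _ => 0) (τ1 := fun _ => 0)
    contDiffOn_fst contDiffOn_snd.fst contDiffOn_snd.snd contDiffOn_const contDiffOn_const hτ
    fun x hx => hull (Real.sqrt_pos.2 (hKO hx)) (by rw [Real.sq_sqrt (le_of_lt (hKO hx))]; ring)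
  refine ⟨O, h1, h2, φ, β, h4, h5, fun x hx => ?_⟩
  obtain ⟨a1, a2, a3, a4, a5⟩ := h6 x hx
  refine ⟨a1, a2, a3.trans (mul_zero _), a4.trans ?_, fun l => ⟨(a5 l).1, (a5 l).2.1, fun θ => ?_⟩⟩
  · have e := Real.sq_sqrt (le_of_lt (h3 hx))
    have e0 := Real.sqrt_nonneg (1 - x.1 ^ 2)
    generalize √(1 - x.1 ^ 2) = m at e e0
    have : x.1 ^ 2 = (1 - m) * (1 + m) := by linarith
    rw [this]
    field_simp
    ring
  · simpa only [add_zero, one_mul] using (a5 l).2.2 θ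

end LoopAux2

end Crest.Agent.R216
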