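import Crest.Agent.R216.Rep
import Crest.Agent.R216.LoopAux2
import Crest.Agent.R216.LoopAux1

/-!
# Row 216: loops with three straight arcs
-/

set_option autoImplicit false
set_option linter.unusedSectionVars false

noncomputable section

namespace Crest.Agent.R216

open Set Metric Filter
open scoped ContDiff Topology RealInnerProductSpace

universe u

theorem exists_prof : Nonempty Prof := LoopAux1.exists_prof

theorem contDiff_Tst : ContDiff ℝ ∞ fun q : ℝ × ℝ => Tst q.1 q.2 := LoopAux1.contDiff_Tst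

/-- The arc covers the whole circle. -/
theorem hull_full {a S S2 τ1 τ2 : ℝ} (ha : a ≠ 0) (hS : Real.pi ≤ |a| * S)
    (h : (1 - a ^ 2 * τ2) ^ 2 + (a * τ1) ^ 2 < 1) :
    (τ1, τ2) ∈ interior (convexHull ℝ (Tst a '' Icc (S2 - S) (S2 + S))) :=
  LoopAux1.hull_full ha hS h

/-- The target lies on the axis of the arc. -/
theorem hull_axis {a m R S S2 : ℝ} (hm : 0 < m) (hR : 0 < R) (h : R ^ 2 = a ^ 2 + m ^ 2)
    (hS : 3 ≤ R * (S - 1)) (hS2 : |S2| ≤ 1) :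
    ((0 : ℝ), 1 / (R * (R + m))) ∈ interior (convexHull ℝ (Tst a '' Icc (S2 - S) (S2 + S))) :=
  LoopAux1.hull_axis hm hR h hS hS2

variable {X : Type} [NormedAddCommGroup X] [NormedSpace ℝ X] [FiniteDimensional ℝ X]

/-- The loop. -/
theorem exists_loop (P : Prof) {O K : Set X} (hO : IsOpen O) (hK : IsCompact K) (hKO : K ⊆ O)
    (S r : ℝ) {a co si S2 τ1 τ2 : X → ℝ} (ha : ContDiffOn ℝ ∞ a O) (hco : ContDiffOn ℝ ∞ co O)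
    (hsi : ContDiffOn ℝ ∞ si O) (hS2 : ContDiffOn ℝ ∞ S2 O) (hτ1 : ContDiffOn ℝ ∞ τ1 O)
    (hτ2 : ContDiffOn ℝ ∞ τ2 O)
    (h : ∀ x ∈ K, (τ1 x, τ2 x) ∈
      interior (convexHull ℝ (Tst (a x) '' Icc (S2 x - S) (S2 x + S)))) :
    ∃ O' : Set X, IsOpen O' ∧ K ⊆ O' ∧ O' ⊆ O ∧ ∃ (u φ : X × ℝ → ℝ) (β : Fin 3 → X × ℝ → ℝ),
      Rep O' u ∧
      (∀ q, φ q = P.φ S (S2 q.1) r (co q.1) (si q.1) (Real.cos (2 * Real.pi * u q))) ∧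
      ContDiffOn ℝ ∞ φ (O' ×ˢ univ) ∧ (∀ l, ContDiffOn ℝ ∞ (β l) (O' ×ˢ univ)) ∧
      ∀ x ∈ O', (∀ θ, φ (x, θ + 1) = φ (x, θ)) ∧ (∀ θ, φ (x, -θ) = φ (x, θ)) ∧
        mean (fun q => Real.sin (a q.1 * φ q)) x = a x * τ1 x ∧
        mean (fun q => Real.cos (a q.1 * φ q)) x = 1 - a x ^ 2 * τ2 x ∧
        ∀ l, (∀ θ, β l (x, θ + 1) = β l (x, θ)) ∧ mean (β l) x = 1 ∧
          ∀ θ, (β l =ᶠ[𝓝 (x, θ)] fun _ => 0) ∨
            φ =ᶠ[𝓝 (x, θ)] fun q => S + S2 q.1 - r * ![0, co q.1, si q.1] l :=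
  LoopAux2.exists_loop P hO hK hKO S r ha hco hsi hS2 hτ1 hτ2 h

/-- The universal loop of small amplitude; the parameters are `(a, cos ζ, sin ζ)`. -/
theorem exists_small_loop : ∃ O : Set (ℝ × ℝ × ℝ), IsOpen O ∧
    Icc (-1 / 2) (1 / 2) ×ˢ Icc (-1) 1 ×ˢ Icc (-1) 1 ⊆ O ∧
    ∃ (φ : (ℝ × ℝ × ℝ) × ℝ → ℝ) (β : Fin 3 → (ℝ × ℝ × ℝ) × ℝ → ℝ),
      ContDiffOn ℝ ∞ φ (O ×ˢ univ) ∧ (∀ l, ContDiffOn ℝ ∞ (β l) (O ×ˢ univ)) ∧
      ∀ x ∈ O, (∀ θ, φ (x, θ + 1) = φ (x, θ)) ∧ (∀ θ, φ (x, -θ) = φ (x, θ)) ∧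
        mean (fun q => Real.sin (q.1.1 * φ q)) x = 0 ∧
        mean (fun q => Real.cos (q.1.1 * φ q)) x = √(1 - x.1 ^ 2) ∧
        ∀ l, (∀ θ, β l (x, θ + 1) = β l (x, θ)) ∧ mean (β l) x = 1 ∧
          ∀ θ, (β l =ᶠ[𝓝 (x, θ)] fun _ => 0) ∨
            φ =ᶠ[𝓝 (x, θ)] fun q => 4 - ![0, q.1.2.1, q.1.2.2] l :=
  exists_prof.elim fun P => LoopAux2.exists_small_loop P fun hm h =>
    hull_axis hm one_pos h (by norm_num) (by norm_num)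

/-- Substitution of structure functions in a fixed periodic function. -/
theorem St.subst {ι Y : Type*} [NormedAddCommGroup Y] [NormedSpace ℝ Y] {c : Ctx ι Y} {d : ℕ}
    {Φ : X × ℝ → ℝ} {O K : Set X} (hO : IsOpen O) (hK : IsCompact K) (hKO : K ⊆ O)
    (hΦ : ContDiffOn ℝ ∞ Φ (O ×ˢ univ)) (hp : ∀ x ∈ O, ∀ θ, Φ (x, θ + 1) = Φ (x, θ))
    {g : ι → Y → X} (hg : St (c.pow d) g) (hm : ∀ i, MapsTo (g i) (c.U i) K) :
    St (c.pow (2 * d)).cyl fun i q => Φ (g i q.1, q.2) :=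
  LoopAux1.subst hO hK hKO hΦ hp hg hm

end Crest.Agent.R216
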