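import Crest.Agent.R216.LFrameL
import Crest.Agent.R216.Loop
import Crest.Agent.R216.Gad

/-!
# Row 216: the data of the loop of a step of large amplitude (auxiliary file of `LargeW`)
-/

set_option autoImplicit false
set_option linter.unusedSectionVars false

noncomputable section

namespace Crest.Agent.R216.LargeWAux1

open Set Metric Filter
open scoped ContDiff Topology RealInnerProductSpace

variable {L : LSet} (Fr : LFrame L)

/-- First coordinate of `m`. -/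
def m1 (x : E) : ℝ := ⟪L.m x, Fr.e1 x⟫
/-- Second coordinate of `m`. -/
def m2 (x : E) : ℝ := ⟪L.m x, Fr.e2 x⟫
/-- The axis property. -/
def Ax (x : E) : Prop := ∀ᶠ y in 𝓝 x, 0 < ⟪L.m y, Fr.e1 y⟫ ∧ L.m y = ⟪L.m y, Fr.e1 y⟫ • Fr.e1 y
/-- First coordinate of the target. -/
def τ1 (x : E) : ℝ := m2 Fr x / (Fr.R x * L.a x)
open Classical in
/-- Second coordinate of the target. -/
def τ2 (x : E) : ℝ :=
  if L.a x = 0 then 1 / (Fr.R x * (Fr.R x + m1 Fr x)) else (Fr.R x - m1 Fr x) / (Fr.R x * L.a x ^ 2)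

theorem sm_g : ContDiffOn ℝ ∞ (fun x => gram (L.p x) (L.A x)) Fr.O :=
  (contDiff_gram.comp_contDiffOn (L.smooth.1.prodMk L.smooth.2.2.1)).mono Fr.sub'

theorem sm_m : ContDiffOn ℝ ∞ L.m Fr.O :=
  contDiffOn_pn.comp ((L.smooth.1.prodMk (L.smooth.2.2.1.prodMk L.smooth.2.1)).mono Fr.sub') Fr.gne

theorem sm_a : ContDiffOn ℝ ∞ L.a Fr.O := L.smooth.2.2.2.1.mono Fr.sub'

theorem sm_m1 : ContDiffOn ℝ ∞ (m1 Fr) Fr.O := (sm_m Fr).inner ℝ Fr.sm1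

theorem sm_m2 : ContDiffOn ℝ ∞ (m2 Fr) Fr.O := (sm_m Fr).inner ℝ Fr.sm2

variable {Fr} {x : E}

theorem rot (hx : x ∈ Fr.O) : ⟪L.p x, Fr.e2 x⟫ = 0 ∧ ⟪L.A x, Fr.e2 x⟫ = 0 ∧
    ⟪Fr.e2 x, Fr.e2 x⟫ = 1 ∧ ⟪Fr.e1 x, Fr.e2 x⟫ = 0 ∧
    ∀ y, ⟪L.p x, y⟫ = 0 → ⟪L.A x, y⟫ = 0 → y = ⟪y, Fr.e1 x⟫ • Fr.e1 x + ⟪y, Fr.e2 x⟫ • Fr.e2 x :=
  have h := rot_spec (Fr.gne x hx) (Fr.p1 x hx) (Fr.A1 x hx) (Fr.e11 x hx) (Fr.rot x hx)
  ⟨h.1, h.2.1, h.2.2.1, h.2.2.2.1, h.2.2.2.2.2.2⟩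

theorem R_sq (hx : x ∈ Fr.O) : Fr.R x ^ 2 = L.a x ^ 2 + (m1 Fr x ^ 2 + m2 Fr x ^ 2) := by
  have h := (rot hx).2.2.2.2 (L.m x)
    (by rw [real_inner_comm]; exact inner_pn_1 (Fr.gne x hx) _)
    (by rw [real_inner_comm]; exact inner_pn_2 (Fr.gne x hx) _)
  have h1 : ⟪L.m x, L.m x⟫ = m1 Fr x ^ 2 + m2 Fr x ^ 2 := by
    conv_lhs => arg 2; rw [h]
    rw [inner_add_left, real_inner_smul_left, real_inner_smul_left, real_inner_comm (L.m x),
      real_inner_comm (L.m x), sq, sq]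
    rfl
  rw [Fr.hR x hx, ← real_inner_self_eq_norm_sq, h1]

theorem axis (hx : x ∈ Fr.O) (h : 0 < ⟪L.m x, Fr.e1 x⟫ ∧ L.m x = ⟪L.m x, Fr.e1 x⟫ • Fr.e1 x) :
    m2 Fr x = 0 ∧ Fr.R x ^ 2 = L.a x ^ 2 + m1 Fr x ^ 2 ∧ τ1 Fr x = 0 ∧
      τ2 Fr x = 1 / (Fr.R x * (Fr.R x + m1 Fr x)) := by
  have h1 : m2 Fr x = 0 := by
    rw [m2, h.2, real_inner_smul_left, (rot hx).2.2.2.1, mul_zero]
  have h2 := R_sq hx
  rw [h1, zero_pow two_ne_zero, add_zero] at h2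
  refine ⟨h1, h2, by rw [τ1, h1, zero_div], ?_⟩
  have h3 := Fr.R0 x hx
  have h4 : 0 < m1 Fr x := h.1
  unfold τ2
  split_ifs with h5
  · rfl
  · field_simp
    linarith

theorem a_ne (hK : 1 ≤ L.K) (hx : x ∈ Fr.O) (h : ¬ Ax Fr x) : L.a x ≠ 0 := fun h1 =>
  (Fr.axis x hx).elim (fun h2 => h2 ((L.a_eq_zero hK (Fr.sub' hx)).1 h1)) h

theorem sm_τ (hK : 1 ≤ L.K) : ContDiffOn ℝ ∞ (τ1 Fr) Fr.O ∧ ContDiffOn ℝ ∞ (τ2 Fr) Fr.O := by
  have key : ∀ x ∈ Fr.O, ContDiffAt ℝ ∞ (τ1 Fr) x ∧ ContDiffAt ℝ ∞ (τ2 Fr) x := by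
    intro x hx
    have hn := Fr.hO.mem_nhds hx
    have hR := Fr.smR.contDiffAt hn
    have h1 := (sm_m1 Fr).contDiffAt hn
    have h2 := (sm_m2 Fr).contDiffAt hn
    have ha := (sm_a Fr).contDiffAt hn
    have hR0 := Fr.R0 x hx
    by_cases h : Ax Fr x
    · have h3 : 0 < m1 Fr x := h.self_of_nhds.1
      refine ⟨(contDiffAt_const (c := (0 : ℝ))).congr_of_eventuallyEq ?_,
        ((contDiffAt_const (c := (1 : ℝ))).div (hR.mul (hR.add h1))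
          (by positivity)).congr_of_eventuallyEq ?_⟩
      · filter_upwards [h, hn] with y h4 h5 using (axis h5 h4).2.2.1
      · filter_upwards [h, hn] with y h4 h5 using (axis h5 h4).2.2.2
    · have h3 := a_ne hK hx h
      refine ⟨h2.div (hR.mul ha) (mul_ne_zero hR0.ne' h3),
        ((hR.sub h1).div (hR.mul (ha.pow 2))
          (mul_ne_zero hR0.ne' (pow_ne_zero _ h3))).congr_of_eventuallyEq ?_⟩
      filter_upwards [ha.continuousAt.eventually_ne h3] with y h4 using if_neg h4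
  exact ⟨fun x hx => (key x hx).1.contDiffWithinAt, fun x hx => (key x hx).2.contDiffWithinAt⟩

theorem means (hK : 1 ≤ L.K) (hx : x ∈ Fr.O) :
    Fr.R x * (L.a x * τ1 Fr x) = m2 Fr x ∧ Fr.R x * (1 - L.a x ^ 2 * τ2 Fr x) = m1 Fr x := by
  have hR := Fr.R0 x hx
  by_cases h : L.a x = 0
  · have h1 : Ax Fr x := not_not.1 fun h1 => a_ne hK hx h1 h
    obtain ⟨h2, h3, -⟩ := axis hx h1.self_of_nhds
    have h4 : 0 < m1 Fr x := h1.self_of_nhds.1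
    rw [h, zero_pow two_ne_zero, zero_add] at h3
    rw [h, h2, (pow_left_inj₀ hR.le h4.le two_ne_zero).1 h3]
    simp
  · rw [τ1, τ2, if_neg h]
    constructor
    · field_simp
    · field_simp
      ring

theorem hull (hK : 1 ≤ L.K) (hx : x ∈ Fr.O) {S S2 : ℝ} (h1 : 3 ≤ Fr.R x * (S - 1))
    (h2 : ¬ Ax Fr x → Real.pi ≤ |L.a x| * S) (h3 : |S2| ≤ 1) :
    (τ1 Fr x, τ2 Fr x) ∈ interior (convexHull ℝ (Tst (L.a x) '' Icc (S2 - S) (S2 + S))) := by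
  have hR := Fr.R0 x hx
  by_cases h : Ax Fr x
  · obtain ⟨-, h4, h5, h6⟩ := axis hx h.self_of_nhds
    rw [h5, h6]
    exact hull_axis h.self_of_nhds.1 hR h4 h1 h3
  · have h4 := a_ne hK hx h
    refine hull_full h4 (h2 h) (lt_of_mul_lt_mul_left ?_ (sq_nonneg (Fr.R x)))
    obtain ⟨h5, h6⟩ := means hK hx
    rw [mul_add, ← mul_pow, ← mul_pow, h5, h6, mul_one, R_sq hx]
    have := sq_pos_of_ne_zero h4
    linarith

theorem sm_dd {V : Type*} [NormedAddCommGroup V] [NormedSpace ℝ V] {O : Set E} (hO : IsOpen O)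
    {f : E → V} (hf : ContDiffOn ℝ ∞ f O) (v : E) : ContDiffOn ℝ ∞ (dd v f) O :=
  (hf.fderiv_of_isOpen hO (by simp)).clm_apply contDiffOn_const

theorem consts (hK : 1 ≤ L.K) (Fr : LFrame L) : ∃ (K : Set E) (S r Λ : ℝ), L.D ⊆ interior K ∧
    0 < r ∧ (∀ x ∈ K, |L.a x * r| ≤ 1 ∧
      1 + ‖dd et (fun y => L.q y - L.m y) x‖ ≤ Fr.R x * Λ) ∧
    ∀ x ∈ L.D, 3 ≤ Fr.R x * (S - 1) ∧ (¬ Ax Fr x → Real.pi ≤ |L.a x| * S) := by
  obtain ⟨K, hKc, h1, h2⟩ := exists_compact_between L.cpt Fr.hO Fr.sub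
  obtain ⟨Ca, hCa⟩ := hKc.exists_bound_of_continuousOn ((sm_a Fr).continuousOn.mono h2)
  obtain ⟨C1, hC1⟩ := hKc.exists_bound_of_continuousOn
    ((sm_dd Fr.hO ((L.smooth.2.1.mono Fr.sub').sub (sm_m Fr)) et).continuousOn.mono h2)
  obtain ⟨R1, hR1, h3⟩ := hKc.exists_forall_le' (Fr.smR.continuousOn.mono h2)
    fun x hx => Fr.R0 x (h2 hx)
  have hN : IsCompact (L.D \ {x | Ax Fr x}) := L.cpt.diff isOpen_setOfPred_eventually_nhds
  obtain ⟨a1, ha1, h4⟩ := hN.exists_forall_le'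
    (((sm_a Fr).continuousOn.mono fun x hx => Fr.sub hx.1).abs)
    fun x hx => abs_pos.2 (a_ne hK (Fr.sub hx.1) hx.2)
  have hp := Real.pi_pos
  refine ⟨K, 3 / R1 + Real.pi / a1 + 1, 1 / (|Ca| + 1), (1 + |C1|) / R1, h1, by positivity,
    fun x hx => ⟨?_, ?_⟩, fun x hx => ⟨?_, fun h => ?_⟩⟩
  · rw [mul_one_div, abs_div, abs_of_pos (a := |Ca| + 1) (by positivity),
      div_le_one (by positivity)]
    exact ((hCa x hx).trans (le_abs_self _)).trans (by linarith)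
  · calc _ ≤ 1 + |C1| := by linarith [hC1 x hx, le_abs_self C1]
      _ = R1 * ((1 + |C1|) / R1) := by field_simp
      _ ≤ _ := mul_le_mul_of_nonneg_right (h3 x hx) (by positivity)
  · calc (3 : ℝ) = R1 * (3 / R1) := by field_simp
      _ ≤ _ := mul_le_mul (h3 x (interior_subset (h1 hx)))
        (by have : 0 < Real.pi / a1 := by positivity
            linarith) (by positivity) (Fr.R0 x (Fr.sub hx)).le
  · calc Real.pi = a1 * (Real.pi / a1) := by field_simp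
      _ ≤ _ := mul_le_mul (h4 x ⟨hx, h⟩)
        (by have : 0 < 3 / R1 := by positivity
            linarith) (by positivity) (abs_nonneg _)

/-- The context with one member. -/
def ctx (K : Set E) : Ctx Unit E :=
  ⟨fun _ => interior K, fun _ => 1, fun _ => isOpen_interior, fun _ => le_rfl⟩

theorem cl_of {V : Type*} [NormedAddCommGroup V] [NormedSpace ℝ V] {O K : Set E} (hO : IsOpen O)
    (hK : IsCompact K) (hKO : K ⊆ O) {F : E → V} (hF : ContDiffOn ℝ ∞ F O) (j : ℕ) :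
    Cl (ctx K) j (fun _ => 1) fun _ => F := fun _ =>
  (Bd.of_compact hO hF hK hKO fun _ => interior_subset).mono le_rfl j.zero_le

theorem st_cyl {O K : Set E} (hO : IsOpen O) (hK : IsCompact K) (hKO : K ⊆ O) {F : E × ℝ → ℝ}
    (hF : ContDiffOn ℝ ∞ F (O ×ˢ univ)) (hp : ∀ x ∈ O, ∀ θ, F (x, θ + 1) = F (x, θ)) :
    St (ctx K).cyl fun _ => F := fun _ =>
  (Bd.of_compact_cyl hO hF hp hK hKO fun _ => interior_subset).mono le_rfl zero_le_one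

theorem bc {W : Type*} [NormedAddCommGroup W] (a : W) : Bc fun _ : Unit => a :=
  ⟨_, fun _ => le_rfl⟩

/-- The family with one member. -/
def base (L : LSet) {K : Set E} (hK : IsCompact K) (h1 : L.D ⊆ interior K) (h2 : K ⊆ L.O) :
    Base Unit where
  c := ctx K
  w _ := et
  z _ := es
  ξ _ := cs
  η _ := ct
  bw := bc _
  bz := bc _
  bξ := bc _
  bη := bc _
  ξz _ := by simp [cs, es]
  ξw _ := by simp [cs, et]
  ηz _ := by simp [ct, es]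
  ηw _ := by simp [ct, et]
  F _ := L.H
  smF _ := L.smH.mono (interior_subset.trans h2)
  stF := cl_of L.hO hK h2 (L.smH.fderiv_of_isOpen L.hO (by simp)) 1
  χ _ := L.χ
  smχ _ := L.smχ
  suppχ _ := h1
  clχ := cl_of L.hO hK h2 L.smχ.contDiffOn 0
  κ _ := 1
  κ0 _ := one_pos
  κ1 _ := le_rfl
  K := L.K
  b _ := L.b
  stb := cl_of L.hO hK h2 L.smb 1

theorem base_a {K : Set E} (hK : IsCompact K) (h1 : L.D ⊆ interior K) (h2 : K ⊆ L.O) (i : Unit) :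
    (base L hK h1 h2).a i = L.a :=
  funext fun x => congrArg (· * L.b x) (one_mul _)

theorem main (hK : 1 ≤ L.K) (Fr : LFrame L) (P : Prof) : ∃ S r Λ : ℝ,
    ∀ S2 : E → ℝ, Shift S2 → ∃ (B : Base Unit) (A : AData B) (u : E × ℝ → ℝ),
      L.Match B ∧ L.D ⊆ B.c.U () ∧ B.c.U () ⊆ Fr.O ∧ A.e1 () = Fr.e1 ∧ A.e2 () = Fr.e2 ∧
      A.R () = Fr.R ∧ Rep (B.c.U ()) u ∧
      ∀ q, A.φ () q = P.φ S (S2 q.1) r (Real.cos (Λ * ct q.1)) (Real.sin (Λ * ct q.1))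
        (Real.cos (2 * Real.pi * u q)) := by
  obtain ⟨K₁, S, r, Λ, hD, hr, h₁, h₂⟩ := consts hK Fr
  refine ⟨S, r, Λ, fun S2 hS2 => ?_⟩
  have sζ : ContDiff ℝ ∞ fun x : E => Λ * ct x := contDiff_const.mul ct.contDiff
  obtain ⟨O, hO, hDO, hOO, u, φ, β, hu, hφ, sφ, sβ, h₃⟩ := exists_loop P Fr.hO L.cpt Fr.sub S r
    (sm_a Fr) sζ.cos.contDiffOn sζ.sin.contDiffOn hS2.sm.contDiffOn (sm_τ hK).1 (sm_τ hK).2
    fun x hx => hull hK (Fr.sub hx) (h₂ x hx).1 (h₂ x hx).2 (hS2.le x)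
  obtain ⟨K, hKc, h1, h2⟩ := exists_compact_between L.cpt (hO.inter isOpen_interior)
    (subset_inter hDO hD)
  have k1 : K ⊆ O := fun x hx => (h2 hx).1
  have k2 : K ⊆ Fr.O := k1.trans hOO
  have k3 : K ⊆ L.O := k2.trans Fr.sub'
  have u1 : ∀ {x}, x ∈ interior K → x ∈ O := fun hx => k1 (interior_subset hx)
  have u2 : ∀ {x}, x ∈ interior K → x ∈ Fr.O := fun hx => k2 (interior_subset hx)
  have u3 : ∀ {x}, x ∈ interior K → x ∈ K₁ := fun hx =>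
    interior_subset (h2 (interior_subset hx)).2
  refine ⟨base L hKc h1 k3, {
    gne := fun _ x hx => Fr.gne x (u2 hx)
    stg := cl_of Fr.hO hKc k2 ((sm_g Fr).inv Fr.gne) 1
    bne := fun _ x hx => (L.b0 x (Fr.sub' (u2 hx))).ne'
    stbi := cl_of L.hO hKc k3 (L.smb.inv fun x hx => (L.b0 x hx).ne') 1
    e1 := fun _ => Fr.e1
    e2 := fun _ => Fr.e2
    ste1 := cl_of Fr.hO hKc k2 Fr.sm1 1
    ste2 := cl_of Fr.hO hKc k2 Fr.sm2 1
    e1P := fun _ x hx => ⟨Fr.p1 x (u2 hx), Fr.A1 x (u2 hx)⟩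
    e2P := fun _ x hx => ⟨(rot (u2 hx)).1, (rot (u2 hx)).2.1⟩
    e11 := fun _ x hx => Fr.e11 x (u2 hx)
    e22 := fun _ x hx => (rot (u2 hx)).2.2.1
    e12 := fun _ x hx => (rot (u2 hx)).2.2.2.1
    span := fun _ x hx y hy => (rot (u2 hx)).2.2.2.2 y hy.1 hy.2
    R := fun _ => Fr.R
    stR := cl_of Fr.hO hKc k2 Fr.smR 1
    stRi := cl_of Fr.hO hKc k2 (Fr.smR.inv fun x hx => (Fr.R0 x hx).ne') 1
    R0 := fun _ x hx => Fr.R0 x (u2 hx)
    hR := fun _ x hx => by rw [base_a]; exact Fr.hR x (u2 hx)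
    φ := fun _ => φ
    stφ := st_cyl hO hKc k1 sφ fun x hx => (h₃ x hx).1
    perφ := fun _ x hx => (h₃ x (u1 hx)).1
    even := fun _ x hx => (h₃ x (u1 hx)).2.1
    mcos := fun _ x hx => by rw [base_a, (h₃ x (u1 hx)).2.2.2.1]; exact (means hK (u2 hx)).2
    msin := fun _ x hx => by rw [base_a, (h₃ x (u1 hx)).2.2.1]; exact (means hK (u2 hx)).1
    sh := fun _ x => S + S2 x
    stsh := cl_of hO hKc k1 (contDiffOn_const.add hS2.sm.contDiffOn) 1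
    r := fun _ _ => r
    str := cl_of hO hKc k1 contDiffOn_const 1
    stri := cl_of hO hKc k1 contDiffOn_const 1
    r0 := fun _ _ _ => hr
    ar := fun _ x hx => by rw [base_a]; exact (h₁ x (u3 hx)).1
    ζ := fun _ x => Λ * ct x
    smζ := fun _ => sζ.contDiffOn
    stζ := cl_of hO hKc k1 (sζ.contDiffOn.fderiv_of_isOpen hO (by simp)) 1
    hζ := fun _ x hx => ?_
    β := fun l _ => β l
    stβ := fun l => st_cyl hO hKc k1 (sβ l) fun x hx => ((h₃ x hx).2.2.2.2 l).1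
    perβ := fun l _ x hx => ((h₃ x (u1 hx)).2.2.2.2 l).1
    meanβ := fun l _ x hx => ((h₃ x (u1 hx)).2.2.2.2 l).2.1
    loc := fun l _ x hx => ((h₃ x (u1 hx)).2.2.2.2 l).2.2 }, u,
    ⟨rfl, rfl, rfl, rfl, rfl, rfl, rfl, rfl, rfl, interior_subset.trans k3⟩, h1,
    interior_subset.trans k2, rfl, rfl, rfl,
    ⟨hu.sm.mono (prod_mono_left (interior_subset.trans k1)), fun x hx => hu.per x (u1 hx),
      fun x hx => hu.odd x (u1 hx), fun x hx => hu.pos x (u1 hx)⟩, hφ⟩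
  have h3 : dd et (fun x : E => Λ * ct x) x = Λ := by
    rw [dd, (ct.hasFDerivAt.const_mul Λ).fderiv]
    simp [ct, et]
  exact (h₁ x (u3 hx)).2.trans_eq (congrArg (Fr.R x * ·) h3.symm)

end Crest.Agent.R216.LargeWAux1
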