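import Crest.Agent.R216.LFrameL
import Crest.Agent.R216.Loop
import Crest.Agent.R216.Gad

/-!
# Row 216: the loop of a step of large amplitude, estimates for `large_lloop`
-/

set_option autoImplicit false
set_option linter.unusedSectionVars false

noncomputable section

namespace Crest.Agent.R216.LargeW2

open Set Metric Filter
open scoped ContDiff Topology RealInnerProductSpace

/-- derivative of a loop `f + R (cos ψ e₁ + sin ψ e₂)` -/
theorem dd_loop {f e1 e2 : E → V4} {R : E → ℝ} {ψ : E × ℝ → ℝ} {z : E × ℝ}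
    (hf : DifferentiableAt ℝ f z.1) (h1 : DifferentiableAt ℝ e1 z.1)
    (h2 : DifferentiableAt ℝ e2 z.1) (hR : DifferentiableAt ℝ R z.1)
    (hψ : DifferentiableAt ℝ ψ z) (v : E × ℝ) :
    dd v (fun q => f q.1 + R q.1 • (Real.cos (ψ q) • e1 q.1 + Real.sin (ψ q) • e2 q.1)) z =
      (dd v.1 f z.1 + dd v.1 R z.1 • (Real.cos (ψ z) • e1 z.1 + Real.sin (ψ z) • e2 z.1)
        + R z.1 • (Real.cos (ψ z) • dd v.1 e1 z.1 + Real.sin (ψ z) • dd v.1 e2 z.1))
      + (R z.1 * dd v ψ z) • (Real.cos (ψ z) • e2 z.1 - Real.sin (ψ z) • e1 z.1) := by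
  have F := (hf.hasFDerivAt.comp z hasFDerivAt_fst).fun_add
    ((hR.hasFDerivAt.comp z hasFDerivAt_fst).fun_smul
      ((hψ.hasFDerivAt.cos.fun_smul (h1.hasFDerivAt.comp z hasFDerivAt_fst)).fun_add
        (hψ.hasFDerivAt.sin.fun_smul (h2.hasFDerivAt.comp z hasFDerivAt_fst))))
  have e := congrArg (fun L => L v) F.fderiv
  refine Eq.trans e ?_
  simp only [dd, add_apply, smul_apply, ContinuousLinearMap.comp_apply,
    ContinuousLinearMap.smulRight_apply, ContinuousLinearMap.coe_fst', Function.comp, smul_eq_mul]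
  module

/-- derivative of the angle -/
theorem dd_phi (P : Prof) (S r Λ : ℝ) {S2 : E → ℝ} {u : E × ℝ → ℝ} {z : E × ℝ}
    (hS : DifferentiableAt ℝ S2 z.1) (hu : DifferentiableAt ℝ u z) :
    DifferentiableAt ℝ (fun q : E × ℝ => P.φ S (S2 q.1) r (Real.cos (Λ * ct q.1))
      (Real.sin (Λ * ct q.1)) (Real.cos (2 * Real.pi * u q))) z ∧
    ∃ κ : ℝ, ∀ v : E × ℝ, dd v (fun q : E × ℝ => P.φ S (S2 q.1) r (Real.cos (Λ * ct q.1))
      (Real.sin (Λ * ct q.1)) (Real.cos (2 * Real.pi * u q))) z =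
      κ * dd v u z + dd v.1 S2 z.1 + r * Λ * ct v.1 *
        (Real.sin (Λ * ct z.1) * P.γ1 (Real.cos (2 * Real.pi * u z))
          - Real.cos (Λ * ct z.1) * P.γ2 (Real.cos (2 * Real.pi * u z))) := by
  have hy := (hu.hasFDerivAt.const_mul (2 * Real.pi)).cos
  have ht := (ct.hasFDerivAt.comp z hasFDerivAt_fst).const_mul Λ
  have d0 := ((P.smφ.differentiable (by simp) (Real.cos (2 * Real.pi * u z))).hasDerivAt
    ).comp_hasFDerivAt z hy
  have d1 := ((P.sm1.differentiable (by simp) (Real.cos (2 * Real.pi * u z))).hasDerivAt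
    ).comp_hasFDerivAt z hy
  have d2 := ((P.sm2.differentiable (by simp) (Real.cos (2 * Real.pi * u z))).hasDerivAt
    ).comp_hasFDerivAt z hy
  have F := (((d0.const_mul S).fun_add (hS.hasFDerivAt.comp z hasFDerivAt_fst)).fun_sub
    ((ht.cos.const_mul r).fun_mul d1)).fun_sub ((ht.sin.const_mul r).fun_mul d2)
  refine ⟨F.differentiableAt, (S * deriv P.φ0 (Real.cos (2 * Real.pi * u z))
    - r * Real.cos (Λ * ct z.1) * deriv P.γ1 (Real.cos (2 * Real.pi * u z))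
    - r * Real.sin (Λ * ct z.1) * deriv P.γ2 (Real.cos (2 * Real.pi * u z))) *
      (-Real.sin (2 * Real.pi * u z) * (2 * Real.pi)), fun v => ?_⟩
  have e := congrArg (fun L => L v) F.fderiv
  refine Eq.trans e ?_
  simp only [dd, add_apply, sub_apply, smul_apply, ContinuousLinearMap.comp_apply,
    ContinuousLinearMap.coe_fst', Function.comp, smul_eq_mul]
  ring

theorem abs_phi_le (P : Prof) (S r s2 α y : ℝ) (h : |s2| ≤ 1) :
    |P.φ S s2 r (Real.cos α) (Real.sin α) y| ≤ |S| + 1 + 2 * |r| := by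
  unfold Prof.φ
  have h1 : |S * P.φ0 y| ≤ |S| := by
    rw [abs_mul]; exact mul_le_of_le_one_right (abs_nonneg _) (P.bφ y)
  have h2 : |r * Real.cos α * P.γ1 y| ≤ |r| := by
    rw [abs_mul, abs_mul, mul_assoc]
    exact mul_le_of_le_one_right (abs_nonneg _)
      (mul_le_one₀ (Real.abs_cos_le_one α) (abs_nonneg _) (P.b1 y))
  have h3 : |r * Real.sin α * P.γ2 y| ≤ |r| := by
    rw [abs_mul, abs_mul, mul_assoc]
    exact mul_le_of_le_one_right (abs_nonneg _)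
      (mul_le_one₀ (Real.abs_sin_le_one α) (abs_nonneg _) (P.b2 y))
  rw [abs_le] at *
  constructor <;> linarith [h.1, h.2, h1.1, h1.2, h2.1, h2.2, h3.1, h3.2]

theorem norm_comb_le (c s : ℝ) (hc : |c| ≤ 1) (hs : |s| ≤ 1) (a b : V4) :
    ‖c • a + s • b‖ ≤ ‖a‖ + ‖b‖ := by
  refine (norm_add_le _ _).trans (add_le_add ?_ ?_)
  · rw [norm_smul]; exact mul_le_of_le_one_left (norm_nonneg _) hc
  · rw [norm_smul]; exact mul_le_of_le_one_left (norm_nonneg _) hs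

theorem norm_of_inner {e : V4} (h : ⟪e, e⟫ = 1) : ‖e‖ = 1 := by
  rw [real_inner_self_eq_norm_sq] at h
  nlinarith [norm_nonneg e]

theorem inner_nu {e1 e2 : V4} (h1 : ⟪e1, e1⟫ = 1) (h2 : ⟪e2, e2⟫ = 1) (h12 : ⟪e1, e2⟫ = 0)
    (α : ℝ) : ⟪Real.cos α • e2 - Real.sin α • e1, Real.cos α • e2 - Real.sin α • e1⟫ = 1 := by
  have h21 : ⟪e2, e1⟫ = 0 := by rw [real_inner_comm]; exact h12
  simp only [inner_sub_left, inner_sub_right, real_inner_smul_left, real_inner_smul_right, h1, h2,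
    h12, h21]
  nlinarith [Real.sin_sq_add_cos_sq α]

theorem near_e1 {e1 e2 : V4} (h1 : ‖e1‖ = 1) (h2 : ‖e2‖ = 1) (α : ℝ) :
    ‖Real.cos α • e1 + Real.sin α • e2 - e1‖ ≤ 2 * |α| := by
  have e : Real.cos α • e1 + Real.sin α • e2 - e1 =
      (Real.cos α - Real.cos 0) • e1 + Real.sin α • e2 := by
    rw [Real.cos_zero]; module
  rw [e]
  refine (norm_add_le _ _).trans ?_
  rw [norm_smul, norm_smul, h1, h2, Real.norm_eq_abs, Real.norm_eq_abs]
  have h3 := Real.abs_cos_sub_cos_le α 0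
  have h4 := Real.abs_sin_le_abs (x := α)
  rw [sub_zero] at h3
  linarith

variable {L : LSet} (Fr : LFrame L)

/-- the explicit loop -/
def Wx (φ : E × ℝ → ℝ) (q : E × ℝ) : V4 :=
  (L.q q.1 - L.m q.1) + Fr.R q.1 • (Real.cos (L.a q.1 * φ q) • Fr.e1 q.1
    + Real.sin (L.a q.1 * φ q) • Fr.e2 q.1)

theorem frame {x : E} (hx : x ∈ Fr.O) : ⟪Fr.e2 x, Fr.e2 x⟫ = 1 ∧ ⟪Fr.e1 x, Fr.e2 x⟫ = 0 ∧
    cr (L.p x) (L.A x) (Fr.e1 x) = √(gram (L.p x) (L.A x)) • Fr.e2 x ∧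
    cr (L.p x) (L.A x) (Fr.e2 x) = -(√(gram (L.p x) (L.A x)) • Fr.e1 x) := by
  obtain ⟨-, -, h3, h4, h5, h6, -⟩ :=
    rot_spec (Fr.gne x hx) (Fr.p1 x hx) (Fr.A1 x hx) (Fr.e11 x hx) (Fr.rot x hx)
  exact ⟨h3, h4, h5, h6⟩

theorem cr_Wx (φ : E × ℝ → ℝ) {x : E} (hx : x ∈ Fr.O) (θ : ℝ) :
    cr (L.p x) (L.A x) (Wx Fr φ (x, θ)) = (Fr.R x * √(gram (L.p x) (L.A x))) •
      (Real.cos (L.a x * φ (x, θ)) • Fr.e2 x - Real.sin (L.a x * φ (x, θ)) • Fr.e1 x) := by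
  obtain ⟨-, -, h5, h6⟩ := frame Fr hx
  obtain ⟨T, hT⟩ := exists_crL
  have h0 : cr (L.p x) (L.A x) (L.m x) = cr (L.p x) (L.A x) (L.q x) := cr_pn (Fr.gne x hx) _
  rw [← hT] at h0 h5 h6 ⊢
  rw [← hT] at h0
  simp only [Wx, map_add, map_sub, map_smul, h0, h5, h6]
  module

theorem sqrt_pos {x : E} (hx : x ∈ Fr.O) : 0 < √(gram (L.p x) (L.A x)) :=
  Real.sqrt_pos.2 (lt_of_le_of_ne (gram_nonneg _ _) (Fr.gne x hx).symm)

theorem sm_m : ContDiffOn ℝ ∞ L.m Fr.O := by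
  obtain ⟨hp, hq, hA, -, -⟩ := L.smooth
  exact contDiffOn_pn.comp ((hp.mono Fr.sub').prodMk ((hA.mono Fr.sub').prodMk (hq.mono Fr.sub')))
    fun x hx => Fr.gne x hx

theorem cont_dd {V : Type*} [NormedAddCommGroup V] [NormedSpace ℝ V] {f : E → V} {O : Set E}
    (hO : IsOpen O) (hf : ContDiffOn ℝ ∞ f O) (v : E) : ContinuousOn (dd v f) O :=
  (hf.continuousOn_fderiv_of_isOpen hO (by simp)).clm_apply continuousOn_const

theorem diffAt {X V : Type*} [NormedAddCommGroup X] [NormedSpace ℝ X] [NormedAddCommGroup V]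
    [NormedSpace ℝ V] {f : X → V} {O : Set X} (hO : IsOpen O) (hf : ContDiffOn ℝ ∞ f O) {x : X}
    (hx : x ∈ O) : DifferentiableAt ℝ f x :=
  (hf.contDiffAt (hO.mem_nhds hx)).differentiableAt (by simp)

/-- the bound for the terms without `∂ₜ S₂` -/
def Mb (Φ c : ℝ) (x : E) : ℝ :=
  Fr.R x * √(gram (L.p x) (L.A x)) * (‖dd et (fun y => L.q y - L.m y) x‖ + |dd et Fr.R x| * 2
    + Fr.R x * (‖dd et Fr.e1 x‖ + ‖dd et Fr.e2 x‖)
    + Fr.R x * (|dd et L.a x| * Φ + |L.a x| * c)) + 4 * Fr.R x * Φ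

theorem cont_sqrt : ContinuousOn (fun x => √(gram (L.p x) (L.A x))) Fr.O := by
  obtain ⟨hp, hq, hA, -, -⟩ := L.smooth
  exact (contDiff_gram.continuous.comp_continuousOn
    ((hp.mono Fr.sub').prodMk (hA.mono Fr.sub')).continuousOn).sqrt

theorem cont_Mb (Φ c : ℝ) : ContinuousOn (Mb Fr Φ c) Fr.O := by
  obtain ⟨hp, hq, hA, ha, -⟩ := L.smooth
  have hR := Fr.smR.continuousOn
  have h1 := (cont_dd Fr.hO ((hq.mono Fr.sub').sub (sm_m Fr)) et).norm
  have h2 := (cont_dd Fr.hO Fr.smR et).abs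
  have h3 := (cont_dd Fr.hO Fr.sm1 et).norm
  have h4 := (cont_dd Fr.hO Fr.sm2 et).norm
  have h5 := (cont_dd Fr.hO (ha.mono Fr.sub') et).abs
  have h6 := (ha.mono Fr.sub').continuousOn.abs
  exact ((hR.mul (cont_sqrt Fr)).mul (((h1.add (h2.mul continuousOn_const)).add
    (hR.mul (h3.add h4))).add (hR.mul ((h5.mul continuousOn_const).add
      (h6.mul continuousOn_const))))).add ((continuousOn_const.mul hR).mul continuousOn_const)

theorem near_Wx {φ : E × ℝ → ℝ} {Φ : ℝ} {x : E} (hx : x ∈ Fr.O) (hφ : ∀ θ, |φ (x, θ)| ≤ Φ)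
    (hc : Continuous fun θ => Wx Fr φ (x, θ)) (hm : mean (Wx Fr φ) x = L.q x) (θ : ℝ) :
    ‖Wx Fr φ (x, θ) - L.q x‖ ≤ 4 * Fr.R x * Φ * L.a x := by
  have ha := L.a_nonneg (Fr.sub' hx)
  have hR := Fr.R0 x hx
  have h1 : ∀ θ, ‖Wx Fr φ (x, θ) - (L.q x - L.m x + Fr.R x • Fr.e1 x)‖ ≤
      2 * Fr.R x * Φ * L.a x := fun θ => by
    have e : Wx Fr φ (x, θ) - (L.q x - L.m x + Fr.R x • Fr.e1 x) =
        Fr.R x • (Real.cos (L.a x * φ (x, θ)) • Fr.e1 x
          + Real.sin (L.a x * φ (x, θ)) • Fr.e2 x - Fr.e1 x) := by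
      simp only [Wx]; module
    rw [e, norm_smul, Real.norm_of_nonneg hR.le]
    have h2 := near_e1 (norm_of_inner (Fr.e11 x hx)) (norm_of_inner (frame Fr hx).1)
      (L.a x * φ (x, θ))
    rw [abs_mul, abs_of_nonneg ha] at h2
    have h3 := mul_le_mul_of_nonneg_left (hφ θ) ha
    calc _ ≤ Fr.R x * (2 * (L.a x * Φ)) := mul_le_mul_of_nonneg_left (by linarith) hR.le
      _ = _ := by ring
  have h2 : ‖L.q x - (L.q x - L.m x + Fr.R x • Fr.e1 x)‖ ≤ 2 * Fr.R x * Φ * L.a x := by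
    have e : L.q x - (L.q x - L.m x + Fr.R x • Fr.e1 x) =
        ∫ θ in (0 : ℝ)..1, (Wx Fr φ (x, θ) - (L.q x - L.m x + Fr.R x • Fr.e1 x)) := by
      rw [intervalIntegral.integral_sub (hc.intervalIntegrable _ _) intervalIntegrable_const]
      simp only [intervalIntegral.integral_const, sub_zero, one_smul]
      exact congrArg (· - _) hm.symm
    rw [e]
    have := intervalIntegral.norm_integral_le_of_norm_le_const (a := 0) (b := 1)
      fun θ _ => h1 θ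
    simpa using this
  have h3 := norm_sub_le (Wx Fr φ (x, θ) - (L.q x - L.m x + Fr.R x • Fr.e1 x))
    (L.q x - (L.q x - L.m x + Fr.R x • Fr.e1 x))
  rw [sub_sub_sub_cancel_right] at h3
  linarith [h1 θ]

theorem turn_Wx (P : Prof) (S r Λ : ℝ) {S2 : E → ℝ} (hS : Shift S2) {u φ : E × ℝ → ℝ} {x : E}
    (hx : x ∈ Fr.O) (θ : ℝ) (hu : DifferentiableAt ℝ u (x, θ)) (hpos : 0 < dθ u (x, θ))
    (hφ : φ = fun q => P.φ S (S2 q.1) r (Real.cos (Λ * ct q.1)) (Real.sin (Λ * ct q.1))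
      (Real.cos (2 * Real.pi * u q)))
    (h0 : dθ (Wx Fr φ) (x, θ) = 0) :
    Fr.R x ^ 2 * √(gram (L.p x) (L.A x)) * (L.a x * dd et S2 x)
        - Mb Fr (|S| + 1 + 2 * |r|) (|r| * |Λ| * 2) x ≤
      ⟪cr (L.p x) (L.A x) (Wx Fr φ (x, θ)), dx et (Wx Fr φ) (x, θ)⟫ := by
  obtain ⟨hp, hq, hA, ha, -⟩ := L.smooth
  obtain ⟨h22, h12, -, -⟩ := frame Fr hx
  have h11 := Fr.e11 x hx
  have hR := Fr.R0 x hx
  have hg := sqrt_pos Fr hx
  obtain ⟨dφ, κ, hκ⟩ := dd_phi P S r Λ (z := (x, θ)) (hS.sm.differentiable (by simp) x) hu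
  rw [← hφ] at dφ hκ
  have da : DifferentiableAt ℝ L.a x := diffAt L.hO ha (Fr.sub' hx)
  have da' : DifferentiableAt ℝ (fun q : E × ℝ => L.a q.1) (x, θ) :=
    DifferentiableAt.comp (x, θ) (g := L.a) da differentiableAt_fst
  have hψ : ∀ v : E × ℝ, dd v (fun q => L.a q.1 * φ q) (x, θ) =
      dd v.1 L.a x * φ (x, θ) + L.a x * dd v φ (x, θ) := fun v => by
    have := dd_smul da' dφ v
    rw [ClPA2.dd_lift] at this
    exact this
  have hW := dd_loop (f := fun y => L.q y - L.m y) (e1 := Fr.e1) (e2 := Fr.e2) (R := Fr.R)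
    (ψ := fun q => L.a q.1 * φ q) (z := (x, θ))
    (diffAt Fr.hO ((hq.mono Fr.sub').sub (sm_m Fr)) hx) (diffAt Fr.hO Fr.sm1 hx)
    (diffAt Fr.hO Fr.sm2 hx) (diffAt Fr.hO Fr.smR hx) (da'.fun_mul dφ)
  have hφb : |φ (x, θ)| ≤ |S| + 1 + 2 * |r| := by
    rw [hφ]; exact abs_phi_le P S r _ _ _ (hS.le x)
  have hνν := inner_nu h11 h22 h12 (L.a x * φ (x, θ))
  have hν1 := norm_of_inner hνν
  have hθ := (hW (0, 1)).symm.trans h0
  have ht := hW (et, 0)
  rw [hψ, hκ] at hθ ht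
  rw [cr_Wx Fr φ hx θ]
  refine le_of_le_of_eq ?_ (congrArg (⟪_, ·⟫) ht.symm)
  generalize Real.cos (L.a x * φ (x, θ)) • Fr.e2 x - Real.sin (L.a x * φ (x, θ)) • Fr.e1 x = ν
    at hνν hν1 hθ ⊢
  have hk0 : L.a x * κ = 0 := by
    simp only [dd, map_zero, smul_zero, zero_smul, add_zero, zero_add, zero_mul, mul_zero] at hθ
    have hν0 : ν ≠ 0 := fun h => by simp [h] at hν1
    rcases smul_eq_zero.1 hθ with h | h
    · have h' : Fr.R x * fderiv ℝ u (x, θ) (0, 1) * (L.a x * κ) = 0 := by linarith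
      exact (mul_eq_zero.1 h').resolve_left (mul_pos hR hpos).ne'
    · exact absurd h hν0
  have hct : ct et = 1 := by simp [ct, et]
  simp only [hct]
  set rest := dd et (fun y => L.q y - L.m y) x
    + dd et Fr.R x • (Real.cos (L.a x * φ (x, θ)) • Fr.e1 x + Real.sin (L.a x * φ (x, θ)) • Fr.e2 x)
    + Fr.R x • (Real.cos (L.a x * φ (x, θ)) • dd et Fr.e1 x
      + Real.sin (L.a x * φ (x, θ)) • dd et Fr.e2 x) with hrest
  have b1 : ‖rest‖ ≤ ‖dd et (fun y => L.q y - L.m y) x‖ + |dd et Fr.R x| * 2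
      + Fr.R x * (‖dd et Fr.e1 x‖ + ‖dd et Fr.e2 x‖) := by
    refine (norm_add₃_le).trans (add_le_add (add_le_add le_rfl ?_) ?_)
    · rw [norm_smul, Real.norm_eq_abs]
      refine mul_le_mul_of_nonneg_left ((norm_comb_le _ _ (Real.abs_cos_le_one _)
        (Real.abs_sin_le_one _) _ _).trans ?_) (abs_nonneg _)
      rw [norm_of_inner h11, norm_of_inner h22]; norm_num
    · rw [norm_smul, Real.norm_of_nonneg hR.le]
      exact mul_le_mul_of_nonneg_left (norm_comb_le _ _ (Real.abs_cos_le_one _)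
        (Real.abs_sin_le_one _) _ _) hR.le
  have b2 : -‖rest‖ ≤ ⟪ν, rest⟫ := by
    have := abs_real_inner_le_norm ν rest
    rw [hν1, one_mul] at this
    exact (abs_le.1 this).1
  set w := Real.sin (Λ * ct x) * P.γ1 (Real.cos (2 * Real.pi * u (x, θ)))
    - Real.cos (Λ * ct x) * P.γ2 (Real.cos (2 * Real.pi * u (x, θ))) with hw
  have b3 : |w| ≤ 2 := by
    have c1 : |Real.sin (Λ * ct x) * P.γ1 (Real.cos (2 * Real.pi * u (x, θ)))| ≤ 1 := by
      rw [abs_mul]; exact mul_le_one₀ (Real.abs_sin_le_one _) (abs_nonneg _) (P.b1 _)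
    have c2 : |Real.cos (Λ * ct x) * P.γ2 (Real.cos (2 * Real.pi * u (x, θ)))| ≤ 1 := by
      rw [abs_mul]; exact mul_le_one₀ (Real.abs_cos_le_one _) (abs_nonneg _) (P.b2 _)
    exact (abs_sub _ _).trans (by linarith)
  have b4 : |dd et L.a x * φ (x, θ)| ≤ |dd et L.a x| * (|S| + 1 + 2 * |r|) := by
    rw [abs_mul]; exact mul_le_mul_of_nonneg_left hφb (abs_nonneg _)
  have b5 : |L.a x * (r * Λ * w)| ≤ |L.a x| * (|r| * |Λ| * 2) := by
    rw [abs_mul, abs_mul, abs_mul]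
    gcongr
  have b6 : 0 ≤ 4 * Fr.R x * (|S| + 1 + 2 * |r|) := by positivity
  rw [real_inner_smul_left, inner_add_right, real_inner_smul_right, hνν]
  have e1 : L.a x * (κ * dd ((et, 0) : E × ℝ) u (x, θ) + dd et S2 x + r * Λ * 1 * w) =
      L.a x * dd et S2 x + L.a x * (r * Λ * w) := by
    linear_combination dd ((et, 0) : E × ℝ) u (x, θ) * hk0
  rw [e1]
  unfold Mb
  have b7 : -(|dd et L.a x| * (|S| + 1 + 2 * |r|) + |L.a x| * (|r| * |Λ| * 2)) ≤
      dd et L.a x * φ (x, θ) + L.a x * (r * Λ * w) := by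
    linarith [(abs_le.1 b4).1, (abs_le.1 b5).1]
  have b8 := mul_le_mul_of_nonneg_left b7 hR.le
  have b9 : -(‖dd et (fun y => L.q y - L.m y) x‖ + |dd et Fr.R x| * 2
      + Fr.R x * (‖dd et Fr.e1 x‖ + ‖dd et Fr.e2 x‖)
      + Fr.R x * (|dd et L.a x| * (|S| + 1 + 2 * |r|) + |L.a x| * (|r| * |Λ| * 2))) ≤
      ⟪ν, rest⟫ + Fr.R x * (dd et L.a x * φ (x, θ) + L.a x * (r * Λ * w)) := by linarith
  have b10 := mul_le_mul_of_nonneg_left b9 (mul_pos hR hg).le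
  nlinarith

end Crest.Agent.R216.LargeW2
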