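import Crest.Agent.R216.LDefs
import Crest.Agent.R216.Gad

/-!
# Row 216: from `Jets` to `LJets`
-/

set_option autoImplicit false

noncomputable section

namespace Crest.Agent.R216.LargeWAuxJ

open Set Metric Filter
open scoped ContDiff Topology RealInnerProductSpace

theorem ep_pos (n : ℕ) : 0 < ep n := by unfold ep; positivity

theorem ep_le (n : ℕ) : ep n ≤ 1 :=
  inv_le_one_of_one_le₀ (by linarith [n.cast_nonneg (α := ℝ)])

theorem ep_ev (C : ℝ) {δ : ℝ} (hδ : 0 < δ) : ∀ᶠ n in atTop, C * ep n ≤ δ := by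
  have h : Tendsto (fun n => C * ep n) atTop (𝓝 (C * 0)) := by
    refine Tendsto.const_mul C ?_
    exact (tendsto_one_div_add_atTop_nhds_zero_nat (𝕜 := ℝ)).congr fun n => one_div _
  rw [mul_zero] at h
  exact h.eventually (ge_mem_nhds hδ)

theorem fract {f : E × ℝ → V4} {x : E} (h : ∀ θ, f (x, θ + 1) = f (x, θ)) (t : ℝ) :
    f (x, Int.fract t) = f (x, t) := by
  have := Function.Periodic.sub_int_mul_eq (f := fun θ => f (x, θ)) (c := 1) (x := t) h ⌊t⌋
  rwa [mul_one] at this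

theorem cd {a : E → V4} {x : E} (h : ContDiffAt ℝ ∞ a x) (v : E) : ContDiffAt ℝ ∞ (dd v a) x :=
  (h.fderiv_right (m := ∞) le_rfl).clm_apply contDiffAt_const

theorem ljets {L : LSet} {O : Set E} (hO : IsOpen O) (hD : L.D ⊆ O) {W : E × ℝ → V4}
    (hp : ∀ x ∈ O, ∀ θ, W (x, θ + 1) = W (x, θ)) {u : ℕ → E → V4} (hu : ∀ n, ContDiff ℝ ∞ (u n))
    {C : ℝ} (h : ∀ n, ∀ x ∈ O, ‖dd et (u n) x‖ ≤ C * ep n ∧
      ‖dd es L.H x + dd es (u n) x - W (x, cs x / ep n)‖ ≤ C * ep n ∧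
      ‖dd et (dd et (u n)) x‖ ≤ C * ep n ∧
      ‖dd et (dd es L.H) x + dd et (dd es (u n)) x - dx et W (x, cs x / ep n)‖ ≤ C * ep n ∧
      ‖ep n • dd es (dd es (u n)) x - dθ W (x, cs x / ep n)‖ ≤ C * ep n) :
    LJets L W fun n y => L.H y + u n y := by
  have hH : ∀ x ∈ L.O, ContDiffAt ℝ ∞ L.H x := fun x hx => L.smH.contDiffAt (L.hO.mem_nhds hx)
  have d1 : ∀ n v, ∀ x ∈ L.O, dd v (fun y => L.H y + u n y) x = dd v L.H x + dd v (u n) x :=
    fun n v x hx => dd_add ((hH x hx).differentiableAt (by simp))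
      ((hu n).contDiffAt.differentiableAt (by simp)) v
  have d2 : ∀ n v w, ∀ x ∈ L.O, dd v (dd w fun y => L.H y + u n y) x =
      dd v (dd w L.H) x + dd v (dd w (u n)) x := fun n v w x hx =>
    (dd_congr L.hO (d1 n w) hx v).trans (dd_add ((cd (hH x hx) w).differentiableAt (by simp))
      ((cd (hu n).contDiffAt w).differentiableAt (by simp)) v)
  obtain ⟨C1, hC1⟩ := L.cpt.exists_bound_of_continuousOn (f := dd es (dd es L.H))
    fun x hx => (cd (cd (hH x (L.sub hx)) es) es).continuousAt.continuousWithinAt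
  intro δ hδ
  filter_upwards [ep_ev C (half_pos hδ), ep_ev C1 (half_pos hδ)] with n h1 h2 x hx
  obtain ⟨j1, j2, j3, j4, j5⟩ := h n x (hD hx)
  have hx' : x ∈ L.O := L.sub hx
  refine ⟨Int.fract (cs x / ep n), ⟨Int.fract_nonneg _, (Int.fract_lt_one _).le⟩, ?_, ?_, ?_, ?_, ?_⟩
  · rw [d1 n _ x hx', LSet.p, add_sub_cancel_left]
    linarith
  · rw [d1 n _ x hx', fract (hp x (hD hx))]
    linarith
  · rw [d2 n _ _ x hx', LSet.A, add_sub_cancel_left]
    linarith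
  · rw [d2 n _ _ x hx', fract (f := dx et W) (dx_periodic hO hp _ (hD hx))]
    linarith
  · rw [d2 n _ _ x hx', fract (f := dθ W) (dx_periodic hO hp _ (hD hx)), smul_add, add_sub_assoc]
    refine (norm_add_le _ _).trans ?_
    rw [norm_smul, Real.norm_of_nonneg (ep_pos n).le]
    linarith [mul_le_mul_of_nonneg_left (hC1 x hx) (ep_pos n).le]

/-- One step for a family with one member and the wave lengths `ep n`. -/
theorem wave (N : ℕ) : ∃ K0 : ℕ, 2 ≤ K0 ∧ ∀ L : LSet, K0 ≤ L.K → ∀ (B : Base Unit) (A : AData B),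
    L.Match B → L.D ⊆ B.c.U () → ∃ u : ℕ → E → V4, (∀ n, ContDiff ℝ ∞ (u n)) ∧
      (∀ n x, L.χ x = 0 → ∀ m ≤ 2, iteratedFDeriv ℝ m (u n) x = 0) ∧
      Cl (Sc.nat.ctx (B.c.U ()) (B.c.hU ())) 0 (fun _ => 1) u ∧
      Cl (Sc.nat.ctx (B.c.U ()) (B.c.hU ())) 0 (fun n => (Sc.nat.M n ^ N)⁻¹) (fun n x =>
        indE (fun y => L.H y + u n y) x - L.G1 x) ∧
      LJets L (A.W ()) fun n y => L.H y + u n y := by
  obtain ⟨c0, -, h⟩ := stepA.{0}
  obtain ⟨K0, hK0, h⟩ := h N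
  refine ⟨K0, by omega, fun L hK B A mt hD => ?_⟩
  obtain ⟨A', hA'⟩ := A.comap fun _ : ℕ => ()
  have hM : ∀ n : ℕ, (B.comap fun _ : ℕ => ()).c.M n = 1 := fun _ => mt.M
  have hκ : ∀ n : ℕ, (B.comap fun _ : ℕ => ()).κ n = 1 := fun _ => mt.κ
  obtain ⟨u, h1, h2, h3, h4, C, h5⟩ := h A' ep ep_pos ep_le (hK.trans mt.K.ge)
    fun n => by simpa [hM] using ep_le n
  have hs : ∀ n : ℕ, (B.comap fun _ : ℕ => ()).c.M n ^ c0 / ep n ≤ Sc.nat.M n := fun n => by
    simp [hM, ep, Sc.nat]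
  refine ⟨u, h1, fun n x hx => h2 n x ((congrFun mt.χ x).trans hx), fun k => ?_, fun k => ?_,
    ljets (B.c.hU ()) hD (A.per_W ()) h1 (C := C) fun n x hx => ?_⟩
  · refine ((h3 k).size (fun _ => zero_le_one) (C := 1) fun n => ?_).ctx (fun _ => Subset.rfl) hs
    simpa [hM, hκ] using ep_le n
  · refine Bd.congr (((h4 k).size (fun n => ?_) (C := 1) fun n => ?_).ctx (fun _ => Subset.rfl) hs)
      fun n x _ => ?_
    · have := Sc.nat.hM n
      positivity
    · simp [hM, ep, Sc.nat]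
    · simp only [Base.err, Base.a, Base.comap, mt.F, mt.χ, mt.b, mt.K, mt.κ, mt.ξ, LSet.G1, LSet.a,
        one_mul]
      exact sub_add_eq_sub_sub (α := Bil) _ _ _
  · have := h5 n x hx
    simp only [hM, hκ, hA'] at this
    simpa only [Base.Fs, Base.comap, mt.F, mt.w, mt.z, mt.ξ, one_mul, one_pow, mul_one] using this

end Crest.Agent.R216.LargeWAuxJ
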