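import Crest.Agent.R216.LFrameL
import Crest.Agent.R216.Loop
import Crest.Agent.R216.Gad
import Crest.Agent.R216.LargeWAux2
import Crest.Agent.R216.LargeWAuxJ
import Crest.Agent.R216.LargeWAux1

/-!
# Row 216: the loop of a step of large amplitude
-/

set_option autoImplicit false
set_option linter.unusedSectionVars false

noncomputable section

namespace Crest.Agent.R216

open Set Metric Filter
open scoped ContDiff Topology RealInnerProductSpace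

universe u

/-- The explicit form of the loop. -/
structure LForm {L : LSet} (Fr : LFrame L) (P : Prof) (S r Λ : ℝ) (S2 : E → ℝ) (B : Base Unit)
    (A : AData B) (u : E × ℝ → ℝ) : Prop where
  mt : L.Match B
  sub : L.D ⊆ B.c.U ()
  sub' : B.c.U () ⊆ Fr.O
  e1 : A.e1 () = Fr.e1
  e2 : A.e2 () = Fr.e2
  R : A.R () = Fr.R
  rep : Rep (B.c.U ()) u
  φ : ∀ q, A.φ () q = P.φ S (S2 q.1) r (Real.cos (Λ * ct q.1)) (Real.sin (Λ * ct q.1))
    (Real.cos (2 * Real.pi * u q))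

theorem large_adata {L : LSet} (hK : 1 ≤ L.K) (Fr : LFrame L) (P : Prof) : ∃ S r Λ : ℝ,
    ∀ S2 : E → ℝ, Shift S2 → ∃ (B : Base Unit) (A : AData B) (u : E × ℝ → ℝ),
      LForm Fr P S r Λ S2 B A u :=
  let ⟨S, r, Λ, h⟩ := LargeWAux1.main hK Fr P
  ⟨S, r, Λ, fun S2 hS =>
    let ⟨B, A, u, h1, h2, h3, h4, h5, h6, h7, h8⟩ := h S2 hS
    ⟨B, A, u, h1, h2, h3, h4, h5, h6, h7, h8⟩⟩

theorem large_lloop {L : LSet} (Fr : LFrame L) (P : Prof) (S r Λ : ℝ) : ∃ c0 C0 : ℝ, 0 < c0 ∧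
    ∀ S2 : E → ℝ, Shift S2 → ∀ (B : Base Unit) (A : AData B) (u : E × ℝ → ℝ),
      LForm Fr P S r Λ S2 B A u → LLoop L S2 c0 C0 (B.c.U ()) (A.W ()) := by
  obtain ⟨c0, hc0, hc⟩ := L.cpt.exists_forall_le' (a := 0)
    (f := fun x => Fr.R x ^ 2 * √(gram (L.p x) (L.A x)))
    (((Fr.smR.continuousOn.pow 2).mul (LargeW2.cont_sqrt Fr)).mono Fr.sub)
    fun x hx => mul_pos (pow_pos (Fr.R0 x (Fr.sub hx)) 2) (LargeW2.sqrt_pos Fr (Fr.sub hx))
  obtain ⟨C0, hC⟩ := L.cpt.exists_bound_of_continuousOn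
    ((LargeW2.cont_Mb Fr (|S| + 1 + 2 * |r|) (|r| * |Λ| * 2)).mono Fr.sub)
  refine ⟨c0, C0, hc0, fun S2 hS B A u h => ?_⟩
  have ep : B.Ft () = L.p := by rw [Base.Ft, h.mt.w, h.mt.F]; rfl
  have eq : B.Fs () = L.q := by rw [Base.Fs, h.mt.z, h.mt.F]; rfl
  have eA : B.Ftt () = L.A := by rw [Base.Ftt, h.mt.w, h.mt.F]; rfl
  have em : B.m () = L.m := by funext x; rw [Base.m, ep, eq, eA]; rfl
  have ea : B.a () = L.a := by
    funext x; rw [Base.a, h.mt.κ, h.mt.χ, h.mt.K, h.mt.b, one_mul]; rfl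
  have eW : A.W () = LargeW2.Wx Fr (A.φ ()) := by
    funext q; rw [AData.W, eq, em, ea, h.e1, h.e2, h.R]; rfl
  have sm : ContDiffOn ℝ ∞ (A.W ()) (B.c.U () ×ˢ univ) := Cl.sm A.st_W ()
  have hMb : ∀ x ∈ L.D, LargeW2.Mb Fr (|S| + 1 + 2 * |r|) (|r| * |Λ| * 2) x ≤ C0 :=
    fun x hx => (le_abs_self _).trans (hC x hx)
  refine ⟨B.c.hU (), h.sub, h.mt.U, sm, A.per_W (), fun x hx θ => ?_, fun x hx θ => ?_,
    fun x hx θ => ?_, fun x hx θ => ?_, fun x hx θ => ?_, fun x hx θ h0 => ?_⟩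
  · have := (A.W_P hx θ).1
    rwa [ep, eq, inner_sub_right, sub_eq_zero] at this
  · have := (A.W_P hx θ).2
    rwa [eA, eq, inner_sub_right, sub_eq_zero] at this
  · have := A.inner_W hx θ
    rwa [eq, ea] at this
  · have hx' := Fr.sub hx
    rw [eW, LargeW2.cr_Wx Fr _ hx']
    refine smul_ne_zero (mul_pos (Fr.R0 x hx') (LargeW2.sqrt_pos Fr hx')).ne' fun h0 => ?_
    have := LargeW2.inner_nu (Fr.e11 x hx') (LargeW2.frame Fr hx').1 (LargeW2.frame Fr hx').2.1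
      (L.a x * A.φ () (x, θ))
    rw [h0, inner_zero_left] at this
    exact zero_ne_one this
  · have hx' := Fr.sub hx
    have hm := A.mean_W (h.sub hx)
    have hcs := continuous_slice sm (h.sub hx)
    rw [eq] at hm
    rw [eW] at hm hcs ⊢
    refine (LargeW2.near_Wx Fr (Φ := |S| + 1 + 2 * |r|) hx' (fun θ => ?_) hcs hm θ).trans
      (mul_le_mul_of_nonneg_right (le_trans ?_ (hMb x hx)) (L.a_nonneg (Fr.sub' hx')))
    · rw [h.φ]; exact LargeW2.abs_phi_le P S r _ _ _ (hS.le x)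
    · have := Fr.R0 x hx'
      exact le_add_of_nonneg_left (by positivity)
  · have hx' := Fr.sub hx
    rw [eW] at h0 ⊢
    refine le_trans (sub_le_sub (mul_le_mul_of_nonneg_right (hc x hx)
      (mul_nonneg (L.a_nonneg (Fr.sub' hx')) (hS.mono x))) (hMb x hx))
      (LargeW2.turn_Wx Fr P S r Λ hS hx' θ (LargeW2.diffAt ((B.c.hU ()).prod isOpen_univ) h.rep.sm
        (mk_mem_prod (h.sub hx) (mem_univ θ))) (h.rep.pos x (h.sub hx) θ) (funext h.φ) h0)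

theorem large_wave (N : ℕ) : ∃ K0 : ℕ, 2 ≤ K0 ∧ ∀ L : LSet, K0 ≤ L.K → ∃ c0 C0 : ℝ, 0 < c0 ∧
    ∀ S2 : E → ℝ, Shift S2 → ∃ (O : Set E) (W : E × ℝ → V4) (h : LLoop L S2 c0 C0 O W)
      (u : ℕ → E → V4), (∀ n, ContDiff ℝ ∞ (u n)) ∧
      (∀ n x, L.χ x = 0 → ∀ m ≤ 2, iteratedFDeriv ℝ m (u n) x = 0) ∧
      Cl (Sc.nat.ctx O h.hO) 0 (fun _ => 1) u ∧
      Cl (Sc.nat.ctx O h.hO) 0 (fun n => (Sc.nat.M n ^ N)⁻¹) (fun n x =>
        indE (fun y => L.H y + u n y) x - L.G1 x) ∧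
      LJets L W fun n y => L.H y + u n y := by
  obtain ⟨K0, hK0, h⟩ := LargeWAuxJ.wave N
  refine ⟨K0, hK0, fun L hK => ?_⟩
  obtain ⟨Fr⟩ := exists_lframe L
  obtain ⟨P⟩ := exists_prof
  obtain ⟨S, r, Λ, h1⟩ := large_adata (by omega) Fr P
  obtain ⟨c0, C0, hc, h2⟩ := large_lloop Fr P S r Λ
  refine ⟨c0, C0, hc, fun S2 hS => ?_⟩
  obtain ⟨B, A, u, hF⟩ := h1 S2 hS
  exact ⟨B.c.U (), A.W (), h2 S2 hS B A u hF, h L hK B A hF.mt hF.sub⟩

end Crest.Agent.R216
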