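import Crest.Agent.R216.JetDefs

/-!
# Row 216: vector algebra in `ℝ⁴` (proofs for `Vec`, part A1)
-/

set_option autoImplicit false

noncomputable section

namespace Crest.Agent.R216.VecA1

open scoped RealInnerProductSpace

variable {a b c d y y' : V4}

theorem inner4 (a b : V4) : ⟪a, b⟫ = a 0 * b 0 + a 1 * b 1 + a 2 * b 2 + a 3 * b 3 := by
  simp only [PiLp.inner_apply, Fin.sum_univ_four, RCLike.inner_apply, conj_trivial]
  ring

theorem cr0 (a b c : V4) : cr a b c 0 = -(a 1 * (b 2 * c 3 - b 3 * c 2) -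
    a 2 * (b 1 * c 3 - b 3 * c 1) + a 3 * (b 1 * c 2 - b 2 * c 1)) := rfl
theorem cr1 (a b c : V4) : cr a b c 1 = a 0 * (b 2 * c 3 - b 3 * c 2) -
    a 2 * (b 0 * c 3 - b 3 * c 0) + a 3 * (b 0 * c 2 - b 2 * c 0) := rfl
theorem cr2 (a b c : V4) : cr a b c 2 = -(a 0 * (b 1 * c 3 - b 3 * c 1) -
    a 1 * (b 0 * c 3 - b 3 * c 0) + a 3 * (b 0 * c 1 - b 1 * c 0)) := rfl
theorem cr3 (a b c : V4) : cr a b c 3 = a 0 * (b 1 * c 2 - b 2 * c 1) -
    a 1 * (b 0 * c 2 - b 2 * c 0) + a 2 * (b 0 * c 1 - b 1 * c 0) := rfl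

theorem ext4 {u v : V4} (h0 : u 0 = v 0) (h1 : u 1 = v 1) (h2 : u 2 = v 2) (h3 : u 3 = v 3) :
    u = v := by
  ext i
  fin_cases i
  exacts [h0, h1, h2, h3]

/-- scalar identities in coordinates -/
local macro "crs" : tactic => `(tactic| (simp only [gram, inner4, cr0, cr1, cr2, cr3, PiLp.add_apply,
  PiLp.sub_apply, PiLp.neg_apply, PiLp.smul_apply, PiLp.zero_apply, smul_eq_mul]; ring))

/-- vector identities in coordinates -/
local macro "crv" : tactic => `(tactic| (refine ext4 ?_ ?_ ?_ ?_ <;> crs))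

theorem inner_cr_1 (a b c : V4) : ⟪cr a b c, a⟫ = 0 := by crs
theorem inner_cr_2 (a b c : V4) : ⟪cr a b c, b⟫ = 0 := by crs
theorem inner_cr_3 (a b c : V4) : ⟪cr a b c, c⟫ = 0 := by crs
theorem cr_swap12 (a b c : V4) : cr b a c = -cr a b c := by crv
theorem cr_swap23 (a b c : V4) : cr a c b = -cr a b c := by crv
theorem inner_cr_swap34 (a b c d : V4) : ⟪cr a b d, c⟫ = -⟪cr a b c, d⟫ := by crs
theorem cr_self12 (a c : V4) : cr a a c = 0 := by crv
theorem cr_self13 (a b : V4) : cr a b a = 0 := by crv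
theorem cr_self23 (a b : V4) : cr a b b = 0 := by crv

/-- The cross product as a trilinear map. -/
def crL : V4 →ₗ[ℝ] V4 →ₗ[ℝ] V4 →ₗ[ℝ] V4 where
  toFun a := LinearMap.mk₂ ℝ (cr a) (fun _ _ _ => by crv) (fun _ _ _ => by crv)
    (fun _ _ _ => by crv) (fun _ _ _ => by crv)
  map_add' a a' := LinearMap.ext fun b => LinearMap.ext fun c => by
    change cr (a + a') b c = cr a b c + cr a' b c
    crv
  map_smul' t a := LinearMap.ext fun b => LinearMap.ext fun c => by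
    change cr (t • a) b c = t • cr a b c
    crv

/-- The cross product as a bilinear map into continuous linear maps. -/
def crL1 (a : V4) : V4 →ₗ[ℝ] (V4 →L[ℝ] V4) where
  toFun b := LinearMap.toContinuousLinearMap (crL a b)
  map_add' b b' := by rw [map_add, map_add]
  map_smul' t b := by rw [map_smul, map_smul]; rfl

/-- The cross product as a linear map into continuous bilinear maps. -/
def crL2 : V4 →ₗ[ℝ] (V4 →L[ℝ] V4 →L[ℝ] V4) where
  toFun a := LinearMap.toContinuousLinearMap (crL1 a)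
  map_add' a a' := ContinuousLinearMap.ext fun b => ContinuousLinearMap.ext fun c => by
    change cr (a + a') b c = cr a b c + cr a' b c
    crv
  map_smul' t a := ContinuousLinearMap.ext fun b => ContinuousLinearMap.ext fun c => by
    change cr (t • a) b c = t • cr a b c
    crv

theorem exists_crL : ∃ L : V4 →L[ℝ] V4 →L[ℝ] V4 →L[ℝ] V4, ∀ a b c, L a b c = cr a b c :=
  ⟨⟨crL2, @LinearMap.continuous_of_finiteDimensional ℝ _ V4 _ _ _ _ _ (V4 →L[ℝ] V4 →L[ℝ] V4)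
    _ _ _ _ _ _ _ _ crL2⟩, fun _ _ _ => rfl⟩

theorem gram_nonneg (a b : V4) : 0 ≤ gram a b := by
  have := real_inner_mul_inner_self_le a b
  unfold gram
  linarith

theorem gram_comm (a b : V4) : gram a b = gram b a := by crs

theorem gram_le (a b : V4) : gram a b ≤ ‖a‖ ^ 2 * ‖b‖ ^ 2 := by
  rw [gram, real_inner_self_eq_norm_sq, real_inner_self_eq_norm_sq]
  exact sub_le_self _ (sq_nonneg _)

theorem cr_sq (a b c : V4) : ⟪cr a b c, cr a b c⟫ = gram a b * ⟪c, c⟫ -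
    ⟪⟪c, b⟫ • a - ⟪c, a⟫ • b, ⟪c, b⟫ • a - ⟪c, a⟫ • b⟫ := by crs

theorem cr_sq_le (a b c : V4) : ‖cr a b c‖ ^ 2 ≤ gram a b * ‖c‖ ^ 2 := by
  rw [← real_inner_self_eq_norm_sq, ← real_inner_self_eq_norm_sq, cr_sq]
  exact sub_le_self _ real_inner_self_nonneg

theorem norm_cr_le (a b c : V4) : ‖cr a b c‖ ≤ ‖a‖ * ‖b‖ * ‖c‖ := by
  refine (pow_le_pow_iff_left₀ (norm_nonneg _) (by positivity) two_ne_zero).1
    ((cr_sq_le a b c).trans ?_)
  rw [mul_pow, mul_pow]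
  exact mul_le_mul_of_nonneg_right (gram_le a b) (sq_nonneg _)

theorem norm_cr_sub_le (a b c a' b' c' : V4) : ‖cr a' b' c' - cr a b c‖ ≤
    ‖a' - a‖ * ‖b'‖ * ‖c'‖ + ‖a‖ * ‖b' - b‖ * ‖c'‖ + ‖a‖ * ‖b‖ * ‖c' - c‖ := by
  have h : cr a' b' c' - cr a b c = cr (a' - a) b' c' + cr a (b' - b) c' + cr a b (c' - c) := by
    crv
  rw [h]
  exact norm_add₃_le.trans
    (add_le_add (add_le_add (norm_cr_le _ _ _) (norm_cr_le _ _ _)) (norm_cr_le _ _ _))

theorem pn_comm (a b y : V4) : pn a b y = pn b a y := by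
  rw [pn, pn, gram_comm b a, real_inner_comm a b, sub_right_comm]

theorem pn_add (a b y y' : V4) : pn a b (y + y') = pn a b y + pn a b y' := by
  simp only [pn, inner_add_left]
  module

theorem pn_smul (a b y : V4) (t : ℝ) : pn a b (t • y) = t • pn a b y := by
  simp only [pn, real_inner_smul_left]
  module

theorem pn_sub (a b y y' : V4) : pn a b (y - y') = pn a b y - pn a b y' := by
  simp only [pn, inner_sub_left]
  module

theorem pn_of_orth (ha : ⟪y, a⟫ = 0) (hb : ⟪y, b⟫ = 0) : pn a b y = y := by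
  simp [pn, ha, hb]

theorem inner_pn_1 (h : gram a b ≠ 0) (y : V4) : ⟪pn a b y, a⟫ = 0 := by
  simp only [pn, inner_sub_left, real_inner_smul_left, real_inner_comm a b]
  field_simp
  rw [gram]
  ring

theorem inner_pn_2 (h : gram a b ≠ 0) (y : V4) : ⟪pn a b y, b⟫ = 0 := by
  rw [pn_comm]
  exact inner_pn_1 (gram_comm a b ▸ h) y

theorem pn_left (h : gram a b ≠ 0) : pn a b a = 0 := by
  have h1 : ⟪a, a⟫ * ⟪b, b⟫ - ⟪a, b⟫ * ⟪a, b⟫ = gram a b := by rw [gram, sq]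
  rw [pn, h1, div_self h, mul_comm, sub_self, zero_div, one_smul, zero_smul, sub_self, sub_zero]

theorem pn_right (h : gram a b ≠ 0) : pn a b b = 0 := by
  rw [pn_comm]
  exact pn_left (gram_comm a b ▸ h)

theorem inner_pn_orth (a b y : V4) (ha : ⟪a, y'⟫ = 0) (hb : ⟪b, y'⟫ = 0) :
    ⟪pn a b y, y'⟫ = ⟪y, y'⟫ := by
  simp only [pn, inner_sub_left, real_inner_smul_left, ha, hb, mul_zero, sub_zero]

theorem inner_pn_pn (h : gram a b ≠ 0) (y y' : V4) :
    ⟪pn a b y, pn a b y'⟫ = ⟪y, pn a b y'⟫ :=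
  inner_pn_orth a b y (real_inner_comm a _ ▸ inner_pn_1 h y')
    (real_inner_comm b _ ▸ inner_pn_2 h y')

theorem norm_pn_le (h : gram a b ≠ 0) (y : V4) : ‖pn a b y‖ ≤ ‖y‖ := by
  have h1 := inner_pn_pn h y y
  rw [real_inner_self_eq_norm_sq] at h1
  have h2 := real_inner_le_norm y (pn a b y)
  rcases (norm_nonneg (pn a b y)).eq_or_lt with h3 | h3
  · rw [← h3]
    exact norm_nonneg _
  · exact le_of_mul_le_mul_right (by rw [← sq, h1]; exact h2) h3

theorem pn_eq_zero_iff (h : gram a b ≠ 0) : pn a b y = 0 ↔ ∃ s t : ℝ, y = s • a + t • b := by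
  constructor
  · intro h0
    rw [pn, sub_sub, sub_eq_zero] at h0
    exact ⟨_, _, h0⟩
  · rintro ⟨s, t, rfl⟩
    rw [pn_add, pn_smul, pn_smul, pn_left h, pn_right h, smul_zero, smul_zero, add_zero]

theorem cr_shift (a b c : V4) (s t : ℝ) : cr a b (c - s • a - t • b) = cr a b c := by crv

theorem cr_pn (a b c : V4) : cr a b (pn a b c) = cr a b c := cr_shift a b c _ _

theorem norm_cr_sq (h : gram a b ≠ 0) (c : V4) :
    ‖cr a b c‖ ^ 2 = gram a b * ‖pn a b c‖ ^ 2 := by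
  rw [← cr_pn, ← real_inner_self_eq_norm_sq, ← real_inner_self_eq_norm_sq, cr_sq, inner_pn_1 h,
    inner_pn_2 h]
  simp

theorem gram_ne_of_cr (h : cr a b c ≠ 0) : gram a b ≠ 0 := fun h0 => by
  have h1 := cr_sq_le a b c
  rw [h0, zero_mul] at h1
  exact h (norm_eq_zero.1 (pow_eq_zero_iff two_ne_zero |>.1 (h1.antisymm (sq_nonneg _))))

theorem inner_pn_tanp (h : gram a b ≠ 0) (y y' : V4) : ⟪pn a b y, pn a b y'⟫ = ⟪y, y'⟫ -
    tanp ⟪a, a⟫ ⟪a, b⟫ ⟪b, b⟫ ⟪y, a⟫ ⟪y, b⟫ ⟪y', a⟫ ⟪y', b⟫ := by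
  rw [inner_pn_pn h]
  simp only [pn, tanp, gram, inner_sub_right, real_inner_smul_right]
  ring

theorem cr_smul (a b c : V4) (t : ℝ) : cr a b (t • c) = t • cr a b c := by crv

theorem cr_cr (a b e : V4) : cr a b (cr a b e) = -(gram a b • e -
    (⟪a, e⟫ * ⟪b, b⟫ - ⟪b, e⟫ * ⟪a, b⟫) • a - (⟪b, e⟫ * ⟪a, a⟫ - ⟪a, e⟫ * ⟪a, b⟫) • b) := by crv

theorem cramer (a b c d y : V4) : ⟪cr a b c, d⟫ • y = ⟪y, d⟫ • cr a b c - ⟪y, c⟫ • cr a b d +
    ⟪b, y⟫ • cr a c d - ⟪a, y⟫ • cr b c d := by crv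

theorem rot_spec {e : V4} (h : gram a b ≠ 0) (ha : ⟪a, e⟫ = 0) (hb : ⟪b, e⟫ = 0)
    (he : ⟪e, e⟫ = 1) {f : V4} (hf : f = (√(gram a b))⁻¹ • cr a b e) :
    ⟪a, f⟫ = 0 ∧ ⟪b, f⟫ = 0 ∧ ⟪f, f⟫ = 1 ∧ ⟪e, f⟫ = 0 ∧ cr a b e = √(gram a b) • f ∧
      cr a b f = -(√(gram a b) • e) ∧
      ∀ y, ⟪a, y⟫ = 0 → ⟪b, y⟫ = 0 → y = ⟪y, e⟫ • e + ⟪y, f⟫ • f := by
  have h0 := gram_nonneg a b
  have hs : √(gram a b) ≠ 0 := (Real.sqrt_pos.2 (h0.lt_of_ne' h)).ne'
  have hq : √(gram a b) * √(gram a b) = gram a b := Real.mul_self_sqrt h0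
  have e1 : cr a b e = √(gram a b) • f := by rw [hf, smul_inv_smul₀ hs]
  have e2 : cr a b f = -(√(gram a b) • e) := by
    rw [hf, cr_smul, cr_cr, ha, hb]
    simp only [zero_mul, sub_self, zero_smul, sub_zero, smul_neg, smul_smul]
    congr 2
    rw [inv_mul_eq_iff_eq_mul₀ hs, hq]
  have e3 : ⟪f, f⟫ = 1 := by
    have h1 := cr_sq a b e
    rw [real_inner_comm b e, real_inner_comm a e, ha, hb, he, e1, real_inner_smul_left,
      real_inner_smul_right, ← mul_assoc, hq] at h1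
    refine mul_left_cancel₀ h (h1.trans ?_)
    simp
  refine ⟨?_, ?_, e3, ?_, e1, e2, fun y hya hyb => ?_⟩
  · rw [hf, real_inner_smul_right, real_inner_comm, inner_cr_1, mul_zero]
  · rw [hf, real_inner_smul_right, real_inner_comm, inner_cr_2, mul_zero]
  · rw [hf, real_inner_smul_right, real_inner_comm, inner_cr_3, mul_zero]
  · have h1 := cramer a b e f y
    rw [hya, hyb, e1, e2, real_inner_smul_left, e3, mul_one] at h1
    refine smul_right_injective _ hs (h1.trans ?_)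
    simp only
    module

end Crest.Agent.R216.VecA1
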