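import Crest.Agent.R216.JetDefs
import Crest.Agent.R216.ClP

/-!
# Row 216: auxiliary lemmas for `Vec.lean`, part B2 (Gauss equation, curvature of a metric)
-/

set_option autoImplicit false

noncomputable section

namespace Crest.Agent.R216.VecB2

open Set Metric Filter
open scoped ContDiff Topology RealInnerProductSpace

section gen

variable {V : Type} [NormedAddCommGroup V] [NormedSpace ℝ V] {a b : E → V} {x : E}

theorem dd_ev (h : a =ᶠ[𝓝 x] b) (v : E) : dd v a =ᶠ[𝓝 x] dd v b := by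
  filter_upwards [h.fderiv (𝕜 := ℝ)] with y hy
  simp only [dd, hy]

theorem cd_dd (h : ContDiffAt ℝ ∞ a x) (v : E) : ContDiffAt ℝ ∞ (dd v a) x :=
  (h.fderiv_right (m := ∞) le_rfl).clm_apply contDiffAt_const

theorem cdOn_dd {O : Set E} (hO : IsOpen O) (h : ContDiffOn ℝ ∞ a O) (v : E) :
    ContDiffOn ℝ ∞ (dd v a) O := fun _ hy =>
  (cd_dd (h.contDiffAt (hO.mem_nhds hy)) v).contDiffWithinAt

theorem diff (h : ContDiffAt ℝ ∞ a x) : DifferentiableAt ℝ a x := h.differentiableAt (by simp)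

theorem ev_diff (h : ContDiffAt ℝ ∞ a x) : ∀ᶠ y in 𝓝 x, DifferentiableAt ℝ a y := by
  have h1 : ContDiffAt ℝ 1 a x := h.of_le (by exact_mod_cast le_top)
  filter_upwards [h1.eventually (by simp)] with y hy
  exact hy.differentiableAt one_ne_zero

theorem comm2 (h : ContDiffAt ℝ 2 a x) (v w : E) : dd v (dd w a) x = dd w (dd v a) x := by
  have h1 : DifferentiableAt ℝ (fderiv ℝ a) x :=
    (h.fderiv_right (m := 1) (by norm_num)).differentiableAt one_ne_zero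
  have h2 : ∀ v w : E, dd v (dd w a) x = fderiv ℝ (fderiv ℝ a) x v w := fun v w => by
    change fderiv ℝ (fun y => fderiv ℝ a y w) x v = _
    rw [fderiv_clm_apply h1 (differentiableAt_const w)]
    simp
  rw [h2, h2]
  exact (h.isSymmSndFDerivAt (by simp)).eq v w

theorem ev_comm (h : ContDiffAt ℝ ∞ a x) (v w : E) : dd v (dd w a) =ᶠ[𝓝 x] dd w (dd v a) := by
  have h1 : ContDiffAt ℝ 2 a x := h.of_le (show ((2 : ℕ∞) : WithTop ℕ∞) ≤ ((⊤ : ℕ∞) : WithTop ℕ∞) by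
    exact_mod_cast le_top)
  filter_upwards [h1.eventually (by simp)] with y hy
  exact comm2 hy v w

end gen

variable {H : E → V4} {G G' : E → Bil} {x : E}

theorem G_ev (hG : G =ᶠ[𝓝 x] indE H) (v w : E) :
    (fun y => G y v w) =ᶠ[𝓝 x] fun y => ⟪dd v H y, dd w H y⟫ := by
  filter_upwards [hG] with y hy
  rw [hy]
  rfl

theorem d1_ev (hH : ContDiffAt ℝ ∞ H x) (hG : G =ᶠ[𝓝 x] indE H) (u v w : E) :
    dd u (fun y => G y v w) =ᶠ[𝓝 x]
      fun y => ⟪dd u (dd v H) y, dd w H y⟫ + ⟪dd v H y, dd u (dd w H) y⟫ := by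
  filter_upwards [dd_ev (G_ev hG v w) u, ev_diff (cd_dd hH v), ev_diff (cd_dd hH w)]
    with y h1 h2 h3
  rw [h1, dd_inner h2 h3]

theorem d2 (hH : ContDiffAt ℝ ∞ H x) (hG : G =ᶠ[𝓝 x] indE H) (r u v w : E) :
    dd r (dd u fun y => G y v w) x =
      ⟪dd r (dd u (dd v H)) x, dd w H x⟫ + ⟪dd u (dd v H) x, dd r (dd w H) x⟫ +
        (⟪dd r (dd v H) x, dd u (dd w H) x⟫ + ⟪dd v H x, dd r (dd u (dd w H)) x⟫) := by
  have a1 := diff (cd_dd (cd_dd hH v) u)
  have a2 := diff (cd_dd hH w)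
  have a3 := diff (cd_dd hH v)
  have a4 := diff (cd_dd (cd_dd hH w) u)
  rw [(dd_ev (d1_ev hH hG u v w) r).eq_of_nhds, dd_add (a1.inner ℝ a2) (a3.inner ℝ a4),
    dd_inner a1 a2, dd_inner a3 a4]

theorem kg_ind (hH : ContDiffAt ℝ ∞ H x) (hG : G =ᶠ[𝓝 x] indE H) : kg G x =
    ⟪dd es H x, dd et (dd et H) x⟫ * ⟪dd et H x, dd et H x⟫
      - ⟪dd es H x, dd et H x⟫ * ⟪dd et H x, dd et (dd et H) x⟫ := by
  have h0 := fun v w => (G_ev hG v w).eq_of_nhds
  have h1 := fun u v w => (d1_ev hH hG u v w).eq_of_nhds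
  simp only [kg, h0, h1]
  rw [dd_comm hH es et, real_inner_comm (dd et (dd es H) x) (dd et H x),
    real_inner_comm (dd et H x) (dd et (dd et H) x)]
  ring

theorem gauss (hH : ContDiffAt ℝ ∞ H x) (hG : G =ᶠ[𝓝 x] indE H) :
    ⟪dd et (dd et H) x, dd es (dd es H) x⟫ -
        tanp ⟪dd es H x, dd es H x⟫ ⟪dd es H x, dd et H x⟫ ⟪dd et H x, dd et H x⟫
          ⟪dd et (dd et H) x, dd es H x⟫ ⟪dd et (dd et H) x, dd et H x⟫
          ⟪dd es (dd es H) x, dd es H x⟫ ⟪dd es (dd es H) x, dd et H x⟫ -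
      (⟪dd et (dd es H) x, dd et (dd es H) x⟫ -
        tanp ⟪dd es H x, dd es H x⟫ ⟪dd es H x, dd et H x⟫ ⟪dd et H x, dd et H x⟫
          ⟪dd et (dd es H) x, dd es H x⟫ ⟪dd et (dd es H) x, dd et H x⟫
          ⟪dd et (dd es H) x, dd es H x⟫ ⟪dd et (dd es H) x, dd et H x⟫) = Kh G x := by
  have h0 := fun v w => (G_ev hG v w).eq_of_nhds
  have h1 := fun u v w => (d1_ev hH hG u v w).eq_of_nhds
  have c2 : dd es (dd et H) x = dd et (dd es H) x := dd_comm hH es et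
  have c3 : dd es (dd es (dd et H)) x = dd es (dd et (dd es H)) x :=
    (dd_ev (ev_comm hH es et) es).eq_of_nhds
  have c4 : dd es (dd et (dd et H)) x = dd et (dd et (dd es H)) x :=
    (dd_comm (cd_dd hH et) es et).trans (dd_ev (ev_comm hH es et) et).eq_of_nhds
  have e1 : dd et (fun y => G y es et) x - dd es (fun y => G y et et) x / 2 =
      ⟪dd et (dd et H) x, dd es H x⟫ := by
    rw [h1, h1, c2, real_inner_comm (dd et (dd es H) x) (dd et H x),
      real_inner_comm (dd et (dd et H) x) (dd es H x)]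
    ring
  have e2 : dd et (fun y => G y et et) x / 2 = ⟪dd et (dd et H) x, dd et H x⟫ := by
    rw [h1, real_inner_comm (dd et (dd et H) x) (dd et H x)]
    ring
  have e3 : dd es (fun y => G y es es) x / 2 = ⟪dd es (dd es H) x, dd es H x⟫ := by
    rw [h1, real_inner_comm (dd es (dd es H) x) (dd es H x)]
    ring
  have e4 : dd es (fun y => G y es et) x - dd et (fun y => G y es es) x / 2 =
      ⟪dd es (dd es H) x, dd et H x⟫ := by
    rw [h1, h1, c2, real_inner_comm (dd et (dd es H) x) (dd es H x)]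
    ring
  have e5 : dd et (fun y => G y es es) x / 2 = ⟪dd et (dd es H) x, dd es H x⟫ := by
    rw [h1, real_inner_comm (dd et (dd es H) x) (dd es H x)]
    ring
  have e6 : dd es (fun y => G y et et) x / 2 = ⟪dd et (dd es H) x, dd et H x⟫ := by
    rw [h1, c2, real_inner_comm (dd et (dd es H) x) (dd et H x)]
    ring
  unfold Kh
  rw [e1, e2, e3, e4, e5, e6, d2 hH hG, d2 hH hG, d2 hH hG, h0, h0, h0, c2, c3, c4,
    real_inner_comm (dd es (dd et (dd es H)) x) (dd et H x),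
    real_inner_comm (dd et (dd et (dd es H)) x) (dd es H x),
    real_inner_comm (dd et (dd et H) x) (dd es (dd es H) x)]
  ring

theorem cd_G {O : Set E} (hG : ContDiffOn ℝ ∞ G O) (v w : E) :
    ContDiffOn ℝ ∞ (fun y => G y v w) O :=
  (hG.clm_apply contDiffOn_const).clm_apply contDiffOn_const

theorem continuousOn_Kh {O : Set E} (hO : IsOpen O) (hG : ContDiffOn ℝ ∞ G O)
    (hd : ∀ x ∈ O, G x es es * G x et et - G x es et ^ 2 ≠ 0) : ContinuousOn (Kh G) O := by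
  have h0 := fun v w => (cd_G hG v w).continuousOn
  have h1 := fun u v w => (cdOn_dd hO (cd_G hG v w) u).continuousOn
  have h2 := fun r u v w => (cdOn_dd hO (cdOn_dd hO (cd_G hG v w) u) r).continuousOn
  have ht : ∀ {a b c d : E → ℝ}, ContinuousOn a O → ContinuousOn b O → ContinuousOn c O →
      ContinuousOn d O → ContinuousOn
        (fun y => tanp (G y es es) (G y es et) (G y et et) (a y) (b y) (c y) (d y)) O := by
    intro a b c d ha hb hc hd'
    unfold tanp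
    exact ((((((h0 et et).mul ha).mul hc).sub ((h0 es et).mul ((ha.mul hd').add (hb.mul hc)))).add
      (((h0 es es).mul hb).mul hd')).div (((h0 es es).mul (h0 et et)).sub ((h0 es et).pow 2)) hd)
  unfold Kh
  exact ((((((h2 _ _ _ _).neg.div_const 2).add (h2 _ _ _ _)).sub ((h2 _ _ _ _).div_const 2)).sub
    (ht ((h1 _ _ _).sub ((h1 _ _ _).div_const 2)) ((h1 _ _ _).div_const 2)
      ((h1 _ _ _).div_const 2) ((h1 _ _ _).sub ((h1 _ _ _).div_const 2)))).add
    (ht ((h1 _ _ _).div_const 2) ((h1 _ _ _).div_const 2) ((h1 _ _ _).div_const 2)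
      ((h1 _ _ _).div_const 2)))

theorem continuousOn_kg {O : Set E} (hO : IsOpen O) (hG : ContDiffOn ℝ ∞ G O) :
    ContinuousOn (kg G) O := by
  have h0 := fun v w => (cd_G hG v w).continuousOn
  have h1 := fun u v w => (cdOn_dd hO (cd_G hG v w) u).continuousOn
  unfold kg
  exact (((h1 _ _ _).sub ((h1 _ _ _).div_const 2)).mul (h0 _ _)).sub
    ((h0 _ _).mul ((h1 _ _ _).div_const 2))

theorem Kh_of_jet (h0 : ∀ v w, G x v w = G' x v w)
    (h1 : ∀ u v w, dd u (fun y => G y v w) x = dd u (fun y => G' y v w) x)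
    (h2 : ∀ r u v w, dd r (dd u fun y => G y v w) x = dd r (dd u fun y => G' y v w) x) :
    Kh G x = Kh G' x := by
  simp only [Kh, h0, h1, h2]

theorem G_congr (h : G =ᶠ[𝓝 x] G') (v w : E) :
    (fun y => G y v w) =ᶠ[𝓝 x] fun y => G' y v w := by
  filter_upwards [h] with y hy
  rw [hy]

theorem Kh_congr (h : G =ᶠ[𝓝 x] G') : Kh G x = Kh G' x :=
  Kh_of_jet (fun v w => (G_congr h v w).eq_of_nhds)
    (fun u v w => (dd_ev (G_congr h v w) u).eq_of_nhds)
    fun r u v w => (dd_ev (dd_ev (G_congr h v w) u) r).eq_of_nhds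

theorem kg_congr (h : G =ᶠ[𝓝 x] G') : kg G x = kg G' x := by
  have h0 := fun v w => (G_congr h v w).eq_of_nhds
  have h1 := fun u v w => (dd_ev (G_congr h v w) u).eq_of_nhds
  simp only [kg, h0, h1]

theorem sffE_congr {H' : E → V4} (h : H =ᶠ[𝓝 x] H') : sffE H x = sffE H' x := by
  funext v w
  have key : ∀ L L' : E →L[ℝ] V4, L = L' → ∀ y,
      (LinearMap.range (L : E →ₗ[ℝ] V4))ᗮ.starProjection y =
        (LinearMap.range (L' : E →ₗ[ℝ] V4))ᗮ.starProjection y := by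
    rintro L _ rfl y
    rfl
  unfold sffE
  rw [(dd_ev (dd_ev h w) v).eq_of_nhds]
  exact key _ _ h.fderiv_eq _

/-- Differentiating `g + χ ^ (n + 1) ψ`. -/
theorem dd_van {g g' χ ψ : E → ℝ} (hg : ContDiffAt ℝ ∞ g x) (hχ : ContDiffAt ℝ ∞ χ x)
    (hψ : ContDiffAt ℝ ∞ ψ x) {n : ℕ} (he : g' =ᶠ[𝓝 x] fun y => g y + χ y ^ (n + 1) * ψ y) (u : E) :
    ∃ ψ' : E → ℝ, ContDiffAt ℝ ∞ ψ' x ∧
      dd u g' =ᶠ[𝓝 x] fun y => dd u g y + χ y ^ n * ψ' y := by
  refine ⟨fun y => (n + 1 : ℝ) * dd u χ y * ψ y + χ y * dd u ψ y,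
    ((contDiffAt_const.mul (cd_dd hχ u)).mul hψ).add (hχ.mul (cd_dd hψ u)), ?_⟩
  filter_upwards [dd_ev he u, ev_diff hg, ev_diff hχ, ev_diff hψ] with y h1 h2 h3 h4
  have h5 := h2.hasFDerivAt.add ((h3.hasFDerivAt.pow (n + 1)).mul h4.hasFDerivAt)
  have h6 : dd u (fun y => g y + χ y ^ (n + 1) * ψ y) y = _ := congrArg (fun L => L u) h5.fderiv
  rw [h1, h6]
  simp [dd]
  ring

theorem Kh_add_edge (hG : ContDiffAt ℝ ∞ G x) {χ b : E → ℝ} (hχ : ContDiffAt ℝ ∞ χ x)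
    (hb : ContDiffAt ℝ ∞ b x) (h0 : χ x = 0) {K : ℕ} (hK : 2 ≤ K) (t : Bil) :
    Kh (fun y => G y + (χ y ^ K * b y) ^ 2 • t) x = Kh G x := by
  obtain ⟨k, rfl⟩ : ∃ k, K = k + 2 := ⟨K - 2, by omega⟩
  have hg : ∀ v w, ContDiffAt ℝ ∞ (fun y => G y v w) x := fun v w =>
    (hG.clm_apply contDiffAt_const).clm_apply contDiffAt_const
  have hψ : ∀ v w, ContDiffAt ℝ ∞ (fun y => χ y ^ (2 * k + 1) * b y ^ 2 * t v w) x := fun v w =>
    ((hχ.pow _).mul (hb.pow 2)).mul contDiffAt_const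
  have he : ∀ v w, (fun y => (G y + (χ y ^ (k + 2) * b y) ^ 2 • t) v w) =ᶠ[𝓝 x]
      fun y => G y v w + χ y ^ (2 + 1) * (χ y ^ (2 * k + 1) * b y ^ 2 * t v w) := fun v w =>
    Eventually.of_forall fun y => by
      simp only [_root_.add_apply, _root_.smul_apply, smul_eq_mul]
      ring
  refine Kh_of_jet (fun v w => ?_) (fun u v w => ?_) fun r u v w => ?_
  · rw [(he v w).eq_of_nhds, h0]
    simp
  · obtain ⟨ψ', -, h1⟩ := dd_van (hg v w) hχ (hψ v w) (he v w) u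
    rw [h1.eq_of_nhds, h0]
    simp
  · obtain ⟨ψ', hψ', h1⟩ := dd_van (hg v w) hχ (hψ v w) (he v w) u
    obtain ⟨ψ'', -, h2⟩ := dd_van (n := 1) (cd_dd (hg v w) u) hχ hψ' h1 r
    rw [h2.eq_of_nhds, h0]
    simp

end Crest.Agent.R216.VecB2
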