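import Crest.Agent.R216.JetDefs
import Crest.Agent.R216.ClP
import Crest.Agent.R216.VecAuxB2
import Crest.Agent.R216.VecAuxA1

/-!
# Row 216: vector algebra in `ℝ⁴`, second fundamental form, Gauss equation
-/

set_option autoImplicit false

noncomputable section

namespace Crest.Agent.R216

open Set Metric Filter
open scoped ContDiff Topology RealInnerProductSpace

/-! ## Part A: algebra -/

section alg

variable {a b c d y y' : V4}

theorem inner_cr_1 (a b c : V4) : ⟪cr a b c, a⟫ = 0 :=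
  VecA1.inner_cr_1 a b c
theorem inner_cr_2 (a b c : V4) : ⟪cr a b c, b⟫ = 0 :=
  VecA1.inner_cr_2 a b c
theorem inner_cr_3 (a b c : V4) : ⟪cr a b c, c⟫ = 0 :=
  VecA1.inner_cr_3 a b c
theorem cr_swap12 (a b c : V4) : cr b a c = -cr a b c :=
  VecA1.cr_swap12 a b c
theorem cr_swap23 (a b c : V4) : cr a c b = -cr a b c :=
  VecA1.cr_swap23 a b c
theorem inner_cr_swap34 (a b c d : V4) : ⟪cr a b d, c⟫ = -⟪cr a b c, d⟫ :=
  VecA1.inner_cr_swap34 a b c d
theorem cr_self12 (a c : V4) : cr a a c = 0 :=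
  VecA1.cr_self12 a c
theorem cr_self13 (a b : V4) : cr a b a = 0 :=
  VecA1.cr_self13 a b
theorem cr_self23 (a b : V4) : cr a b b = 0 :=
  VecA1.cr_self23 a b
/-- The cross product is trilinear. -/
theorem exists_crL : ∃ L : V4 →L[ℝ] V4 →L[ℝ] V4 →L[ℝ] V4, ∀ a b c, L a b c = cr a b c :=
  VecA1.exists_crL
theorem norm_cr_le (a b c : V4) : ‖cr a b c‖ ≤ ‖a‖ * ‖b‖ * ‖c‖ :=
  VecA1.norm_cr_le a b c
theorem norm_cr_sub_le (a b c a' b' c' : V4) : ‖cr a' b' c' - cr a b c‖ ≤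
    ‖a' - a‖ * ‖b'‖ * ‖c'‖ + ‖a‖ * ‖b' - b‖ * ‖c'‖ + ‖a‖ * ‖b‖ * ‖c' - c‖ :=
  VecA1.norm_cr_sub_le a b c a' b' c'
theorem gram_nonneg (a b : V4) : 0 ≤ gram a b :=
  VecA1.gram_nonneg a b
theorem gram_comm (a b : V4) : gram a b = gram b a :=
  VecA1.gram_comm a b
theorem gram_le (a b : V4) : gram a b ≤ ‖a‖ ^ 2 * ‖b‖ ^ 2 :=
  VecA1.gram_le a b
theorem pn_comm (a b y : V4) : pn a b y = pn b a y :=
  VecA1.pn_comm a b y
theorem pn_add (a b y y' : V4) : pn a b (y + y') = pn a b y + pn a b y' :=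
  VecA1.pn_add a b y y'
theorem pn_smul (a b y : V4) (t : ℝ) : pn a b (t • y) = t • pn a b y :=
  VecA1.pn_smul a b y t
theorem pn_sub (a b y y' : V4) : pn a b (y - y') = pn a b y - pn a b y' :=
  VecA1.pn_sub a b y y'
theorem pn_of_orth (ha : ⟪y, a⟫ = 0) (hb : ⟪y, b⟫ = 0) : pn a b y = y :=
  VecA1.pn_of_orth ha hb
theorem inner_pn_1 (h : gram a b ≠ 0) (y : V4) : ⟪pn a b y, a⟫ = 0 :=
  VecA1.inner_pn_1 h y
theorem inner_pn_2 (h : gram a b ≠ 0) (y : V4) : ⟪pn a b y, b⟫ = 0 :=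
  VecA1.inner_pn_2 h y
theorem pn_left (h : gram a b ≠ 0) : pn a b a = 0 :=
  VecA1.pn_left h
theorem pn_right (h : gram a b ≠ 0) : pn a b b = 0 :=
  VecA1.pn_right h
theorem inner_pn_orth (a b y : V4) (ha : ⟪a, y'⟫ = 0) (hb : ⟪b, y'⟫ = 0) :
    ⟪pn a b y, y'⟫ = ⟪y, y'⟫ :=
  VecA1.inner_pn_orth a b y ha hb
theorem inner_pn_pn (h : gram a b ≠ 0) (y y' : V4) : ⟪pn a b y, pn a b y'⟫ = ⟪y, pn a b y'⟫ :=
  VecA1.inner_pn_pn h y y'
theorem norm_pn_le (h : gram a b ≠ 0) (y : V4) : ‖pn a b y‖ ≤ ‖y‖ :=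
  VecA1.norm_pn_le h y
theorem pn_eq_zero_iff (h : gram a b ≠ 0) : pn a b y = 0 ↔ ∃ s t : ℝ, y = s • a + t • b :=
  VecA1.pn_eq_zero_iff h
theorem cr_pn (h : gram a b ≠ 0) (c : V4) : cr a b (pn a b c) = cr a b c :=
  VecA1.cr_pn a b c
theorem norm_cr_sq (h : gram a b ≠ 0) (c : V4) : ‖cr a b c‖ ^ 2 = gram a b * ‖pn a b c‖ ^ 2 :=
  VecA1.norm_cr_sq h c
theorem gram_ne_of_cr (h : cr a b c ≠ 0) : gram a b ≠ 0 :=
  VecA1.gram_ne_of_cr h
theorem inner_pn_tanp (h : gram a b ≠ 0) (y y' : V4) : ⟪pn a b y, pn a b y'⟫ = ⟪y, y'⟫ -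
    tanp ⟪a, a⟫ ⟪a, b⟫ ⟪b, b⟫ ⟪y, a⟫ ⟪y, b⟫ ⟪y', a⟫ ⟪y', b⟫ :=
  VecA1.inner_pn_tanp h y y'

/-- Rotation by a right angle in the plane `(a, b) ᗮ`. -/
theorem rot_spec {e : V4} (h : gram a b ≠ 0) (ha : ⟪a, e⟫ = 0) (hb : ⟪b, e⟫ = 0)
    (he : ⟪e, e⟫ = 1) {f : V4} (hf : f = (√(gram a b))⁻¹ • cr a b e) :
    ⟪a, f⟫ = 0 ∧ ⟪b, f⟫ = 0 ∧ ⟪f, f⟫ = 1 ∧ ⟪e, f⟫ = 0 ∧ cr a b e = √(gram a b) • f ∧
      cr a b f = -(√(gram a b) • e) ∧
      ∀ y, ⟪a, y⟫ = 0 → ⟪b, y⟫ = 0 → y = ⟪y, e⟫ • e + ⟪y, f⟫ • f :=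
  VecA1.rot_spec h ha hb he hf

theorem VecAux.contDiff_gram : ContDiff ℝ ∞ fun q : V4 × V4 => gram q.1 q.2 :=
  ((contDiff_fst.inner ℝ contDiff_fst).mul (contDiff_snd.inner ℝ contDiff_snd)).sub
    ((contDiff_fst.inner ℝ contDiff_snd).pow 2)
theorem VecAux.contDiffOn_pn : ContDiffOn ℝ ∞ (fun q : V4 × V4 × V4 => pn q.1 q.2.1 q.2.2)
    {q | gram q.1 q.2.1 ≠ 0} := by
  have ha : ContDiff ℝ ∞ fun q : V4 × V4 × V4 => q.1 := contDiff_fst
  have hb : ContDiff ℝ ∞ fun q : V4 × V4 × V4 => q.2.1 := contDiff_snd.fst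
  have hy : ContDiff ℝ ∞ fun q : V4 × V4 × V4 => q.2.2 := contDiff_snd.snd
  have hg : ContDiff ℝ ∞ fun q : V4 × V4 × V4 => gram q.1 q.2.1 :=
    VecAux.contDiff_gram.comp (ha.prodMk hb)
  exact (hy.contDiffOn.sub (((((hy.inner ℝ ha).mul (hb.inner ℝ hb)).sub
    ((hy.inner ℝ hb).mul (ha.inner ℝ hb))).contDiffOn.div hg.contDiffOn fun _ h => h).smul
      ha.contDiffOn)).sub (((((hy.inner ℝ hb).mul (ha.inner ℝ ha)).sub
    ((hy.inner ℝ ha).mul (ha.inner ℝ hb))).contDiffOn.div hg.contDiffOn fun _ h => h).smul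
      hb.contDiffOn)
theorem continuousOn_pn : ContinuousOn (fun q : V4 × V4 × V4 => pn q.1 q.2.1 q.2.2)
    {q | gram q.1 q.2.1 ≠ 0} := VecAux.contDiffOn_pn.continuousOn
theorem contDiffOn_pn : ContDiffOn ℝ ∞ (fun q : V4 × V4 × V4 => pn q.1 q.2.1 q.2.2)
    {q | gram q.1 q.2.1 ≠ 0} := VecAux.contDiffOn_pn
theorem contDiff_cr : ContDiff ℝ ∞ fun q : V4 × V4 × V4 => cr q.1 q.2.1 q.2.2 := by
  obtain ⟨L, hL⟩ := exists_crL
  simp only [← hL]
  exact ((L.contDiff.comp contDiff_fst).clm_apply contDiff_snd.fst).clm_apply contDiff_snd.snd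
theorem contDiff_gram : ContDiff ℝ ∞ fun q : V4 × V4 => gram q.1 q.2 := VecAux.contDiff_gram

theorem E_decomp (v : E) : v = v 0 • es + v 1 • et := by
  ext i
  fin_cases i <;> simp [es, et]
theorem VecAux.map_eq {V : Type} [NormedAddCommGroup V] [NormedSpace ℝ V] (L : E →L[ℝ] V) (v : E) :
    L v = v 0 • L es + v 1 • L et := by
  conv_lhs => rw [E_decomp v, map_add, map_smul, map_smul]
theorem frame_decomp {z w : E} {ξ η : E →L[ℝ] ℝ} (h1 : ξ z = 1) (h2 : ξ w = 0) (h3 : η z = 0)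
    (h4 : η w = 1) (v : E) : v = ξ v • z + η v • w := by
  rw [VecAux.map_eq] at h1 h2 h3 h4
  rw [VecAux.map_eq ξ v, VecAux.map_eq η v]
  simp only [smul_eq_mul] at *
  have e : !![ξ es, ξ et; η es, η et] * !![z 0, w 0; z 1, w 1] = 1 := by
    ext i j
    fin_cases i <;> fin_cases j <;> simp [Matrix.mul_apply, Fin.sum_univ_two] <;> linarith
  rw [mul_eq_one_comm] at e
  have e00 := congrFun (congrFun e 0) 0
  have e01 := congrFun (congrFun e 0) 1
  have e10 := congrFun (congrFun e 1) 0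
  have e11 := congrFun (congrFun e 1) 1
  simp [Matrix.mul_apply, Fin.sum_univ_two] at e00 e01 e10 e11
  ext i
  fin_cases i
  · simp
    linear_combination (-v 0) * e00 - v 1 * e01
  · simp
    linear_combination (-v 0) * e10 - v 1 * e11
theorem gram_ne_iff (L : E →L[ℝ] V4) : gram (L es) (L et) ≠ 0 ↔ Function.Injective L := by
  rw [injective_iff_map_eq_zero]
  constructor
  · intro h v hv
    rw [VecAux.map_eq] at hv
    have h1 := congrArg (fun y => ⟪y, L es⟫) hv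
    have h2 := congrArg (fun y => ⟪y, L et⟫) hv
    simp only [inner_add_left, real_inner_smul_left, inner_zero_left] at h1 h2
    rw [real_inner_comm (L es) (L et)] at h1
    have e0 : v 0 = 0 := by
      refine (mul_eq_zero.1 ?_).resolve_right h
      unfold gram
      linear_combination ⟪L et, L et⟫ * h1 - ⟪L es, L et⟫ * h2
    have e1 : v 1 = 0 := by
      refine (mul_eq_zero.1 ?_).resolve_right h
      unfold gram
      linear_combination ⟪L es, L es⟫ * h2 - ⟪L es, L et⟫ * h1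
    rw [E_decomp v, e0, e1, zero_smul, zero_smul, add_zero]
  · intro h h0
    have h1 : L (⟪L et, L et⟫ • es - ⟪L es, L et⟫ • et) = 0 := by
      rw [← inner_self_eq_zero (𝕜 := ℝ), map_sub, map_smul, map_smul]
      simp only [inner_sub_left, inner_sub_right, real_inner_smul_left, real_inner_smul_right]
      rw [real_inner_comm (L es) (L et)]
      unfold gram at h0
      linear_combination ⟪L et, L et⟫ * h0
    have h2 : ⟪L et, L et⟫ = 0 := by
      have := congrArg (fun v : E => v 0) (h _ h1)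
      generalize ⟪L et, L et⟫ = α at this
      generalize ⟪L es, L et⟫ = β at this
      simpa [es, et] using this
    have h3 := congrArg (fun v : E => v 1) (h _ (inner_self_eq_zero.1 h2))
    simp [et] at h3
theorem starProjection_eq_pn (L : E →L[ℝ] V4) (h : gram (L es) (L et) ≠ 0) (y : V4) :
    (LinearMap.range (L : E →ₗ[ℝ] V4))ᗮ.starProjection y = pn (L es) (L et) y := by
  refine Submodule.eq_starProjection_of_mem_orthogonal ?_
    (Submodule.le_orthogonal_orthogonal _ ?_)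
  · rw [Submodule.mem_orthogonal']
    rintro _ ⟨v, rfl⟩
    rw [ContinuousLinearMap.coe_coe, VecAux.map_eq L v, inner_add_right, real_inner_smul_right,
      real_inner_smul_right, inner_pn_1 h, inner_pn_2 h, mul_zero, mul_zero, add_zero]
  · unfold pn
    rw [sub_sub, sub_sub_cancel]
    exact add_mem (Submodule.smul_mem _ _ ⟨es, rfl⟩) (Submodule.smul_mem _ _ ⟨et, rfl⟩)
theorem pn_ne_zero_iff (L : E →L[ℝ] V4) (h : gram (L es) (L et) ≠ 0) (y : V4) :
    pn (L es) (L et) y ≠ 0 ↔ ∀ v, L v ≠ y := by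
  rw [Ne, pn_eq_zero_iff h]
  constructor
  · intro h1 v hv
    exact h1 ⟨v 0, v 1, by rw [← hv, ← VecAux.map_eq]⟩
  · rintro h1 ⟨s, t, rfl⟩
    exact h1 (s • es + t • et) (by rw [map_add, map_smul, map_smul])

theorem II5_symm (p q A B C : V4) (v w : E) : II5 p q A B C v w = II5 p q A B C w v := by
  unfold II5
  rw [mul_comm (v 1) (w 1), mul_comm (v 0) (w 0), add_comm (v 0 * w 1), mul_comm (v 0) (w 1),
    mul_comm (v 1) (w 0)]
theorem II5_et (p q A B C : V4) : II5 p q A B C et et = pn q p A := by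
  simp [II5, et]
theorem II5_gauss (p q A B C : V4) (v w : E) :
    ⟪II5 p q A B C v v, II5 p q A B C w w⟫ - ⟪II5 p q A B C v w, II5 p q A B C v w⟫ =
      (v 0 * w 1 - v 1 * w 0) ^ 2 * (⟪pn q p A, pn q p C⟫ - ⟪pn q p B, pn q p B⟫) := by
  simp only [II5, pn_add, pn_smul, inner_add_left, inner_add_right, real_inner_smul_left,
    real_inner_smul_right]
  rw [real_inner_comm (pn q p A) (pn q p B), real_inner_comm (pn q p A) (pn q p C),
    real_inner_comm (pn q p B) (pn q p C)]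
  ring
theorem pos_of_i2 {II : E → E → V4} {v w : E} (h : 0 < i2 II v w) : 0 < ⟪II w w, II v v⟫ := by
  have h1 := gram_nonneg (II v w) (II w w)
  unfold i2 at h
  unfold gram at h1
  rw [real_inner_comm]
  by_contra hc
  have := mul_nonpos_of_nonpos_of_nonneg (not_lt.1 hc) (real_inner_self_nonneg (x := II w w))
  linarith

end alg

/-! ## Part B: maps of the plane -/

section maps

variable {H : E → V4} {G : E → Bil} {x : E}

theorem indE_apply (H : E → V4) (x v w : E) : indE H x v w = ⟪dd v H x, dd w H x⟫ := rfl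

theorem VecAux.dd_dd {V : Type} [NormedAddCommGroup V] [NormedSpace ℝ V] {H : E → V}
    (hH : ContDiffAt ℝ ∞ H x) (v w : E) : dd v (dd w H) x = fderiv ℝ (fderiv ℝ H) x v w := by
  have h1 : DifferentiableAt ℝ (fderiv ℝ H) x :=
    (hH.fderiv_right (m := 1) (WithTop.coe_le_coe.2 le_top)).differentiableAt one_ne_zero
  change fderiv ℝ (fun y => fderiv ℝ H y w) x v = _
  rw [fderiv_clm_apply h1 (differentiableAt_const w)]
  simp

theorem dd_dd_eq {V : Type} [NormedAddCommGroup V] [NormedSpace ℝ V] {H : E → V}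
    (hH : ContDiffAt ℝ ∞ H x) (v w : E) :
    dd v (dd w H) x = iteratedFDeriv ℝ 2 H x ![v, w] := by
  rw [VecAux.dd_dd hH, iteratedFDeriv_two_apply]
  rfl

theorem norm_dd_dd_le {V : Type} [NormedAddCommGroup V] [NormedSpace ℝ V] {H : E → V}
    (hH : ContDiffAt ℝ ∞ H x) (v w : E) :
    ‖dd v (dd w H) x‖ ≤ ‖iteratedFDeriv ℝ 2 H x‖ * ‖v‖ * ‖w‖ := by
  rw [dd_dd_eq hH, mul_assoc]
  simpa using (iteratedFDeriv ℝ 2 H x).le_opNorm ![v, w]

theorem norm_dd_le {V : Type} [NormedAddCommGroup V] [NormedSpace ℝ V] (H : E → V) (x v : E) :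
    ‖dd v H x‖ ≤ ‖iteratedFDeriv ℝ 1 H x‖ * ‖v‖ := by
  rw [norm_iteratedFDeriv_one]
  exact (fderiv ℝ H x).le_opNorm v

theorem dd_dd_decomp (hH : ContDiffAt ℝ ∞ H x) (v w : E) : dd v (dd w H) x =
    (v 1 * w 1) • dd et (dd et H) x + (v 0 * w 1 + v 1 * w 0) • dd et (dd es H) x
      + (v 0 * w 0) • dd es (dd es H) x := by
  have e := dd_comm hH es et
  simp only [VecAux.dd_dd hH] at e ⊢
  rw [VecAux.map_eq _ v, add_apply, smul_apply, smul_apply, VecAux.map_eq _ w,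
    VecAux.map_eq (_ : E →L[ℝ] V4) w, e]
  module

theorem sffE_eq (hH : ContDiffAt ℝ ∞ H x) (hg : gram (dd es H x) (dd et H x) ≠ 0) (v w : E) :
    sffE H x v w = II5 (dd et H x) (dd es H x) (dd et (dd et H) x) (dd et (dd es H) x)
      (dd es (dd es H) x) v w := by
  rw [sffE, starProjection_eq_pn _ hg, dd_dd_decomp hH]
  rfl

/-- `crD` in a frame, in terms of the standard frame. -/
theorem crD_eq (hH : ContDiffAt ℝ ∞ H x) (z w : E) : crD H x z w =
    (z 0 * w 1 - z 1 * w 0) • cr (dd et H x) (dd es H x) (dd w (dd w H) x) := by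
  have _ := hH
  have e : ∀ v, dd v H x = v 0 • dd es H x + v 1 • dd et H x := VecAux.map_eq _
  rw [crD, e w, e z]
  ext i
  fin_cases i <;> simp [cr] <;> ring

theorem norm_cr_sffE (hH : ContDiffAt ℝ ∞ H x) (hg : gram (dd es H x) (dd et H x) ≠ 0) (w : E) :
    ‖cr (dd et H x) (dd es H x) (dd w (dd w H) x)‖ ^ 2 =
      gram (dd es H x) (dd et H x) * ‖sffE H x w w‖ ^ 2 := by
  have _ := hH
  rw [cr_swap12, norm_neg, norm_cr_sq hg, sffE, starProjection_eq_pn _ hg]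
  rfl

theorem kg_ind (hH : ContDiffAt ℝ ∞ H x) (hG : G =ᶠ[𝓝 x] indE H) : kg G x =
    ⟪dd es H x, dd et (dd et H) x⟫ * ⟪dd et H x, dd et H x⟫
      - ⟪dd es H x, dd et H x⟫ * ⟪dd et H x, dd et (dd et H) x⟫ := VecB2.kg_ind hH hG

/-- The Gauss equation. -/
theorem gauss (hH : ContDiffAt ℝ ∞ H x) (hG : G =ᶠ[𝓝 x] indE H)
    (hg : gram (dd es H x) (dd et H x) ≠ 0) :
    ⟪pn (dd es H x) (dd et H x) (dd et (dd et H) x), pn (dd es H x) (dd et H x) (dd es (dd es H) x)⟫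
      - ⟪pn (dd es H x) (dd et H x) (dd et (dd es H) x),
          pn (dd es H x) (dd et H x) (dd et (dd es H) x)⟫ = Kh G x := by
  rw [inner_pn_tanp hg, inner_pn_tanp hg]
  exact VecB2.gauss hH hG

theorem continuousOn_Kh {O : Set E} (hO : IsOpen O) (hG : ContDiffOn ℝ ∞ G O)
    (hd : ∀ x ∈ O, G x es es * G x et et - G x es et ^ 2 ≠ 0) : ContinuousOn (Kh G) O :=
  VecB2.continuousOn_Kh hO hG hd

theorem continuousOn_kg {O : Set E} (hO : IsOpen O) (hG : ContDiffOn ℝ ∞ G O) :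
    ContinuousOn (kg G) O := VecB2.continuousOn_kg hO hG

/-- The curvature does not change at the edge of the support of the amplitude. -/
theorem Kh_add_edge (hG : ContDiffAt ℝ ∞ G x) {χ b : E → ℝ} (hχ : ContDiffAt ℝ ∞ χ x)
    (hb : ContDiffAt ℝ ∞ b x) (h0 : χ x = 0) {K : ℕ} (hK : 2 ≤ K) (t : Bil) :
    Kh (fun y => G y + (χ y ^ K * b y) ^ 2 • t) x = Kh G x := VecB2.Kh_add_edge hG hχ hb h0 hK t

theorem Kh_congr {G' : E → Bil} (h : G =ᶠ[𝓝 x] G') : Kh G x = Kh G' x := VecB2.Kh_congr h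
theorem kg_congr {G' : E → Bil} (h : G =ᶠ[𝓝 x] G') : kg G x = kg G' x := VecB2.kg_congr h
theorem sffE_congr {H' : E → V4} (h : H =ᶠ[𝓝 x] H') : sffE H x = sffE H' x :=
  VecB2.sffE_congr h

end maps

end Crest.Agent.R216
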