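import Crest.Agent.R216.TopDefs
import Crest.Agent.R216.Vec

/-!
# Row 216: symbol classes on the surface (definitions).  DO NOT change a definition of this file.
-/

set_option autoImplicit false
set_option linter.unusedSectionVars false

noncomputable section

namespace Crest.Agent.R216

open Set Metric Filter
open scoped Manifold ContDiff Topology RealInnerProductSpace

universe u

/-- A family of scales. -/
structure Sc (ι : Type*) where
  M : ι → ℝ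
  hM : ∀ i, 1 ≤ M i

namespace Sc

variable {ι : Type*}

/-- The context with a fixed domain. -/
def ctx (σ : Sc ι) {X : Type*} [TopologicalSpace X] (U : Set X) (hU : IsOpen U) : Ctx ι X :=
  ⟨fun _ => U, σ.M, fun _ => hU, σ.hM⟩
/-- Powers of the scales. -/
def pow (σ : Sc ι) (d : ℕ) : Sc ι := ⟨fun i => σ.M i ^ d, fun i => one_le_pow₀ (σ.hM i)⟩
/-- The unit scale. -/
def one (ι : Type*) : Sc ι := ⟨fun _ => 1, fun _ => le_rfl⟩
/-- A subfamily. -/
def comap (σ : Sc ι) {ι' : Type*} (φ : ι' → ι) : Sc ι' := ⟨fun i => σ.M (φ i), fun i => σ.hM (φ i)⟩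
/-- The scales `n + 1`. -/
def nat : Sc ℕ := ⟨fun n => n + 1, fun n => by have : (0 : ℝ) ≤ n := n.cast_nonneg; linarith⟩

end Sc

/-- The cross product of the tangent vectors with the second derivative in the direction `v`. -/
def crv (H : E → V4) (x v : E) : V4 := cr (dd et H x) (dd es H x) (dd v (dd v H) x)

section manifold

variable {M : Type*} [TopologicalSpace M] [ChartedSpace E M] {ι : Type*}

/-- Bounds for a family of functions on the surface. -/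
structure MB {V : Type*} [NormedAddCommGroup V] [NormedSpace ℝ V] (σ : Sc ι) (k j : ℕ)
    (A : ι → ℝ) (f : ι → M → V) : Prop where
  nonneg : ∀ i, 0 ≤ A i
  sm : ∀ i, Sm (f i)
  bd : ∀ (c : Ch M) (U : Set E) (hU : IsOpen U) (K : Set E), IsCompact K → U ⊆ K →
    K ⊆ c.e.target → Bd (σ.ctx U hU) k j A fun i => c.rd (f i)

/-- Bounds for a family of tensors on the surface. -/
structure TB (σ : Sc ι) (k j : ℕ) (A : ι → ℝ) (T : ι → M → Bil) : Prop where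
  nonneg : ∀ i, 0 ≤ A i
  sm : ∀ i, SmT (T i)
  bd : ∀ (c : Ch M) (U : Set E) (hU : IsOpen U) (K : Set E), IsCompact K → U ⊆ K →
    K ⊆ c.e.target → Bd (σ.ctx U hU) k j A fun i => c.pull (T i)

/-- Quantitative non-vanishing of the second fundamental form. -/
def Ndg (σ : Sc ι) (F : ι → M → V4) : Prop :=
  ∀ (c : Ch M) (K : Set E), IsCompact K → K ⊆ c.e.target → ∃ C : ℝ, ∀ i, ∀ x ∈ K,
    ∃ v : E, ‖v‖ ≤ 1 ∧ 1 ≤ C * (σ.M i * ‖crv (c.rd (F i)) x v‖)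

/-- The polarised induced metric. -/
def indB (F F' : M → V4) (p : M) : Bil := (innerSL ℝ).bilinearComp (dM F p) (dM F' p)

/-- The number of derivatives that are controlled at the level `p`. -/
def kp (p : ℕ) : ℕ := 2 * p + 8

/-- The state of the iteration. -/
structure HO (𝒜 : Atl M) (G : M → Bil) (p : ℕ) (l : ℝ) (F : M → V4) : Prop where
  sm : Sm F
  bF : ∀ a, ∀ x ∈ ball (0 : E) 2, ∀ m ≤ kp p,
    ‖iteratedFDeriv ℝ m ((𝒜.c a).rd F) x‖ ≤ l ^ (m + 1)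
  bG : ∀ a, ∀ x ∈ ball (0 : E) 2, ∀ m ≤ kp p,
    ‖iteratedFDeriv ℝ m ((𝒜.c a).pull fun q => G q - ind F q - (l ^ p)⁻¹ • G q) x‖
      ≤ (l ^ (p + 1))⁻¹ * l ^ m
  nd : ∀ a, ∀ x ∈ ball (0 : E) 2, ∃ v : E, ‖v‖ ≤ 1 ∧ 1 ≤ l * ‖crv ((𝒜.c a).rd F) x v‖

/-- `C²` convergence at the points of `Y`. -/
def Close (Y : Set M) (F' : ℕ → M → V4) (F : M → V4) : Prop :=
  ∀ (c : Ch M) (K : Set E), IsCompact K → K ⊆ c.e.target → ∀ δ : ℝ, 0 < δ → ∀ᶠ n in atTop,
    ∀ x ∈ K, c.e.symm x ∈ Y → ∀ m ≤ 2,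
      ‖iteratedFDeriv ℝ m (c.rd fun p => F' n p - F p) x‖ ≤ δ

end manifold

/-- Disjoint small domains with good directions, for each member of a family. -/
structure Patch {ι : Type u} (σ : Sc ι) (H : ι → E → V4) (d : ℕ) where
  J : Type u
  pr : J → ι
  fin : ∀ i, (pr ⁻¹' {i}).Finite
  U : J → Set E
  hU : ∀ j, IsOpen (U j)
  sub : ∀ j, U j ⊆ ball 0 (3 / 2)
  disj : ∀ j j', j ≠ j' → pr j = pr j' → Disjoint (U j) (U j')
  w : J → E
  z : J → E
  ξ : J → E →L[ℝ] ℝ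
  η : J → E →L[ℝ] ℝ
  bw : Bc w
  bz : Bc z
  bξ : Bc ξ
  bη : Bc η
  ξz : ∀ j, ξ j (z j) = 1
  ξw : ∀ j, ξ j (w j) = 0
  ηz : ∀ j, η j (z j) = 0
  ηw : ∀ j, η j (w j) = 1
  χ : J → E → ℝ
  smχ : ∀ j, ContDiff ℝ ∞ (χ j)
  suppχ : ∀ j, tsupport (χ j) ⊆ U j
  χ0 : ∀ j x, 0 ≤ χ j x
  χ1 : ∀ j x, χ j x ≤ 1
  clχ : Cl ⟨U, fun j => σ.M (pr j) ^ d, hU, fun j => one_le_pow₀ (σ.hM (pr j))⟩ 0 (fun _ => 1) χ
  nd : ∃ C : ℝ, ∀ j, ∀ x ∈ U j, 1 ≤ C * (σ.M (pr j) ^ d * ‖crD (H (pr j)) x (z j) (w j)‖)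

namespace Patch

variable {ι : Type u} {σ : Sc ι} {H : ι → E → V4} {d : ℕ} (P : Patch σ H d)

/-- The context of the patches at the scale `M ^ e`. -/
def ctx (e : ℕ) : Ctx P.J E :=
  ⟨P.U, fun j => σ.M (P.pr j) ^ e, P.hU, fun j => one_le_pow₀ (σ.hM (P.pr j))⟩

/-- The sum over the patches of one member of the family. -/
def sum {V : Type*} [AddCommMonoid V] (u : P.J → E → V) (i : ι) (x : E) : V :=
  ∑ j ∈ (P.fin i).toFinset, u j x

/-- Admissible amplitudes. -/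
structure Amp (b : P.J → E → ℝ) : Prop where
  ne : ∀ j, ∀ x ∈ P.U j, b j x ≠ 0
  st : St (P.ctx d) b
  sti : St (P.ctx d) fun j x => (b j x)⁻¹

/-- The tensor that is added. -/
def T (K : ℕ) (b : P.J → E → ℝ) : ι → E → Bil :=
  P.sum fun j x => (P.χ j x ^ K * b j x) ^ 2 • tp (P.ξ j) (P.ξ j)

end Patch

end Crest.Agent.R216
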