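import Crest.Agent.R216.Basic

/-!
# Row 216: auxiliary lemmas for the second half of `Man.lean`
-/

set_option autoImplicit false
set_option linter.unusedSectionVars false

noncomputable section

namespace Crest.Agent.R216.ManB

open Set Metric Filter
open scoped Manifold ContDiff Topology RealInnerProductSpace

theorem contDiffAt_bil {X : Type} [NormedAddCommGroup X] [NormedSpace ℝ X]
    {a : E → X →L[ℝ] X →L[ℝ] ℝ} {b : E → E →L[ℝ] X} {x : E} (ha : ContDiffAt ℝ ∞ a x)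
    (hb : ContDiffAt ℝ ∞ b x) : ContDiffAt ℝ ∞ (fun y => (a y).bilinearComp (b y) (b y)) x := by
  have h := LinearIsometryEquiv.contDiff (𝕜 := ℝ) (E := E →L[ℝ] X →L[ℝ] ℝ)
    (F := X →L[ℝ] E →L[ℝ] ℝ) (n := ∞) (ContinuousLinearMap.flipₗᵢ ℝ E X ℝ)
  have h' := LinearIsometryEquiv.contDiff (𝕜 := ℝ) (E := E →L[ℝ] E →L[ℝ] ℝ)
    (F := E →L[ℝ] E →L[ℝ] ℝ) (n := ∞) (ContinuousLinearMap.flipₗᵢ ℝ E E ℝ)
  exact h'.contDiffAt.comp x ((h.contDiffAt.comp x (ha.clm_comp hb)).clm_comp hb)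

theorem contDiffAt_indE {f : E → V4} {x : E} (hf : ContDiffAt ℝ ∞ f x) :
    ContDiffAt ℝ ∞ (indE f) x :=
  contDiffAt_bil (contDiffAt_const (c := (innerSL ℝ : V4 →L[ℝ] V4 →L[ℝ] ℝ)))
    (hf.fderiv_right (by simp))

theorem sffE_congr {f g : E → V4} {x : E} (h : f =ᶠ[𝓝 x] g) (v w : E) :
    sffE f x v w = sffE g x v w := by
  have h1 : dd w f =ᶠ[𝓝 x] dd w g := (h.fderiv (𝕜 := ℝ)).mono fun y hy => by simp only [dd, hy]
  have h2 : dd v (dd w f) x = dd v (dd w g) x := by simp only [dd.eq_1 v, h1.fderiv_eq]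
  simp only [sffE, h2, h.fderiv_eq]

theorem sffE_comp {f : E → V4} {τ : E → E} {x : E} (hf : ContDiffAt ℝ ∞ f (τ x))
    (hτ : ContDiffAt ℝ ∞ τ x) (hs : Function.Surjective (fderiv ℝ τ x)) (v w : E) :
    sffE (fun y => f (τ y)) x v w = sffE f (τ x) (fderiv ℝ τ x v) (fderiv ℝ τ x w) := by
  have hf2 : ContDiffAt ℝ 2 f (τ x) := hf.of_le (WithTop.coe_le_coe.2 le_top)
  have hτ2 : ContDiffAt ℝ 2 τ x := hτ.of_le (WithTop.coe_le_coe.2 le_top)
  have hf1 : DifferentiableAt ℝ (fderiv ℝ f) (τ x) :=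
    (hf2.fderiv_right (m := 1) le_rfl).differentiableAt one_ne_zero
  have hτ1 : DifferentiableAt ℝ (fderiv ℝ τ) x :=
    (hτ2.fderiv_right (m := 1) le_rfl).differentiableAt one_ne_zero
  have hτ0 := hτ2.differentiableAt two_ne_zero
  have e1 : ∀ᶠ y in 𝓝 x, fderiv ℝ (fun y => f (τ y)) y = (fderiv ℝ f (τ y)).comp (fderiv ℝ τ y) := by
    filter_upwards [hτ2.eventually (by simp), hτ2.continuousAt.eventually (hf2.eventually (by simp))]
      with y h1 h2
    exact fderiv_comp y (h2.differentiableAt two_ne_zero) (h1.differentiableAt two_ne_zero)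
  have e2 : dd w (fun y => f (τ y)) =ᶠ[𝓝 x] fun y => fderiv ℝ f (τ y) (fderiv ℝ τ y w) :=
    e1.mono fun y hy => by simp only [dd, hy, ContinuousLinearMap.comp_apply]
  have e3 := (hf1.hasFDerivAt.comp x hτ0.hasFDerivAt).clm_apply
    (hτ1.hasFDerivAt.clm_apply (hasFDerivAt_const w x))
  have e4 := hf1.hasFDerivAt.clm_apply (hasFDerivAt_const (fderiv ℝ τ x w) (τ x))
  have e5 : dd v (dd w fun y => f (τ y)) x = fderiv ℝ f (τ x) (fderiv ℝ (fderiv ℝ τ) x v w) +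
      dd (fderiv ℝ τ x v) (dd (fderiv ℝ τ x w) f) (τ x) := by
    have e6 : dd (fderiv ℝ τ x w) f = fun y => fderiv ℝ f y (fderiv ℝ τ x w) := rfl
    rw [dd.eq_1 v, e2.fderiv_eq, dd.eq_1 (fderiv ℝ τ x v), e6, e4.fderiv]
    refine (congrArg (fun L : E →L[ℝ] V4 => L v) e3.fderiv).trans ?_
    simp
  have e7 : LinearMap.range (fderiv ℝ (fun y => f (τ y)) x : E →ₗ[ℝ] V4) =
      LinearMap.range (fderiv ℝ f (τ x) : E →ₗ[ℝ] V4) := by
    rw [e1.self_of_nhds]
    exact LinearMap.range_comp_of_range_eq_top (f := (fderiv ℝ τ x : E →ₗ[ℝ] E)) _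
      (LinearMap.range_eq_top.2 hs)
  simp only [sffE, e5, e7, map_add]
  rw [Submodule.starProjection_orthogonal_apply_eq_zero, zero_add]
  exact ⟨_, rfl⟩

variable {M : Type*} [TopologicalSpace M] [ChartedSpace E M] [IsManifold (𝓡 2) ∞ M]

theorem dQ_self {c : Ch M} {p : M} (h : c.e = chartAt E p) (v : E) : c.dQ p v = v := by
  rw [Ch.dQ, h, mfderiv_chartAt_eq_tangentCoordChange (mem_chart_source E p)]
  exact tangentCoordChange_self (mem_extChartAt_source p)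

theorem contMDiffAt_dP (c : Ch M) {x : E} (hx : x ∈ c.e.target) (v : E) :
    ContMDiffAt (𝓡 2) ((𝓡 2).prod 𝓘(ℝ, E)) ∞ (fun y => Bundle.TotalSpace.mk' E
      (E := (TangentSpace (𝓡 2) : M → Type)) (c.e.symm y) (c.dP y v)) x := by
  have hb : ContMDiffAt (𝓡 2) (𝓡 2) ∞ c.e.symm x := c.sm'.contMDiffAt (c.e.open_target.mem_nhds hx)
  exact ContMDiffAt.clm_apply_of_inCoordinates (b₁ := id) (hb.mfderiv_const (m := ∞) (by simp))
    (contMDiffAt_vectorSpace_iff_contDiffAt.2 (contDiffAt_const (c := v))) hb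

theorem smT_inner (g : Bundle.ContMDiffRiemannianMetric (𝓡 2) ∞ E
    (TangentSpace (𝓡 2) : M → Type)) : SmT (M := M) fun p => (g.inner p : Bil) := by
  intro c
  refine contDiffOn_clm_apply.2 fun v => contDiffOn_clm_apply.2 fun w x hx => ?_
  have hb : ContMDiffAt (𝓡 2) (𝓡 2) ∞ c.e.symm x := c.sm'.contMDiffAt (c.e.open_target.mem_nhds hx)
  have : ContMDiffAt (𝓡 2) ((𝓡 2).prod 𝓘(ℝ)) ∞ (fun y => Bundle.TotalSpace.mk' ℝ
      (E := Bundle.Trivial M ℝ) (c.e.symm y) (g.inner (c.e.symm y) (c.dP y v) (c.dP y w))) x := by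
    apply ContMDiffAt.clm_bundle_apply₂ (F₁ := E) (F₂ := E)
    · exact ContMDiffAt.comp x g.contMDiff.contMDiffAt hb
    · exact contMDiffAt_dP c hx v
    · exact contMDiffAt_dP c hx w
  rw [Bundle.contMDiffAt_totalSpace] at this
  exact (contMDiffAt_iff_contDiffAt.1 this.2).contDiffWithinAt

end Crest.Agent.R216.ManB
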