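import Crest.Agent.R216.Basic
import Crest.Agent.R216.ManAuxB

/-!
# Row 216: charts, tensors, second fundamental form (manifold bridge)
-/

set_option autoImplicit false
set_option linter.unusedSectionVars false

noncomputable section

namespace Crest.Agent.R216

open Set Metric Filter
open scoped Manifold ContDiff Topology RealInnerProductSpace

variable {M : Type*} [TopologicalSpace M] [ChartedSpace E M] [IsManifold (𝓡 2) ∞ M]
variable {V : Type*} [NormedAddCommGroup V] [NormedSpace ℝ V]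

/-- The preferred chart. -/
theorem exists_ch_chartAt (p : M) : ∃ c : Ch M, c.e = chartAt E p :=
  ⟨⟨chartAt E p, contMDiffOn_chart, contMDiffOn_chart_symm⟩, rfl⟩

/-- Composition of a chart with a diffeomorphism of the plane. -/
theorem Ch.exists_trans (c : Ch M) (φ : E ≃ₜ E) (h : ContDiff ℝ ∞ φ) (h' : ContDiff ℝ ∞ φ.symm) :
    ∃ c' : Ch M, c'.e.source = c.e.source ∧ c'.e.target = φ '' c.e.target ∧
      (∀ p, c'.e p = φ (c.e p)) ∧ ∀ x, c'.e.symm x = c.e.symm (φ.symm x) := by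
  refine ⟨⟨c.e.transHomeomorph φ, h.contMDiff.comp_contMDiffOn c.sm,
    c.sm'.comp h'.contMDiff.contMDiffOn fun x hx => hx⟩, rfl, ?_, fun _ => rfl, fun _ => rfl⟩
  exact (φ.image_eq_preimage_symm _).symm

theorem Ch.contDiffOn_rd (c : Ch M) {F : M → V} (hF : Sm F) :
    ContDiffOn ℝ ∞ (c.rd F) c.e.target :=
  contMDiffOn_iff_contDiffOn.1 (ContMDiff.comp_contMDiffOn hF c.sm')

theorem ManAuxA.smAt (c : Ch M) {p : M} (hp : p ∈ c.e.source) :
    ContMDiffAt (𝓡 2) (𝓡 2) ∞ c.e p :=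
  c.sm.contMDiffAt (c.e.open_source.mem_nhds hp)

theorem ManAuxA.smAt' (c : Ch M) {x : E} (hx : x ∈ c.e.target) :
    ContMDiffAt (𝓡 2) (𝓡 2) ∞ c.e.symm x :=
  c.sm'.contMDiffAt (c.e.open_target.mem_nhds hx)

theorem ManAuxA.mdiff (c : Ch M) : c.e.MDifferentiable (𝓡 2) (𝓡 2) :=
  ⟨c.sm.mdifferentiableOn (by simp), c.sm'.mdifferentiableOn (by simp)⟩

/-- Smoothness can be tested in charts. -/
theorem sm_of_ch {F : M → V}
    (h : ∀ p, ∃ c : Ch M, p ∈ c.e.source ∧ ContDiffAt ℝ ∞ (c.rd F) (c.e p)) : Sm F := by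
  intro p
  obtain ⟨c, hp, h⟩ := h p
  refine (h.contMDiffAt.comp p (ManAuxA.smAt c hp)).congr_of_eventuallyEq ?_
  filter_upwards [c.e.open_source.mem_nhds hp] with q hq
  simp only [Function.comp_apply, Ch.rd, c.e.left_inv hq]

theorem Ch.contDiffOn_tr (c c' : Ch M) :
    ContDiffOn ℝ ∞ (c.tr c') (c.e.target ∩ c.e.symm ⁻¹' c'.e.source) :=
  contMDiffOn_iff_contDiffOn.1 (c'.sm.comp' c.sm')

theorem Ch.isOpen_tr (c c' : Ch M) : IsOpen (c.e.target ∩ c.e.symm ⁻¹' c'.e.source) :=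
  c.e.isOpen_inter_preimage_symm c'.e.open_source

theorem Ch.dP_dQ (c : Ch M) {p : M} (hp : p ∈ c.e.source) (v : E) :
    c.dP (c.e p) (c.dQ p v) = v :=
  DFunLike.congr_fun ((ManAuxA.mdiff c).symm_comp_deriv hp) v

theorem Ch.dQ_dP (c : Ch M) {x : E} (hx : x ∈ c.e.target) (v : E) :
    c.dQ (c.e.symm x) (c.dP x v) = v :=
  DFunLike.congr_fun ((ManAuxA.mdiff c).comp_symm_deriv hx) v

theorem Ch.fderiv_tr (c c' : Ch M) {x : E} (hx : x ∈ c.e.target) (hx' : c.e.symm x ∈ c'.e.source)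
    (v : E) : fderiv ℝ (c.tr c') x v = c'.dQ (c.e.symm x) (c.dP x v) := by
  have h := mfderiv_comp x ((ManAuxA.smAt c' hx').mdifferentiableAt (by simp))
    ((ManAuxA.smAt' c hx).mdifferentiableAt (by simp))
  rw [mfderiv_eq_fderiv] at h
  exact DFunLike.congr_fun h v

theorem Ch.fderiv_rd (c : Ch M) {F : M → V} (hF : Sm F) {x : E} (hx : x ∈ c.e.target) (v : E) :
    fderiv ℝ (c.rd F) x v = dM F (c.e.symm x) (c.dP x v) := by
  have h := mfderiv_comp x ((hF (c.e.symm x)).mdifferentiableAt (by simp))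
    ((ManAuxA.smAt' c hx).mdifferentiableAt (by simp))
  rw [mfderiv_eq_fderiv] at h
  exact DFunLike.congr_fun h v

theorem dM_add {F F' : M → V} (hF : Sm F) (hF' : Sm F') (p : M) :
    dM (fun q => F q + F' q) p = dM F p + dM F' p :=
  (((hF p).mdifferentiableAt (by simp)).hasMFDerivAt.add
    ((hF' p).mdifferentiableAt (by simp)).hasMFDerivAt).mfderiv

theorem dM_smul {F : M → V} (hF : Sm F) (a : ℝ) (p : M) :
    dM (fun q => a • F q) p = a • dM F p :=
  (((hF p).mdifferentiableAt (by simp)).hasMFDerivAt.const_smul a).mfderiv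

theorem Ch.rd_ext (c : Ch M) (u : E → V) {x : E} (hx : x ∈ c.e.target) :
    c.rd (c.ext u) x = u x := by
  rw [Ch.rd, Ch.ext, if_pos (c.e.map_target hx), c.e.right_inv hx]

theorem ManAuxA.ext_zero [T2Space M] (c : Ch M) {W : Type*} [Zero W] {u : E → W}
    {K : Set E} (hK : IsCompact K) (hKc : K ⊆ c.e.target) (h0 : ∀ x ∈ c.e.target, x ∉ K → u x = 0)
    {p : M} (hp : p ∉ c.e.symm '' K) : ∀ᶠ q in 𝓝 p, c.ext u q = 0 := by
  have h1 : IsClosed (c.e.symm '' K) :=
    (hK.image_of_continuousOn (c.e.continuousOn_symm.mono hKc)).isClosed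
  filter_upwards [h1.isOpen_compl.mem_nhds hp] with q hq
  unfold Ch.ext
  split_ifs with h
  · exact h0 _ (c.e.map_source h) fun h2 => hq ⟨_, h2, c.e.left_inv h⟩
  · rfl

/-- Extension by zero of a function with compact support in the chart. -/
theorem Ch.sm_ext [T2Space M] (c : Ch M) {u : E → V} (hu : ContDiffOn ℝ ∞ u c.e.target)
    {K : Set E} (hK : IsCompact K) (hKc : K ⊆ c.e.target) (h0 : ∀ x ∈ c.e.target, x ∉ K → u x = 0) :
    Sm (c.ext u) := by
  intro p
  by_cases hp : p ∈ c.e.source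
  · have h1 := hu.contDiffAt (c.e.open_target.mem_nhds (c.e.map_source hp))
    refine (h1.contMDiffAt.comp p (ManAuxA.smAt c hp)).congr_of_eventuallyEq ?_
    filter_upwards [c.e.open_source.mem_nhds hp] with q hq
    simp only [Function.comp_apply, Ch.ext, if_pos hq]
  · refine (contMDiffAt_const (c := (0 : V))).congr_of_eventuallyEq
      (ManAuxA.ext_zero c hK hKc h0 ?_)
    rintro ⟨x, hx, rfl⟩
    exact hp (c.e.map_target (hKc hx))

theorem Ch.ext_eventually_zero [T2Space M] (c : Ch M) {W : Type*} [Zero W] {u : E → W}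
    {K : Set E} (hK : IsCompact K) (hKc : K ⊆ c.e.target) (h0 : ∀ x ∈ c.e.target, x ∉ K → u x = 0)
    {p : M} (hp : p ∉ c.e.symm '' K) : ∀ᶠ q in 𝓝 p, c.ext u q = 0 :=
  ManAuxA.ext_zero c hK hKc h0 hp

theorem Ch.pull_push (c : Ch M) (t : E → Bil) {x : E} (hx : x ∈ c.e.target) :
    c.pull (c.push t) x = t x := by
  ext1 v
  ext1 w
  simp only [Ch.pull, Ch.push, if_pos (c.e.map_target hx), c.e.right_inv hx,
    ContinuousLinearMap.bilinearComp_apply, c.dQ_dP hx]

theorem Ch.pull_tr (c c' : Ch M) (T : M → Bil) {x : E} (hx : x ∈ c.e.target)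
    (hx' : c.e.symm x ∈ c'.e.source) : c.pull T x =
      (c'.pull T (c.tr c' x)).bilinearComp (fderiv ℝ (c.tr c') x) (fderiv ℝ (c.tr c') x) := by
  ext1 v
  ext1 w
  simp only [Ch.pull, ContinuousLinearMap.bilinearComp_apply, c.fderiv_tr c' hx hx', Ch.tr.eq_1,
    c'.e.left_inv hx', c'.dP_dQ hx']

/-- A tensor is determined by its expression in a chart. -/
theorem Ch.eq_of_pull (c : Ch M) {T T' : M → Bil} {p : M} (hp : p ∈ c.e.source)
    (h : c.pull T (c.e p) = c.pull T' (c.e p)) : T p = T' p := by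
  ext1 v
  ext1 w
  have := congrArg (fun b : Bil => b (c.dQ p v) (c.dQ p w)) h
  simpa only [Ch.pull, ContinuousLinearMap.bilinearComp_apply, c.e.left_inv hp, c.dP_dQ hp]
    using this

theorem Ch.pull_ind (c : Ch M) {F : M → V4} (hF : Sm F) {x : E} (hx : x ∈ c.e.target) :
    c.pull (ind F) x = indE (c.rd F) x := by
  ext1 v
  ext1 w
  simp only [Ch.pull, ind, indE, ContinuousLinearMap.bilinearComp_apply, c.fderiv_rd hF hx]

theorem smT_of_ch {T : M → Bil}
    (h : ∀ p, ∃ c : Ch M, p ∈ c.e.source ∧ ContDiffAt ℝ ∞ (c.pull T) (c.e p)) : SmT T := by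
  intro c x hx
  obtain ⟨c', h1, h2⟩ := h (c.e.symm x)
  have hU := (c.isOpen_tr c').mem_nhds (⟨hx, h1⟩ : x ∈ c.e.target ∩ c.e.symm ⁻¹' c'.e.source)
  have ht := (c.contDiffOn_tr c').contDiffAt hU
  refine ContDiffAt.contDiffWithinAt (ContDiffAt.congr_of_eventuallyEq (ManB.contDiffAt_bil
    (ContDiffAt.comp x (g := c'.pull T) h2 ht) (ht.fderiv_right (by simp))) ?_)
  filter_upwards [hU] with y hy
  exact c.pull_tr c' T hy.1 hy.2

theorem smT_ind {F : M → V4} (hF : Sm F) : SmT (ind F) := fun c =>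
  ContDiffOn.congr (fun _ hx => (ManB.contDiffAt_indE ((c.contDiffOn_rd hF).contDiffAt
    (c.e.open_target.mem_nhds hx))).contDiffWithinAt) fun _ hx => c.pull_ind hF hx

theorem SmT.add {T T' : M → Bil} (h : SmT T) (h' : SmT T') : SmT fun p => T p + T' p :=
  fun c => ((h c).add (h' c)).congr fun x _ => by ext1 v; ext1 w; simp [Ch.pull]

theorem SmT.sub {T T' : M → Bil} (h : SmT T) (h' : SmT T') : SmT fun p => T p - T' p :=
  fun c => ((h c).sub (h' c)).congr fun x _ => by ext1 v; ext1 w; simp [Ch.pull]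

theorem SmT.smul {T : M → Bil} (h : SmT T) {f : M → ℝ} (hf : Sm f) :
    SmT fun p => f p • T p :=
  haveI : IsBoundedSMul ℝ Bil := NormedSpace.toIsBoundedSMul (𝕜 := ℝ) (E := Bil)
  fun c => ((c.contDiffOn_rd hf).smul (h c)).congr fun x _ => by
    ext1 v; ext1 w; simp [Ch.pull, Ch.rd]

theorem SmT.sum {α : Type*} (s : Finset α) {T : α → M → Bil} (h : ∀ a ∈ s, SmT (T a)) :
    SmT fun p => ∑ a ∈ s, T a p :=
  fun c => (ContDiffOn.sum fun a ha => h a ha c).congr fun x _ => by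
    ext1 v; ext1 w; simp [Ch.pull]

theorem Ch.smT_push [T2Space M] (c : Ch M) {t : E → Bil} (ht : ContDiffOn ℝ ∞ t c.e.target)
    {K : Set E} (hK : IsCompact K) (hKc : K ⊆ c.e.target) (h0 : ∀ x ∈ c.e.target, x ∉ K → t x = 0) :
    SmT (c.push t) := by
  refine smT_of_ch fun p => ?_
  by_cases hp : p ∈ c.e.source
  · have hU := c.e.open_target.mem_nhds (c.e.map_source hp)
    refine ⟨c, hp, (ht.contDiffAt hU).congr_of_eventuallyEq ?_⟩
    filter_upwards [hU] with y hy
    exact c.pull_push t hy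
  · obtain ⟨c', hc'⟩ := exists_ch_chartAt p
    have hp' : p ∈ c'.e.source := hc' ▸ mem_chart_source E p
    have h1 := c.ext_eventually_zero hK hKc h0 (p := p) fun ⟨x, hx, e⟩ =>
      hp (e ▸ c.e.map_target (hKc hx))
    refine ⟨c', hp', (contDiffAt_const (c := 0)).congr_of_eventuallyEq ?_⟩
    filter_upwards [(c'.e.tendsto_symm hp').eventually h1] with y hy
    ext1 v
    ext1 w
    simp only [Ch.ext] at hy
    simp only [Ch.pull, Ch.push]
    split_ifs at hy ⊢ with h2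
    · simp [hy]
    · simp

/-- The second fundamental form can be computed in every chart. -/
theorem Ch.sff_eq (c : Ch M) {F : M → V4} (hF : Sm F) {x : E} (hx : x ∈ c.e.target) (v w : E) :
    sff F (c.e.symm x) (c.dP x v) (c.dP x w) = sffE (c.rd F) x v w := by
  obtain ⟨c', hc'⟩ := exists_ch_chartAt (c.e.symm x)
  have hp' : c.e.symm x ∈ c'.e.source := hc' ▸ mem_chart_source E _
  have hU := (c.isOpen_tr c').mem_nhds (⟨hx, hp'⟩ : x ∈ c.e.target ∩ c.e.symm ⁻¹' c'.e.source)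
  have hd : ∀ u, fderiv ℝ (c.tr c') x u = c.dP x u := fun u => by
    rw [c.fderiv_tr c' hx hp', ManB.dQ_self hc']
  have e1 : c.rd F =ᶠ[𝓝 x] fun y => c'.rd F (c.tr c' y) := by
    filter_upwards [hU] with y hy
    simp only [Ch.rd, Ch.tr, c'.e.left_inv hy.2]
  rw [ManB.sffE_congr e1, ManB.sffE_comp ((c'.contDiffOn_rd hF).contDiffAt
    (c'.e.open_target.mem_nhds (c'.e.map_source hp'))) ((c.contDiffOn_tr c').contDiffAt hU)
    fun u => ⟨c.dQ (c.e.symm x) u, by
      have := c.dP_dQ (c.e.map_target hx) u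
      rwa [c.e.right_inv hx, ← hd] at this⟩, hd, hd, sff, ← hc']
  rfl

theorem exists_atl [T2Space M] [CompactSpace M] : Nonempty (Atl M) := by
  have h1 : ∀ p : M, ∃ c : Ch M, closedBall (0 : E) 3 ⊆ c.e.target ∧ p ∈ c.e.source ∧
      c.e p = 0 := fun p => by
    obtain ⟨c, hc⟩ := exists_ch_chartAt p
    have hp : p ∈ c.e.source := hc ▸ mem_chart_source E p
    obtain ⟨r, hr, h⟩ := nhds_basis_closedBall.mem_iff.1
      (c.e.open_target.mem_nhds (c.e.map_source hp))
    have hr' : 3 / r ≠ 0 := by positivity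
    obtain ⟨c', h1, h2, h3, -⟩ := c.exists_trans
      ((Homeomorph.addRight (-c.e p)).trans (Homeomorph.smulOfNeZero (3 / r) hr'))
      ((contDiff_id.add contDiff_const).const_smul (3 / r))
      ((contDiff_id.const_smul (3 / r)⁻¹).add contDiff_const)
    refine ⟨c', fun y hy => ?_, h1 ▸ hp, by simp [h3]⟩
    rw [h2]
    refine ⟨(3 / r)⁻¹ • y + c.e p, h ?_, by simp [smul_smul, hr.ne']⟩
    rw [mem_closedBall_zero_iff] at hy
    rw [mem_closedBall, dist_eq_norm, add_sub_cancel_right, norm_smul, inv_div,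
      Real.norm_of_nonneg (by positivity)]
    nlinarith
  choose c hc1 hc2 hc3 using h1
  have ho : ∀ p, IsOpen ((c p).e.source ∩ (c p).e ⁻¹' ball 0 1) := fun p =>
    (c p).e.isOpen_inter_preimage isOpen_ball
  obtain ⟨t, ht⟩ := isCompact_univ.elim_finite_subcover _ ho fun p _ =>
    mem_iUnion.2 ⟨p, hc2 p, by simp [hc3 p]⟩
  obtain ⟨f, hf⟩ := SmoothPartitionOfUnity.exists_isSubordinate (𝓡 2) isClosed_univ
    (fun a : Fin t.card => (c (t.equivFin.symm a)).e.source ∩
      (c (t.equivFin.symm a)).e ⁻¹' ball 0 1) (fun a => ho _) fun p hp => by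
      obtain ⟨q, hq, h⟩ := mem_iUnion₂.1 (ht hp)
      exact mem_iUnion.2 ⟨t.equivFin ⟨q, hq⟩, by simpa using h⟩
  refine ⟨⟨t.card, fun a => c (t.equivFin.symm a), fun a => hc1 _, fun a => f a,
    fun a => (f a).contMDiff, fun a p => f.nonneg a p, fun a p hp => ?_, fun p => ?_⟩⟩
  · have := hf a (subset_tsupport _ hp)
    exact ⟨this.1, mem_ball_zero_iff.1 this.2⟩
  · rw [← finsum_eq_sum_of_fintype]
    exact f.sum_eq_one (mem_univ p)

/-- The metric of the statement. -/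
theorem met_of_riemannian (g : Bundle.ContMDiffRiemannianMetric (𝓡 2) ∞ E
    (TangentSpace (𝓡 2) : M → Type)) : Met (M := M) fun p => (g.inner p : Bil) :=
  ⟨ManB.smT_inner g, g.symm, g.pos⟩

end Crest.Agent.R216
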