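import Crest.Agent.R216.MDefs

/-!
# Row 216: sums over the patches
-/

set_option autoImplicit false
set_option linter.unusedSectionVars false

noncomputable section

namespace Crest.Agent.R216

open Set Metric Filter
open scoped ContDiff Topology RealInnerProductSpace

universe u

namespace Patch

variable {ι : Type u} {σ : Sc ι} {H : ι → E → V4} {d : ℕ} (P : Patch σ H d)
  {V : Type} [NormedAddCommGroup V] [NormedSpace ℝ V]

theorem PatchLAux.chi_zero {j : P.J} {x : E} (hx : x ∉ P.U j) : P.χ j x = 0 :=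
  image_eq_zero_of_notMem_tsupport fun h => hx (P.suppχ j h)

theorem PatchLAux.term_zero (K : ℕ) (hK : 1 ≤ K) (b : P.J → E → ℝ) (j : P.J) (x : E)
    (h : P.χ j x = 0) : (P.χ j x ^ K * b j x) ^ 2 • tp (P.ξ j) (P.ξ j) = 0 := by
  rw [h, zero_pow (by omega), zero_mul, zero_pow two_ne_zero]
  ext v w
  simp

theorem PatchLAux.norm_smul_le {a C : ℝ} {v : V} (h0 : 0 ≤ a) (h1 : a ≤ 1) (hv : ‖v‖ ≤ C) :
    ‖a • v‖ ≤ C := by
  rw [norm_smul, Real.norm_eq_abs, abs_of_nonneg h0]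
  exact (mul_le_of_le_one_left (norm_nonneg _) h1).trans hv

theorem PatchLAux.norm_tp : ∃ C : ℝ, 0 ≤ C ∧ ∀ j, ‖tp (P.ξ j) (P.ξ j)‖ ≤ C := by
  obtain ⟨C, hC⟩ := P.bξ
  refine ⟨C * C, mul_self_nonneg C, fun j => ?_⟩
  rw [tp, ContinuousLinearMap.norm_smulRight_apply]
  exact mul_self_le_mul_self (norm_nonneg _) (hC j)

theorem sum_eq_zero {u : P.J → E → V} (h0 : ∀ j x, P.χ j x = 0 → u j x = 0) (i : ι) {x : E}
    (hx : x ∉ closedBall (0 : E) (3 / 2)) : P.sum u i x = 0 := by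
  refine Finset.sum_eq_zero fun j _ => h0 j x (PatchLAux.chi_zero P fun h => hx ?_)
  exact ball_subset_closedBall (P.sub j h)

/-- Near a point of a patch the sum has only one term. -/
theorem sum_eventuallyEq {u : P.J → E → V} (h0 : ∀ j x, P.χ j x = 0 → u j x = 0) (j : P.J) {x : E}
    (hx : x ∈ P.U j) : P.sum u (P.pr j) =ᶠ[𝓝 x] u j := by
  filter_upwards [(P.hU j).mem_nhds hx] with y hy
  refine Finset.sum_eq_single j (fun j' hj' hne => h0 j' y (PatchLAux.chi_zero P fun h => ?_))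
    fun hj => absurd ((P.fin _).mem_toFinset.2 rfl) hj
  have hp : P.pr j' = P.pr j := (P.fin _).mem_toFinset.1 hj'
  exact Set.disjoint_left.1 (P.disj j' j hne hp) h hy

theorem sum_eventually_zero {u : P.J → E → V} (h0 : ∀ j x, P.χ j x = 0 → u j x = 0) (i : ι) {x : E}
    (hx : ∀ j, P.pr j = i → x ∉ P.U j) : P.sum u i =ᶠ[𝓝 x] fun _ => 0 := by
  have h1 : ∀ j ∈ (P.fin i).toFinset, ∀ᶠ y in 𝓝 x, P.χ j y = 0 := fun j hj =>
    notMem_tsupport_iff_eventuallyEq.1 fun h => hx j ((P.fin i).mem_toFinset.1 hj) (P.suppχ j h)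
  filter_upwards [(Filter.eventually_all_finset _).2 h1] with y hy
  exact Finset.sum_eq_zero fun j hj => h0 j y (hy j hj)

/-- Bounds for the sum. -/
theorem bd_sum {u : P.J → E → V} (h0 : ∀ j x, P.χ j x = 0 → u j x = 0) {e k j : ℕ} {A : ι → ℝ}
    (hA : ∀ i, 0 ≤ A i) (h : Bd (P.ctx e) k j (fun q => A (P.pr q)) u) {U : Set E}
    (hU : IsOpen U) : Bd ((σ.pow e).ctx U hU) k j A (P.sum u) := by
  refine h.of_local hA fun i x _ => ?_
  by_cases hx : ∃ q, P.pr q = i ∧ x ∈ P.U q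
  · obtain ⟨q, rfl, hq⟩ := hx
    exact Or.inr ⟨q, hq, P.sum_eventuallyEq h0 q hq, le_rfl, le_rfl⟩
  · exact Or.inl (P.sum_eventually_zero h0 i fun q hq hx' => hx ⟨q, hq, hx'⟩)

theorem cl_T (K : ℕ) (hK : 1 ≤ K) {b : P.J → E → ℝ} (hb : St (P.ctx d) b) {U : Set E}
    (hU : IsOpen U) : Cl ((σ.pow d).ctx U hU) 2 (fun _ => 1) (P.T K b) := by
  intro k
  obtain ⟨C, -, hC⟩ := PatchLAux.norm_tp P
  have h1 : Cl (P.ctx d) 0 (fun _ => 1) P.χ := P.clχ
  have h2 := (h1.pow K).mul hb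
  have h3 : Cl (P.ctx d) 0 (fun _ => 1) fun j _ => tp (P.ξ j) (P.ξ j) := fun k =>
    Bd.const (fun _ => zero_le_one) (C := C) fun j => by rw [mul_one]; exact hC j
  have h4 := (h2.mul h2).smul h3
  have h5 : Cl (P.ctx d) 2 (fun _ => 1)
      fun j x => (P.χ j x ^ K * b j x) ^ 2 • tp (P.ξ j) (P.ξ j) :=
    (h4.size (fun _ => zero_le_one) (C := 1) fun i => by simp).congr fun j x _ => by rw [sq]
  exact P.bd_sum (A := fun _ => 1) (PatchLAux.term_zero P K hK b) (fun _ => zero_le_one) (h5 k) hU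

theorem T_eq_zero (K : ℕ) (hK : 1 ≤ K) (b : P.J → E → ℝ) (i : ι) {x : E}
    (hx : x ∉ closedBall (0 : E) (3 / 2)) : P.T K b i x = 0 := by
  exact P.sum_eq_zero (V := Bil) (PatchLAux.term_zero P K hK b) i hx

theorem T_symm (K : ℕ) (b : P.J → E → ℝ) (i : ι) (x v w : E) :
    P.T K b i x v w = P.T K b i x w v := by
  simp only [T, sum, tp, _root_.sum_apply, _root_.smul_apply,
    ContinuousLinearMap.smulRight_apply, smul_eq_mul]
  exact Finset.sum_congr rfl fun j _ => by ring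

/-- With `b = 1` the tensor is bounded independently of `K`. -/
theorem norm_T_one : ∃ C : ℝ, ∀ K : ℕ, 1 ≤ K → ∀ i x, ‖P.T K (fun _ _ => 1) i x‖ ≤ C := by
  obtain ⟨C, hC0, hC⟩ := PatchLAux.norm_tp P
  refine ⟨C, fun K hK i x => ?_⟩
  by_cases hx : ∃ q, P.pr q = i ∧ x ∈ P.U q
  · obtain ⟨q, rfl, hq⟩ := hx
    have e := (P.sum_eventuallyEq (V := Bil) (PatchLAux.term_zero P K hK fun _ _ => 1) q
      hq).eq_of_nhds
    rw [T, e, mul_one]
    have h1 : (P.χ q x ^ K) ^ 2 ≤ 1 :=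
      pow_le_one₀ (pow_nonneg (P.χ0 q x) _) (pow_le_one₀ (P.χ0 q x) (P.χ1 q x))
    exact PatchLAux.norm_smul_le (V := Bil) (sq_nonneg _) h1 (hC q)
  · have e := (P.sum_eventually_zero (V := Bil) (PatchLAux.term_zero P K hK fun _ _ => 1) i
      fun q hq hx' => hx ⟨q, hq, hx'⟩).eq_of_nhds
    rw [T, e]
    exact (norm_zero (E := Bil)).trans_le hC0

/-- A family on a ball, seen on the patches. -/
theorem bd_pr {f : ι → E → V} {e k j : ℕ} {A : ι → ℝ}
    (h : Bd ((σ.pow e).ctx (ball 0 2) isOpen_ball) k j A f) :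
    Bd (P.ctx e) k j (fun q => A (P.pr q)) fun q => f (P.pr q) := by
  exact h.reindex P.pr (c' := P.ctx e)
    (fun q => (P.sub q).trans (ball_subset_ball (by norm_num))) fun _ => le_rfl

end Patch

end Crest.Agent.R216
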