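import Crest.Agent.R216.PlanB
import Crest.Agent.R216.PatchL
import Crest.Agent.R216.MCl

/-!
# Row 216: the plan of a stage (auxiliary lemmas)
-/

set_option autoImplicit false
set_option linter.unusedSectionVars false

noncomputable section

namespace Crest.Agent.R216.PlanAux

open Set Metric Filter
open scoped Manifold ContDiff Topology RealInnerProductSpace

universe u

theorem exists_pos_le {α : Type*} [Finite α] {η : α → ℝ} (h : ∀ a, 0 < η a) :
    ∃ δ : ℝ, 0 < δ ∧ ∀ a, δ ≤ η a := by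
  have h1 : ∀ᶠ δ in 𝓝[>] (0 : ℝ), ∀ a, δ ≤ η a :=
    Filter.eventually_all.2 fun a => mem_of_superset (Ioc_mem_nhdsGT (h a)) fun _ hδ => hδ.2
  obtain ⟨δ, h2, h3⟩ := (h1.and self_mem_nhdsWithin).exists
  exact ⟨δ, h3, h2⟩

theorem norm_close (A T G S : Bil) {η a c : ℝ} (hη : 0 ≤ η)
    (hS : ∀ v w, S v w = A v w - η * T v w) (h1 : ‖A - G‖ ≤ a) (h2 : ‖T‖ ≤ c) :
    ‖S - G‖ ≤ a + η * c := by
  have ha : 0 ≤ a := (ContinuousLinearMap.opNorm_nonneg _).trans h1
  have hc : 0 ≤ c := (ContinuousLinearMap.opNorm_nonneg _).trans h2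
  refine ContinuousLinearMap.opNorm_le_bound₂ _ (by positivity) fun v w => ?_
  have e1 := (A - G).le_of_opNorm₂_le_of_le h1 (le_refl ‖v‖) (le_refl ‖w‖)
  have e2 := T.le_of_opNorm₂_le_of_le h2 (le_refl ‖v‖) (le_refl ‖w‖)
  have e3 : (S - G) v w = (A - G) v w - η * T v w := by
    simp only [sub_apply, hS]
    ring
  rw [e3]
  refine (norm_sub_le _ _).trans ?_
  rw [norm_mul, Real.norm_of_nonneg hη]
  have := mul_le_mul_of_nonneg_left e2 hη
  linarith

section patch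

variable {ι : Type u} {σ : Sc ι} {H : ι → E → V4} {d : ℕ}

/-- The same patches at a higher level. -/
def raise (P : Patch σ H d) {d' : ℕ} (hd : d ≤ d') : Patch σ H d' :=
  { P with
    clχ := fun k => (P.clχ k).ctx (fun _ => Subset.rfl)
      fun j => pow_le_pow_right₀ (σ.hM (P.pr j)) hd
    nd := by
      obtain ⟨C, hC⟩ := P.nd
      refine ⟨|C|, fun j x hx => (hC j x hx).trans ?_⟩
      have h1 := σ.hM (P.pr j)
      exact mul_le_mul (le_abs_self C) (mul_le_mul_of_nonneg_right (pow_le_pow_right₀ h1 hd)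
        (norm_nonneg _)) (by positivity) (abs_nonneg _) }

theorem st_one (P : Patch σ H d) : St (P.ctx d) fun _ _ => (1 : ℝ) :=
  St.const (a := fun _ => (1 : ℝ)) ⟨1, fun _ => norm_one.le⟩

theorem bd_T_zero (P : Patch σ H d) {K : ℕ} (hK : 1 ≤ K) :
    Bd ((σ.pow d).ctx (ball 0 2) isOpen_ball) 0 0 (fun _ => 1) (P.T K fun _ _ => 1) := by
  obtain ⟨C, hC⟩ := P.norm_T_one
  refine ⟨fun _ => zero_le_one, (P.cl_T K hK (st_one P) isOpen_ball).sm, C, fun i m hm x _ => ?_⟩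
  obtain rfl : m = 0 := by omega
  rw [norm_iteratedFDeriv_zero]
  simpa using hC K hK i x

theorem bc_apply {J : Type*} {V : Type*} [NormedAddCommGroup V] [NormedSpace ℝ V] {u : J → E}
    (h : Bc u) : Bc fun j => ContinuousLinearMap.apply ℝ V (u j) := by
  obtain ⟨C, hC⟩ := h
  refine ⟨C, fun i => ?_⟩
  refine le_trans (ContinuousLinearMap.opNorm_le_bound _ (norm_nonneg (u i)) fun L => ?_) (hC i)
  rw [mul_comm]
  exact L.le_opNorm (u i)

/-- The square of the amplitude. -/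
def sq (P : Patch σ H 17) (η : ℝ) (r : E → ℝ) (t : ι → E → Bil) (β : P.J → E → ℝ)
    (u u' : P.J → E) (j : P.J) (x : E) : ℝ :=
  η + r x * (β j x * t (P.pr j) x (u j) (u' j))

variable (P : Patch σ H 17) {η : ℝ} {r : E → ℝ} {t : ι → E → Bil} {β : P.J → E → ℝ}
  {u u' : P.J → E}

theorem amp (hη : 0 < η)
    (hr : Cl ((σ.pow 17).ctx (ball 0 2) isOpen_ball) 0 (fun _ => 1) fun _ => r)
    (ht : Cl ((σ.pow 17).ctx (ball 0 2) isOpen_ball) 2 (fun _ => 1) t)
    (hβ : Cl (P.ctx 17) 0 (fun _ => 1) β) (hu : Bc u) (hu' : Bc u')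
    (h0 : ∀ j, ∀ x ∈ P.U j, 0 ≤ r x * (β j x * t (P.pr j) x (u j) (u' j))) :
    (raise P (by norm_num : 17 ≤ 400)).Amp fun j x => √(sq P η r t β u u' j x) := by
  have hle : ∀ j, ∀ x ∈ P.U j, η ≤ sq P η r t β u u' j x := fun j x hx =>
    le_add_of_nonneg_right (h0 j x hx)
  have h1 : Cl (P.ctx 17) 0 (fun _ => 1) fun _ => r := fun k => P.bd_pr (hr k)
  have h2 : Cl (P.ctx 17) 2 (fun _ => 1) fun j => t (P.pr j) := fun k => P.bd_pr (ht k)
  have h3 : Cl (P.ctx 17) 2 (fun _ => 1) fun j x => t (P.pr j) x (u j) (u' j) :=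
    (h2.clm (bc_apply hu)).clm (bc_apply hu')
  have h4 : Cl (P.ctx 17) 2 (fun _ => 1)
      fun j x => r x * (β j x * t (P.pr j) x (u j) (u' j)) :=
    (h1.mul (hβ.mul h3)).size (fun _ => zero_le_one) (C := 1) fun j => by simp
  have h5 : Cl (P.ctx 17) 2 (fun _ => 1) fun _ _ => η :=
    Cl.mono (St.const (a := fun _ => η) ⟨‖η‖, fun _ => le_rfl⟩) (by norm_num)
  have h6 : St ((P.ctx 17).pow 2) (sq P η r t β u u') := (h5.add h4).toPow (by norm_num) le_rfl
  have low : ∀ {a : ℝ} {s : P.J → E → ℝ} (e : ℕ), 0 < a → (∀ j, ∀ x ∈ P.U j, a ≤ s j x) →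
      ∃ C : ℝ, ∀ j, ∀ x ∈ (P.ctx 17).U j, 1 ≤ C * ((P.ctx 17).M j ^ e * |s j x|) := by
    intro a s e ha hs
    refine ⟨a⁻¹, fun j x hx => ?_⟩
    rw [le_inv_mul_iff₀ ha, mul_one]
    exact ((hs j x hx).trans (le_abs_self _)).trans
      (le_mul_of_one_le_left (abs_nonneg _) (one_le_pow₀ ((P.ctx 17).hM j)))
  have h7 := h6.sqrt (fun j x hx => hη.le.trans (hle j x hx)) (low 2 hη hle)
  have h8 := h7.inv (low (3 * 2) (Real.sqrt_pos.2 hη) fun j x hx => Real.sqrt_le_sqrt (hle j x hx))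
  have up : ∀ {s : P.J → E → ℝ} (e : ℕ), 17 * e ≤ 400 → St ((P.ctx 17).pow e) s →
      St (P.ctx 400) s := fun e he hs k => (hs k).ctx (fun _ => Subset.rfl) fun j => by
    change (σ.M (P.pr j) ^ 17) ^ e ≤ σ.M (P.pr j) ^ 400
    rw [← pow_mul]
    exact pow_le_pow_right₀ (σ.hM _) he
  exact ⟨fun j x hx => (Real.sqrt_pos.2 (hη.trans_le (hle j x hx))).ne', up _ (by norm_num) h7,
    up _ (by norm_num) h8⟩

theorem T_eq {K : ℕ} (hK : 1 ≤ K) (hη : 0 < η) (hχ : ∀ j x, β j x ≠ 0 → P.χ j x = 1)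
    (h0 : ∀ j, ∀ x ∈ P.U j, 0 ≤ r x * (β j x * t (P.pr j) x (u j) (u' j))) (i : ι) (x : E) :
    P.T K (fun j x => √(sq P η r t β u u' j x)) i x = η • P.T K (fun _ _ => 1) i x +
      r x • P.sum (fun j y => (β j y * t i x (u j) (u' j)) • tp (P.ξ j) (P.ξ j)) i x := by
  simp only [Patch.T, Patch.sum, Finset.smul_sum, ← Finset.sum_add_distrib, smul_smul]
  refine Finset.sum_congr rfl fun j hj => ?_
  have hji : P.pr j = i := by simpa using hj
  have hadd : ∀ (a b : ℝ) (B : Bil), (a + b) • B = a • B + b • B := fun a b B => by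
    ext1 v
    ext1 w
    simp only [add_apply, smul_apply, smul_eq_mul, add_mul]
  rw [← hadd]
  congr 1
  by_cases h1 : P.χ j x = 0
  · have h2 : β j x = 0 := by
      by_contra h3
      rw [hχ j x h3] at h1
      exact one_ne_zero h1
    rw [h1, h2, zero_pow (by omega)]
    ring
  · have hx : x ∈ P.U j := P.suppχ j (subset_tsupport _ h1)
    rw [mul_pow, sq, Real.sq_sqrt (add_nonneg hη.le (h0 j x hx)), hji]
    by_cases h2 : β j x = 0
    · rw [h2]
      ring
    · rw [hχ j x h2]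
      ring

end patch

section manifold

variable {M : Type u} [TopologicalSpace M] [T2Space M] [CompactSpace M] [ChartedSpace E M]
  [IsManifold (𝓡 2) ∞ M]

theorem push_apply (c : Ch M) (t : E → Bil) {p : M} (hp : p ∈ c.e.source) (v w : E) :
    c.push t p v w = t (c.e p) (c.dQ p v) (c.dQ p w) := by
  rw [Ch.push, if_pos hp, ContinuousLinearMap.bilinearComp_apply]

theorem push_of_not (c : Ch M) (t : E → Bil) {p : M} (hp : p ∉ c.e.source) : c.push t p = 0 :=
  if_neg hp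

theorem push_symm (c : Ch M) {t : E → Bil} (ht : ∀ x v w, t x v w = t x w v) (p : M) (v w : E) :
    c.push t p v w = c.push t p w v := by
  by_cases hp : p ∈ c.e.source
  · rw [push_apply c t hp, push_apply c t hp, ht]
  · rw [push_of_not c t hp]
    rfl

theorem chart_id (c : Ch M) {α : Type} [Fintype α] (t t₁ : α → E → Bil) (η : ℝ) (r : ℝ)
    (S : M → Bil) {p : M} (hr : r ≠ 0 → p ∈ c.e.source)
    (h : p ∈ c.e.source → ∑ l, t l (c.e p) = η • ∑ l, t₁ l (c.e p) + r • c.pull S (c.e p)) :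
    ∑ l, c.push (t l) p = η • ∑ l, c.push (t₁ l) p + r • S p := by
  by_cases hp : p ∈ c.e.source
  · rw [← c.push_pull S hp]
    ext1 v
    ext1 w
    have := congrArg (fun b : Bil => b (c.dQ p v) (c.dQ p w)) (h hp)
    simpa only [sum_apply, add_apply, smul_apply, push_apply c _ hp] using this
  · have h0 : r = 0 := by
      by_contra h1
      exact hp (hr h1)
    ext1 v
    ext1 w
    simp [push_of_not c _ hp, h0]

theorem ball_sub (𝒜 : Atl M) (a : Fin 𝒜.n) {R : ℝ} (hR : R ≤ 3) :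
    closedBall (0 : E) R ⊆ (𝒜.c a).e.target :=
  (closedBall_subset_closedBall hR).trans (𝒜.sub a)

theorem tb_push (𝒜 : Atl M) (a : Fin 𝒜.n) {ι : Type u} {σ : Sc ι} {H : ι → E → V4} {d : ℕ}
    (P : Patch σ H d) {K : ℕ} (hK : 1 ≤ K) {k j : ℕ}
    (h : Bd ((σ.pow d).ctx (ball 0 2) isOpen_ball) k j (fun _ => 1) (P.T K fun _ _ => 1)) :
    TB (σ.pow d) k j (fun _ => 1) fun i => (𝒜.c a).push (P.T K (fun _ _ => 1) i) :=
  TB.push (𝒜.c a) isOpen_ball (isCompact_closedBall 0 (3 / 2))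
    (closedBall_subset_ball (by norm_num))
    (ball_subset_closedBall.trans (ball_sub 𝒜 a (by norm_num))) h
    fun i _ _ hx => P.T_eq_zero K hK _ i hx

end manifold

end Crest.Agent.R216.PlanAux
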