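import Crest.Agent.R216.PlanB
import Crest.Agent.R216.PatchL
import Crest.Agent.R216.MCl
import Crest.Agent.R216.PlanAux1

/-!
# Row 216: the plan of a stage
-/

set_option autoImplicit false
set_option linter.unusedSectionVars false

noncomputable section

namespace Crest.Agent.R216

open Set Metric Filter
open scoped Manifold ContDiff Topology RealInnerProductSpace

universe u

variable {M : Type u} [TopologicalSpace M] [T2Space M] [CompactSpace M] [ChartedSpace E M]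
  [IsManifold (𝓡 2) ∞ M]

theorem exists_plan (𝒜 : Atl M) {G : M → Bil} (hG : Met G) : ∃ η0 : ℝ, 0 < η0 ∧
    ∀ {ι : Type u} (σ : Sc ι) (F : ι → M → V4) (h : ι → M → Bil),
      (∀ k, MB (σ.pow 2) k 1 (fun _ => 1) F) → Ndg σ F → (∀ k, TB (σ.pow 4) k 1 (fun _ => 1) h) →
      (∀ i p v w, h i p v w = h i p w v) →
      (∀ i a, ∀ x ∈ ball (0 : E) 2, ‖(𝒜.c a).pull (h i) x - (𝒜.c a).pull G x‖ ≤ η0) →
      ∃ P : (q : Fin 𝒜.n × Fin 48) → Patch σ (fun i => (𝒜.c q.1).rd (F i)) 400,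
        ∀ K : ℕ, 1 ≤ K → ∃ b : ∀ q, (P q).J → E → ℝ, (∀ q, (P q).Amp (b q)) ∧
          ∀ i p, h i p = ∑ q, (𝒜.c q.1).push ((P q).T K (b q) i) p := by
  have hb3 : ∀ a, ball (0 : E) 3 ⊆ (𝒜.c a).e.target := fun a =>
    ball_subset_closedBall.trans (𝒜.sub a)
  choose ηa hηa hpat using fun a => exists_patches.{u} (G := (𝒜.c a).pull G)
    ((hG.sm (𝒜.c a)).mono (hb3 a)) ((𝒜.c a).pull_symm hG.symm)
    fun x hx v hv => hG.pull_pos (𝒜.c a) (hb3 a hx) hv
  obtain ⟨η₁, hη₁, hη₁'⟩ := PlanAux.exists_pos_le hηa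
  refine ⟨η₁ / 2, by positivity, fun {ι} σ F h hF hN hh hs hcl => ?_⟩
  choose P β u u' hP hid using fun a => hpat a σ (fun i => (𝒜.c a).rd (F i))
    (fun k => (hF k).atl 𝒜 a) (by
      obtain ⟨C, hC⟩ := hN (𝒜.c a) (closedBall 0 2) (isCompact_closedBall _ _)
        (PlanAux.ball_sub 𝒜 a (by norm_num))
      exact ⟨C, fun i x hx => hC i x (ball_subset_closedBall hx)⟩)
  refine ⟨fun q => PlanAux.raise (P q.1 q.2) (by norm_num), fun K hK => ?_⟩
  set T0 : ι → M → Bil := fun i p =>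
    ∑ q : Fin 𝒜.n × Fin 48, (𝒜.c q.1).push ((P q.1 q.2).T K (fun _ _ => 1) i) p with hT0
  have hT1 : ∀ k, TB (σ.pow 17) k 2 (fun _ => 1) T0 := fun k =>
    TB.sum Finset.univ (fun _ => zero_le_one) fun q _ => PlanAux.tb_push 𝒜 q.1 (P q.1 q.2) hK
      ((P q.1 q.2).cl_T K hK (PlanAux.st_one _) isOpen_ball k)
  have hT2 : TB (σ.pow 17) 0 0 (fun _ => 1) T0 :=
    TB.sum Finset.univ (fun _ => zero_le_one) fun q _ => PlanAux.tb_push 𝒜 q.1 (P q.1 q.2) hK
      (PlanAux.bd_T_zero _ hK)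
  choose Ca hCa hCa' using fun a => (hT2.atl 𝒜 a).norm_le
  obtain ⟨η, hη, hη'⟩ := PlanAux.exists_pos_le (η := fun a => η₁ / 2 / (Ca a + 1)) fun a => by
    have := hCa a
    positivity
  set h'' : ι → M → Bil := fun i p => h i p - η • T0 i p with hh''
  have hs'' : ∀ i p v w, h'' i p v w = h'' i p w v := by
    intro i p v w
    simp only [hh'', hT0, sub_apply, smul_apply, sum_apply, hs i p v w]
    congr 2
    exact Finset.sum_congr rfl fun q _ => PlanAux.push_symm _ ((P q.1 q.2).T_symm K _ i) p v w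
  have hb'' : ∀ k, TB (σ.pow 17) k 2 (fun _ => 1) h'' := fun k =>
    ((hh k).scale (fun _ => zero_le_one) (C := 1) fun i m _ => by
      change 1 * (σ.M i ^ 4) ^ (1 + m) ≤ 1 * (1 * (σ.M i ^ 17) ^ (2 + m))
      rw [one_mul, one_mul, one_mul, ← pow_mul, ← pow_mul]
      exact pow_le_pow_right₀ (σ.hM i) (by omega)).sub
      ((hT1 k).csmul (a := fun _ => η) (fun _ => zero_le_one) (C := |η|) fun _ => le_rfl)
  have hc'' : ∀ i a, ∀ x ∈ ball (0 : E) 2,
      ‖(𝒜.c a).pull (h'' i) x - (𝒜.c a).pull G x‖ ≤ ηa a := by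
    intro i a x hx
    have h1 : ‖(𝒜.c a).pull (T0 i) x‖ ≤ Ca a := by simpa using hCa' a i x hx
    have h2 : η * (Ca a + 1) ≤ η₁ / 2 := (le_div_iff₀ (by linarith [hCa a])).1 (hη' a)
    have h3 := PlanAux.norm_close _ _ _ ((𝒜.c a).pull (h'' i) x) hη.le (fun v w => by
      rw [hh'', Ch.pull_sub, Ch.pull_smul (𝒜.c a) (fun _ => η)]
      simp only [sub_apply, smul_apply, Ch.rd, smul_eq_mul]) (hcl i a x hx) h1
    linarith [hη₁' a]
  have h0 : ∀ a l j, ∀ x ∈ (P a l).U j, 0 ≤ (𝒜.c a).rd (𝒜.ρ a) x *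
      (β a l j x * (𝒜.c a).pull (h'' ((P a l).pr j)) x (u a l j) (u' a l j)) := by
    intro a l j x hx
    obtain ⟨b1, -, b3⟩ := (hP a l).2.2.2 j x
    exact mul_nonneg (𝒜.nonneg a _) (mul_nonneg b1 (b3 hx _ (hc'' _ a x
      (ball_subset_ball (by norm_num) ((P a l).sub j hx)))))
  refine ⟨fun q j x => √(PlanAux.sq (P q.1 q.2) η ((𝒜.c q.1).rd (𝒜.ρ q.1))
    (fun i => (𝒜.c q.1).pull (h'' i)) (β q.1 q.2) (u q.1 q.2) (u' q.1 q.2) j x),
    fun q => ?_, fun i p => ?_⟩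
  · exact PlanAux.amp (P q.1 q.2) hη (fun k => (MB.fixed (𝒜.sm q.1)).atl 𝒜 q.1)
      (fun k => (hb'' k).atl 𝒜 q.1) (hP q.1 q.2).2.2.1 (hP q.1 q.2).1 (hP q.1 q.2).2.1
      (h0 q.1 q.2)
  · have key : ∀ a, ∑ l, (𝒜.c a).push ((P a l).T K (fun j x => √(PlanAux.sq (P a l) η
        ((𝒜.c a).rd (𝒜.ρ a)) (fun i => (𝒜.c a).pull (h'' i)) (β a l) (u a l) (u' a l) j x)) i) p =
        η • ∑ l, (𝒜.c a).push ((P a l).T K (fun _ _ => 1) i) p + 𝒜.ρ a p • h'' i p := by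
      intro a
      refine PlanAux.chart_id (𝒜.c a) _ _ η _ (h'' i) (fun hr => (𝒜.supp a p hr).1) fun hp => ?_
      have e1 : (𝒜.c a).rd (𝒜.ρ a) ((𝒜.c a).e p) = 𝒜.ρ a p := by
        rw [Ch.rd, (𝒜.c a).e.left_inv hp]
      refine (Finset.sum_congr rfl fun l _ => PlanAux.T_eq (P a l)
        (r := (𝒜.c a).rd (𝒜.ρ a)) (t := fun i => (𝒜.c a).pull (h'' i)) (β := β a l)
        (u := u a l) (u' := u' a l) hK hη
        (fun j x => ((hP a l).2.2.2 j x).2.1) (h0 a l) i _).trans ?_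
      rw [Finset.sum_add_distrib, ← Finset.smul_sum, ← Finset.smul_sum, e1]
      congr 1
      by_cases hr : 𝒜.ρ a p = 0
      · ext1 v
        ext1 w
        simp only [hr, smul_apply, smul_eq_mul, zero_mul]
      · rw [hid a i _ (mem_ball_zero_iff.2 (𝒜.supp a p hr).2) _
          ((𝒜.c a).pull_symm (hs'' i) _)]
    rw [Fintype.sum_prod_type]
    refine Eq.trans ?_ (Finset.sum_congr rfl fun a _ => key a).symm
    rw [Finset.sum_add_distrib, ← Finset.smul_sum, ← Fintype.sum_prod_type']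
    ext1 v
    ext1 w
    simp only [add_apply, smul_apply, sum_apply, smul_eq_mul, ← Finset.sum_mul, 𝒜.sum p, hh'',
      hT0, sub_apply]
    ring

end Crest.Agent.R216
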