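import Crest.Agent.R216.MDefs

/-!
# Row 216: the partition of unity of the unit grid and the Lipschitz bound of `crD`
-/

set_option autoImplicit false

noncomputable section

namespace Crest.Agent.R216.PlanAAuxG

open Set Metric Filter
open scoped ContDiff Topology RealInnerProductSpace

/-- The one-dimensional bump. -/
def b1 (s : ℝ) : ℝ := Real.smoothTransition (s + 1) - Real.smoothTransition s

theorem b1_smooth : ContDiff ℝ ∞ b1 :=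
  (Real.smoothTransition.contDiff.comp (contDiff_id.add contDiff_const)).sub
    Real.smoothTransition.contDiff

theorem b1_nonneg (s : ℝ) : 0 ≤ b1 s :=
  sub_nonneg.2 (Real.smoothTransition.monotone (by linarith))

theorem b1_ne {s : ℝ} (h : b1 s ≠ 0) : -1 < s ∧ s < 1 := by
  constructor
  · by_contra h1
    rw [not_lt] at h1
    exact h (by
      rw [b1, Real.smoothTransition.zero_of_nonpos (by linarith),
        Real.smoothTransition.zero_of_nonpos (by linarith), sub_zero])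
  · by_contra h1
    rw [not_lt] at h1
    exact h (by
      rw [b1, Real.smoothTransition.one_of_one_le (by linarith),
        Real.smoothTransition.one_of_one_le (by linarith), sub_self])

theorem b1_mem {t : ℝ} {n : ℤ} (h : b1 (t - n) ≠ 0) : n ∈ ({⌊t⌋, ⌊t⌋ + 1} : Finset ℤ) := by
  obtain ⟨h1, h2⟩ := b1_ne h
  have h3 := Int.floor_le t
  have h4 := Int.lt_floor_add_one t
  have h5 : ((⌊t⌋ - 1 : ℤ) : ℝ) < n := by push_cast; linarith
  have h6 : (n : ℝ) < ((⌊t⌋ + 2 : ℤ) : ℝ) := by push_cast; linarith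
  have h7 : ⌊t⌋ - 1 < n := by exact_mod_cast h5
  have h8 : n < ⌊t⌋ + 2 := by exact_mod_cast h6
  simp only [Finset.mem_insert, Finset.mem_singleton]
  omega

theorem b1_sum (t : ℝ) : ∑ n ∈ ({⌊t⌋, ⌊t⌋ + 1} : Finset ℤ), b1 (t - n) = 1 := by
  have h3 := Int.floor_le t
  have h4 := Int.lt_floor_add_one t
  rw [Finset.sum_pair (by omega)]
  simp only [b1]
  push_cast
  rw [show t - (⌊t⌋ + 1) + 1 = t - ⌊t⌋ by ring,
    Real.smoothTransition.one_of_one_le (x := t - ⌊t⌋ + 1) (by linarith),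
    Real.smoothTransition.zero_of_nonpos (x := t - (⌊t⌋ + 1)) (by linarith)]
  ring

/-- The two-dimensional bump. -/
def b2 (x : E) : ℝ := b1 (x 0) * b1 (x 1)

theorem b2_smooth : ContDiff ℝ ∞ b2 :=
  (b1_smooth.comp (EuclideanSpace.proj (𝕜 := ℝ) (0 : Fin 2) : E →L[ℝ] ℝ).contDiff).mul
    (b1_smooth.comp (EuclideanSpace.proj (𝕜 := ℝ) (1 : Fin 2) : E →L[ℝ] ℝ).contDiff)

theorem b2_ne {x : E} (h : b2 x ≠ 0) : ‖x‖ < 3 / 2 := by
  obtain ⟨h0, h0'⟩ := b1_ne (left_ne_zero_of_mul h)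
  obtain ⟨h1, h1'⟩ := b1_ne (right_ne_zero_of_mul h)
  refine lt_of_pow_lt_pow_left₀ 2 (by norm_num) ?_
  rw [EuclideanSpace.real_norm_sq_eq, Fin.sum_univ_two]
  nlinarith

theorem b2_sub (x : E) (γ : ℤ × ℤ) :
    b2 (x - pt γ.1 γ.2) = b1 (x 0 - γ.1) * b1 (x 1 - γ.2) := by
  simp [b2, pt]

theorem b2_sum (x : E) (s : Finset (ℤ × ℤ))
    (hs : ∀ γ : ℤ × ℤ, b2 (x - pt γ.1 γ.2) ≠ 0 → γ ∈ s) :
    ∑ γ ∈ s, b2 (x - pt γ.1 γ.2) = 1 := by
  classical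
  set t : Finset (ℤ × ℤ) :=
    ({⌊x 0⌋, ⌊x 0⌋ + 1} : Finset ℤ) ×ˢ ({⌊x 1⌋, ⌊x 1⌋ + 1} : Finset ℤ) with ht
  have h1 : ∑ γ ∈ s, b2 (x - pt γ.1 γ.2) = ∑ γ ∈ s ∪ t, b2 (x - pt γ.1 γ.2) :=
    Finset.sum_subset Finset.subset_union_left fun γ _ hγ => by
      by_contra h
      exact hγ (hs γ h)
  have h2 : ∑ γ ∈ t, b2 (x - pt γ.1 γ.2) = ∑ γ ∈ s ∪ t, b2 (x - pt γ.1 γ.2) :=
    Finset.sum_subset Finset.subset_union_right fun γ _ hγ => by
      by_contra h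
      rw [b2_sub] at h
      exact hγ (Finset.mem_product.2
        ⟨b1_mem (left_ne_zero_of_mul h), b1_mem (right_ne_zero_of_mul h)⟩)
  rw [h1, ← h2, ht]
  simp only [b2_sub]
  rw [Finset.sum_product' (f := fun m n : ℤ => b1 (x 0 - m) * b1 (x 1 - n)),
    ← Finset.sum_mul_sum, b1_sum, b1_sum, one_mul]

theorem exists_grid : ∃ β χ : E → ℝ, ContDiff ℝ ∞ β ∧ ContDiff ℝ ∞ χ ∧ (∀ x, 0 ≤ β x) ∧
    (∀ x, β x ≠ 0 → χ x = 1 ∧ ‖x‖ < 3 / 2) ∧ (∀ x, 0 ≤ χ x) ∧ (∀ x, χ x ≤ 1) ∧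
    tsupport β ⊆ ball 0 (19 / 10) ∧ tsupport χ ⊆ ball 0 (19 / 10) ∧
    ∀ (x : E) (s : Finset (ℤ × ℤ)), (∀ γ : ℤ × ℤ, β (x - pt γ.1 γ.2) ≠ 0 → γ ∈ s) →
      ∑ γ ∈ s, β (x - pt γ.1 γ.2) = 1 := by
  let f : ContDiffBump (0 : E) := ⟨3 / 2, 17 / 10, by norm_num, by norm_num⟩
  refine ⟨b2, f, b2_smooth, f.contDiff, fun x => mul_nonneg (b1_nonneg _) (b1_nonneg _),
    fun x hx => ⟨f.one_of_mem_closedBall ?_, b2_ne hx⟩, fun x => f.nonneg, fun x => f.le_one,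
    ?_, ?_, b2_sum⟩
  · exact mem_closedBall_zero_iff.2 (b2_ne hx).le
  · refine (closure_minimal (t := closedBall 0 (3 / 2))
      (fun x hx => mem_closedBall_zero_iff.2 (b2_ne hx).le) isClosed_closedBall).trans ?_
    exact closedBall_subset_ball (by norm_num)
  · rw [f.tsupport_eq]
    exact closedBall_subset_ball (by show (17 / 10 : ℝ) < 19 / 10; norm_num)

theorem crD_lower {ι : Type*} {σ : Sc ι} {H : ι → E → V4}
    (hH : Cl ((σ.pow 2).ctx (ball 0 2) isOpen_ball) 1 (fun _ => 1) H) (C : ℝ) :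
    ∃ C' : ℝ, 0 ≤ C' ∧ ∀ i, ∀ x ∈ ball (0 : E) 2, ∀ y ∈ ball (0 : E) 2, ∀ z w : E, ‖z‖ ≤ C →
      ‖w‖ ≤ C → ‖crD (H i) y z w - crD (H i) x z w‖ ≤ C' * (σ.M i ^ 16 * ‖y - x‖) := by
  obtain ⟨L, hL⟩ := exists_crL
  let J := ι × {p : E × E // ‖p.1‖ ≤ C ∧ ‖p.2‖ ≤ C}
  let c : Ctx J E := ((σ.pow 2).comap Prod.fst).ctx (ball 0 2) isOpen_ball
  have h0 : Cl c 1 (fun _ => 1) fun q => H q.1 := fun k =>
    (hH k).reindex Prod.fst (c' := c) (fun _ => Subset.rfl) fun _ => le_rfl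
  have hz : Bc fun q : J => q.2.1.1 := ⟨C, fun q => q.2.2.1⟩
  have hw : Bc fun q : J => q.2.1.2 := ⟨C, fun q => q.2.2.2⟩
  have h1 := ((h0.dd hw).bilin L (h0.dd hz)).bilin
    (ContinuousLinearMap.id ℝ (V4 →L[ℝ] V4)) ((h0.dd hw).dd hw)
  have h2 : Cl c 7 (fun _ => 1) fun q x => crD (H q.1) x q.2.1.1 q.2.1.2 :=
    (h1.size (fun _ => zero_le_one) (C := 1) fun i => by simp).congr fun q x _ => by
      rw [crD, ← hL]
      rfl
  obtain ⟨C', hC0, hC'⟩ := (h2.fderiv 0).norm_le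
  refine ⟨C', hC0, fun i x hx y hy z w hz hw => ?_⟩
  let q : J := (i, ⟨(z, w), hz, hw⟩)
  have h3 := (convex_ball (0 : E) 2).norm_image_sub_le_of_norm_fderiv_le (𝕜 := ℝ)
    (f := fun x => crD (H i) x z w) (C := C' * σ.M i ^ 16)
    (fun x hx => (ClA2.contDiffAt (h2 0) (i := q) hx).differentiableAt (by simp))
    (fun x hx => (hC' q x hx).trans (le_of_eq ?_)) hx hy
  · rwa [mul_assoc] at h3
  · show C' * (1 * (σ.M i ^ 2) ^ (7 + 1)) = _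
    rw [one_mul, ← pow_mul]

end Crest.Agent.R216.PlanAAuxG
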