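import Crest.Agent.R216.Basic

/-!
# Row 216: three good directions (proof of `exists_triple`)
-/

set_option autoImplicit false

noncomputable section

namespace Crest.Agent.R216.PlanAAuxT

/-- Lagrange interpolation of a quadratic form on three directions. -/
theorem interp {V : Type*} [NormedAddCommGroup V] [NormedSpace ℝ V] (q : ℝ → ℝ → V) (P R S : V)
    (hq : ∀ x y, q x y = (x * x) • P + (x * y) • R + (y * y) • S) {a1 a2 b1 b2 c1 c2 x y K : ℝ}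
    (ha1 : |a1| ≤ 3) (ha2 : |a2| ≤ 3) (hb1 : |b1| ≤ 3) (hb2 : |b2| ≤ 3) (hc1 : |c1| ≤ 3)
    (hc2 : |c2| ≤ 3) (hx : |x| ≤ K) (hy : |y| ≤ K)
    (hD : 1 ≤ |(a1 * b2 - a2 * b1) * (a1 * c2 - a2 * c1) * (b1 * c2 - b2 * c1)|) :
    ‖q x y‖ ≤ 648 * K ^ 2 * (‖q a1 a2‖ + ‖q b1 b2‖ + ‖q c1 c2‖) := by
  have hK : 0 ≤ K := (abs_nonneg _).trans hx
  have d : ∀ {s1 s2 t1 t2 M : ℝ}, |s1| ≤ M → |s2| ≤ M → |t1| ≤ 3 → |t2| ≤ 3 →
      |s1 * t2 - s2 * t1| ≤ 6 * M := by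
    intro s1 s2 t1 t2 M h1 h2 h3 h4
    have hM : 0 ≤ M := (abs_nonneg _).trans h1
    have := abs_sub (s1 * t2) (s2 * t1)
    rw [abs_mul, abs_mul] at this
    linarith [mul_le_mul h1 h4 (abs_nonneg _) hM, mul_le_mul h2 h3 (abs_nonneg _) hM]
  have e : ∀ {s t r : ℝ} (v : V), |s| ≤ 6 * 3 → |t| ≤ 6 * K → |r| ≤ 6 * K →
      ‖(s * t * r) • v‖ ≤ 648 * K ^ 2 * ‖v‖ := by
    intro s t r v h1 h2 h3
    rw [norm_smul, Real.norm_eq_abs, abs_mul, abs_mul]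
    refine mul_le_mul_of_nonneg_right ?_ (norm_nonneg _)
    calc |s| * |t| * |r| ≤ 6 * 3 * (6 * K) * (6 * K) := by gcongr
      _ = 648 * K ^ 2 := by ring
  have key : ((a1 * b2 - a2 * b1) * (a1 * c2 - a2 * c1) * (b1 * c2 - b2 * c1)) • q x y =
      ((b1 * c2 - b2 * c1) * (x * b2 - y * b1) * (x * c2 - y * c1)) • q a1 a2 -
      ((a1 * c2 - a2 * c1) * (x * a2 - y * a1) * (x * c2 - y * c1)) • q b1 b2 +
      ((a1 * b2 - a2 * b1) * (x * a2 - y * a1) * (x * b2 - y * b1)) • q c1 c2 := by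
    simp only [hq]
    module
  have h1 := congrArg norm key
  rw [norm_smul, Real.norm_eq_abs] at h1
  have h2 := (norm_add_le _ _).trans (add_le_add ((norm_sub_le _ _).trans (add_le_add
    (e (q a1 a2) (d hb1 hb2 hc1 hc2) (d hx hy hb1 hb2) (d hx hy hc1 hc2))
    (e (q b1 b2) (d ha1 ha2 hc1 hc2) (d hx hy ha1 ha2) (d hx hy hc1 hc2))))
    (e (q c1 c2) (d ha1 ha2 hb1 hb2) (d hx hy ha1 ha2) (d hx hy hb1 hb2)))
  rw [← h1] at h2
  nlinarith [norm_nonneg (q x y)]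

theorem nle {V : Type*} [NormedAddCommGroup V] [NormedSpace ℝ V] {f g : V} {K a b : ℝ}
    (hf : ‖f‖ ≤ K) (hg : ‖g‖ ≤ K) {M : ℝ} (h : |a| + |b| ≤ M) : ‖a • f + b • g‖ ≤ M * K := by
  have hK : 0 ≤ K := (norm_nonneg _).trans hf
  refine (norm_add_le _ _).trans ?_
  rw [norm_smul, norm_smul, Real.norm_eq_abs, Real.norm_eq_abs]
  nlinarith [mul_le_mul_of_nonneg_left hf (abs_nonneg a), mul_le_mul_of_nonneg_left hg (abs_nonneg b),
    mul_le_mul_of_nonneg_right h hK]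

/-- The conclusion of `exists_triple`. -/
def Good (C : ℝ) (G : Bil) (Q : E →L[ℝ] E →L[ℝ] V4) (v0 : E) : Prop :=
  ∃ (w z u u' : Fin 3 → E) (ξ η : Fin 3 → E →L[ℝ] ℝ),
    (∀ l, ‖w l‖ ≤ C ∧ ‖z l‖ ≤ C ∧ ‖ξ l‖ ≤ C ∧ ‖η l‖ ≤ C ∧ ‖u l‖ ≤ C ∧ ‖u' l‖ ≤ C ∧
      ξ l (z l) = 1 ∧ ξ l (w l) = 0 ∧ η l (z l) = 0 ∧ η l (w l) = 1 ∧
      1 ≤ C * |z l 0 * w l 1 - z l 1 * w l 0| ∧ ‖Q v0 v0‖ ≤ C * ‖Q (w l) (w l)‖ ∧
      1 / 8 ≤ G (u l) (u' l)) ∧
    ∀ t : Bil, (∀ v w, t v w = t w v) → ∑ l, t (u l) (u' l) • tp (ξ l) (ξ l) = t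

/-- A conformal frame with its dual frame. -/
structure Fr (K : ℝ) (G : Bil) (f g : E) (φ ψ : E →L[ℝ] ℝ) : Prop where
  nf : ‖f‖ ≤ K
  ng : ‖g‖ ≤ K
  nφ : ‖φ‖ ≤ K
  nψ : ‖ψ‖ ≤ K
  φf : φ f = 1
  φg : φ g = 0
  ψf : ψ f = 0
  ψg : ψ g = 1
  dec : ∀ v, v = φ v • f + ψ v • g
  fg : G f g = 0
  gf : G g f = 0
  ff : G f f = G g g
  gg : 1 ≤ G g g

variable {K C : ℝ} {G : Bil} {f g : E} {φ ψ : E →L[ℝ] ℝ}

theorem Fr.det (h : Fr K G f g φ ψ) : 1 ≤ 2 * K ^ 2 * |f 0 * g 1 - f 1 * g 0| := by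
  have hK : 0 ≤ K := (norm_nonneg _).trans h.nf
  have a0 := congrArg (fun v : E => v 0) (h.dec es)
  have a1 := congrArg (fun v : E => v 1) (h.dec es)
  have b0 := congrArg (fun v : E => v 0) (h.dec et)
  have b1 := congrArg (fun v : E => v 1) (h.dec et)
  simp only [PiLp.add_apply, PiLp.smul_apply, smul_eq_mul] at a0 a1 b0 b1
  have e0 : es 0 = 1 := by simp [es]
  have e1 : es 1 = 0 := by simp [es]
  have t0 : et 0 = 0 := by simp [et]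
  have t1 : et 1 = 1 := by simp [et]
  have key : (φ es * ψ et - ψ es * φ et) * (f 0 * g 1 - f 1 * g 0) = 1 := by
    rw [e0] at a0; rw [e1] at a1; rw [t0] at b0; rw [t1] at b1
    linear_combination (-(φ et * f 1 + ψ et * g 1)) * a0 - b1 + (φ et * f 0 + ψ et * g 0) * a1
      + 0 * b0
  have n : ∀ (θ : E →L[ℝ] ℝ) (v : E), ‖θ‖ ≤ K → ‖v‖ = 1 → |θ v| ≤ K := fun θ v h1 h2 => by
    have := θ.le_opNorm v
    rw [h2, mul_one, Real.norm_eq_abs] at this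
    exact this.trans h1
  have ns : ‖es‖ = 1 := by simp [es]
  have nt : ‖et‖ = 1 := by simp [et]
  have h1 : |φ es * ψ et - ψ es * φ et| ≤ 2 * K ^ 2 := by
    have := abs_sub (φ es * ψ et) (ψ es * φ et)
    rw [abs_mul, abs_mul] at this
    nlinarith [mul_le_mul (n φ es h.nφ ns) (n ψ et h.nψ nt) (abs_nonneg _) hK,
      mul_le_mul (n ψ es h.nψ ns) (n φ et h.nφ nt) (abs_nonneg _) hK]
  have h2 := congrArg abs key
  rw [abs_mul, abs_one] at h2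
  rw [← h2]
  exact mul_le_mul_of_nonneg_right h1 (abs_nonneg _)

theorem Fr.good (h : Fr K G f g φ ψ) (h1 : 3 * K ≤ C) (h2 : 2 * K ^ 2 ≤ C)
    {Q : E →L[ℝ] E →L[ℝ] V4} {v0 : E}
    (hQ : ∀ c : ℝ, c = 0 ∨ c = 2 ∨ c = -2 →
      ‖Q v0 v0‖ ≤ C * ‖Q ((-c) • f + (1 : ℝ) • g) ((-c) • f + (1 : ℝ) • g)‖) : Good C G Q v0 := by
  have hK : 0 ≤ K := (norm_nonneg _).trans h.nf
  let c : Fin 3 → ℝ := ![0, 2, -2]
  let a : Fin 3 → ℝ := ![1, 0, 0]
  let b : Fin 3 → ℝ := ![-1 / 2, 1 / 2, -1 / 2]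
  let a' : Fin 3 → ℝ := ![1, 1 / 2, 1 / 2]
  let b' : Fin 3 → ℝ := ![1 / 2, 1 / 4, -1 / 4]
  refine ⟨fun l => (-c l) • f + (1 : ℝ) • g, fun _ => f, fun l => a l • f + b l • g,
    fun l => a' l • f + b' l • g, fun l => (1 : ℝ) • φ + c l • ψ, fun _ => ψ, fun l => ?_,
    fun t ht => ?_⟩
  · refine ⟨(nle h.nf h.ng ?_).trans h1, h.nf.trans (by linarith), (nle h.nφ h.nψ ?_).trans h1,
      h.nψ.trans (by linarith), (nle h.nf h.ng ?_).trans h1, (nle h.nf h.ng ?_).trans h1,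
      by simp [h.φf, h.ψf], by simp [h.φf, h.ψf, h.φg, h.ψg], h.ψf, by simp [h.ψf, h.ψg], ?_,
      hQ _ ?_, ?_⟩
    · fin_cases l <;> norm_num [c]
    · fin_cases l <;> norm_num [c]
    · fin_cases l <;> norm_num [a, b, abs_div]
    · fin_cases l <;> norm_num [a', b', abs_div]
    · have : f 0 * ((-c l) • f + (1 : ℝ) • g) 1 - f 1 * ((-c l) • f + (1 : ℝ) • g) 0 =
          f 0 * g 1 - f 1 * g 0 := by
        simp only [PiLp.add_apply, PiLp.smul_apply, smul_eq_mul]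
        ring
      rw [this]
      exact h.det.trans (mul_le_mul_of_nonneg_right h2 (abs_nonneg _))
    · fin_cases l <;> simp [c]
    · simp only [map_add, map_smul, add_apply, smul_apply,
        smul_eq_mul, h.fg, h.gf, h.ff]
      have := h.gg
      fin_cases l <;> simp [a, b, a', b'] <;> linarith
  · refine ContinuousLinearMap.ext fun v => ContinuousLinearMap.ext fun w => ?_
    conv_rhs => rw [h.dec v, h.dec w]
    simp only [Fin.sum_univ_three, tp, map_add, map_smul, add_apply,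
      smul_apply, ContinuousLinearMap.smulRight_apply, smul_eq_mul, ht g f]
    simp only [a, b, a', b', c, Matrix.cons_val_zero, Matrix.cons_val_one, Matrix.cons_val]
    ring

theorem Fr.swap (h : Fr K G f g φ ψ) : Fr K G g f ψ φ :=
  ⟨h.ng, h.nf, h.nψ, h.nφ, h.ψg, h.ψf, h.φg, h.φf, fun v => by rw [add_comm]; exact h.dec v,
    h.gf, h.fg, h.ff.symm, h.ff ▸ h.gg⟩

theorem Fr.mono (h : Fr K G f g φ ψ) {K' : ℝ} (hK : K ≤ K') : Fr K' G f g φ ψ :=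
  { h with nf := h.nf.trans hK, ng := h.ng.trans hK, nφ := h.nφ.trans hK, nψ := h.nψ.trans hK }

theorem Fr.rot (h : Fr K G f g φ ψ) : Fr (2 * K) G ((1 : ℝ) • f + (1 : ℝ) • g)
    ((1 : ℝ) • f + (-1 : ℝ) • g) ((1 / 2 : ℝ) • φ + (1 / 2 : ℝ) • ψ)
    ((1 / 2 : ℝ) • φ + (-1 / 2 : ℝ) • ψ) := by
  refine ⟨nle h.nf h.ng (by norm_num), nle h.nf h.ng (by norm_num),
    nle h.nφ h.nψ (by norm_num [abs_div]), nle h.nφ h.nψ (by norm_num [abs_div]), ?_, ?_, ?_, ?_,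
    fun v => ?_, ?_, ?_, ?_, ?_⟩
  pick_goal 5
  · conv_lhs => rw [h.dec v]
    simp only [add_apply, smul_apply, smul_eq_mul]
    module
  all_goals
    simp only [map_add, map_smul, add_apply, smul_apply,
      smul_eq_mul, h.fg, h.gf, h.ff, h.φf, h.φg, h.ψf, h.ψg]
    linarith [h.gg]

theorem exists_fr (c0 C0 : ℝ) (hc : 0 < c0) : ∃ K : ℝ, 1 ≤ K ∧ ∀ G : Bil,
    (∀ v w, G v w = G w v) → (∀ v, c0 * ‖v‖ ^ 2 ≤ G v v) → ‖G‖ ≤ C0 →
      ∃ f g, Fr K G f g (G f) (G g) := by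
  have hc' : 0 < 1 / c0 := by positivity
  refine ⟨(1 + |C0|) * (1 + 1 / c0), by nlinarith [abs_nonneg C0, mul_nonneg (abs_nonneg C0) hc'.le],
    fun G hs hp hn => ?_⟩
  have nrm : ∀ v : E, v ≠ 0 → ∃ s : ℝ, s ≠ 0 ∧ G (s • v) (s • v) = 1 := fun v hv => by
    have h1 : 0 < G v v := lt_of_lt_of_le (by positivity) (hp v)
    refine ⟨(√(G v v))⁻¹, by positivity, ?_⟩
    simp only [map_smul, smul_apply, smul_eq_mul]
    rw [← mul_assoc, ← mul_inv, Real.mul_self_sqrt h1.le, inv_mul_cancel₀ h1.ne']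
  have bd : ∀ v : E, G v v = 1 → ‖v‖ ≤ (1 + |C0|) * (1 + 1 / c0) ∧
      ‖G v‖ ≤ (1 + |C0|) * (1 + 1 / c0) := fun v hv => by
    have h1 : ‖v‖ ^ 2 ≤ 1 / c0 := by
      rw [le_div_iff₀' hc, ← hv]
      exact hp v
    have h2 : ‖v‖ ≤ 1 + 1 / c0 := by nlinarith [sq_nonneg (‖v‖ - 1)]
    have h3 := (G.le_opNorm v).trans
      (mul_le_mul (hn.trans (le_abs_self _)) h2 (norm_nonneg _) (abs_nonneg _))
    constructor <;> nlinarith [mul_nonneg (abs_nonneg C0) hc'.le, abs_nonneg C0]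
  obtain ⟨s, hs0, hf⟩ := nrm es fun e => by simpa [es] using congrArg (fun v : E => v 0) e
  obtain ⟨r, hr0, hg⟩ := nrm (et - G (s • es) et • s • es) fun e => by
    simpa [es, et] using congrArg (fun v : E => v 1) e
  have hfg : G (s • es) (r • (et - G (s • es) et • s • es)) = 0 := by
    rw [map_smul, map_sub, map_smul (G (s • es)) (G (s • es) et), hf]
    simp
  refine ⟨_, _, (bd _ hf).1, (bd _ hg).1, (bd _ hf).2, (bd _ hg).2, hf, hfg, (hs _ _).trans hfg, hg,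
    fun v => ?_, hfg, (hs _ _).trans hfg, hf.trans hg.symm, hg.ge⟩
  obtain ⟨a, b, rfl⟩ : ∃ a b : ℝ, v = a • s • es + b • r • (et - G (s • es) et • s • es) := by
    refine ⟨v 0 / s + v 1 * G (s • es) et, v 1 / r, ?_⟩
    ext i
    fin_cases i
    · simp [es, et]
      field_simp
      ring
    · simp [es, et]
      field_simp
  generalize s • es = f at *
  generalize r • (et - G f et • f) = g at *
  simp [hf, hg, hfg, hs g f]

theorem exists_good (c0 C0 : ℝ) (hc : 0 < c0) : ∃ C : ℝ, 1 ≤ C ∧ ∀ (G : Bil),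
    (∀ v w, G v w = G w v) → (∀ v, c0 * ‖v‖ ^ 2 ≤ G v v) → ‖G‖ ≤ C0 →
    ∀ (Q : E →L[ℝ] E →L[ℝ] V4), ∀ v0 : E, ‖v0‖ ≤ 1 → Good C G Q v0 := by
  obtain ⟨K, hK, H⟩ := exists_fr c0 C0 hc
  refine ⟨1944 * K ^ 2, by nlinarith, fun G hs hp hn Q v0 hv => ?_⟩
  obtain ⟨f, g, h⟩ := H G hs hp hn
  generalize G f = φ at h
  generalize G g = ψ at h
  by_contra hne
  have h1 := mt (h.good (C := 1944 * K ^ 2) (by nlinarith) (by nlinarith)) hne
  have h2 := mt (h.swap.good (C := 1944 * K ^ 2) (by nlinarith) (by nlinarith)) hne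
  have h3 := mt (h.rot.good (C := 1944 * K ^ 2) (by nlinarith) (by nlinarith)) hne
  push Not at h1 h2 h3
  obtain ⟨a, ha, h1⟩ := h1
  obtain ⟨b, hb, h2⟩ := h2
  obtain ⟨c, hc, h3⟩ := h3
  rw [add_comm] at h2
  rw [show (-c) • ((1 : ℝ) • f + (1 : ℝ) • g) + (1 : ℝ) • ((1 : ℝ) • f + (-1 : ℝ) • g) =
    (1 - c) • f + (-1 - c) • g by module] at h3
  have n : ∀ θ : E →L[ℝ] ℝ, ‖θ‖ ≤ K → |θ v0| ≤ K := fun θ h1 =>
    (θ.le_opNorm v0).trans (by nlinarith [norm_nonneg θ, norm_nonneg v0])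
  have key := interp (fun x y => Q (x • f + y • g) (x • f + y • g)) (Q f f) (Q f g + Q g f) (Q g g)
    (fun x y => by
      simp only [map_add, map_smul, add_apply, smul_apply]
      module) (a1 := -a) (a2 := 1) (b1 := 1) (b2 := -b) (c1 := 1 - c) (c2 := -1 - c)
    (by rcases ha with rfl | rfl | rfl <;> norm_num) (by norm_num) (by norm_num)
    (by rcases hb with rfl | rfl | rfl <;> norm_num)
    (by rcases hc with rfl | rfl | rfl <;> norm_num)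
    (by rcases hc with rfl | rfl | rfl <;> norm_num) (n φ h.nφ) (n ψ h.nψ)
    (by rcases ha with rfl | rfl | rfl <;> rcases hb with rfl | rfl | rfl <;>
      rcases hc with rfl | rfl | rfl <;> norm_num)
  rw [← h.dec v0] at key
  linarith

end Crest.Agent.R216.PlanAAuxT
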