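import Crest.Agent.R216.MDefs
import Crest.Agent.R216.PlanAAuxG
import Crest.Agent.R216.PlanAAuxT

/-!
# Row 216: good directions and the grid
-/

set_option autoImplicit false
set_option linter.unusedSectionVars false

noncomputable section

namespace Crest.Agent.R216

open Set Metric Filter
open scoped ContDiff Topology RealInnerProductSpace

universe u

/-- Three good directions adapted to a metric. -/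
theorem exists_triple (c0 C0 : ℝ) (hc : 0 < c0) : ∃ C : ℝ, 1 ≤ C ∧ ∀ (G : Bil),
    (∀ v w, G v w = G w v) → (∀ v, c0 * ‖v‖ ^ 2 ≤ G v v) → ‖G‖ ≤ C0 →
    ∀ (Q : E →L[ℝ] E →L[ℝ] V4), (∀ v w, Q v w = Q w v) → ∀ v0 : E, ‖v0‖ ≤ 1 →
    ∃ (w z u u' : Fin 3 → E) (ξ η : Fin 3 → E →L[ℝ] ℝ),
      (∀ l, ‖w l‖ ≤ C ∧ ‖z l‖ ≤ C ∧ ‖ξ l‖ ≤ C ∧ ‖η l‖ ≤ C ∧ ‖u l‖ ≤ C ∧ ‖u' l‖ ≤ C ∧
        ξ l (z l) = 1 ∧ ξ l (w l) = 0 ∧ η l (z l) = 0 ∧ η l (w l) = 1 ∧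
        1 ≤ C * |z l 0 * w l 1 - z l 1 * w l 0| ∧ ‖Q v0 v0‖ ≤ C * ‖Q (w l) (w l)‖ ∧
        1 / 8 ≤ G (u l) (u' l)) ∧
      ∀ t : Bil, (∀ v w, t v w = t w v) → ∑ l, t (u l) (u' l) • tp (ξ l) (ξ l) = t := by
  obtain ⟨C, hC, h⟩ := PlanAAuxT.exists_good c0 C0 hc
  exact ⟨C, hC, fun G h1 h2 h3 Q _ v0 hv => h G h1 h2 h3 Q v0 hv⟩

/-- The partition of unity of the unit grid. -/
theorem exists_grid : ∃ β χ : E → ℝ, ContDiff ℝ ∞ β ∧ ContDiff ℝ ∞ χ ∧ (∀ x, 0 ≤ β x) ∧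
    (∀ x, β x ≠ 0 → χ x = 1 ∧ ‖x‖ < 3 / 2) ∧ (∀ x, 0 ≤ χ x) ∧ (∀ x, χ x ≤ 1) ∧
    tsupport β ⊆ ball 0 (19 / 10) ∧ tsupport χ ⊆ ball 0 (19 / 10) ∧
    ∀ (x : E) (s : Finset (ℤ × ℤ)), (∀ γ : ℤ × ℤ, β (x - pt γ.1 γ.2) ≠ 0 → γ ∈ s) →
      ∑ γ ∈ s, β (x - pt γ.1 γ.2) = 1 :=
  PlanAAuxG.exists_grid

/-- Good directions stay good on a small disc. -/
theorem crD_lower {ι : Type*} {σ : Sc ι} {H : ι → E → V4}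
    (hH : Cl ((σ.pow 2).ctx (ball 0 2) isOpen_ball) 1 (fun _ => 1) H) (C : ℝ) :
    ∃ C' : ℝ, 0 ≤ C' ∧ ∀ i, ∀ x ∈ ball (0 : E) 2, ∀ y ∈ ball (0 : E) 2, ∀ z w : E, ‖z‖ ≤ C → ‖w‖ ≤ C →
      ‖crD (H i) y z w - crD (H i) x z w‖ ≤ C' * (σ.M i ^ 16 * ‖y - x‖) :=
  PlanAAuxG.crD_lower hH C

end Crest.Agent.R216
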