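import Crest.Agent.R216.PlanA

/-!
# Row 216: the patches of one chart
-/

set_option autoImplicit false
set_option linter.unusedSectionVars false

noncomputable section

namespace Crest.Agent.R216

open Set Metric Filter
open scoped ContDiff Topology RealInnerProductSpace

universe u

namespace PlanBAux

theorem sub23 : closedBall (0 : E) 2 ⊆ ball 0 3 := closedBall_subset_ball (by norm_num)

/-- Uniform coercivity on the closed disc. -/
theorem exists_c0 {G : E → Bil} (hG : ContDiffOn ℝ ∞ G (ball 0 3))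
    (hp : ∀ x ∈ ball (0 : E) 3, ∀ v, v ≠ 0 → 0 < G x v v) :
    ∃ c0 : ℝ, 0 < c0 ∧ ∀ x ∈ closedBall (0 : E) 2, ∀ v, c0 * ‖v‖ ^ 2 ≤ G x v v := by
  have hK : IsCompact (closedBall (0 : E) 2 ×ˢ sphere (0 : E) 1) :=
    (isCompact_closedBall _ _).prod (isCompact_sphere _ _)
  have hc : ContinuousOn (fun q : E × E => G q.1 q.2 q.2) (closedBall (0 : E) 2 ×ˢ sphere (0 : E) 1) :=
    (((hG.continuousOn.comp continuousOn_fst fun q hq => sub23 hq.1)).clm_apply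
      continuousOn_snd).clm_apply continuousOn_snd
  obtain ⟨c0, hc0, h⟩ := hK.exists_forall_le' hc (a := 0) fun q hq => hp q.1 (sub23 hq.1) q.2 (by
    intro h0
    have := hq.2
    rw [h0] at this
    simp at this)
  refine ⟨c0, hc0, fun x hx v => ?_⟩
  rcases eq_or_ne v 0 with rfl | hv
  · simp
  · have hn : 0 < ‖v‖ := norm_pos_iff.2 hv
    have h1 := h (x, ‖v‖⁻¹ • v) ⟨hx, by
      rw [mem_sphere_zero_iff_norm, norm_smul, norm_inv, norm_norm, inv_mul_cancel₀ hn.ne']⟩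
    simp only [map_smul, smul_apply, smul_eq_mul] at h1
    have h2 := mul_le_mul_of_nonneg_right h1 (sq_nonneg ‖v‖)
    calc c0 * ‖v‖ ^ 2 ≤ _ := h2
      _ = G x v v := by field_simp

/-- Size and Lipschitz bounds on the closed disc. -/
theorem exists_lip {G : E → Bil} (hG : ContDiffOn ℝ ∞ G (ball 0 3)) :
    ∃ L : ℝ, 0 < L ∧ (∀ x ∈ closedBall (0 : E) 2, ‖G x‖ ≤ L) ∧
      ∀ x ∈ closedBall (0 : E) 2, ∀ y ∈ closedBall (0 : E) 2, ‖G y - G x‖ ≤ L * ‖y - x‖ := by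
  obtain ⟨C, hC0, hC⟩ := ClA2.compact_bd isOpen_ball hG (isCompact_closedBall _ _) sub23 1
  refine ⟨C + 1, by linarith, fun x hx => ?_, fun x hx y hy => ?_⟩
  · have := hC 0 zero_le_one x hx
    rw [norm_iteratedFDeriv_zero] at this
    linarith
  · refine (convex_closedBall (0 : E) 2).norm_image_sub_le_of_norm_fderiv_le (𝕜 := ℝ) (f := G)
      (fun z hz => ?_) (fun z hz => ?_) hx hy
    · exact (hG.contDiffAt (isOpen_ball.mem_nhds (sub23 hz))).differentiableAt (by simp)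
    · have := hC 1 le_rfl z hz
      rw [norm_iteratedFDeriv_one] at this
      linarith

/-- The rescaled functions. -/
theorem cl_rescale {J : Type*} {f : E → ℝ} (hf : ContDiff ℝ ∞ f) (c : Ctx J E) {a : ℝ} (ha : 0 < a)
    (p : J → E) (hU : ∀ j, ∀ x ∈ c.U j, ‖(a / c.M j)⁻¹ • x - p j‖ < 2) :
    Cl c 0 (fun _ => 1) fun j x => f ((a / c.M j)⁻¹ • x - p j) := by
  intro k
  have h0 : Bd ((Sc.one J).ctx (ball (0 : E) 2) isOpen_ball) k 0 (fun _ => 1) fun _ => f :=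
    Bd.of_compact isOpen_univ hf.contDiffOn (isCompact_closedBall 0 2) (subset_univ _)
      fun _ => ball_subset_closedBall
  have h1 := h0.comp (c' := c) (g := fun j x => (a / c.M j)⁻¹ • x - p j) (N := c.M) c.hM
    (fun j => by fun_prop) (fun j x hx => mem_ball_zero_iff.2 (hU j x hx)) ⟨a⁻¹, ?_⟩
    (fun j => by show 1 * c.M j ≤ c.M j; rw [one_mul])
  · refine h1.size (fun _ => zero_le_one) (C := 1) fun i => ?_
    simp
  · intro j m hm _ y _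
    have hM : 0 < c.M j := zero_lt_one.trans_le (c.hM j)
    obtain ⟨n, rfl⟩ : ∃ n, m = n + 1 := ⟨m - 1, by omega⟩
    rw [← norm_iteratedFDeriv_fderiv]
    have e : (fderiv ℝ fun x : E => (a / c.M j)⁻¹ • x - p j) =
        fun _ => (a / c.M j)⁻¹ • ContinuousLinearMap.id ℝ E := by
      funext q
      exact (((hasFDerivAt_id q).const_smul (a / c.M j)⁻¹).sub_const (p j)).fderiv
    rw [e]
    rcases Nat.eq_zero_or_pos n with rfl | hn
    · rw [norm_iteratedFDeriv_zero, norm_smul, ContinuousLinearMap.norm_id, mul_one,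
        Real.norm_eq_abs, abs_of_pos (by positivity), zero_add, pow_one, inv_div, div_eq_inv_mul]
    · rw [iteratedFDeriv_const_of_ne hn.ne']
      simp only [Pi.zero_apply, norm_zero]
      positivity

theorem cl_rescale' {J : Type*} {f : E → ℝ} (hf : ContDiff ℝ ∞ f) (U : J → Set E) (M : J → ℝ)
    (hUo : ∀ j, IsOpen (U j)) (hM : ∀ j, 1 ≤ M j) {a : ℝ} (ha : 0 < a)
    (p : J → E) (hU : ∀ j, ∀ x ∈ U j, ‖(a / M j)⁻¹ • x - p j‖ < 2) :
    Cl ⟨U, M, hUo, hM⟩ 0 (fun _ => 1) fun j x => f ((a / M j)⁻¹ • x - p j) :=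
  cl_rescale hf ⟨U, M, hUo, hM⟩ ha p hU

/-- The colour of a grid point. -/
def col (γ : ℤ × ℤ) : ZMod 4 × ZMod 4 := ((γ.1 : ZMod 4), (γ.2 : ZMod 4))

/-- The grid point. -/
def gp (γ : ℤ × ℤ) : E := pt γ.1 γ.2

theorem abs_le_norm (v : E) (i : Fin 2) : |v i| ≤ ‖v‖ := by
  simpa using PiLp.norm_apply_le v i

theorem four_le {m n : ℤ} (h : (m : ZMod 4) = n) (hne : m ≠ n) : (4 : ℝ) ≤ |(m : ℝ) - n| := by
  have h1 : (4 : ℤ) ∣ n - m := by exact_mod_cast (ZMod.intCast_eq_intCast_iff_dvd_sub m n 4).1 h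
  have h2 : (4 : ℤ) ≤ |n - m| := Int.le_of_dvd (abs_pos.2 (sub_ne_zero.2 hne.symm)) ((dvd_abs _ _).2 h1)
  rw [abs_sub_comm]
  exact_mod_cast h2

theorem dist_gp {γ γ' : ℤ × ℤ} (h : col γ = col γ') (hne : γ ≠ γ') : 4 ≤ ‖gp γ - gp γ'‖ := by
  by_cases h1 : γ.1 = γ'.1
  · have h2 : γ.2 ≠ γ'.2 := fun h2 => hne (Prod.ext h1 h2)
    refine (four_le (congrArg Prod.snd h) h2).trans ?_
    simpa [gp, pt] using abs_le_norm (gp γ - gp γ') 1
  · refine (four_le (congrArg Prod.fst h) h1).trans ?_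
    simpa [gp, pt] using abs_le_norm (gp γ - gp γ') 0

theorem finite_gp {r : ℝ} (hr : 0 < r) : {γ : ℤ × ℤ | ‖r • gp γ‖ < 5 / 4}.Finite := by
  obtain ⟨N, hN⟩ := exists_nat_ge (5 / 4 / r)
  refine ((finite_Icc (-(N : ℤ)) N).prod (finite_Icc (-(N : ℤ)) N)).subset fun γ hγ => ?_
  have h1 : ‖gp γ‖ ≤ N := by
    refine le_trans ?_ hN
    rw [le_div_iff₀ hr]
    have : ‖r • gp γ‖ < 5 / 4 := hγ
    rw [norm_smul, Real.norm_eq_abs, abs_of_pos hr] at this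
    linarith
  have h2 : |(γ.1 : ℝ)| ≤ N := le_trans (by simpa [gp, pt] using abs_le_norm (gp γ) 0) h1
  have h3 : |(γ.2 : ℝ)| ≤ N := le_trans (by simpa [gp, pt] using abs_le_norm (gp γ) 1) h1
  have h4 : |γ.1| ≤ (N : ℤ) := by exact_mod_cast h2
  have h5 : |γ.2| ≤ (N : ℤ) := by exact_mod_cast h3
  exact ⟨abs_le.1 h4, abs_le.1 h5⟩

theorem norm_resc {r : ℝ} (hr : 0 < r) (x p : E) : ‖x - r • p‖ = r * ‖r⁻¹ • x - p‖ := by
  have : x - r • p = r • (r⁻¹ • x - p) := by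
    rw [smul_sub, smul_smul, mul_inv_cancel₀ hr.ne', one_smul]
  rw [this, norm_smul, Real.norm_eq_abs, abs_of_pos hr]

theorem mem_resc {r : ℝ} (hr : 0 < r) {x p : E} :
    x ∈ ball (r • p) (19 / 10 * r) ↔ ‖r⁻¹ • x - p‖ < 19 / 10 := by
  rw [mem_ball, dist_eq_norm, norm_resc hr, mul_comm, mul_lt_mul_iff_left₀ hr]

theorem supp_resc {r : ℝ} (hr : 0 < r) (p : E) {f : E → ℝ} (hf : tsupport f ⊆ ball 0 (19 / 10)) :
    tsupport (fun x => f (r⁻¹ • x - p)) ⊆ ball (r • p) (19 / 10 * r) := by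
  intro x hx
  have hc : Continuous fun x : E => r⁻¹ • x - p := by fun_prop
  have h1 : tsupport (fun x => f (r⁻¹ • x - p)) ⊆ (fun x : E => r⁻¹ • x - p) ⁻¹' tsupport f :=
    closure_minimal (fun y hy => subset_tsupport f hy) ((isClosed_tsupport f).preimage hc)
  exact (mem_resc hr).2 (mem_ball_zero_iff.1 (hf (h1 hx)))

/-- The second fundamental form as a bilinear map. -/
theorem exists_Q {H : E → V4} {x : E} (hH : ContDiffAt ℝ ∞ H x) :
    ∃ Q : E →L[ℝ] E →L[ℝ] V4, (∀ v w, Q v w = Q w v) ∧ ∀ v, Q v v = crv H x v := by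
  obtain ⟨L, hL⟩ := exists_crL
  refine ⟨((ContinuousLinearMap.compL ℝ E V4 V4) (L (dd et H x) (dd es H x))).comp
    (fderiv ℝ (fderiv ℝ H) x), fun v w => ?_, fun v => ?_⟩
  · simp only [ContinuousLinearMap.comp_apply, ContinuousLinearMap.compL_apply]
    rw [← VecAux.dd_dd hH, ← VecAux.dd_dd hH, dd_comm hH]
  · simp only [ContinuousLinearMap.comp_apply, ContinuousLinearMap.compL_apply]
    rw [← VecAux.dd_dd hH, hL, crv]

theorem exists_small {L η D : ℝ} (hL : 0 < L) (hη : 0 < η) (hD : 0 ≤ D) :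
    ∃ a : ℝ, 0 < a ∧ a ≤ 1 / 10 ∧ L * (2 * a) ≤ η ∧ D * (2 * a) ≤ 1 / 2 := by
  refine ⟨min (1 / 10) (min (η / (2 * L)) (1 / (4 * (D + 1)))), by positivity, min_le_left _ _, ?_, ?_⟩
  · have h : min (1 / 10) (min (η / (2 * L)) (1 / (4 * (D + 1)))) ≤ η / (2 * L) :=
      (min_le_right _ _).trans (min_le_left _ _)
    rw [le_div_iff₀ (by positivity)] at h
    linarith
  · have h : min (1 / 10) (min (η / (2 * L)) (1 / (4 * (D + 1)))) ≤ 1 / (4 * (D + 1)) :=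
      (min_le_right _ _).trans (min_le_right _ _)
    have h0 : 0 < min (1 / 10) (min (η / (2 * L)) (1 / (4 * (D + 1)))) := by positivity
    rw [le_div_iff₀ (by positivity)] at h
    nlinarith

theorem ball_sub {x0 : E} {r : ℝ} (hx0 : ‖x0‖ < 5 / 4) (hr : r ≤ 1 / 10) :
    ball x0 (19 / 10 * r) ⊆ ball 0 (3 / 2) := by
  intro x hx
  rw [mem_ball, dist_eq_norm] at hx
  rw [mem_ball_zero_iff]
  have := norm_add_le (x - x0) x0
  rw [sub_add_cancel] at this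
  linarith

/-- Good frames on the small discs. -/
theorem exists_frames {G : E → Bil} (hG : ContDiffOn ℝ ∞ G (ball 0 3))
    (hs : ∀ x v w, G x v w = G x w v) (hp : ∀ x ∈ ball (0 : E) 3, ∀ v, v ≠ 0 → 0 < G x v v) :
    ∃ η0 C : ℝ, 0 < η0 ∧ ∀ {ι : Type u} (σ : Sc ι) (H : ι → E → V4),
      Cl ((σ.pow 2).ctx (ball 0 2) isOpen_ball) 1 (fun _ => 1) H →
      (∃ C : ℝ, ∀ i, ∀ x ∈ ball (0 : E) 2, ∃ v : E, ‖v‖ ≤ 1 ∧ 1 ≤ C * (σ.M i * ‖crv (H i) x v‖)) →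
      ∃ a D : ℝ, 0 < a ∧ a ≤ 1 / 10 ∧ ∀ (i : ι) (x0 : E), ‖x0‖ < 5 / 4 →
        ∃ (w z u u' : Fin 3 → E) (ξ η : Fin 3 → E →L[ℝ] ℝ),
          (∀ l, ‖w l‖ ≤ C ∧ ‖z l‖ ≤ C ∧ ‖ξ l‖ ≤ C ∧ ‖η l‖ ≤ C ∧ ‖u l‖ ≤ C ∧ ‖u' l‖ ≤ C ∧
            ξ l (z l) = 1 ∧ ξ l (w l) = 0 ∧ η l (z l) = 0 ∧ η l (w l) = 1 ∧
            ∀ x ∈ ball x0 (19 / 10 * (a / σ.M i ^ 17)),
              1 ≤ D * (σ.M i ^ 17 * ‖crD (H i) x (z l) (w l)‖) ∧
              ∀ t : Bil, ‖t - G x‖ ≤ η0 → 0 ≤ t (u l) (u' l)) ∧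
          ∀ t : Bil, (∀ v w, t v w = t w v) → ∑ l, t (u l) (u' l) • tp (ξ l) (ξ l) = t := by
  obtain ⟨c0, hc0, hco⟩ := exists_c0 hG hp
  obtain ⟨L, hL0, hLb, hLl⟩ := exists_lip hG
  obtain ⟨C, hC1, htr⟩ := exists_triple c0 L hc0
  have hC0 : 0 < C := by linarith
  refine ⟨1 / (16 * C ^ 2), C, by positivity, fun {ι} σ H hH hnd => ?_⟩
  obtain ⟨Cn, hCn⟩ := hnd
  obtain ⟨C', hC'0, hlow⟩ := crD_lower hH C
  obtain ⟨a, ha0, ha1, ha2, ha3⟩ := exists_small (η := 1 / (16 * C ^ 2))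
    (D := |Cn| * C ^ 2 * C') hL0 (by positivity) (by positivity)
  refine ⟨a, 2 * (|Cn| * C ^ 2), ha0, ha1, fun i x0 hx0 => ?_⟩
  have hM1 : 1 ≤ σ.M i := σ.hM i
  have hM0 : 0 < σ.M i := by linarith
  have hx2 : x0 ∈ ball (0 : E) 2 := mem_ball_zero_iff.2 (by linarith)
  have hHa : ContDiffAt ℝ ∞ (H i) x0 := (Cl.sm hH i).contDiffAt (isOpen_ball.mem_nhds hx2)
  obtain ⟨Q, hQs, hQ⟩ := exists_Q hHa
  obtain ⟨v0, hv0, hv1⟩ := hCn i x0 hx2
  obtain ⟨w, z, u, u', ξ, η, h1, h2⟩ := htr (G x0) (hs x0) (hco x0 (ball_subset_closedBall hx2))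
    (hLb x0 (ball_subset_closedBall hx2)) Q hQs v0 hv0
  refine ⟨w, z, u, u', ξ, η, fun l => ?_, h2⟩
  obtain ⟨e1, e2, e3, e4, e5, e6, e7, e8, e9, e10, e11, e12, e13⟩ := h1 l
  refine ⟨e1, e2, e3, e4, e5, e6, e7, e8, e9, e10, fun x hx => ?_⟩
  have hra : a / σ.M i ^ 17 ≤ a := div_le_self ha0.le (one_le_pow₀ hM1)
  have hx3 : x ∈ ball (0 : E) 2 :=
    ball_subset_ball (by norm_num) (ball_sub hx0 (hra.trans ha1) hx)
  rw [mem_ball, dist_eq_norm] at hx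
  have hr0 : 0 < a / σ.M i ^ 17 := by positivity
  constructor
  · have f1 : ‖crD (H i) x0 (z l) (w l)‖ = |z l 0 * w l 1 - z l 1 * w l 0| * ‖Q (w l) (w l)‖ := by
      rw [crD_eq hHa, norm_smul, Real.norm_eq_abs, hQ, crv]
    have f2 : ‖Q (w l) (w l)‖ ≤ C * ‖crD (H i) x0 (z l) (w l)‖ := by
      rw [f1, ← mul_assoc]
      exact le_mul_of_one_le_left (norm_nonneg _) e11
    have f3 : 1 ≤ |Cn| * C ^ 2 * (σ.M i * ‖crD (H i) x0 (z l) (w l)‖) := by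
      rw [← hQ] at hv1
      calc (1 : ℝ) ≤ |Cn| * (σ.M i * ‖Q v0 v0‖) :=
            hv1.trans (mul_le_mul_of_nonneg_right (le_abs_self _) (by positivity))
        _ ≤ |Cn| * (σ.M i * (C * (C * ‖crD (H i) x0 (z l) (w l)‖))) := by
            gcongr
            exact e12.trans (mul_le_mul_of_nonneg_left f2 hC0.le)
        _ = _ := by ring
    have f4 := hlow i x0 hx2 x hx3 (z l) (w l) e2 e1
    have f5 : σ.M i * (σ.M i ^ 16 * ‖x - x0‖) ≤ 2 * a := by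
      calc σ.M i * (σ.M i ^ 16 * ‖x - x0‖) = σ.M i ^ 17 * ‖x - x0‖ := by ring
        _ ≤ σ.M i ^ 17 * (2 * (a / σ.M i ^ 17)) := by gcongr; linarith
        _ = 2 * a := by field_simp
    have f6 : ‖crD (H i) x0 (z l) (w l)‖ ≤
        ‖crD (H i) x (z l) (w l)‖ + C' * (σ.M i ^ 16 * ‖x - x0‖) := by
      have := norm_sub_norm_le (crD (H i) x0 (z l) (w l)) (crD (H i) x (z l) (w l))
      rw [norm_sub_rev] at this
      linarith
    have f7 : σ.M i * ‖crD (H i) x0 (z l) (w l)‖ ≤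
        σ.M i ^ 17 * ‖crD (H i) x (z l) (w l)‖ + C' * (2 * a) := by
      have g1 : σ.M i * ‖crD (H i) x (z l) (w l)‖ ≤ σ.M i ^ 17 * ‖crD (H i) x (z l) (w l)‖ :=
        mul_le_mul_of_nonneg_right (le_self_pow₀ hM1 (by norm_num)) (norm_nonneg _)
      have g2 := mul_le_mul_of_nonneg_left f5 hC'0
      have g3 := mul_le_mul_of_nonneg_left f6 hM0.le
      nlinarith
    have f8 := mul_le_mul_of_nonneg_left f7 (by positivity : 0 ≤ |Cn| * C ^ 2)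
    nlinarith
  · intro t ht
    have g1 : ‖G x - G x0‖ ≤ 1 / (16 * C ^ 2) := by
      refine (hLl x0 (ball_subset_closedBall hx2) x (ball_subset_closedBall hx3)).trans
        (le_trans ?_ ha2)
      gcongr
      linarith
    have g2 : ‖t - G x0‖ ≤ 2 * (1 / (16 * C ^ 2)) := by
      have : ‖t - G x0‖ ≤ ‖t - G x‖ + ‖G x - G x0‖ := norm_sub_le_norm_sub_add_norm_sub t (G x) (G x0)
      linarith
    have g3 : ‖(t - G x0) (u l) (u' l)‖ ≤ 2 * (1 / (16 * C ^ 2)) * C * C :=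
      ((t - G x0).le_opNorm₂ _ _).trans (by gcongr)
    have g4 : 2 * (1 / (16 * C ^ 2)) * C * C = 1 / 8 := by field_simp; norm_num
    rw [g4, Real.norm_eq_abs, sub_apply, sub_apply] at g3
    linarith [(abs_le.1 g3).1]

/-- The grid points of all the members of the family. -/
def JJ {ι : Type u} (r : ι → ℝ) : Type u := {p : ι × (ℤ × ℤ) // ‖r p.1 • gp p.2‖ < 5 / 4}

theorem fin_JJ {ι : Type u} {r : ι → ℝ} (hr : ∀ i, 0 < r i) (c : ZMod 4 × ZMod 4) (i : ι) :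
    ((fun j : {j : JJ r // col j.1.2 = c} => j.1.1.1) ⁻¹' {i}).Finite := by
  refine Set.Finite.of_finite_image (f := fun j => j.1.1.2) ((finite_gp (hr i)).subset ?_) ?_
  · rintro _ ⟨j, hj, rfl⟩
    have h : j.1.1.1 = i := hj
    have := j.1.2
    rw [h] at this
    exact this
  · intro j hj j' hj' h
    have h1 : j.1.1.1 = i := hj
    have h2 : j'.1.1.1 = i := hj'
    exact Subtype.ext (Subtype.ext (Prod.ext (h1.trans h2.symm) h))

theorem sum_JJ {ι : Type u} {r : ι → ℝ} (hr : ∀ i, 0 < r i) (i : ι) {V : Type*} [AddCommMonoid V]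
    (f : JJ r → V) (g : ℤ × ℤ → V) (hfg : ∀ j : JJ r, j.1.1 = i → f j = g j.1.2) :
    ∑ c : ZMod 4 × ZMod 4, ∑ j ∈ (fin_JJ hr c i).toFinset, f j.1 =
      ∑ γ ∈ (finite_gp (hr i)).toFinset, g γ := by
  classical
  rw [← Finset.sum_fiberwise (finite_gp (hr i)).toFinset col]
  refine Finset.sum_congr rfl fun c _ => ?_
  refine Finset.sum_bij (fun j _ => j.1.1.2) (fun j hj => ?_) (fun j hj j' hj' h => ?_)
    (fun γ hγ => ?_) fun j hj => ?_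
  · have h : j.1.1.1 = i := by simpa using hj
    have := j.1.2
    rw [h] at this
    exact Finset.mem_filter.2 ⟨(Set.Finite.mem_toFinset _).2 this, j.2⟩
  · have h1 : j.1.1.1 = i := by simpa using hj
    have h2 : j'.1.1.1 = i := by simpa using hj'
    exact Subtype.ext (Subtype.ext (Prod.ext (h1.trans h2.symm) h))
  · obtain ⟨h1, h2⟩ := Finset.mem_filter.1 hγ
    exact ⟨⟨⟨(i, γ), (Set.Finite.mem_toFinset (finite_gp (hr i))).1 h1⟩, h2⟩, by simp, rfl⟩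
  · exact hfg _ (by simpa using hj)

end PlanBAux

open PlanBAux in
theorem exists_patches {G : E → Bil} (hG : ContDiffOn ℝ ∞ G (ball 0 3))
    (hs : ∀ x v w, G x v w = G x w v) (hp : ∀ x ∈ ball (0 : E) 3, ∀ v, v ≠ 0 → 0 < G x v v) :
    ∃ η0 : ℝ, 0 < η0 ∧ ∀ {ι : Type u} (σ : Sc ι) (H : ι → E → V4),
      Cl ((σ.pow 2).ctx (ball 0 2) isOpen_ball) 1 (fun _ => 1) H →
      (∃ C : ℝ, ∀ i, ∀ x ∈ ball (0 : E) 2, ∃ v : E, ‖v‖ ≤ 1 ∧ 1 ≤ C * (σ.M i * ‖crv (H i) x v‖)) →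
      ∃ (P : Fin 48 → Patch σ H 17) (β : ∀ q, (P q).J → E → ℝ) (u u' : ∀ q, (P q).J → E),
        (∀ q, Bc (u q) ∧ Bc (u' q) ∧ Cl ((P q).ctx 17) 0 (fun _ => 1) (β q) ∧
          ∀ j x, 0 ≤ β q j x ∧ (β q j x ≠ 0 → (P q).χ j x = 1) ∧
            (x ∈ (P q).U j → ∀ t : Bil, ‖t - G x‖ ≤ η0 → 0 ≤ t (u q j) (u' q j))) ∧
        ∀ i, ∀ x ∈ ball (0 : E) 1, ∀ t : Bil, (∀ v w, t v w = t w v) →
          ∑ q, (P q).sum (fun j y => (β q j y * t (u q j) (u' q j)) •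
            tp ((P q).ξ j) ((P q).ξ j)) i x = t := by
  obtain ⟨η0, C, hη0, hfr⟩ := exists_frames.{u} hG hs hp
  refine ⟨η0, hη0, fun {ι} σ H hH hnd => ?_⟩
  obtain ⟨a, D, ha0, ha1, hfr⟩ := hfr σ H hH hnd
  obtain ⟨β, χ, hβ, hχ, hβ0, hβχ, hχ0, hχ1, -, hsχ, hsum⟩ := exists_grid
  have hM0 : ∀ i, 0 < σ.M i := fun i => zero_lt_one.trans_le (σ.hM i)
  have hr : ∀ i, 0 < a / σ.M i ^ 17 := fun i => div_pos ha0 (pow_pos (hM0 i) _)
  have hr1 : ∀ i, a / σ.M i ^ 17 ≤ 1 / 10 := fun i =>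
    (div_le_self ha0.le (one_le_pow₀ (σ.hM i))).trans ha1
  choose w z u u' ξ η h1 h2 using
    fun j : JJ fun i => a / σ.M i ^ 17 => hfr j.1.1 _ j.2
  let e : Fin 48 ≃ (ZMod 4 × ZMod 4) × Fin 3 := (Fintype.equivFinOfCardEq (by simp)).symm
  have hcl : ∀ (c : ZMod 4 × ZMod 4) {f : E → ℝ}, ContDiff ℝ ∞ f →
      Cl (⟨fun j => ball ((a / σ.M j.1.1.1 ^ 17) • gp j.1.1.2) (19 / 10 * (a / σ.M j.1.1.1 ^ 17)),
        fun j => σ.M j.1.1.1 ^ 17, fun _ => isOpen_ball, fun j => one_le_pow₀ (σ.hM j.1.1.1)⟩ :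
        Ctx {j : JJ fun i => a / σ.M i ^ 17 // col j.1.2 = c} E) 0 (fun _ => 1)
        fun j x => f ((a / σ.M j.1.1.1 ^ 17)⁻¹ • x - gp j.1.1.2) := fun c f hf =>
    cl_rescale' (J := {j : JJ fun i => a / σ.M i ^ 17 // col j.1.2 = c}) hf
      (fun j => ball ((a / σ.M j.1.1.1 ^ 17) • gp j.1.1.2) (19 / 10 * (a / σ.M j.1.1.1 ^ 17)))
      (fun j => σ.M j.1.1.1 ^ 17) (fun _ => isOpen_ball) (fun j => one_le_pow₀ (σ.hM j.1.1.1))
      ha0 (fun j => gp j.1.1.2) fun j x hx =>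
        ((mem_resc (hr j.1.1.1)).1 hx).trans (by norm_num)
  let P : (ZMod 4 × ZMod 4) × Fin 3 → Patch σ H 17 := fun q =>
    { J := {j : JJ fun i => a / σ.M i ^ 17 // col j.1.2 = q.1}
      pr := fun j => j.1.1.1
      fin := fin_JJ hr q.1
      U := fun j => ball ((a / σ.M j.1.1.1 ^ 17) • gp j.1.1.2) (19 / 10 * (a / σ.M j.1.1.1 ^ 17))
      hU := fun _ => isOpen_ball
      sub := fun j => ball_sub j.1.2 (hr1 _)
      disj := fun j j' hne hpr => by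
        have hpr' : j.1.1.1 = j'.1.1.1 := hpr
        have h3 : j.1.1.2 ≠ j'.1.1.2 := fun h =>
          hne (Subtype.ext (Subtype.ext (Prod.ext hpr' h)))
        have h4 := dist_gp (j.2.trans j'.2.symm) h3
        refine ball_disjoint_ball ?_
        rw [← hpr', dist_eq_norm, ← smul_sub, norm_smul, Real.norm_eq_abs, abs_of_pos (hr _)]
        nlinarith [hr j.1.1.1]
      w := fun j => w j.1 q.2
      z := fun j => z j.1 q.2
      ξ := fun j => ξ j.1 q.2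
      η := fun j => η j.1 q.2
      bw := ⟨C, fun j => (h1 j.1 q.2).1⟩
      bz := ⟨C, fun j => (h1 j.1 q.2).2.1⟩
      bξ := ⟨C, fun j => (h1 j.1 q.2).2.2.1⟩
      bη := ⟨C, fun j => (h1 j.1 q.2).2.2.2.1⟩
      ξz := fun j => (h1 j.1 q.2).2.2.2.2.2.2.1
      ξw := fun j => (h1 j.1 q.2).2.2.2.2.2.2.2.1
      ηz := fun j => (h1 j.1 q.2).2.2.2.2.2.2.2.2.1
      ηw := fun j => (h1 j.1 q.2).2.2.2.2.2.2.2.2.2.1
      χ := fun j x => χ ((a / σ.M j.1.1.1 ^ 17)⁻¹ • x - gp j.1.1.2)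
      smχ := fun j => hχ.comp (by fun_prop)
      suppχ := fun j => supp_resc (hr _) _ hsχ
      χ0 := fun j x => hχ0 _
      χ1 := fun j x => hχ1 _
      clχ := hcl q.1 hχ
      nd := ⟨D, fun j x hx => ((h1 j.1 q.2).2.2.2.2.2.2.2.2.2.2 x hx).1⟩ }
  refine ⟨fun q => P (e q), fun q j x => β ((a / σ.M j.1.1.1 ^ 17)⁻¹ • x - gp j.1.1.2),
    fun q j => u j.1 (e q).2, fun q j => u' j.1 (e q).2, fun q => ⟨?_, ?_, ?_, fun j x => ?_⟩,
    fun i x hx t ht => ?_⟩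
  · exact ⟨C, fun j => (h1 j.1 (e q).2).2.2.2.2.1⟩
  · exact ⟨C, fun j => (h1 j.1 (e q).2).2.2.2.2.2.1⟩
  · exact hcl (e q).1 hβ
  · exact ⟨hβ0 _, fun h => (hβχ _ h).1, fun hx => ((h1 j.1 (e q).2).2.2.2.2.2.2.2.2.2.2 x hx).2⟩
  · have k1 := e.sum_comp fun q => ∑ j ∈ (fin_JJ hr q.1 i).toFinset,
      (β ((a / σ.M j.1.1.1 ^ 17)⁻¹ • x - gp j.1.1.2) * t (u j.1 q.2) (u' j.1 q.2)) •
        tp (ξ j.1 q.2) (ξ j.1 q.2)
    refine Eq.trans k1 ?_
    rw [Fintype.sum_prod_type]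
    have k2 : ∀ c : ZMod 4 × ZMod 4, ∑ l : Fin 3, ∑ j ∈ (fin_JJ hr c i).toFinset,
        (β ((a / σ.M j.1.1.1 ^ 17)⁻¹ • x - gp j.1.1.2) * t (u j.1 l) (u' j.1 l)) •
          tp (ξ j.1 l) (ξ j.1 l) = ∑ j ∈ (fin_JJ hr c i).toFinset,
          β ((a / σ.M j.1.1.1 ^ 17)⁻¹ • x - gp j.1.1.2) • t := by
      intro c
      rw [Finset.sum_comm]
      refine Finset.sum_congr rfl fun j _ => ?_
      simp only [mul_smul]
      rw [← Finset.smul_sum, h2 j.1 t ht]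
    refine (Finset.sum_congr rfl fun c _ => k2 c).trans ?_
    rw [sum_JJ hr i (fun j => β ((a / σ.M j.1.1 ^ 17)⁻¹ • x - gp j.1.2) • t)
      (fun γ => β ((a / σ.M i ^ 17)⁻¹ • x - gp γ) • t) (fun j hj => by rw [hj]),
      ← Finset.sum_smul]
    have k3 := hsum ((a / σ.M i ^ 17)⁻¹ • x) (finite_gp (hr i)).toFinset fun γ hγ => by
      rw [Set.Finite.mem_toFinset]
      have h3 : ‖(a / σ.M i ^ 17)⁻¹ • x - gp γ‖ < 3 / 2 := (hβχ _ hγ).2
      have h4 := norm_resc (hr i) x (gp γ)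
      have h5 := norm_sub_norm_le ((a / σ.M i ^ 17) • gp γ) x
      rw [norm_sub_rev] at h5
      have h6 := mem_ball_zero_iff.1 hx
      have h7 := mul_le_mul (hr1 i) h3.le (norm_nonneg _) (by norm_num)
      show ‖(a / σ.M i ^ 17) • gp γ‖ < 5 / 4
      linarith
    have k4 : ∑ γ ∈ (finite_gp (hr i)).toFinset, β ((a / σ.M i ^ 17)⁻¹ • x - gp γ) = 1 := k3
    rw [k4, one_smul]

end Crest.Agent.R216
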