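import Crest.Agent.R216.LoopDefs
import Crest.Agent.R216.ClPAuxA1

/-!
# Row 216: the reparametrisation with a given density
-/

set_option autoImplicit false
set_option linter.unusedSectionVars false

noncomputable section

namespace Crest.Agent.R216.RepAux2

open Set Metric Filter
open scoped ContDiff Topology

variable {X : Type} [NormedAddCommGroup X] [NormedSpace ℝ X] [FiniteDimensional ℝ X]

theorem cont_slice {V : Type} [NormedAddCommGroup V] [NormedSpace ℝ V] {O : Set X}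
    {f : X × ℝ → V} (hf : ContDiffOn ℝ ∞ f (O ×ˢ univ)) {x : X} (hx : x ∈ O) :
    Continuous fun v => f (x, v) :=
  hf.continuousOn.comp_continuous (by fun_prop) fun _ => ⟨hx, trivial⟩

/-- A smooth family of bijections with non-vanishing derivative has a smooth inverse. -/
theorem smooth_inv {O : Set X} (hO : IsOpen O) {Θ ρ u : X × ℝ → ℝ}
    (hΘ : ContDiffOn ℝ ∞ Θ (O ×ˢ univ))
    (hd : ∀ x ∈ O, ∀ v, HasDerivAt (fun v => Θ (x, v)) (ρ (x, v)) v)
    (h0 : ∀ x ∈ O, ∀ v, ρ (x, v) ≠ 0) (hr : ∀ x ∈ O, ∀ θ, Θ (x, u (x, θ)) = θ)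
    (hl : ∀ x ∈ O, ∀ v, u (x, Θ (x, v)) = v) : ContDiffOn ℝ ∞ u (O ×ˢ univ) := by
  have : CompleteSpace X := FiniteDimensional.complete ℝ X
  rintro ⟨x, θ⟩ ⟨hx, -⟩
  let F : (X × ℝ) × ℝ → ℝ := fun z => Θ (z.1.1, z.2) - z.1.2
  have h1 : ContDiffAt ℝ ∞ Θ (x, u (x, θ)) :=
    hΘ.contDiffAt ((hO.prod isOpen_univ).mem_nhds ⟨hx, trivial⟩)
  have hF : ContDiffAt ℝ ∞ F ((x, θ), u (x, θ)) :=
    (ContDiffAt.comp (g := Θ) (f := fun z : (X × ℝ) × ℝ => (z.1.1, z.2)) _ h1
      (by fun_prop)).sub (by fun_prop)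
  have h2 : HasFDerivAt (fun v => F ((x, θ), v))
      (fderiv ℝ F ((x, θ), u (x, θ)) ∘L .inr ℝ (X × ℝ) ℝ) (u (x, θ)) :=
    (hF.differentiableAt (by simp)).hasFDerivAt.comp _ (hasFDerivAt_prodMk_right _ _)
  have h3 := h2.unique ((hd x hx (u (x, θ))).sub_const θ).hasFDerivAt
  have hi : (fderiv ℝ F ((x, θ), u (x, θ)) ∘L .inr ℝ (X × ℝ) ℝ).IsInvertible := by
    rw [h3]
    refine ⟨ContinuousLinearEquiv.unitsEquivAut ℝ (Units.mk0 _ (h0 x hx (u (x, θ)))), ?_⟩
    ext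
    simp
  have h4 := hF.eventually_apply_implicitFunction (by simp) hi
  have h5 : ∀ᶠ q in 𝓝 (x, θ), q.1 ∈ O := continuous_fst.continuousAt.eventually (hO.mem_nhds hx)
  refine ((hF.contDiffAt_implicitFunction (by simp) hi).congr_of_eventuallyEq ?_).contDiffWithinAt
  filter_upwards [h4, h5] with q e1 e2
  simp only [F, hr x hx, sub_self, sub_eq_zero] at e1
  rw [← hl q.1 e2 (hF.implicitFunction (by simp) hi q), e1]

theorem exists_rep {O : Set X} (hO : IsOpen O) {ρ : X × ℝ → ℝ}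
    (hρ : ContDiffOn ℝ ∞ ρ (O ×ˢ univ)) (h0 : ∀ x ∈ O, ∀ v, 0 < ρ (x, v))
    (hp : ∀ x ∈ O, ∀ v, ρ (x, v + 1) = ρ (x, v)) (he : ∀ x ∈ O, ∀ v, ρ (x, -v) = ρ (x, v))
    (h1 : ∀ x ∈ O, mean ρ x = 1) :
    ∃ u : X × ℝ → ℝ, Rep O u ∧ ∀ x ∈ O, ∀ g : ℝ → ℝ × ℝ, Continuous g →
      ∫ θ in (0 : ℝ)..1, g (u (x, θ)) = ∫ v in (0 : ℝ)..1, ρ (x, v) • g v := by
  let Θ : X × ℝ → ℝ := fun q => ∫ θ in (0 : ℝ)..q.2, ρ (q.1, θ)
  have hc : ∀ x ∈ O, Continuous fun v => ρ (x, v) := fun x hx => cont_slice hρ hx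
  have hΘ : ContDiffOn ℝ ∞ Θ (O ×ˢ univ) := by
    refine ((ClPA1.contDiffOn_prim0 hO hρ).add contDiffOn_snd).congr fun q hq => ?_
    simp only [Θ, prim0]
    rw [intervalIntegral.integral_sub ((hc _ hq.1).intervalIntegrable _ _) (by simp), h1 _ hq.1]
    simp
  have hd : ∀ x ∈ O, ∀ v, HasDerivAt (fun v => Θ (x, v)) (ρ (x, v)) v := fun x hx v =>
    ((hc x hx).integral_hasStrictDerivAt 0 v).hasDerivAt
  have hm : ∀ x ∈ O, StrictMono fun v => Θ (x, v) := fun x hx =>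
    strictMono_of_hasDerivAt_pos (hd x hx) (h0 x hx)
  have hper : ∀ x ∈ O, ∀ v, Θ (x, v + 1) = Θ (x, v) + 1 := fun x hx v => by
    have e1 : Function.Periodic (fun v => ρ (x, v)) 1 := hp x hx
    have e2 := e1.intervalIntegral_add_eq v 0
    rw [zero_add] at e2
    simp only [Θ]
    rw [← intervalIntegral.integral_add_adjacent_intervals ((hc x hx).intervalIntegrable 0 v)
      ((hc x hx).intervalIntegrable v (v + 1)), e2]
    exact congrArg _ (h1 x hx)
  have hodd : ∀ x ∈ O, ∀ v, Θ (x, -v) = -Θ (x, v) := fun x hx v => by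
    have e := intervalIntegral.integral_comp_neg (a := 0) (b := v) fun v => ρ (x, v)
    simp only [he x hx, neg_zero] at e
    simp only [Θ]
    rw [e, intervalIntegral.integral_symm]
  have hz : ∀ x, Θ (x, 0) = 0 := fun x => by simp [Θ]
  have hs : ∀ x ∈ O, Function.Surjective fun v => Θ (x, v) := fun x hx y => by
    have e1 : ∀ n : ℤ, Θ (x, n) = n := fun n => by
      induction n using Int.induction_on with
      | zero => simpa using hz x
      | succ n ih =>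
        push_cast at ih ⊢
        rw [hper x hx, ih]
      | pred n ih =>
        have := hper x hx (-n - 1)
        push_cast at ih ⊢
        rw [sub_add_cancel, ih] at this
        linarith
    refine intermediate_value_univ (⌊y⌋ : ℝ) (⌈y⌉ : ℝ) (cont_slice hΘ hx) ?_
    rw [e1, e1]
    exact ⟨Int.floor_le y, Int.le_ceil y⟩
  let u : X × ℝ → ℝ := fun q => Function.invFun (fun v => Θ (q.1, v)) q.2
  have hr : ∀ x ∈ O, ∀ θ, Θ (x, u (x, θ)) = θ := fun x hx =>
    Function.rightInverse_invFun (hs x hx)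
  have hl : ∀ x ∈ O, ∀ v, u (x, Θ (x, v)) = v := fun x hx =>
    Function.leftInverse_invFun (hm x hx).injective
  have hu := smooth_inv hO hΘ hd (fun x hx v => (h0 x hx v).ne') hr hl
  refine ⟨u, ⟨hu, fun x hx θ => ?_, fun x hx θ => ?_, fun x hx θ => ?_⟩, fun x hx g hg => ?_⟩
  · rw [← hl x hx (u (x, θ) + 1), hper x hx, hr x hx]
  · rw [← hl x hx (-u (x, θ)), hodd x hx, hr x hx]
  · have e1 : DifferentiableAt ℝ u (x, θ) :=
      (hu.contDiffAt ((hO.prod isOpen_univ).mem_nhds ⟨hx, trivial⟩)).differentiableAt (by simp)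
    have e2 : HasDerivAt (fun θ => u (x, θ)) (dθ u (x, θ)) θ :=
      e1.hasFDerivAt.comp_hasDerivAt θ ((hasDerivAt_const θ x).prodMk (hasDerivAt_id θ))
    have e3 := (hd x hx (u (x, θ))).comp θ e2
    have e4 : (fun v => Θ (x, v)) ∘ (fun θ => u (x, θ)) = id := funext (hr x hx)
    rw [e4] at e3
    have e5 := e3.unique (hasDerivAt_id θ)
    exact (mul_pos_iff_of_pos_left (h0 x hx _)).1 (e5 ▸ one_pos)
  · have e := intervalIntegral.integral_deriv_smul_comp (a := 0) (b := 1)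
      (g := fun θ => g (u (x, θ))) (fun v _ => hd x hx v) (hc x hx).continuousOn
      (hg.comp (cont_slice hu hx))
    have e1 : Θ (x, 1) = 1 := by simpa [hz] using hper x hx 0
    simp only [Function.comp, hl x hx, hz, e1] at e
    exact e.symm

end Crest.Agent.R216.RepAux2
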