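import Crest.Agent.R216.LoopDefs

/-!
# Row 216: a density with a prescribed mean value
-/

set_option autoImplicit false
set_option linter.unusedSectionVars false

noncomputable section

namespace Crest.Agent.R216.RepAuxD

open Set Metric Filter
open scoped ContDiff Topology Manifold

/-- Positive even periodic smooth densities. -/
structure Den (h : ℝ → ℝ) : Prop where
  sm : ContDiff ℝ ∞ h
  pos : ∀ v, 0 < h v
  per : ∀ v, h (v + 1) = h v
  ev : ∀ v, h (-v) = h v
  one : ∫ v in (0 : ℝ)..1, h v = 1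

def cs (v : ℝ) : ℝ := Real.cos (2 * Real.pi * v)

theorem contDiff_cs : ContDiff ℝ ∞ cs :=
  Real.contDiff_cos.comp (contDiff_const.mul contDiff_id)

theorem cs_per (v : ℝ) : cs (v + 1) = cs v := by
  unfold cs
  rw [mul_add, mul_one, Real.cos_add_two_pi]

theorem cs_ev (v : ℝ) : cs (-v) = cs v := by
  unfold cs
  rw [mul_neg, Real.cos_neg]

theorem cs_mem (v : ℝ) : cs v ∈ Icc (-1 : ℝ) 1 := ⟨Real.neg_one_le_cos _, Real.cos_le_one _⟩

theorem cs_surj {y : ℝ} (hy : y ∈ Icc (-1 : ℝ) 1) : ∃ v ∈ Icc (0 : ℝ) 1, cs v = y := by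
  have hp := Real.pi_pos
  refine ⟨Real.arccos y / (2 * Real.pi), ⟨div_nonneg (Real.arccos_nonneg y) (by positivity), ?_⟩, ?_⟩
  · rw [div_le_one (by positivity)]
    linarith [Real.arccos_le_pi y]
  · unfold cs
    rw [mul_div_cancel₀ _ (by positivity), Real.cos_arccos hy.1 hy.2]

/-- The set of the mean values. -/
def A (g : ℝ → ℝ × ℝ) : Set (ℝ × ℝ) :=
  {p | ∃ h, Den h ∧ ∫ v in (0 : ℝ)..1, h v • g (cs v) = p}

theorem convex_A {g : ℝ → ℝ × ℝ} (hg : Continuous g) : Convex ℝ (A g) := by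
  rintro _ ⟨h, hh, rfl⟩ _ ⟨k, hk, rfl⟩ a b ha hb hab
  have hc : Continuous fun v => g (cs v) := hg.comp contDiff_cs.continuous
  have h1 := hh.sm.continuous
  have k1 := hk.sm.continuous
  refine ⟨fun v => a * h v + b * k v, ⟨?_, fun v => ?_, fun v => ?_, fun v => ?_, ?_⟩, ?_⟩
  · exact (contDiff_const.mul hh.sm).add (contDiff_const.mul hk.sm)
  · exact convex_Ioi (0 : ℝ) (hh.pos v) (hk.pos v) ha hb hab
  · simp only [hh.per, hk.per]
  · simp only [hh.ev, hk.ev]
  · rw [intervalIntegral.integral_add ((h1.const_mul a).intervalIntegrable _ _)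
      ((k1.const_mul b).intervalIntegrable _ _), intervalIntegral.integral_const_mul,
      intervalIntegral.integral_const_mul, hh.one, hk.one]
    linarith
  · simp only [add_smul, mul_smul]
    rw [intervalIntegral.integral_add (((h1.fun_smul hc).fun_const_smul a).intervalIntegrable _ _)
      (((k1.fun_smul hc).fun_const_smul b).intervalIntegrable _ _), intervalIntegral.integral_smul,
      intervalIntegral.integral_smul]

theorem mem_closure_A {g : ℝ → ℝ × ℝ} (hg : Continuous g) {y : ℝ} (hy : y ∈ Icc (-1 : ℝ) 1) :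
    g y ∈ closure (A g) := by
  rw [Metric.mem_closure_iff]
  intro ε hε
  obtain ⟨δ, hδ, hδg⟩ := Metric.continuous_iff.1 hg y (ε / 3) (by positivity)
  obtain ⟨C, hC⟩ := (isCompact_Icc (a := (-1 : ℝ)) (b := 1)).exists_bound_of_continuousOn
    (f := fun z => g z - g y) (hg.sub continuous_const).continuousOn
  have hC0 : 0 ≤ C := (norm_nonneg _).trans (hC y hy)
  let b : ContDiffBump y := ⟨δ / 2, δ, by positivity, by linarith⟩
  have hB : ContDiff ℝ ∞ fun v => b (cs v) := b.contDiff.comp contDiff_cs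
  have hc : Continuous fun v => g (cs v) := hg.comp contDiff_cs.continuous
  set Z : ℝ := ∫ v in (0 : ℝ)..1, b (cs v) with hZ
  have hZ0 : 0 < Z := by
    refine intervalIntegral.integral_pos zero_lt_one hB.continuous.continuousOn
      (fun _ _ => b.nonneg) ?_
    obtain ⟨v, hv, hvy⟩ := cs_surj hy
    refine ⟨v, hv, ?_⟩
    rw [hvy, b.one_of_mem_closedBall (mem_closedBall_self b.rIn_pos.le)]
    exact one_pos
  set t : ℝ := Z * (ε / 3) / (C + 1) with ht
  have ht0 : 0 < t := by positivity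
  have htC : t * C ≤ Z * (ε / 3) := by
    rw [ht, div_mul_eq_mul_div, div_le_iff₀ (by positivity)]
    exact mul_le_mul_of_nonneg_left (by linarith) (by positivity)
  have hs : 0 < t + Z := by positivity
  have hh : ContDiff ℝ ∞ fun v => (t + Z)⁻¹ * (t + b (cs v)) :=
    contDiff_const.mul (contDiff_const.add hB)
  have hone : ∫ v in (0 : ℝ)..1, (t + Z)⁻¹ * (t + b (cs v)) = 1 := by
    rw [intervalIntegral.integral_const_mul, intervalIntegral.integral_add
      (continuous_const.intervalIntegrable _ _) (hB.continuous.intervalIntegrable _ _), ← hZ]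
    simp only [intervalIntegral.integral_const, sub_zero, smul_eq_mul, one_mul]
    exact inv_mul_cancel₀ hs.ne'
  refine ⟨_, ⟨fun v => (t + Z)⁻¹ * (t + b (cs v)), ⟨hh, fun v => ?_, fun v => ?_, fun v => ?_,
    hone⟩, rfl⟩, ?_⟩
  · have := b.nonneg (x := cs v)
    positivity
  · simp only [cs_per]
  · simp only [cs_ev]
  · rw [dist_comm, dist_eq_norm]
    have e1 : (∫ v in (0 : ℝ)..1, ((t + Z)⁻¹ * (t + b (cs v))) • g (cs v)) - g y =
        ∫ v in (0 : ℝ)..1, ((t + Z)⁻¹ * (t + b (cs v))) • (g (cs v) - g y) := by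
      simp only [smul_sub]
      rw [intervalIntegral.integral_sub ((hh.continuous.fun_smul hc).intervalIntegrable _ _)
        ((hh.continuous.fun_smul continuous_const).intervalIntegrable _ _),
        intervalIntegral.integral_smul_const, hone, one_smul]
    rw [e1]
    have hle : ‖∫ v in (0 : ℝ)..1, ((t + Z)⁻¹ * (t + b (cs v))) • (g (cs v) - g y)‖ ≤
        ∫ v in (0 : ℝ)..1, (t + Z)⁻¹ * (t * C + b (cs v) * (ε / 3)) := by
      refine intervalIntegral.norm_integral_le_of_norm_le zero_le_one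
        (Eventually.of_forall fun v _ => ?_)
        ((continuous_const.mul (continuous_const.add
          (hB.continuous.mul continuous_const))).intervalIntegrable _ _)
      have hb0 := b.nonneg (x := cs v)
      rw [norm_smul, Real.norm_of_nonneg (by positivity), mul_assoc]
      refine mul_le_mul_of_nonneg_left ?_ (by positivity)
      rw [add_mul]
      refine add_le_add (mul_le_mul_of_nonneg_left (hC _ (cs_mem v)) ht0.le) ?_
      by_cases hv : dist (cs v) y < δ
      · refine mul_le_mul_of_nonneg_left ?_ hb0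
        rw [← dist_eq_norm]
        exact (hδg _ hv).le
      · rw [b.zero_of_le_dist (not_lt.1 hv), zero_mul, zero_mul]
    refine hle.trans_lt ?_
    rw [intervalIntegral.integral_const_mul, intervalIntegral.integral_add
      (continuous_const.intervalIntegrable _ _)
      ((hB.continuous.fun_mul continuous_const).intervalIntegrable _ _),
      intervalIntegral.integral_const, intervalIntegral.integral_mul_const, ← hZ]
    simp only [sub_zero, smul_eq_mul, one_mul]
    rw [inv_mul_lt_iff₀ hs]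
    nlinarith [mul_pos hZ0 hε, mul_pos ht0 hε]

theorem hull_subset {g : ℝ → ℝ × ℝ} (hg : Continuous g) :
    convexHull ℝ (g '' Icc (-1) 1) ⊆ closure (A g) :=
  convexHull_min (by rintro _ ⟨y, hy, rfl⟩; exact mem_closure_A hg hy) (convex_A hg).closure

/-- The determinant of two plane vectors. -/
def dt (a b : ℝ × ℝ) : ℝ := a.1 * b.2 - a.2 * b.1

/-- The unnormalised barycentric coordinates. -/
def bc (m : Fin 3 → ℝ × ℝ) (p : ℝ × ℝ) : Fin 3 → ℝ :=
  ![dt (m 1 - p) (m 2 - p), dt (m 2 - p) (m 0 - p), dt (m 0 - p) (m 1 - p)]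

theorem bc_sum (m : Fin 3 → ℝ × ℝ) (p : ℝ × ℝ) :
    ∑ k, bc m p k • m k = (∑ k, bc m p k) • p := by
  simp only [Fin.sum_univ_three, bc, dt, Matrix.cons_val_zero, Matrix.cons_val_one,
    Matrix.cons_val_two, Matrix.head_cons, Matrix.tail_cons]
  ext
  · simp only [Prod.fst_add, Prod.smul_fst, smul_eq_mul, Prod.fst_sub, Prod.snd_sub]
    ring
  · simp only [Prod.snd_add, Prod.smul_snd, smul_eq_mul, Prod.fst_sub, Prod.snd_sub]
    ring

theorem contDiff_bc (k : Fin 3) :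
    ContDiff ℝ ∞ fun q : (Fin 3 → ℝ × ℝ) × (ℝ × ℝ) => bc q.1 q.2 k := by
  fin_cases k <;> simp only [bc, dt] <;> simp <;> fun_prop

theorem exists_three {g : ℝ → ℝ × ℝ} (hg : Continuous g) {p : ℝ × ℝ}
    (hp : p ∈ interior (convexHull ℝ (g '' Icc (-1) 1))) :
    ∃ h : Fin 3 → ℝ → ℝ, (∀ k, Den (h k)) ∧
      ∀ k, 0 < bc (fun k => ∫ v in (0 : ℝ)..1, h k v • g (cs v)) p k := by
  obtain ⟨r, hr, hball⟩ := Metric.mem_nhds_iff.1 (mem_interior_iff_mem_nhds.1 hp)
  let m : Fin 3 → ℝ × ℝ := ![p + (r / 2, 0), p + (0, r / 2), p + (-(r / 2), -(r / 2))]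
  have hm : m ∈ closure (Set.pi univ fun _ : Fin 3 => A g) := by
    rw [closure_pi_set]
    intro k _
    refine hull_subset hg (hball ?_)
    have h2 : |r / 2| < r := by rw [abs_of_pos (by positivity)]; linarith
    fin_cases k <;> simp [m, Prod.norm_def, hr, abs_of_pos hr]
  have hW : IsOpen {m : Fin 3 → ℝ × ℝ | ∀ k, 0 < bc m p k} := by
    simp only [Set.ofPred_forall]
    exact isOpen_iInter_of_finite fun k => isOpen_lt continuous_const
      ((contDiff_bc k).continuous.comp (continuous_id.prodMk continuous_const))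
  have hmW : m ∈ {m : Fin 3 → ℝ × ℝ | ∀ k, 0 < bc m p k} := by
    intro k
    fin_cases k <;> simp [m, bc, dt] <;> positivity
  obtain ⟨q, hqW, hqA⟩ := _root_.mem_closure_iff.1 hm _ hW hmW
  choose h hh hq using fun k => hqA k (mem_univ k)
  refine ⟨h, hh, fun k => ?_⟩
  have : (fun k => ∫ v in (0 : ℝ)..1, h k v • g (cs v)) = q := funext hq
  rw [this]
  exact hqW k

variable {X : Type} [NormedAddCommGroup X] [NormedSpace ℝ X] [FiniteDimensional ℝ X]

/-- The mean value of the loop for the density `h`. -/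
def mv (f : X × ℝ → ℝ × ℝ) (h : ℝ → ℝ) (x : X) : ℝ × ℝ :=
  ∫ v in (0 : ℝ)..1, h v • f (x, cs v)

theorem contDiffOn_mv {O : Set X} (hO : IsOpen O) {f : X × ℝ → ℝ × ℝ}
    (hf : ContDiffOn ℝ ∞ f (O ×ˢ univ)) {h : ℝ → ℝ} (hh : ContDiff ℝ ∞ h) :
    ContDiffOn ℝ ∞ (mv f h) O :=
  contDiffOn_mean (f := fun q : X × ℝ => h q.2 • f (q.1, cs q.2)) hO
    ((hh.comp contDiff_snd).contDiffOn.smul (hf.comp
      (contDiff_fst.prodMk (contDiff_cs.comp contDiff_snd)).contDiffOn fun _ hz => ⟨hz.1, trivial⟩))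

theorem local_sol {O : Set X} (hO : IsOpen O) {f : X × ℝ → ℝ × ℝ}
    (hf : ContDiffOn ℝ ∞ f (O ×ˢ univ)) {τ : X → ℝ × ℝ} (hτ : ContDiffOn ℝ ∞ τ O) {x₀ : X}
    (hx₀ : x₀ ∈ O) (h : τ x₀ ∈ interior (convexHull ℝ ((fun y => f (x₀, y)) '' Icc (-1) 1))) :
    ∃ U : Set X, IsOpen U ∧ x₀ ∈ U ∧ U ⊆ O ∧ ∃ h : Fin 3 → ℝ → ℝ, (∀ k, Den (h k)) ∧
      ∃ l : X → Fin 3 → ℝ, (∀ k, ContDiffOn ℝ ∞ (fun x => l x k) U) ∧ ∀ x ∈ U, (∀ k, 0 ≤ l x k) ∧
        ∑ k, l x k = 1 ∧ ∑ k, l x k • mv f (h k) x = τ x := by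
  obtain ⟨h, hh, hpos⟩ := exists_three (continuous_slice hf hx₀) h
  have hb : ∀ k, ContDiffOn ℝ ∞ (fun x => bc (fun k => mv f (h k) x) (τ x) k) O := fun k =>
    (contDiff_bc k).comp_contDiffOn
      ((contDiffOn_pi.2 fun k => contDiffOn_mv hO hf (hh k).sm).prodMk hτ)
  let U : Set X := ⋂ k, O ∩ (fun x => bc (fun k => mv f (h k) x) (τ x) k) ⁻¹' Ioi 0
  have hUO : U ⊆ O := fun x hx => (mem_iInter.1 hx 0).1
  have hU : ∀ x ∈ U, ∀ k, 0 < bc (fun k => mv f (h k) x) (τ x) k := fun x hx k =>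
    (mem_iInter.1 hx k).2
  have hS : ∀ x ∈ U, 0 < ∑ k, bc (fun k => mv f (h k) x) (τ x) k := fun x hx =>
    Finset.sum_pos (fun k _ => hU x hx k) Finset.univ_nonempty
  refine ⟨U, isOpen_iInter_of_finite fun k =>
    (hb k).continuousOn.isOpen_inter_preimage hO isOpen_Ioi,
    mem_iInter.2 fun k => ⟨hx₀, hpos k⟩, hUO, h, hh,
    fun x k => (∑ k, bc (fun k => mv f (h k) x) (τ x) k)⁻¹ * bc (fun k => mv f (h k) x) (τ x) k,
    fun k => ?_, fun x hx => ⟨fun k => ?_, ?_, ?_⟩⟩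
  · exact (((ContDiffOn.sum fun k _ => hb k).mono hUO).inv fun x hx => (hS x hx).ne').mul
      ((hb k).mono hUO)
  · exact mul_nonneg (inv_nonneg.2 (hS x hx).le) (hU x hx k).le
  · rw [← Finset.mul_sum, inv_mul_cancel₀ (hS x hx).ne']
  · simp only [mul_smul]
    rw [← Finset.smul_sum, bc_sum, smul_smul, inv_mul_cancel₀ (hS x hx).ne', one_smul]

theorem global_sol {O K : Set X} (hO : IsOpen O) (hK : IsCompact K) (hKO : K ⊆ O)
    {f : X × ℝ → ℝ × ℝ} (hf : ContDiffOn ℝ ∞ f (O ×ˢ univ)) {τ : X → ℝ × ℝ}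
    (hτ : ContDiffOn ℝ ∞ τ O)
    (h : ∀ x ∈ K, τ x ∈ interior (convexHull ℝ ((fun y => f (x, y)) '' Icc (-1) 1))) :
    ∃ O' : Set X, IsOpen O' ∧ K ⊆ O' ∧ O' ⊆ O ∧ ∃ (ι : Type) (_ : Fintype ι) (h : ι → ℝ → ℝ),
      (∀ k, Den (h k)) ∧ ∃ l : X → ι → ℝ, ContDiff ℝ ∞ l ∧ ∀ x ∈ O', (∀ k, 0 ≤ l x k) ∧
        ∑ k, l x k = 1 ∧ ∑ k, l x k • mv f (h k) x = τ x := by
  classical
  choose U hU hxU hUO d hd l hl hl' using fun x : K => local_sol hO hf hτ (hKO x.2) (h x x.2)
  obtain ⟨t, ht⟩ := hK.elim_finite_subcover U hU fun x hx => mem_iUnion.2 ⟨⟨x, hx⟩, hxU _⟩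
  obtain ⟨L, hL, hKL, hLU⟩ := exists_compact_between hK
    (isOpen_biUnion fun i (_ : i ∈ t) => hU i) ht
  have hLO : L ⊆ O := hLU.trans (iUnion₂_subset fun i _ => hUO i)
  let T : X → Set (t × Fin 3 → ℝ) := fun x => {a | x ∈ L → (∀ k, 0 ≤ a k) ∧ ∑ k, a k = 1 ∧
    ∑ k, a k • mv f (d k.1 k.2) x = τ x}
  have hT : ∀ x, Convex ℝ (T x) := by
    intro x a ha b hb s u hs hu hsu hx
    obtain ⟨a1, a2, a3⟩ := ha hx
    obtain ⟨b1, b2, b3⟩ := hb hx
    refine ⟨fun k => add_nonneg (mul_nonneg hs (a1 k)) (mul_nonneg hu (b1 k)), ?_, ?_⟩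
    · simp only [Pi.add_apply, Pi.smul_apply, smul_eq_mul, Finset.sum_add_distrib,
        ← Finset.mul_sum, a2, b2]
      linarith
    · simp only [Pi.add_apply, Pi.smul_apply, smul_eq_mul, add_smul, mul_smul,
        Finset.sum_add_distrib, ← Finset.smul_sum, a3, b3]
      rw [← add_smul, hsu, one_smul]
  obtain ⟨G, hG⟩ := exists_contMDiffMap_forall_mem_convex_of_local (n := ⊤) 𝓘(ℝ, X) hT (by
    intro x
    by_cases hx : x ∈ L
    · obtain ⟨j, hj, hxj⟩ := mem_iUnion₂.1 (hLU hx)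
      refine ⟨U j, (hU j).mem_nhds hxj, fun y k => if k.1 = ⟨j, hj⟩ then l j y k.2 else 0,
        ContDiffOn.contMDiffOn (contDiffOn_pi.2 fun k => ?_), fun y hy _ => ?_⟩
      · split_ifs
        · exact hl j k.2
        · exact contDiffOn_const
      · obtain ⟨a1, a2, a3⟩ := hl' j y hy
        refine ⟨fun k => ?_, ?_, ?_⟩
        · dsimp only
          split_ifs
          · exact a1 _
          · exact le_rfl
        · rw [Fintype.sum_prod_type, Finset.sum_eq_single ⟨j, hj⟩]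
          · simpa using a2
          · intro b _ hb
            simp [hb]
          · simp
        · rw [Fintype.sum_prod_type, Finset.sum_eq_single ⟨j, hj⟩]
          · simpa using a3
          · intro b _ hb
            simp [hb]
          · simp
    · exact ⟨Lᶜ, hL.isClosed.isOpen_compl.mem_nhds hx, fun _ => 0, contMDiffOn_const,
        fun y hy hy' => absurd hy' hy⟩)
  exact ⟨interior L, isOpen_interior, hKL, interior_subset.trans hLO, t × Fin 3, inferInstance,
    fun k => d k.1 k.2, fun k => hd _ _, G, G.contMDiff.contDiff,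
    fun x hx => hG x (interior_subset hx)⟩

theorem exists_density {O K : Set X} (hO : IsOpen O) (hK : IsCompact K) (hKO : K ⊆ O)
    {f : X × ℝ → ℝ × ℝ} (hf : ContDiffOn ℝ ∞ f (O ×ˢ univ)) {τ : X → ℝ × ℝ}
    (hτ : ContDiffOn ℝ ∞ τ O)
    (h : ∀ x ∈ K, τ x ∈ interior (convexHull ℝ ((fun y => f (x, y)) '' Icc (-1) 1))) :
    ∃ O' : Set X, IsOpen O' ∧ K ⊆ O' ∧ O' ⊆ O ∧ ∃ ρ : X × ℝ → ℝ,
      ContDiffOn ℝ ∞ ρ (O' ×ˢ univ) ∧ ∀ x ∈ O', (∀ v, 0 < ρ (x, v)) ∧
        (∀ v, ρ (x, v + 1) = ρ (x, v)) ∧ (∀ v, ρ (x, -v) = ρ (x, v)) ∧ mean ρ x = 1 ∧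
        mean (fun q => ρ q • f (q.1, Real.cos (2 * Real.pi * q.2))) x = τ x := by
  obtain ⟨O', h1, h2, h3, ι, _, d, hd, l, hl, hl'⟩ := global_sol hO hK hKO hf hτ h
  refine ⟨O', h1, h2, h3, fun q => ∑ k, l q.1 k * d k q.2, ?_, fun x hx => ?_⟩
  · exact (ContDiff.sum fun k _ => ((contDiff_pi.1 hl k).comp contDiff_fst).mul
      ((hd k).sm.comp contDiff_snd)).contDiffOn
  · obtain ⟨a1, a2, a3⟩ := hl' x hx
    refine ⟨fun v => ?_, fun v => ?_, fun v => ?_, ?_, ?_⟩
    · exact (convex_Ioi (0 : ℝ)).sum_mem (t := Finset.univ) (w := l x) (z := fun k => d k v)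
        (fun k _ => a1 k) a2 fun k _ => (hd k).pos v
    · simp only [(hd _).per]
    · simp only [(hd _).ev]
    · simp only [mean]
      rw [intervalIntegral.integral_finsetSum fun k _ =>
        ((hd k).sm.continuous.const_mul (l x k)).intervalIntegrable _ _]
      simp only [intervalIntegral.integral_const_mul, (hd _).one, mul_one, a2]
    · have hc : Continuous fun v => f (x, cs v) :=
        (continuous_slice hf (h3 hx)).comp contDiff_cs.continuous
      rw [← a3]
      simp only [mean, mv, Finset.sum_smul, mul_smul]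
      change ∫ v in (0 : ℝ)..1, ∑ k, l x k • d k v • f (x, cs v) = _
      rw [intervalIntegral.integral_finsetSum (f := fun k v => l x k • d k v • f (x, cs v))
        fun k _ => (((hd k).sm.continuous.smul hc).const_smul (l x k)).intervalIntegrable _ _]
      simp only [intervalIntegral.integral_smul]

end Crest.Agent.R216.RepAuxD
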