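import Crest.Agent.R216.LoopDefs
import Crest.Agent.R216.RepAux2
import Crest.Agent.R216.RepAuxD

/-!
# Row 216: reparametrisation of loops
-/

set_option autoImplicit false
set_option linter.unusedSectionVars false

noncomputable section

namespace Crest.Agent.R216

open Set Metric Filter
open scoped ContDiff Topology RealInnerProductSpace

universe u

variable {X : Type} [NormedAddCommGroup X] [NormedSpace ℝ X] [FiniteDimensional ℝ X]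

/-- A density with a prescribed mean value. -/
theorem exists_density {O K : Set X} (hO : IsOpen O) (hK : IsCompact K) (hKO : K ⊆ O)
    {f : X × ℝ → ℝ × ℝ} (hf : ContDiffOn ℝ ∞ f (O ×ˢ univ)) {τ : X → ℝ × ℝ}
    (hτ : ContDiffOn ℝ ∞ τ O)
    (h : ∀ x ∈ K, τ x ∈ interior (convexHull ℝ ((fun y => f (x, y)) '' Icc (-1) 1))) :
    ∃ O' : Set X, IsOpen O' ∧ K ⊆ O' ∧ O' ⊆ O ∧ ∃ ρ : X × ℝ → ℝ,
      ContDiffOn ℝ ∞ ρ (O' ×ˢ univ) ∧ ∀ x ∈ O', (∀ v, 0 < ρ (x, v)) ∧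
        (∀ v, ρ (x, v + 1) = ρ (x, v)) ∧ (∀ v, ρ (x, -v) = ρ (x, v)) ∧ mean ρ x = 1 ∧
        mean (fun q => ρ q • f (q.1, Real.cos (2 * Real.pi * q.2))) x = τ x :=
  RepAuxD.exists_density hO hK hKO hf hτ h

/-- The reparametrisation with a given density. -/
theorem exists_rep_of_density {O : Set X} (hO : IsOpen O) {ρ : X × ℝ → ℝ}
    (hρ : ContDiffOn ℝ ∞ ρ (O ×ˢ univ)) (h0 : ∀ x ∈ O, ∀ v, 0 < ρ (x, v))
    (hp : ∀ x ∈ O, ∀ v, ρ (x, v + 1) = ρ (x, v)) (he : ∀ x ∈ O, ∀ v, ρ (x, -v) = ρ (x, v))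
    (h1 : ∀ x ∈ O, mean ρ x = 1) :
    ∃ u : X × ℝ → ℝ, Rep O u ∧ ∀ x ∈ O, ∀ g : ℝ → ℝ × ℝ, Continuous g →
      ∫ θ in (0 : ℝ)..1, g (u (x, θ)) = ∫ v in (0 : ℝ)..1, ρ (x, v) • g v :=
  RepAux2.exists_rep hO hρ h0 hp he h1

theorem reparam {O K : Set X} (hO : IsOpen O) (hK : IsCompact K) (hKO : K ⊆ O)
    {f : X × ℝ → ℝ × ℝ} (hf : ContDiffOn ℝ ∞ f (O ×ˢ univ)) {τ : X → ℝ × ℝ}
    (hτ : ContDiffOn ℝ ∞ τ O)
    (h : ∀ x ∈ K, τ x ∈ interior (convexHull ℝ ((fun y => f (x, y)) '' Icc (-1) 1))) :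
    ∃ O' : Set X, IsOpen O' ∧ K ⊆ O' ∧ O' ⊆ O ∧ ∃ u : X × ℝ → ℝ, Rep O' u ∧
      ∀ x ∈ O', mean (fun q => f (q.1, Real.cos (2 * Real.pi * u q))) x = τ x := by
  obtain ⟨O', h1, h2, h3, ρ, hρ, h4⟩ := exists_density hO hK hKO hf hτ h
  obtain ⟨u, hu, h5⟩ := exists_rep_of_density h1 hρ (fun x hx => (h4 x hx).1)
    (fun x hx => (h4 x hx).2.1) (fun x hx => (h4 x hx).2.2.1) fun x hx => (h4 x hx).2.2.2.1
  exact ⟨O', h1, h2, h3, u, hu, fun x hx =>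
    (h5 x hx (fun v => f (x, Real.cos (2 * Real.pi * v)))
      ((RepAux2.cont_slice hf (h3 hx)).comp (by fun_prop))).trans (h4 x hx).2.2.2.2⟩

end Crest.Agent.R216
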