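import Crest.Agent.R216.Basic
import Crest.Agent.R240.Par

/-!
# Row 216: mollification in the plane
-/

set_option autoImplicit false

noncomputable section

namespace Crest.Agent.R216.SmoothAux1

open Set Metric Filter MeasureTheory
open scoped ContDiff Topology
open Crest.Agent.R240

theorem exists_phi : ∃ φ : E → ℝ, ContDiff ℝ ∞ φ ∧ (∀ y, 0 ≤ φ y) ∧ ∫ y, φ y = 1 ∧
    ∀ y, 1 / 2 ≤ ‖y‖ → φ y = 0 := by
  let b : ContDiffBump (0 : E) := ⟨1 / 4, 1 / 2, by norm_num, by norm_num⟩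
  refine ⟨b.normed volume, b.contDiff_normed, b.nonneg_normed, b.integral_normed, fun y hy => ?_⟩
  by_contra h
  have : y ∈ Function.support (b.normed volume) := h
  rw [b.support_normed_eq, mem_ball_zero_iff] at this
  exact absurd this (not_lt.2 hy)

variable {φ : E → ℝ}

theorem cs (h0 : ∀ y, 1 / 2 ≤ ‖y‖ → φ y = 0) : HasCompactSupport φ :=
  HasCompactSupport.intro (isCompact_closedBall (0 : E) (1 / 2)) fun y hy =>
    h0 y (le_of_lt (by simpa using hy))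

theorem locC1 (hφ : ContDiff ℝ ∞ φ) (h0 : ∀ y, 1 / 2 ≤ ‖y‖ → φ y = 0) {f : E → V4}
    (hf : ContDiff ℝ ∞ f) (c : ℝ) : LocC fun z : E × E => φ z.2 • f (z.1 - c • z.2) :=
  ⟨(hφ.comp contDiff_snd).smul (hf.comp (contDiff_fst.sub (contDiff_snd.const_smul c))),
    fun _ => ⟨_, isCompact_closedBall (0 : E) (1 / 2), Eventually.of_forall fun p y hy => by
      simp only [h0 y (le_of_lt (by simpa using hy)), zero_smul]⟩⟩

theorem locC2 (hφ : ContDiff ℝ ∞ φ) (h0 : ∀ y, 1 / 2 ≤ ‖y‖ → φ y = 0) {g : E → V4}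
    (hg : ContDiff ℝ ∞ g) : LocC fun z : E × E => φ (z.1 - z.2) • g z.2 := by
  refine ⟨(hφ.comp (contDiff_fst.sub contDiff_snd)).smul (hg.comp contDiff_snd),
    fun p₀ => ⟨_, isCompact_closedBall p₀ 2, ?_⟩⟩
  filter_upwards [ball_mem_nhds p₀ one_pos] with p hp y hy
  have h1 : 2 < dist y p₀ := by simpa using hy
  have h2 : dist p p₀ < 1 := hp
  have h3 := dist_triangle y p p₀
  rw [dist_comm y p, dist_eq_norm p y] at h3
  simp only [h0 (p - y) (by linarith), zero_smul]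

theorem est1 (hφ : ContDiff ℝ ∞ φ) (h0 : ∀ y, 1 / 2 ≤ ‖y‖ → φ y = 0) (m : ℕ) {g : E → V4}
    (hg : ContDiff ℝ ∞ g) {A : ℝ} (hA : ∀ x, ‖g x‖ ≤ A) (u : E) :
    ‖iteratedFDeriv ℝ m (fun u => ∫ z, φ (u - z) • g z) u‖ ≤
      (∫ y, ‖iteratedFDeriv ℝ m φ y‖) * A := by
  have hm : (m : WithTop ℕ∞) ≤ ∞ := by exact_mod_cast le_top
  rw [((locC2 hφ h0 hg).iteratedFDeriv_integral volume m u).2,
    ← integral_sub_left_eq_self (fun y => ‖iteratedFDeriv ℝ m φ y‖) volume u, ← integral_mul_const]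
  have hi : Integrable fun y => ‖iteratedFDeriv ℝ m φ y‖ :=
    ((hφ.continuous_iteratedFDeriv hm).integrable_of_hasCompactSupport
      ((cs h0).iteratedFDeriv m)).norm
  refine norm_integral_le_of_norm_le ((hi.comp_sub_left u).mul_const A)
    (Eventually.of_forall fun z => ?_)
  have h1 := ((ContinuousLinearMap.id ℝ ℝ).smulRight (g z)).norm_iteratedFDeriv_comp_left
    (f := fun u => φ (u - z)) (x := u) (hφ.comp (contDiff_id.sub contDiff_const)).contDiffAt hm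
  rw [iteratedFDeriv_comp_sub, ContinuousLinearMap.norm_smulRight_apply,
    ContinuousLinearMap.norm_id, one_mul, mul_comm] at h1
  exact h1.trans (mul_le_mul_of_nonneg_left (hA z) (norm_nonneg _))

theorem est1' (hφ : ContDiff ℝ ∞ φ) (h0 : ∀ y, 1 / 2 ≤ ‖y‖ → φ y = 0) (m : ℕ) {f : E → V4}
    (hf : ContDiff ℝ ∞ f) {A : ℝ} (hA : ∀ x, ‖f x‖ ≤ A) {μ : ℝ} (hμ : 0 < μ) (x : E) :
    ‖iteratedFDeriv ℝ m (fun x => ∫ y, φ y • f (x - μ⁻¹ • y)) x‖ ≤
      (∫ y, ‖iteratedFDeriv ℝ m φ y‖) * (A * μ ^ m) := by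
  have hm : (m : WithTop ℕ∞) ≤ ∞ := by exact_mod_cast le_top
  have hg : ContDiff ℝ ∞ fun w : E => f (μ⁻¹ • w) := hf.comp (contDiff_id.const_smul _)
  have h1 : (fun x => ∫ y, φ y • f (x - μ⁻¹ • y)) =
      fun x => (fun u => ∫ z, φ (u - z) • f (μ⁻¹ • z)) (μ • x) := by
    funext x
    rw [← integral_sub_left_eq_self (fun y => φ y • f (x - μ⁻¹ • y)) volume (μ • x)]
    simp only [smul_sub, smul_smul, inv_mul_cancel₀ hμ.ne', one_smul, sub_sub_cancel]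
  rw [h1, iteratedFDeriv_comp_const_smul μ
    (((locC2 hφ h0 hg).contDiff_integral volume).of_le hm), norm_smul, Real.norm_eq_abs,
    abs_of_pos (pow_pos hμ m), ← mul_assoc, mul_comm]
  exact mul_le_mul_of_nonneg_right (est1 hφ h0 m hg (fun w => hA _) _) (pow_pos hμ m).le

theorem est2 (hφ : ContDiff ℝ ∞ φ) (hn : ∀ y, 0 ≤ φ y) (h1 : ∫ y, φ y = 1)
    (h0 : ∀ y, 1 / 2 ≤ ‖y‖ → φ y = 0) (m : ℕ) {f : E → V4}
    (hf : ContDiff ℝ ∞ f) {A : ℝ} (hA : ∀ x, ‖iteratedFDeriv ℝ (m + 1) f x‖ ≤ A) {μ : ℝ}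
    (hμ : 0 < μ) (x : E) :
    ‖iteratedFDeriv ℝ m (fun x => f x - ∫ y, φ y • f (x - μ⁻¹ • y)) x‖ ≤ A / μ := by
  have hm : (m : WithTop ℕ∞) ≤ ∞ := by exact_mod_cast le_top
  have hm' : (m : WithTop ℕ∞) < ∞ := by exact_mod_cast ENat.natCast_lt_top m
  have hL := locC1 hφ h0 hf μ⁻¹
  have hφi : Integrable φ := hφ.continuous.integrable_of_hasCompactSupport (cs h0)
  obtain ⟨hi, he⟩ := hL.iteratedFDeriv_integral volume m x
  have hpt : ∀ y, iteratedFDeriv ℝ m (fun p => φ y • f (p - μ⁻¹ • y)) x =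
      φ y • iteratedFDeriv ℝ m f (x - μ⁻¹ • y) := fun y => by
    rw [iteratedFDeriv_const_smul_apply' (f := fun p => f (p - μ⁻¹ • y))
      ((hf.comp (contDiff_id.sub contDiff_const)).of_le hm).contDiffAt, iteratedFDeriv_comp_sub]
  simp only [hpt] at hi he
  rw [fun_iteratedFDeriv_sub_apply (hf.of_le hm).contDiffAt
    ((hL.contDiff_integral volume).of_le hm).contDiffAt, he]
  have h2 : iteratedFDeriv ℝ m f x = ∫ y, φ y • iteratedFDeriv ℝ m f x := by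
    rw [integral_smul_const, h1, one_smul]
  rw [h2, ← integral_sub (hφi.smul_const _) hi, ← one_mul (A / μ), ← h1, ← integral_mul_const]
  refine norm_integral_le_of_norm_le (hφi.mul_const _) (Eventually.of_forall fun y => ?_)
  rw [← smul_sub, norm_smul, Real.norm_eq_abs, abs_of_nonneg (hn y)]
  rcases le_or_gt (1 / 2) ‖y‖ with hy | hy
  · simp [h0 y hy]
  refine mul_le_mul_of_nonneg_left ?_ (hn y)
  have h3 := (convex_univ (𝕜 := ℝ) (E := E)).norm_image_sub_le_of_norm_fderiv_le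
    (f := iteratedFDeriv ℝ m f) (C := A)
    (fun z _ => hf.differentiable_iteratedFDeriv hm' z)
    (fun z _ => by rw [norm_fderiv_iteratedFDeriv]; exact hA z) (mem_univ (x - μ⁻¹ • y))
    (mem_univ x)
  rw [sub_sub_cancel, norm_smul, Real.norm_eq_abs, abs_of_pos (inv_pos.2 hμ)] at h3
  have hA0 : 0 ≤ A := (norm_nonneg _).trans (hA x)
  refine h3.trans ?_
  rw [div_eq_mul_inv]
  exact mul_le_mul_of_nonneg_left (mul_le_of_le_one_right (inv_pos.2 hμ).le (by linarith)) hA0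

theorem exists_moll : ∃ S : ℝ → (E → V4) → E → V4,
    (∀ μ, 1 ≤ μ → ∀ f, ContDiff ℝ ∞ f → ContDiff ℝ ∞ (S μ f) ∧
      ((∀ x, 1 ≤ ‖x‖ → f x = 0) → ∀ x, 3 / 2 ≤ ‖x‖ → S μ f x = 0)) ∧
    ∀ m : ℕ, ∃ C : ℝ, ∀ μ, 1 ≤ μ → ∀ f, ContDiff ℝ ∞ f → ∀ A : ℝ,
      ((∀ x, ‖f x‖ ≤ A) → ∀ x, ‖iteratedFDeriv ℝ m (S μ f) x‖ ≤ C * (A * μ ^ m)) ∧
      ((∀ x, ‖iteratedFDeriv ℝ (m + 1) f x‖ ≤ A) →
        ∀ x, ‖iteratedFDeriv ℝ m (fun y => f y - S μ f y) x‖ ≤ C * (A / μ)) := by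
  obtain ⟨φ, hφ, hn, h1, h0⟩ := exists_phi
  refine ⟨fun μ f x => ∫ y, φ y • f (x - μ⁻¹ • y), fun μ hμ f hf =>
    ⟨(locC1 hφ h0 hf μ⁻¹).contDiff_integral volume, fun hs x hx => ?_⟩,
    fun m => ⟨max (∫ y, ‖iteratedFDeriv ℝ m φ y‖) 1, fun μ hμ f hf A => ⟨fun hA x => ?_,
      fun hA x => ?_⟩⟩⟩
  · have : ∀ y, φ y • f (x - μ⁻¹ • y) = 0 := fun y => by
      rcases le_or_gt (1 / 2) ‖y‖ with hy | hy
      · rw [h0 y hy, zero_smul]
      · rw [hs, smul_zero]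
        have h2 := norm_sub_norm_le x (μ⁻¹ • y)
        have h3 : ‖μ⁻¹ • y‖ ≤ ‖y‖ := by
          rw [norm_smul, Real.norm_eq_abs, abs_of_pos (by positivity)]
          exact mul_le_of_le_one_left (norm_nonneg _) (inv_le_one_of_one_le₀ hμ)
        linarith
    simp only [this, integral_zero]
  · have hA0 : 0 ≤ A := (norm_nonneg _).trans (hA x)
    exact (est1' hφ h0 m hf hA (by linarith) x).trans
      (mul_le_mul_of_nonneg_right (le_max_left _ _) (by positivity))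
  · have hA0 : 0 ≤ A := (norm_nonneg _).trans (hA x)
    exact (est2 hφ hn h1 h0 m hf hA (by linarith) x).trans
      (le_mul_of_one_le_left (by positivity) (le_max_right _ _))

end Crest.Agent.R216.SmoothAux1
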