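import Crest.Agent.R216.MCl

/-!
# Row 216: smoothing operators on the surface (auxiliary file)
-/

set_option autoImplicit false
set_option linter.unusedSectionVars false

noncomputable section

namespace Crest.Agent.R216.SmoothAux2

open Set Metric Filter
open scoped Manifold ContDiff Topology RealInnerProductSpace

universe u

variable {M : Type u} [TopologicalSpace M] [T2Space M] [CompactSpace M] [ChartedSpace E M]
  [IsManifold (𝓡 2) ∞ M]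

/-- The specification of the mollifier. -/
def Moll (S : ℝ → (E → V4) → E → V4) : Prop :=
    (∀ μ, 1 ≤ μ → ∀ f, ContDiff ℝ ∞ f → ContDiff ℝ ∞ (S μ f) ∧
      ((∀ x, 1 ≤ ‖x‖ → f x = 0) → ∀ x, 3 / 2 ≤ ‖x‖ → S μ f x = 0)) ∧
    ∀ m : ℕ, ∃ C : ℝ, ∀ μ, 1 ≤ μ → ∀ f, ContDiff ℝ ∞ f → ∀ A : ℝ,
      ((∀ x, ‖f x‖ ≤ A) → ∀ x, ‖iteratedFDeriv ℝ m (S μ f) x‖ ≤ C * (A * μ ^ m)) ∧
      ((∀ x, ‖iteratedFDeriv ℝ (m + 1) f x‖ ≤ A) →
        ∀ x, ‖iteratedFDeriv ℝ m (fun y => f y - S μ f y) x‖ ≤ C * (A / μ))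

open Classical in
/-- The piece of `f` in the chart `a`. -/
def pc (𝒜 : Atl M) (a : Fin 𝒜.n) (f : M → V4) (x : E) : V4 :=
  if x ∈ (𝒜.c a).e.target then (𝒜.c a).rd (fun p => 𝒜.ρ a p • f p) x else 0

variable (𝒜 : Atl M) (a : Fin 𝒜.n)

theorem ball_sub : ball (0 : E) 2 ⊆ (𝒜.c a).e.target :=
  (ball_subset_closedBall.trans (closedBall_subset_closedBall (by norm_num))).trans (𝒜.sub a)

theorem pc_of_mem (f : M → V4) {x : E} (hx : x ∈ (𝒜.c a).e.target) :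
    pc 𝒜 a f x = (𝒜.c a).rd (fun p => 𝒜.ρ a p • f p) x := if_pos hx

theorem pc_zero (f : M → V4) (x : E) (hx : 1 ≤ ‖x‖) : pc 𝒜 a f x = 0 := by
  by_cases h : x ∈ (𝒜.c a).e.target
  · rw [pc_of_mem 𝒜 a f h]
    have h0 : 𝒜.ρ a ((𝒜.c a).e.symm x) = 0 := by
      by_contra h1
      have h2 := (𝒜.supp a _ h1).2
      rw [(𝒜.c a).e.right_inv h] at h2
      linarith
    change 𝒜.ρ a ((𝒜.c a).e.symm x) • f ((𝒜.c a).e.symm x) = 0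
    rw [h0, zero_smul]
  · exact if_neg h

theorem pc_cases (f : M → V4) (x : E) : (pc 𝒜 a f =ᶠ[𝓝 x] fun _ => 0) ∨
    (x ∈ ball (0 : E) 2 ∧ pc 𝒜 a f =ᶠ[𝓝 x] (𝒜.c a).rd fun p => 𝒜.ρ a p • f p) := by
  by_cases hx : x ∈ ball (0 : E) 2
  · refine Or.inr ⟨hx, ?_⟩
    filter_upwards [isOpen_ball.mem_nhds hx] with y hy
    exact pc_of_mem 𝒜 a f (ball_sub 𝒜 a hy)
  · left
    have h1 : 1 < ‖x‖ := by
      rw [mem_ball_zero_iff, not_lt] at hx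
      linarith
    have h2 : IsOpen {y : E | 1 < ‖y‖} := isOpen_lt continuous_const continuous_norm
    filter_upwards [h2.mem_nhds h1] with y hy
    exact pc_zero 𝒜 a f y (le_of_lt hy)

theorem pc_sm {f : M → V4} (hf : Sm f) : ContDiff ℝ ∞ (pc 𝒜 a f) := by
  refine contDiff_iff_contDiffAt.2 fun x => ?_
  rcases pc_cases 𝒜 a f x with h | ⟨hx, h⟩
  · exact contDiffAt_const.congr_of_eventuallyEq h
  · have hs : Sm fun p => 𝒜.ρ a p • f p := (𝒜.sm a).smul hf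
    exact (((𝒜.c a).contDiffOn_rd hs).contDiffAt
      ((𝒜.c a).e.open_target.mem_nhds (ball_sub 𝒜 a hx))).congr_of_eventuallyEq h

theorem ext_pc (f : M → V4) (p : M) : (𝒜.c a).ext (pc 𝒜 a f) p = 𝒜.ρ a p • f p := by
  unfold Ch.ext
  split_ifs with hp
  · rw [pc_of_mem 𝒜 a f ((𝒜.c a).e.map_source hp)]
    change 𝒜.ρ a ((𝒜.c a).e.symm ((𝒜.c a).e p)) • f ((𝒜.c a).e.symm ((𝒜.c a).e p)) = _
    rw [(𝒜.c a).e.left_inv hp]
  · have h0 : 𝒜.ρ a p = 0 := by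
      by_contra h1
      exact hp (𝒜.supp a _ h1).1
    rw [h0, zero_smul]

theorem ext_sub (c : Ch M) (u v : E → V4) (p : M) :
    c.ext (fun x => u x - v x) p = c.ext u p - c.ext v p := by
  unfold Ch.ext
  split_ifs
  · rfl
  · rw [sub_zero]

theorem sum_ext_pc (f : M → V4) (p : M) : ∑ a, (𝒜.c a).ext (pc 𝒜 a f) p = f p := by
  rw [Finset.sum_congr rfl fun a _ => ext_pc 𝒜 a f p, ← Finset.sum_smul, 𝒜.sum p, one_smul]

variable {ι : Type*} {σ μ : Sc ι} {k j : ℕ} {A : ι → ℝ} {f : ι → M → V4}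

theorem pc_bd (h : MB σ k j A f) : ∃ C : ℝ, 0 ≤ C ∧ ∀ i, ∀ m ≤ k, ∀ x,
    ‖iteratedFDeriv ℝ m (pc 𝒜 a (f i)) x‖ ≤ C * (A i * σ.M i ^ (j + m)) := by
  have h1 := ((MB.fixed (σ := σ) (k := k) (𝒜.sm a)).smul h).atl 𝒜 a
  have h2 : Bd (σ.ctx univ isOpen_univ) k (0 + j) A fun i => pc 𝒜 a (f i) := by
    refine h1.of_local h.nonneg fun i x _ => ?_
    rcases pc_cases 𝒜 a (f i) x with h | ⟨hx, h⟩
    · exact Or.inl h
    · exact Or.inr ⟨i, hx, h, (one_mul _).le, le_rfl⟩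
  rw [Nat.zero_add] at h2
  obtain ⟨C, hC, h3⟩ := ClA1.le' h2
  exact ⟨C, hC, fun i m hm x => h3 i m hm x (mem_univ x)⟩

variable {S : ℝ → (E → V4) → E → V4}

theorem moll_unif (hS : Moll S) (k : ℕ) : ∃ C : ℝ, 0 ≤ C ∧ ∀ m ≤ k, ∀ μ, 1 ≤ μ → ∀ f,
    ContDiff ℝ ∞ f → ∀ A : ℝ, 0 ≤ A →
      ((∀ x, ‖f x‖ ≤ A) → ∀ x, ‖iteratedFDeriv ℝ m (S μ f) x‖ ≤ C * (A * μ ^ m)) ∧
      ((∀ x, ‖iteratedFDeriv ℝ (m + 1) f x‖ ≤ A) →
        ∀ x, ‖iteratedFDeriv ℝ m (fun y => f y - S μ f y) x‖ ≤ C * (A / μ)) := by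
  refine ClA2.exists_unif (P := fun m C => ∀ μ, 1 ≤ μ → ∀ f,
    ContDiff ℝ ∞ f → ∀ A : ℝ, 0 ≤ A →
      ((∀ x, ‖f x‖ ≤ A) → ∀ x, ‖iteratedFDeriv ℝ m (S μ f) x‖ ≤ C * (A * μ ^ m)) ∧
      ((∀ x, ‖iteratedFDeriv ℝ (m + 1) f x‖ ≤ A) →
        ∀ x, ‖iteratedFDeriv ℝ m (fun y => f y - S μ f y) x‖ ≤ C * (A / μ))) ?_ ?_ k
  · intro m C C' hC h μ hμ f hf A hA
    have hμ0 : 0 ≤ μ := zero_le_one.trans hμ
    exact ⟨fun h1 x => ((h μ hμ f hf A hA).1 h1 x).trans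
        (mul_le_mul_of_nonneg_right hC (mul_nonneg hA (pow_nonneg hμ0 _))),
      fun h1 x => ((h μ hμ f hf A hA).2 h1 x).trans
        (mul_le_mul_of_nonneg_right hC (div_nonneg hA hμ0))⟩
  · intro m
    obtain ⟨C, hC⟩ := hS.2 m
    exact ⟨C, fun μ hμ f hf A _ => hC μ hμ f hf A⟩

theorem le_of_not_mem {x : E} (hx : x ∉ closedBall (0 : E) (3 / 2)) : 3 / 2 ≤ ‖x‖ := by
  rw [mem_closedBall_zero_iff, not_le] at hx
  exact hx.le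

theorem cb_sub : closedBall (0 : E) (3 / 2) ⊆ ball 0 2 := closedBall_subset_ball (by norm_num)

theorem part1 (hS : Moll S) (h : MB σ 0 j A f) (k : ℕ) :
    MB μ k 0 (fun i => A i * σ.M i ^ j)
      fun i => (𝒜.c a).ext (S (μ.M i) (pc 𝒜 a (f i))) := by
  have hA : ∀ i, 0 ≤ A i * σ.M i ^ j := fun i =>
    mul_nonneg (h.nonneg i) (pow_nonneg (zero_le_one.trans (σ.hM i)) _)
  refine MB.ext (𝒜.c a) isOpen_ball (isCompact_closedBall 0 (3 / 2)) cb_sub (ball_sub 𝒜 a) ?_ ?_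
  · obtain ⟨C0, hC0, h0⟩ := pc_bd 𝒜 a h
    obtain ⟨C, hC, h1⟩ := moll_unif hS k
    refine ⟨hA, fun i => (hS.1 _ (μ.hM i) _ (pc_sm 𝒜 a (h.sm i))).1.contDiffOn,
      C * C0, fun i m hm x _ => ?_⟩
    have h2 := (h1 m hm _ (μ.hM i) _ (pc_sm 𝒜 a (h.sm i)) (C0 * (A i * σ.M i ^ j))
      (mul_nonneg hC0 (hA i))).1 (fun y => by
        have := h0 i 0 le_rfl y
        rwa [norm_iteratedFDeriv_zero, Nat.add_zero] at this) x
    refine h2.trans (le_of_eq ?_)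
    change _ = C * C0 * (A i * σ.M i ^ j * μ.M i ^ (0 + m))
    rw [Nat.zero_add]
    ring
  · intro i x _ hx
    exact (hS.1 _ (μ.hM i) _ (pc_sm 𝒜 a (h.sm i))).2 (pc_zero 𝒜 a _) x (le_of_not_mem hx)

theorem part2 (hS : Moll S) (h : MB σ (k + 1) j A f) :
    MB σ k j (fun i => A i * (σ.M i / μ.M i))
      fun i => (𝒜.c a).ext fun x => pc 𝒜 a (f i) x - S (μ.M i) (pc 𝒜 a (f i)) x := by
  have hσ : ∀ i, 0 ≤ σ.M i := fun i => zero_le_one.trans (σ.hM i)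
  have hA : ∀ i, 0 ≤ A i * (σ.M i / μ.M i) := fun i =>
    mul_nonneg (h.nonneg i) (div_nonneg (hσ i) (zero_le_one.trans (μ.hM i)))
  refine MB.ext (𝒜.c a) isOpen_ball (isCompact_closedBall 0 (3 / 2)) cb_sub (ball_sub 𝒜 a) ?_ ?_
  · obtain ⟨C0, hC0, h0⟩ := pc_bd 𝒜 a h
    obtain ⟨C, hC, h1⟩ := moll_unif hS k
    refine ⟨hA, fun i => ((pc_sm 𝒜 a (h.sm i)).sub
      (hS.1 _ (μ.hM i) _ (pc_sm 𝒜 a (h.sm i))).1).contDiffOn, C * C0, fun i m hm x _ => ?_⟩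
    have h2 := (h1 m hm _ (μ.hM i) _ (pc_sm 𝒜 a (h.sm i)) (C0 * (A i * σ.M i ^ (j + (m + 1))))
      (mul_nonneg hC0 (mul_nonneg (h.nonneg i) (pow_nonneg (hσ i) _)))).2
      (fun y => h0 i (m + 1) (by omega) y) x
    refine h2.trans (le_of_eq ?_)
    change _ = C * C0 * (A i * (σ.M i / μ.M i) * σ.M i ^ (j + m))
    ring
  · intro i x _ hx
    have hx' := le_of_not_mem hx
    rw [(hS.1 _ (μ.hM i) _ (pc_sm 𝒜 a (h.sm i))).2 (pc_zero 𝒜 a _) x hx',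
      pc_zero 𝒜 a _ x (by linarith), sub_zero]

theorem smooth0 (hS : ∃ S, Moll S) : ∃ S : ℝ → (M → V4) → M → V4,
    ∀ {ι : Type u} (σ μ : Sc ι), (∀ i, σ.M i ≤ μ.M i) → ∀ (j : ℕ) (A : ι → ℝ) (f : ι → M → V4),
      (MB σ 0 j A f → ∀ k, MB μ k 0 (fun i => A i * σ.M i ^ j) fun i => S (μ.M i) (f i)) ∧
      ∀ k, MB σ (k + 1) j A f →
        MB σ k j (fun i => A i * (σ.M i / μ.M i)) fun i p => f i p - S (μ.M i) (f i) p := by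
  obtain ⟨S, hS⟩ := hS
  obtain ⟨𝒜⟩ := exists_atl (M := M)
  refine ⟨fun t f p => ∑ a, (𝒜.c a).ext (S t (pc 𝒜 a f)) p, fun σ μ _ j A f => ⟨?_, ?_⟩⟩
  · intro h k
    exact MB.sum Finset.univ
      (fun i => mul_nonneg (h.nonneg i) (pow_nonneg (zero_le_one.trans (σ.hM i)) _))
      fun a _ => part1 𝒜 a hS h k
  · intro k h
    have h1 := MB.sum Finset.univ (fun i => mul_nonneg (h.nonneg i)
      (div_nonneg (zero_le_one.trans (σ.hM i)) (zero_le_one.trans (μ.hM i))))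
      fun a _ => part2 (μ := μ) 𝒜 a hS h
    have e : (fun i p => f i p - ∑ a, (𝒜.c a).ext (S (μ.M i) (pc 𝒜 a (f i))) p) =
        fun i p => ∑ a, (𝒜.c a).ext
          (fun x => pc 𝒜 a (f i) x - S (μ.M i) (pc 𝒜 a (f i)) x) p := by
      funext i p
      rw [Finset.sum_congr rfl fun a _ => ext_sub (𝒜.c a) _ _ p, Finset.sum_sub_distrib,
        sum_ext_pc]
    rw [e]
    exact h1

/-- Two ranges of orders. -/
theorem tb_combine {σ₁ σ₂ σ' : Sc ι} {k₁ j₁ j₂ j' : ℕ} {A₁ A₂ A' : ι → ℝ} {T : ι → M → Bil}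
    (h₁ : TB σ₁ k₁ j₁ A₁ T) (h₂ : TB σ₂ k j₂ A₂ T) (h0 : ∀ i, 0 ≤ A' i)
    (e₁ : ∀ i, ∀ m ≤ k₁, A₁ i * σ₁.M i ^ (j₁ + m) ≤ A' i * σ'.M i ^ (j' + m))
    (e₂ : ∀ i m, k₁ < m → A₂ i * σ₂.M i ^ (j₂ + m) ≤ A' i * σ'.M i ^ (j' + m)) :
    TB σ' k j' A' T := by
  refine ⟨h0, h₁.sm, fun c U hU K hK hUK hKc => ?_⟩
  have b₁ := h₁.bd c U hU K hK hUK hKc
  have b₂ := h₂.bd c U hU K hK hUK hKc
  obtain ⟨C₁, hC₁, l₁⟩ := ClA1.le' b₁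
  obtain ⟨C₂, hC₂, l₂⟩ := ClA1.le' b₂
  refine ⟨h0, b₁.sm, C₁ + C₂, fun i m hm x hx => ?_⟩
  have hw : 0 ≤ A' i * σ'.M i ^ (j' + m) :=
    mul_nonneg (h0 i) (pow_nonneg (zero_le_one.trans (σ'.hM i)) _)
  change _ ≤ (C₁ + C₂) * (A' i * σ'.M i ^ (j' + m))
  rcases le_or_gt m k₁ with h | h
  · refine (l₁ i m h x hx).trans ?_
    exact mul_le_mul (by linarith) (e₁ i m h) (ClA2.w_nonneg b₁ i _) (by linarith)
  · refine (l₂ i m hm x hx).trans ?_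
    exact mul_le_mul (by linarith) (e₂ i m h) (ClA2.w_nonneg b₂ i _) (by linarith)

end Crest.Agent.R216.SmoothAux2
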