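import Crest.Agent.R216.MCl
import Crest.Agent.R216.SmoothAux2
import Crest.Agent.R216.SmoothAux1

/-!
# Row 216: smoothing operators
-/

set_option autoImplicit false
set_option linter.unusedSectionVars false

noncomputable section

namespace Crest.Agent.R216

open Set Metric Filter
open scoped Manifold ContDiff Topology RealInnerProductSpace

universe u

variable {M : Type u} [TopologicalSpace M] [T2Space M] [CompactSpace M] [ChartedSpace E M]
  [IsManifold (𝓡 2) ∞ M]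

/-- Mollification in the plane. -/
theorem exists_moll : ∃ S : ℝ → (E → V4) → E → V4,
    (∀ μ, 1 ≤ μ → ∀ f, ContDiff ℝ ∞ f → ContDiff ℝ ∞ (S μ f) ∧
      ((∀ x, 1 ≤ ‖x‖ → f x = 0) → ∀ x, 3 / 2 ≤ ‖x‖ → S μ f x = 0)) ∧
    ∀ m : ℕ, ∃ C : ℝ, ∀ μ, 1 ≤ μ → ∀ f, ContDiff ℝ ∞ f → ∀ A : ℝ,
      ((∀ x, ‖f x‖ ≤ A) → ∀ x, ‖iteratedFDeriv ℝ m (S μ f) x‖ ≤ C * (A * μ ^ m)) ∧
      ((∀ x, ‖iteratedFDeriv ℝ (m + 1) f x‖ ≤ A) →
        ∀ x, ‖iteratedFDeriv ℝ m (fun y => f y - S μ f y) x‖ ≤ C * (A / μ)) :=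
  SmoothAux1.exists_moll

variable {ι : Type*}

/-- First order smoothing on the surface. -/
theorem exists_smooth0 : ∃ S : ℝ → (M → V4) → M → V4,
    ∀ {ι : Type u} (σ μ : Sc ι), (∀ i, σ.M i ≤ μ.M i) → ∀ (j : ℕ) (A : ι → ℝ) (f : ι → M → V4),
      (MB σ 0 j A f → ∀ k, MB μ k 0 (fun i => A i * σ.M i ^ j) fun i => S (μ.M i) (f i)) ∧
      ∀ k, MB σ (k + 1) j A f →
        MB σ k j (fun i => A i * (σ.M i / μ.M i)) fun i p => f i p - S (μ.M i) (f i) p := by
  exact SmoothAux2.smooth0 exists_moll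

/-- Smoothing of order `r`. -/
theorem exists_smooth {ι : Type u} (σ μ : Sc ι) (h : ∀ i, σ.M i ≤ μ.M i) (r k j : ℕ) {A : ι → ℝ}
    {f : ι → M → V4} (hf : MB σ (r + k) j A f) :
    ∃ f' : ι → M → V4, (∀ k', MB μ k' 0 (fun i => A i * σ.M i ^ j) f') ∧
      MB σ k j (fun i => A i * (σ.M i / μ.M i) ^ r) fun i p => f i p - f' i p := by
  obtain ⟨S, hS⟩ := exists_smooth0 (M := M)
  have hσ : ∀ i, 0 ≤ σ.M i := fun i => zero_le_one.trans (σ.hM i)
  have hμ : ∀ i, 0 < μ.M i := fun i => zero_lt_one.trans_le (μ.hM i)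
  induction r generalizing A f with
  | zero =>
    refine ⟨fun _ _ => 0, fun k' => MB.zero fun i => mul_nonneg (hf.nonneg i) (pow_nonneg (hσ i) _), ?_⟩
    simp only [pow_zero, mul_one, sub_zero]
    rwa [Nat.zero_add] at hf
  | succ r ih =>
    have hf1 : MB σ (r + k + 1) j A f := by rwa [Nat.add_right_comm] at hf
    obtain ⟨g', hg, hg'⟩ := ih ((hS σ μ h j A f).2 _ hf1)
    refine ⟨fun i p => S (μ.M i) (f i) p + g' i p, fun k' => ?_, ?_⟩
    · refine ((hS σ μ h j A f).1 (hf.mono (Nat.zero_le _) le_rfl) k').add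
        ((hg k').size (C := 1) (fun i => mul_nonneg (hf.nonneg i) (pow_nonneg (hσ i) _)) fun i => ?_)
      rw [one_mul]
      refine mul_le_mul_of_nonneg_right (mul_le_mul_of_nonneg_right ?_ (pow_nonneg (hσ i) _))
        (pow_nonneg (hμ i).le _)
      exact mul_le_of_le_one_right (hf.nonneg i) ((div_le_one (hμ i)).2 (h i))
    · have e1 : (fun i p => f i p - (S (μ.M i) (f i) p + g' i p)) =
          fun i p => f i p - S (μ.M i) (f i) p - g' i p := by
        funext i p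
        rw [sub_add_eq_sub_sub]
      have e2 : (fun i => A i * (σ.M i / μ.M i) ^ (r + 1)) =
          fun i => A i * (σ.M i / μ.M i) * (σ.M i / μ.M i) ^ r := by
        funext i
        ring
      rw [e1, e2]
      exact hg'

/-- The first part of a stage: smoothing. -/
theorem stage_smooth {ι : Type u} (σ : Sc ι) {G : M → Bil} (hG : Met G) (p e : ℕ) (he : p + 1 ≤ e)
    {F : ι → M → V4} (hF : MB σ (kp p) 1 (fun _ => 1) F)
    (hD : TB σ (kp p) 0 (fun i => (σ.M i ^ (p + 1))⁻¹)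
      fun i q => G q - ind (F i) q - (σ.M i ^ p)⁻¹ • G q) :
    ∃ F0 : ι → M → V4, (∀ k, MB (σ.pow 2) k 1 (fun _ => 1) F0) ∧
      MB σ (p + 3) 1 (fun i => (σ.M i ^ (p + 5))⁻¹) (fun i q => F0 i q - F i q) ∧
      (∀ k, TB (σ.pow 4) k 1 (fun _ => 1)
        fun i q => σ.M i ^ p • (G q - ind (F0 i) q - (σ.M i ^ e)⁻¹ • G q)) ∧
      TB σ 0 0 (fun i => (σ.M i)⁻¹)
        fun i q => σ.M i ^ p • (G q - ind (F0 i) q - (σ.M i ^ e)⁻¹ • G q) - G q := by
  have h1 : ∀ i, 1 ≤ σ.M i := σ.hM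
  have hp : ∀ i, 0 < σ.M i := fun i => zero_lt_one.trans_le (σ.hM i)
  have hpn : ∀ i n, 0 < σ.M i ^ n := fun i n => pow_pos (hp i) n
  have hin : ∀ n i, 0 ≤ (σ.M i ^ n)⁻¹ := fun n i => inv_nonneg.2 (hpn i n).le
  have hle : ∀ i {n n' : ℕ}, n ≤ n' → σ.M i ^ n ≤ σ.M i ^ n' := fun i _ _ h =>
    pow_le_pow_right₀ (h1 i) h
  have hkp : kp p = p + 5 + (p + 3) := by unfold kp; omega
  obtain ⟨F0, hF0, hd⟩ := exists_smooth σ (σ.pow 2)
    (fun i => le_self_pow₀ (h1 i) (show 2 ≠ 0 by norm_num)) (p + 5) (p + 3) 1 (hkp ▸ hF)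
  have hd' : MB σ (p + 3) 1 (fun i => (σ.M i ^ (p + 5))⁻¹) fun i q => F0 i q - F i q := by
    have e1 : (fun i q => F0 i q - F i q) = fun i q => -(F i q - F0 i q) := by
      funext i q
      rw [neg_sub]
    rw [e1]
    refine hd.neg.size (C := 1) (hin _) fun i => le_of_eq ?_
    change 1 * (σ.M i / σ.M i ^ 2) ^ (p + 5) * σ.M i ^ 1 = _
    have := (hp i).ne'
    have e2 : σ.M i / σ.M i ^ 2 = (σ.M i)⁻¹ := by field_simp
    rw [e2, inv_pow, one_mul, one_mul]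
  have hF3 : MB σ (p + 3) 1 (fun _ => 1) F := hF.mono (by omega) le_rfl
  have hF03 : MB σ (p + 3) 1 (fun _ => 1) F0 := by
    have h2 := hF3.add (hd'.size (C := 1) (A' := fun _ => 1) (j' := 1) (fun _ => zero_le_one)
      fun i => by
        rw [one_mul]
        exact mul_le_mul_of_nonneg_right (inv_le_one_of_one_le₀ (one_le_pow₀ (h1 i))) (hpn i _).le)
    have e1 : F0 = fun i q => F i q + (F0 i q - F i q) := by
      funext i q
      rw [add_sub_cancel]
    rw [e1]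
    exact h2
  have hinv : ∀ i, 0 ≤ (σ.M i)⁻¹ := fun i => inv_nonneg.2 (hp i).le
  -- the difference of the metrics
  have hI : TB σ (p + 2) 0 (fun i => (σ.M i ^ (p + 1))⁻¹) fun i q => ind (F0 i) q - ind (F i) q := by
    have e1 : (fun i q => ind (F0 i) q - ind (F i) q) = fun i q =>
        indB (fun q => F0 i q - F i q) (F0 i) q + indB (F i) (fun q => F0 i q - F i q) q := by
      funext i q
      exact ind_sub_ind (hF.sm i) (hF03.sm i) q
    rw [e1]
    have e2 : ∀ i, (σ.M i ^ (p + 5))⁻¹ * σ.M i ^ (1 + 1 + 2) =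
        1 * ((σ.M i ^ (p + 1))⁻¹ * σ.M i ^ 0) := fun i => by
      have := (hp i).ne'
      field_simp
      ring
    refine ((TB.indB hd' hF03).size (C := 1) (hin _) fun i => le_of_eq ?_).add
      ((TB.indB hF3 hd').size (C := 1) (hin _) fun i => le_of_eq ?_)
    · rw [mul_one]; exact e2 i
    · rw [one_mul]; exact e2 i
  have hm : TB σ (p + 2) 0 (fun i => (σ.M i)⁻¹)
      fun i q => σ.M i ^ p • (G q - ind (F0 i) q - (σ.M i ^ e)⁻¹ • G q) - G q := by
    have e1 : (fun i q => σ.M i ^ p • (G q - ind (F0 i) q - (σ.M i ^ e)⁻¹ • G q) - G q) =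
        fun i q => σ.M i ^ p • ((G q - ind (F i) q - (σ.M i ^ p)⁻¹ • G q) -
          (ind (F0 i) q - ind (F i) q) - (σ.M i ^ e)⁻¹ • G q) := by
      funext i q
      have e2 : G q = σ.M i ^ p • (σ.M i ^ p)⁻¹ • G q := by
        rw [smul_smul, mul_inv_cancel₀ (hpn i p).ne', one_smul]
      have e3 : (G q - ind (F i) q - (σ.M i ^ p)⁻¹ • G q) -
          (ind (F0 i) q - ind (F i) q) - (σ.M i ^ e)⁻¹ • G q =
          (G q - ind (F0 i) q - (σ.M i ^ e)⁻¹ • G q) - (σ.M i ^ p)⁻¹ • G q := by abel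
      rw [e3, smul_sub _ _ ((σ.M i ^ p)⁻¹ • G q), ← e2]
    rw [e1]
    have h3 : TB σ (p + 2) 0 (fun i => (σ.M i ^ (p + 1))⁻¹) fun i q => (σ.M i ^ e)⁻¹ • G q := by
      refine (TB.fixed hG.sm).csmul (C := 1) (hin _) fun i => ?_
      rw [abs_of_nonneg (hin _ _), mul_one, one_mul]
      exact inv_anti₀ (hpn i _) (hle i he)
    refine (((hD.mono (by omega) le_rfl).sub hI).sub h3).csmul (C := 1) hinv fun i => le_of_eq ?_
    rw [abs_of_nonneg (hpn i _).le]
    have := (hp i).ne'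
    field_simp
    ring
  refine ⟨F0, fun k => (hF0 k).size (C := 1) (fun _ => zero_le_one) fun i => ?_, hd', fun k => ?_,
    hm.mono (Nat.zero_le _) le_rfl⟩
  · change 1 * σ.M i ^ 1 * (σ.M i ^ 2) ^ 0 ≤ 1 * (1 * (σ.M i ^ 2) ^ 1)
    rw [pow_zero, mul_one, one_mul, one_mul, one_mul, pow_one (σ.M i ^ 2)]
    exact hle i (by norm_num)
  · have h4 : TB σ (p + 2) 0 (fun _ => 1)
        fun i q => σ.M i ^ p • (G q - ind (F0 i) q - (σ.M i ^ e)⁻¹ • G q) := by
      have h5 := (hm.size (C := 1) (A' := fun _ => 1) (j' := 0) (fun _ => zero_le_one) fun i => by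
        rw [one_mul]
        exact mul_le_mul_of_nonneg_right (inv_le_one_of_one_le₀ (h1 i)) (hpn i _).le).add
        (TB.fixed hG.sm)
      have e1 : (fun i q => σ.M i ^ p • (G q - ind (F0 i) q - (σ.M i ^ e)⁻¹ • G q)) =
          fun i q => σ.M i ^ p • (G q - ind (F0 i) q - (σ.M i ^ e)⁻¹ • G q) - G q + G q := by
        funext i q
        abel
      rw [e1]
      exact h5
    have h6 : TB (σ.pow 2) k 3 (fun _ => 1) fun i => ind (F0 i) := by
      refine (TB.indB (hF0 (k + 1)) (hF0 (k + 1))).size (C := 1) (fun _ => zero_le_one)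
        fun i => le_of_eq ?_
      change 1 * σ.M i ^ 1 * (1 * σ.M i ^ 1) * (σ.M i ^ 2) ^ (0 + 0 + 2) =
        1 * (1 * (σ.M i ^ 2) ^ 3)
      ring
    have h7 : TB (σ.pow 2) k 3 (fun _ => 1) fun _ => G := (TB.fixed hG.sm).mono le_rfl (Nat.zero_le _)
    have h8 : TB (σ.pow 2) k 3 (fun _ => 1) fun i q => (σ.M i ^ e)⁻¹ • G q := by
      refine h7.csmul (C := 1) (fun _ => zero_le_one) fun i => ?_
      rw [abs_of_nonneg (hin _ _), mul_one, one_mul]
      exact inv_le_one_of_one_le₀ (one_le_pow₀ (h1 i))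
    have h9 : TB (σ.pow 2) k 3 (fun i => σ.M i ^ p)
        fun i q => σ.M i ^ p • (G q - ind (F0 i) q - (σ.M i ^ e)⁻¹ • G q) := by
      refine ((h7.sub h6).sub h8).csmul (C := 1) (fun i => (hpn i _).le) fun i => ?_
      rw [abs_of_nonneg (hpn i _).le, mul_one, one_mul]
    refine SmoothAux2.tb_combine h4 h9 (fun _ => zero_le_one) (fun i m _ => ?_) fun i m hm' => ?_
    · change 1 * σ.M i ^ (0 + m) ≤ 1 * (σ.M i ^ 4) ^ (1 + m)
      rw [one_mul, one_mul, ← pow_mul]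
      exact hle i (by omega)
    · change σ.M i ^ p * (σ.M i ^ 2) ^ (3 + m) ≤ 1 * (σ.M i ^ 4) ^ (1 + m)
      rw [one_mul, ← pow_mul, ← pow_mul, ← pow_add]
      exact hle i (by omega)

end Crest.Agent.R216
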