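import Crest.Agent.R216.ColStep
import Crest.Agent.R216.Plan
import Crest.Agent.R216.Smooth

/-!
# Row 216: one stage of the iteration for a family (proof of `stage_fam`)
-/

set_option autoImplicit false
set_option linter.unusedSectionVars false

noncomputable section

namespace Crest.Agent.R216.StageAux1

open Set Metric Filter
open scoped Manifold ContDiff Topology RealInnerProductSpace

universe u

variable {M : Type u} [TopologicalSpace M] [T2Space M] [CompactSpace M] [ChartedSpace E M]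
  [IsManifold (𝓡 2) ∞ M]

theorem mb_congr {ι : Type*} {σ : Sc ι} {k j : ℕ} {A : ι → ℝ} {f f' : ι → M → V4}
    (h : MB σ k j A f) (e : ∀ i p, f' i p = f i p) : MB σ k j A f' := by
  have : f' = f := funext fun i => funext (e i)
  rw [this]; exact h

theorem tb_congr {ι : Type*} {σ : Sc ι} {k j : ℕ} {A : ι → ℝ} {f f' : ι → M → Bil}
    (h : TB σ k j A f) (e : ∀ i p, f' i p = f i p) : TB σ k j A f' := by
  have : f' = f := funext fun i => funext (e i)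
  rw [this]; exact h

theorem kap_pos {l : ℝ} (hl : 1 ≤ l) (p : ℕ) : 0 < √(l ^ p)⁻¹ :=
  Real.sqrt_pos.2 (inv_pos.2 (pow_pos (by linarith) _))

theorem kap_sq {l : ℝ} (hl : 1 ≤ l) (p : ℕ) : √(l ^ p)⁻¹ ^ 2 = (l ^ p)⁻¹ :=
  Real.sq_sqrt (inv_pos.2 (pow_pos (by linarith) _)).le

theorem kap_mul {l : ℝ} (hl : 1 ≤ l) {p r : ℕ} (h : 2 * r ≤ p) : √(l ^ p)⁻¹ * l ^ r ≤ 1 := by
  have h0 : 0 < l := by linarith
  have h1 : (√(l ^ p)⁻¹ * l ^ r) ^ 2 ≤ 1 := by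
    rw [mul_pow, kap_sq hl, ← pow_mul, inv_mul_le_iff₀ (pow_pos h0 _), mul_one]
    exact pow_le_pow_right₀ hl (by omega)
  have h2 : 0 ≤ √(l ^ p)⁻¹ * l ^ r := by positivity
  nlinarith

theorem kap_le_one {l : ℝ} (hl : 1 ≤ l) (p : ℕ) : √(l ^ p)⁻¹ ≤ 1 := by
  simpa using kap_mul hl (p := p) (r := 0) (by omega)

theorem inv_le_kap {l : ℝ} (hl : 1 ≤ l) {p r : ℕ} (h : p ≤ r) : (l ^ r)⁻¹ ≤ √(l ^ p)⁻¹ := by
  have h0 : 0 < l := by linarith
  have h1 : (l ^ r)⁻¹ ≤ (l ^ p)⁻¹ := inv_anti₀ (pow_pos h0 _) (pow_le_pow_right₀ hl h)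
  have h2 := kap_sq hl p
  have h3 := kap_le_one hl p
  have h4 := kap_pos hl p
  nlinarith

theorem inv_mul_le {l : ℝ} (hl : 1 ≤ l) {a b r : ℕ} (h : b + r ≤ a) :
    (l ^ a)⁻¹ * l ^ b ≤ (l ^ r)⁻¹ := by
  have h0 : 0 < l := by linarith
  rw [inv_mul_le_iff₀ (pow_pos h0 _), ← div_eq_mul_inv, le_div_iff₀ (pow_pos h0 _), ← pow_add]
  exact pow_le_pow_right₀ hl h

theorem kap_mul_le {l : ℝ} (hl : 1 ≤ l) {p b r : ℕ} (h : 2 * (b + r) ≤ p) :
    √(l ^ p)⁻¹ * l ^ b ≤ (l ^ r)⁻¹ := by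
  have h0 : 0 < l := by linarith
  have := kap_mul hl h
  rw [← one_div (l ^ r), le_div_iff₀ (pow_pos h0 _), mul_assoc, ← pow_add]
  exact this

/-- raising the scale -/
theorem mb_up {ι : Type*} {σ : Sc ι} {k a b : ℕ} {A : ι → ℝ} {f : ι → M → V4}
    (h : MB (σ.pow a) k 1 A f) (hab : a ≤ b) : MB (σ.pow b) k 1 A f := by
  refine h.scale h.nonneg (C := 1) fun i m _ => ?_
  rw [one_mul]
  refine mul_le_mul_of_nonneg_left ?_ (h.nonneg i)
  exact pow_le_pow_left₀ (pow_nonneg (zero_le_one.trans (σ.hM i)) _)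
    (pow_le_pow_right₀ (σ.hM i) hab) _

theorem small_thr (𝒜 : Atl M) {ι : Type*} {σ : Sc ι} {h : ι → M → Bil} {G : M → Bil}
    (hd : TB σ 0 0 (fun i => (σ.M i)⁻¹) fun i q => h i q - G q) {η : ℝ} (hη : 0 < η) :
    ∃ Λ : ℝ, ∀ i, Λ ≤ σ.M i → ∀ a, ∀ x ∈ ball (0 : E) 2,
      ‖(𝒜.c a).pull (h i) x - (𝒜.c a).pull G x‖ ≤ η := by
  choose C hC0 hC using fun a => (hd.atl 𝒜 a).norm_le
  refine ⟨(∑ a, C a) / η, fun i hi a x hx => ?_⟩
  have h1 := hC a i x hx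
  rw [Ch.pull_sub] at h1
  refine h1.trans ?_
  have h2 : C a ≤ ∑ a, C a := Finset.single_le_sum (fun a _ => hC0 a) (Finset.mem_univ a)
  have h3 : 0 < σ.M i := lt_of_lt_of_le zero_lt_one (σ.hM i)
  rw [div_le_iff₀ hη] at hi
  rw [pow_zero, mul_one, ← div_eq_mul_inv, div_le_iff₀ h3]
  nlinarith

theorem stage_fam (𝒜 : Atl M) : ∃ d : ℕ, 1 ≤ d ∧ ∀ {G : M → Bil}, Met G → ∀ p e N : ℕ,
    20 * d ≤ p → p + 1 ≤ e → ∀ {ι : Type u} (σ : Sc ι) (F : ι → M → V4),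
      MB σ (kp p) 1 (fun _ => 1) F →
      TB σ (kp p) 0 (fun i => (σ.M i ^ (p + 1))⁻¹)
        (fun i q => G q - ind (F i) q - (σ.M i ^ p)⁻¹ • G q) → Ndg σ F →
      ∃ (Λ : ℝ) (F' : {i // Λ ≤ σ.M i} → M → V4),
        (∀ k, MB ((σ.comap Subtype.val).pow d) k 1 (fun _ => 1) F') ∧
        (∀ k, TB ((σ.comap Subtype.val).pow d) k 0 (fun i => (σ.M i.1 ^ N)⁻¹)
          fun i q => G q - ind (F' i) q - (σ.M i.1 ^ e)⁻¹ • G q) ∧
        MB ((σ.comap Subtype.val).pow d) (p + 3) 1 (fun i => √(σ.M i.1 ^ p)⁻¹)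
          (fun i q => F' i q - F i.1 q) ∧
        Ndg (σ.comap Subtype.val) F' := by
  obtain ⟨d, hd, hall⟩ := all_steps (M := M) 400 (by norm_num) (𝒜.n * 48)
  refine ⟨d, by omega, fun {G} hG p e N hp he {ι} σ F hF hD hN => ?_⟩
  obtain ⟨F0, h0a, h0b, h0c, h0d⟩ := stage_smooth σ hG p e he hF hD
  have hF2 : MB σ 2 1 (fun _ => 1) F := hF.mono (by unfold kp; omega) le_rfl
  have hM0 : ∀ i, 0 < σ.M i := fun i => lt_of_lt_of_le zero_lt_one (σ.hM i)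
  have hcl : MB (Sc.one ι) 2 0 (fun i => (σ.M i ^ 7)⁻¹) fun i q => F0 i q - F i q := by
    refine (h0b.mono (k' := 2) (by omega) le_rfl).scale
      (fun i => (inv_pos.2 (pow_pos (hM0 i) _)).le) (C := 1) fun i m hm => ?_
    have : ((Sc.one ι).M i) = 1 := rfl
    rw [this, one_pow, mul_one, one_mul]
    exact inv_mul_le (σ.hM i) (by omega)
  obtain ⟨Λ1, hN0⟩ := hN.persist hF2 hcl
  obtain ⟨η0, hη0, hplan⟩ := exists_plan 𝒜 hG
  obtain ⟨Λ2, hΛ2⟩ := small_thr 𝒜 h0d hη0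
  -- the first subfamily
  let ι1 : Type u := {i // max Λ1 Λ2 ≤ σ.M i}
  let σ1 : Sc ι1 := σ.comap Subtype.val
  let h : ι1 → M → Bil := fun i q =>
    σ.M i.1 ^ p • (G q - ind (F0 i.1) q - (σ.M i.1 ^ e)⁻¹ • G q)
  have ha1 : ∀ k, MB (σ1.pow 2) k 1 (fun _ => 1) fun i => F0 i.1 := fun k =>
    (h0a k).comap (Subtype.val : ι1 → ι)
  have hN1 : Ndg σ1 fun i => F0 i.1 :=
    hN0.comap fun i : ι1 => (⟨i.1, (le_max_left _ _).trans i.2⟩ : {i // Λ1 ≤ σ.M i})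
  obtain ⟨P, hP⟩ := hplan σ1 (fun i => F0 i.1) h ha1 hN1
    (fun k => (h0c k).comap (Subtype.val : ι1 → ι))
    (fun i q v w => by
      simp only [h, ContinuousLinearMap.smul_apply, ContinuousLinearMap.sub_apply, hG.symm q v w,
        ind_symm (F0 i.1) q v w])
    (fun i a x hx => hΛ2 i.1 ((le_max_right _ _).trans i.2) a x hx)
  obtain ⟨K0, hK0, hall'⟩ := hall N
  obtain ⟨b, hb, hsum⟩ := hP K0 hK0
  obtain ⟨F1, hF1, hT1⟩ := hall' K0 le_rfl σ1 (fun q => 𝒜.c (finProdFinEquiv.symm q).1)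
    (fun i => F0 i.1) (fun q => P (finProdFinEquiv.symm q)) (fun q => b (finProdFinEquiv.symm q))
    (fun i => √(σ.M i.1 ^ p)⁻¹)
    (fun q => (closedBall_subset_closedBall (by norm_num)).trans (𝒜.sub _))
    (fun q => hb _) (fun i => kap_pos (σ.hM i.1) p)
    (fun i => kap_mul (σ.hM i.1) (by omega)) (fun k => mb_up (ha1 k) (by norm_num))
  have g1 : ∀ k, MB (σ1.pow d) k 1 (fun _ => 1) F1 := fun k => by
    have h1 : MB (σ1.pow d) k 1 (fun _ => 1) fun i q => F1 i q - F0 i.1 q := by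
      refine (hF1 k).size (fun _ => zero_le_one) (C := 1) fun i => ?_
      rw [one_mul]
      exact mul_le_mul_of_nonneg_right (kap_le_one (σ.hM i.1) p)
        (pow_nonneg (zero_le_one.trans ((σ1.pow d).hM i)) _)
    exact mb_congr (h1.add (mb_up (ha1 k) (by omega))) fun i q => (sub_add_cancel _ _).symm
  have g2 : ∀ k, TB (σ1.pow d) k 0 (fun i => (σ.M i.1 ^ N)⁻¹)
      fun i q => G q - ind (F1 i) q - (σ.M i.1 ^ e)⁻¹ • G q := fun k => by
    refine tb_congr (hT1 k).neg fun i q => ?_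
    have e1 : ∑ r : Fin (𝒜.n * 48), (𝒜.c (finProdFinEquiv.symm r).1).push
        ((P (finProdFinEquiv.symm r)).T K0 (b (finProdFinEquiv.symm r)) i) q = h i q := by
      rw [hsum i q]
      exact Equiv.sum_comp finProdFinEquiv.symm
        fun r : Fin 𝒜.n × Fin 48 => (𝒜.c r.1).push ((P r).T K0 (b r) i) q
    rw [e1, kap_sq (σ.hM i.1)]
    simp only [h]
    rw [smul_smul, inv_mul_cancel₀ (pow_pos (hM0 i.1) p).ne', one_smul]
    abel
  have g3 : MB (σ1.pow d) (p + 3) 1 (fun i => √(σ.M i.1 ^ p)⁻¹) fun i q => F1 i q - F i.1 q := by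
    have h1 : MB (σ1.pow d) (p + 3) 1 (fun i => √(σ.M i.1 ^ p)⁻¹)
        fun i q => F0 i.1 q - F i.1 q := by
      refine (h0b.comap (Subtype.val : ι1 → ι)).scale (fun i => (kap_pos (σ.hM i.1) p).le)
        (C := 1) fun i m _ => ?_
      rw [one_mul]
      refine mul_le_mul (inv_le_kap (σ.hM i.1) (by omega)) ?_ (pow_nonneg (hM0 i.1).le _)
        (kap_pos (σ.hM i.1) p).le
      exact pow_le_pow_left₀ (hM0 i.1).le (le_self_pow₀ (σ.hM i.1) (by omega)) _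
    exact mb_congr ((hF1 (p + 3)).add h1) fun i q => (sub_add_sub_cancel _ _ _).symm
  have g4 : MB (Sc.one ι1) 2 0 (fun i => (σ1.M i ^ 7)⁻¹) fun i q => F1 i q - F i.1 q := by
    refine (g3.mono (k' := 2) (by omega) le_rfl).scale
      (fun i => (inv_pos.2 (pow_pos (hM0 i.1) _)).le) (C := 1) fun i m hm => ?_
    have e1 : ((Sc.one ι1).M i) = 1 := rfl
    have e2 : (σ1.pow d).M i = σ.M i.1 ^ d := rfl
    have e3 : σ1.M i = σ.M i.1 := rfl
    rw [e1, e2, e3, one_pow, mul_one, one_mul, ← pow_mul]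
    refine kap_mul_le (σ.hM i.1) ?_
    have : d * (1 + m) ≤ d * 3 := Nat.mul_le_mul_left _ (by omega)
    omega
  obtain ⟨Λ3, hN3⟩ := (hN.comap (Subtype.val : ι1 → ι)).persist
    (hF2.comap (Subtype.val : ι1 → ι)) g4
  let ψ : {i // max (max Λ1 Λ2) Λ3 ≤ σ.M i} → ι1 := fun i => ⟨i.1, (le_max_left _ _).trans i.2⟩
  refine ⟨max (max Λ1 Λ2) Λ3, fun i => F1 (ψ i), fun k => (g1 k).comap ψ, fun k => (g2 k).comap ψ,
    g3.comap ψ, ?_⟩
  exact hN3.comap fun i : {i // max (max Λ1 Λ2) Λ3 ≤ σ.M i} =>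
    (⟨ψ i, (le_max_right _ _).trans i.2⟩ : {i : ι1 // Λ3 ≤ σ1.M i})

end Crest.Agent.R216.StageAux1
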