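import Crest.Agent.R216.ColStep
import Crest.Agent.R216.Plan
import Crest.Agent.R216.Smooth
import Crest.Agent.R216.StageAux1

/-!
# Row 216: one stage of the iteration
-/

set_option autoImplicit false
set_option linter.unusedSectionVars false

noncomputable section

namespace Crest.Agent.R216

open Set Metric Filter
open scoped Manifold ContDiff Topology RealInnerProductSpace

universe u

variable {M : Type u} [TopologicalSpace M] [T2Space M] [CompactSpace M] [ChartedSpace E M]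
  [IsManifold (𝓡 2) ∞ M]

theorem stage_fam (𝒜 : Atl M) : ∃ d : ℕ, 1 ≤ d ∧ ∀ {G : M → Bil}, Met G → ∀ p e N : ℕ,
    20 * d ≤ p → p + 1 ≤ e → ∀ {ι : Type u} (σ : Sc ι) (F : ι → M → V4),
      MB σ (kp p) 1 (fun _ => 1) F →
      TB σ (kp p) 0 (fun i => (σ.M i ^ (p + 1))⁻¹)
        (fun i q => G q - ind (F i) q - (σ.M i ^ p)⁻¹ • G q) → Ndg σ F →
      ∃ (Λ : ℝ) (F' : {i // Λ ≤ σ.M i} → M → V4),
        (∀ k, MB ((σ.comap Subtype.val).pow d) k 1 (fun _ => 1) F') ∧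
        (∀ k, TB ((σ.comap Subtype.val).pow d) k 0 (fun i => (σ.M i.1 ^ N)⁻¹)
          fun i q => G q - ind (F' i) q - (σ.M i.1 ^ e)⁻¹ • G q) ∧
        MB ((σ.comap Subtype.val).pow d) (p + 3) 1 (fun i => √(σ.M i.1 ^ p)⁻¹)
          (fun i q => F' i q - F i.1 q) ∧
        Ndg (σ.comap Subtype.val) F' := StageAux1.stage_fam 𝒜

theorem stage (𝒜 : Atl M) : ∃ b : ℕ, 2 ≤ b ∧ ∀ {G : M → Bil}, Met G → ∀ p p' : ℕ,
    20 * b ≤ p → p ≤ p' → ∃ Λ : ℝ, ∀ l : ℝ, Λ ≤ l → ∀ F : M → V4, HO 𝒜 G p l F →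
      ∃ F' : M → V4, HO 𝒜 G p' (l ^ b) F' ∧ ∀ a, ∀ x ∈ ball (0 : E) 2, ∀ m : ℕ,
        2 * b * (m + 1) + 4 ≤ p →
          ‖iteratedFDeriv ℝ m ((𝒜.c a).rd fun q => F' q - F q) x‖ ≤ l⁻¹ := by
  obtain ⟨d, hd, H⟩ := stage_fam 𝒜
  refine ⟨d + 1, by omega, fun {G} hG p p' hp hp' => ?_⟩
  have hB : ∀ a, ball (0 : E) 2 ⊆ (𝒜.c a).e.target := fun a =>
    (ball_subset_closedBall.trans (closedBall_subset_closedBall (by norm_num))).trans (𝒜.sub a)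
  let σ : Sc {x : ℝ × (M → V4) // 1 ≤ x.1 ∧ HO 𝒜 G p x.1 x.2} := ⟨fun i => i.1.1, fun i => i.2.1⟩
  have h0 : ∀ i, 0 ≤ (σ.M i ^ (p + 1))⁻¹ := fun i =>
    inv_nonneg.2 (pow_nonneg (zero_le_one.trans (σ.hM i)) _)
  have hT : ∀ i : {x : ℝ × (M → V4) // 1 ≤ x.1 ∧ HO 𝒜 G p x.1 x.2},
      SmT fun q => G q - ind i.1.2 q - (σ.M i ^ p)⁻¹ • G q := fun i =>
    (hG.sm.sub (smT_ind i.2.2.sm)).sub (hG.sm.smul (f := fun _ => (σ.M i ^ p)⁻¹) contMDiff_const)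
  obtain ⟨Λ₀, F', h1, h2, h3, h4⟩ := H hG p ((d + 1) * p') ((d + 1) * (p' + 1) + 1) (by omega)
    (by nlinarith) σ (fun i => i.1.2)
    (MB.of_atl 𝒜 (fun i => i.2.2.sm) (fun _ => zero_le_one) fun a =>
      ⟨fun _ => zero_le_one, fun i => ((𝒜.c a).contDiffOn_rd i.2.2.sm).mono (hB a), 1,
        fun i m hm x hx => (i.2.2.bF a x hx m hm).trans_eq (by
          rw [one_mul, one_mul, add_comm]; rfl)⟩)
    (TB.of_atl 𝒜 hT h0 fun a => ⟨h0, fun i => (hT i _).mono (hB a), 1,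
        fun i m hm x hx => (i.2.2.bG a x hx m hm).trans_eq (by rw [one_mul, zero_add]; rfl)⟩)
    (Ndg.of_atl 𝒜 (fun i => i.2.2.sm) fun a => ⟨1, fun i x hx => by
      simpa only [one_mul] using i.2.2.nd a x (ball_subset_ball (by norm_num) hx)⟩)
  have e1 := eventually_all.2 fun a => eventually_atTop.2
    (((h1 (kp p')).atl 𝒜 a).absorb.imp fun Λ h l hl i => h i l hl)
  have e2 := eventually_all.2 fun a => eventually_atTop.2
    (((h2 (kp p')).atl 𝒜 a).absorb.imp fun Λ h l hl i => h i l hl)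
  have e3 := eventually_all.2 fun a => eventually_atTop.2
    ((h3.atl 𝒜 a).absorb.imp fun Λ h l hl i => h i l hl)
  have e4 : ∀ᶠ l : ℝ in atTop, ∀ a i, ∀ x ∈ ball (0 : E) 2, ∃ v : E, ‖v‖ ≤ 1 ∧
      1 ≤ l * (σ.M i.1 * ‖crv ((𝒜.c a).rd (F' i)) x v‖) := eventually_all.2 fun a => by
    obtain ⟨C, hC⟩ := h4 (𝒜.c a) (closedBall 0 2) (isCompact_closedBall _ _)
      ((closedBall_subset_closedBall (by norm_num)).trans (𝒜.sub a))
    filter_upwards [eventually_ge_atTop C] with l hl i x hx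
    obtain ⟨v, hv, hv'⟩ := hC i x (ball_subset_closedBall hx)
    exact ⟨v, hv, hv'.trans (mul_le_mul_of_nonneg_right hl
      (mul_nonneg (zero_le_one.trans (σ.hM i.1)) (norm_nonneg _)))⟩
  obtain ⟨Λ, hΛ⟩ := eventually_atTop.1 ((e1.and e2).and (e3.and e4) |>.and
    ((eventually_ge_atTop 1).and (eventually_ge_atTop Λ₀)))
  refine ⟨Λ, fun l hl F hF => ?_⟩
  obtain ⟨⟨⟨b1, b2⟩, b3, b4⟩, hl1, hl0⟩ := hΛ l hl
  have hl' : 0 < l := zero_lt_one.trans_le hl1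
  let i : {i // Λ₀ ≤ σ.M i} := ⟨⟨(l, F), hl1, hF⟩, hl0⟩
  refine ⟨F' i, ⟨(h1 0).sm i, fun a x hx m hm => (b1 a i m hm x hx).trans ?_,
    fun a x hx m hm => ?_, fun a x hx => ?_⟩,
    fun a x hx m hm => (b3 a i m (by nlinarith) x hx).trans ?_⟩
  · change l * (1 * (l ^ d) ^ (1 + m)) ≤ _
    rw [one_mul, ← pow_mul, ← pow_mul, ← pow_succ']
    exact pow_le_pow_right₀ hl1 (by nlinarith)
  · rw [← pow_mul]
    refine (b2 a i m hm x hx).trans ?_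
    change l * ((l ^ ((d + 1) * (p' + 1) + 1))⁻¹ * (l ^ d) ^ (0 + m)) ≤ _
    rw [← pow_mul l (d + 1) (p' + 1), pow_succ' l ((d + 1) * (p' + 1)), mul_inv, ← mul_assoc,
      mul_inv_cancel_left₀ hl'.ne', zero_add]
    gcongr
    omega
  · obtain ⟨v, hv, hv'⟩ := b4 a i x hx
    refine ⟨v, hv, hv'.trans ?_⟩
    change l * (l * _) ≤ _
    rw [← mul_assoc, ← sq]
    exact mul_le_mul_of_nonneg_right (pow_le_pow_right₀ hl1 (by omega)) (norm_nonneg _)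
  · change l * (√(l ^ p)⁻¹ * (l ^ d) ^ (1 + m)) ≤ _
    have h5 : √(l ^ p)⁻¹ ≤ (l ^ (d * (1 + m) + 2))⁻¹ := by
      refine Real.sqrt_le_iff.2 ⟨by positivity, ?_⟩
      rw [inv_pow, ← pow_mul]
      exact inv_anti₀ (by positivity) (pow_le_pow_right₀ hl1 (by nlinarith))
    refine (mul_le_mul_of_nonneg_left (mul_le_mul_of_nonneg_right h5 (by positivity))
      hl'.le).trans_eq ?_
    rw [← pow_mul, pow_add]
    field_simp

end Crest.Agent.R216
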