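import Crest.Agent.R216.Top
import Crest.Agent.R216.Stab

/-!
# Row 216: the immersion in a paraboloid (auxiliary file of `Start`)
-/

set_option autoImplicit false
set_option linter.unusedSectionVars false

noncomputable section

namespace Crest.Agent.R216.StartAux1

open Set Metric Filter
open scoped Manifold ContDiff Topology RealInnerProductSpace

universe u

variable {M : Type u} [TopologicalSpace M] [T2Space M] [CompactSpace M] [ChartedSpace E M]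
  [IsManifold (𝓡 2) ∞ M]

theorem pull_dQ (c : Ch M) (T : M → Bil) {p : M} (hp : p ∈ c.e.source) (v : E) :
    c.pull T (c.e p) (c.dQ p v) (c.dQ p v) = T p v v := by
  simp only [Ch.pull, ContinuousLinearMap.bilinearComp_apply, c.dP_dQ hp, c.e.left_inv hp]

theorem dQ_ne (c : Ch M) {p : M} (hp : p ∈ c.e.source) {v : E} (hv : v ≠ 0) : c.dQ p v ≠ 0 :=
  fun h => hv (by rw [← c.dP_dQ hp v, h, map_zero])

theorem short {G T : M → Bil} (hG : Met G) (hT : SmT T) :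
    ∃ δ : ℝ, 0 < δ ∧ ∀ p v, v ≠ 0 → δ ^ 2 * T p v v < G p v v := by
  obtain ⟨𝒜⟩ := exists_atl (M := M)
  have hsub : ∀ a, closedBall (0 : E) 1 ⊆ (𝒜.c a).e.target := fun a =>
    (closedBall_subset_closedBall (by norm_num)).trans (𝒜.sub a)
  have h1 : ∀ a, ∀ᶠ δ : ℝ in 𝓝 0, ∀ z ∈ closedBall (0 : E) 1 ×ˢ sphere (0 : E) 1,
      δ ^ 2 * (𝒜.c a).pull T z.1 z.2 z.2 < (𝒜.c a).pull G z.1 z.2 z.2 := fun a => by
    refine ((isCompact_closedBall 0 1).prod
      (isCompact_sphere 0 1)).eventually_forall_of_forall_eventually fun z hz => ?_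
    have hx := hsub a hz.1
    have hc : ∀ {S : M → Bil}, SmT S → ContinuousAt
        (fun q : ℝ × E × E => (𝒜.c a).pull S q.2.1 q.2.2 q.2.2) (0, z) := fun hS =>
      ((ContinuousAt.comp (f := fun q : ℝ × E × E => q.2.1)
        ((hS (𝒜.c a)).continuousOn.continuousAt ((𝒜.c a).e.open_target.mem_nhds hx))
        (by fun_prop)).clm_apply (by fun_prop)).clm_apply (by fun_prop)
    refine ((continuousAt_fst.pow 2).mul (hc hT)).eventually_lt (hc hG.sm) ?_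
    simpa using hG.pull_pos (𝒜.c a) hx (ne_zero_of_mem_unit_sphere ⟨z.2, hz.2⟩)
  obtain ⟨δ, h2, hδ⟩ := (((eventually_all.2 h1).filter_mono nhdsWithin_le_nhds).and
    (self_mem_nhdsWithin (a := (0 : ℝ)) (s := Ioi 0))).exists
  refine ⟨δ, hδ, fun p v hv => ?_⟩
  obtain ⟨a, -, ha⟩ := Finset.exists_ne_zero_of_sum_ne_zero
    (s := Finset.univ) (f := fun a => 𝒜.ρ a p) (by rw [𝒜.sum p]; exact one_ne_zero)
  obtain ⟨h3, h4⟩ := 𝒜.supp a p ha
  have hw := dQ_ne (𝒜.c a) h3 hv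
  rw [← pull_dQ (𝒜.c a) T h3, ← pull_dQ (𝒜.c a) G h3]
  generalize (𝒜.c a).dQ p v = w at hw
  have hn : 0 < ‖w‖ := norm_pos_iff.2 hw
  have h5 := h2 a ((𝒜.c a).e p, ‖w‖⁻¹ • w)
    ⟨mem_closedBall_zero_iff.2 h4.le, by simp [norm_smul, hn.ne']⟩
  simp only [map_smul, smul_apply, smul_eq_mul] at h5
  have h6 : 0 < ‖w‖⁻¹ * ‖w‖⁻¹ := by positivity
  refine lt_of_mul_lt_mul_left ?_ h6.le
  linarith

theorem dM_comp {V W : Type*} [NormedAddCommGroup V] [NormedSpace ℝ V] [NormedAddCommGroup W]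
    [NormedSpace ℝ W] {φ : M → V} (hφ : Sm φ) {Ψ : V → W} {p : M} {L : V →L[ℝ] W}
    (hΨ : HasFDerivAt Ψ L (φ p)) (v : E) : dM (fun q => Ψ (φ q)) p v = L (dM φ p v) := by
  have h := (hΨ.hasMFDerivAt.comp p ((hφ p).mdifferentiableAt (by simp)).hasMFDerivAt).mfderiv
  exact congrArg (fun A : E →L[ℝ] W => A v) h

/-- The second fundamental form in the direction of a normal field. -/
theorem inner_sff {F n : M → V4} (hF : Sm F) (hn : Sm n) (h : ∀ p v, ⟪n p, dM F p v⟫ = 0) (p : M)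
    (v : E) : ⟪n p, sff F p v v⟫ = -⟪dM n p v, dM F p v⟫ := by
  obtain ⟨c, hc⟩ := exists_ch_chartAt (M := M) p
  have hs : p ∈ c.e.source := hc ▸ mem_chart_source E p
  have hx := c.e.map_source hs
  have hO := c.e.open_target
  have h0 : ∀ w, ∀ y ∈ c.e.target, ⟪c.rd n y, dd w (c.rd F) y⟫ = 0 := fun w y hy => by
    rw [dd, c.fderiv_rd hF hy]
    exact h _ _
  have h1 := c.sff_eq hF hx (c.dQ p v) (c.dQ p v)
  have h2 := c.fderiv_rd hF hx (c.dQ p v)
  have h3 := c.fderiv_rd hn hx (c.dQ p v)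
  rw [c.e.left_inv hs, c.dP_dQ hs] at h1 h2 h3
  have h4 := dd_congr hO (h0 (c.dQ p v)) hx (c.dQ p v)
  rw [dd_inner (StabAuxB.diffAt hO (c.contDiffOn_rd hn) hx)
    (StabAuxB.diffAt hO (StabAuxB.sm_dd hO (c.contDiffOn_rd hF) _) hx)] at h4
  have h5 : dd (c.dQ p v) (fun _ : E => (0 : ℝ)) (c.e p) = 0 := by simp [dd]
  have h6 : c.rd n (c.e p) ∈ (LinearMap.range (fderiv ℝ (c.rd F) (c.e p) : E →ₗ[ℝ] V4))ᗮ := by
    rw [Submodule.mem_orthogonal']
    rintro _ ⟨w, rfl⟩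
    exact h0 w _ hx
  have h7 := Submodule.starProjection_inner_eq_zero
    (dd (c.dQ p v) (dd (c.dQ p v) (c.rd F)) (c.e p)) _ h6
  rw [inner_sub_left, real_inner_comm, real_inner_comm (c.rd n (c.e p))] at h7
  rw [h1, ← h2, ← h3, ← StabAuxB.rd_apply c n hs, sffE]
  rw [h5] at h4
  change _ = -⟪dd (c.dQ p v) (c.rd n) (c.e p), dd (c.dQ p v) (c.rd F) (c.e p)⟫
  linarith

theorem exists_emb : ∃ (ι : V3 →L[ℝ] V4) (e : V4), (∀ a b, ⟪ι a, ι b⟫ = ⟪a, b⟫) ∧
    (∀ a, ⟪ι a, e⟫ = 0) ∧ ⟪e, e⟫ = 1 := by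
  refine ⟨∑ i : Fin 3, (EuclideanSpace.proj i).smulRight (EuclideanSpace.single i.castSucc 1),
    EuclideanSpace.single 3 1, fun a b => ?_, fun a => ?_, by simp⟩
  · simp [PiLp.inner_apply, Fin.sum_univ_three, Fin.sum_univ_four]
  · simp [PiLp.inner_apply, Fin.sum_univ_three]

theorem start {G : M → Bil} (hG : Met G) : ∃ F n : M → V4, Sm F ∧ Imm F ∧ Sm n ∧
    (∀ p v, ⟪n p, dM F p v⟫ = 0) ∧ Cvx F n ∧ Met fun p => G p - ind F p := by
  obtain ⟨φ, hφ, hi⟩ := exists_imm3 (M := M)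
  obtain ⟨ι, e, h1, h2, h3⟩ := exists_emb
  have h2' : ∀ a, ⟪e, ι a⟫ = 0 := fun a => by rw [real_inner_comm, h2]
  have sΦ : ContDiff ℝ ∞ fun y : V3 => ι y + (2⁻¹ * ⟪y, y⟫) • e :=
    ι.contDiff.add ((contDiff_const.mul (contDiff_id.inner ℝ contDiff_id)).smul contDiff_const)
  have sN : ContDiff ℝ ∞ fun y : V3 => e - ι y := contDiff_const.sub ι.contDiff
  have s0 : Sm fun q => ι (φ q) + (2⁻¹ * ⟪φ q, φ q⟫) • e := sΦ.comp_contMDiff hφ
  have sn : Sm fun q => e - ι (φ q) := sN.comp_contMDiff hφ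
  obtain ⟨δ, hδ, hs⟩ := short hG (smT_ind s0)
  have sF : Sm fun q => δ • (ι (φ q) + (2⁻¹ * ⟪φ q, φ q⟫) • e) :=
    (sΦ.const_smul δ).comp_contMDiff hφ
  have d0 : ∀ p v, dM (fun q => δ • (ι (φ q) + (2⁻¹ * ⟪φ q, φ q⟫) • e)) p v =
      δ • (ι (dM φ p v) + ⟪φ p, dM φ p v⟫ • e) := fun p v => by
    have a1 := (ι.hasFDerivAt.add (((((hasFDerivAt_id (φ p)).inner ℝ
      (hasFDerivAt_id (φ p))).const_mul 2⁻¹)).smul_const e)).const_smul δ
    refine (dM_comp hφ a1 v).trans ?_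
    simp only [smul_apply, add_apply,
      ContinuousLinearMap.smulRight_apply, ContinuousLinearMap.comp_apply,
      ContinuousLinearMap.prod_apply, ContinuousLinearMap.id_apply, fderivInnerCLM_apply, id,
      smul_eq_mul, real_inner_comm (φ p) (dM φ p v)]
    congr 3
    ring
  have dn : ∀ p v, dM (fun q => e - ι (φ q)) p v = -ι (dM φ p v) := fun p v =>
    dM_comp hφ (ι.hasFDerivAt.const_sub e) v
  have hn : ∀ p v, ⟪e - ι (φ p), dM (fun q => δ • (ι (φ q) + (2⁻¹ * ⟪φ q, φ q⟫) • e)) p v⟫ = 0 :=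
    fun p v => by
      rw [d0]
      simp only [inner_smul_right, inner_add_right, inner_sub_left, h1, h2, h2', h3]
      ring
  have hp : ∀ p v, v ≠ 0 → 0 < -⟪dM (fun q => e - ι (φ q)) p v,
      dM (fun q => δ • (ι (φ q) + (2⁻¹ * ⟪φ q, φ q⟫) • e)) p v⟫ := fun p v hv => by
    have hu : dM φ p v ≠ 0 := fun h => hv (hi p (h.trans (map_zero _).symm))
    rw [d0, dn]
    simp only [inner_smul_right, inner_add_right, inner_neg_left, h1, h2]
    have := mul_pos hδ (real_inner_self_pos.2 hu)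
    linarith
  refine ⟨_, _, sF, fun p => (injective_iff_map_eq_zero _).2 fun v hv => ?_, sn, hn,
    fun p v hv => ?_, hG.sm.sub (smT_ind sF), fun p v w => ?_, fun p v hv => ?_⟩
  · by_contra hne
    have := hp p v hne
    rw [hv, inner_zero_right, neg_zero] at this
    exact lt_irrefl _ this
  · rw [inner_sff sF sn hn]
    exact hp p v hv
  · simp only [sub_apply, hG.symm p v w, ind_symm _ p v w]
  · rw [ind_smul s0]
    simpa using hs p v hv

theorem i2_pos {II : E → E → V4} {n : V4} {v w : E} (h : ∀ v w, ∃ t : ℝ, II v w = t • n)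
    (hv : 0 < ⟪n, II v v⟫) (hw : 0 < ⟪n, II w w⟫) : 0 < i2 II v w := by
  obtain ⟨a, ha⟩ := h v w
  obtain ⟨b, hb⟩ := h w w
  obtain ⟨c, hc⟩ := h v v
  rw [hc, inner_smul_right] at hv
  rw [hb, inner_smul_right] at hw
  have hb0 : b ≠ 0 := fun h0 => by simp [h0] at hw
  have := mul_pos (mul_pos hv hw) (sq_pos_iff.2 hb0)
  unfold i2
  simp only [ha, hb, hc, inner_smul_left, inner_smul_right, conj_trivial]
  linarith

theorem inv {S : Sys M} {F n : M → V4} (hF : Sm F) (hi : Imm F) (hn : Sm n) (hc : Cvx F n)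
    (h : ∀ i k, i ≠ k → ∀ p ∈ S.Γ i ∩ S.Γ k, ∀ v w, ∃ t : ℝ, sff F p v w = t • n p) :
    Inv S F := by
  have hes : es ≠ 0 := norm_ne_zero_iff.1 (by rw [StabAuxB.norm_es]; exact one_ne_zero)
  have hw : ∀ i, ∀ p ∈ S.Γ i, 0 < ⟪n p, sff F p ((S.c i).wt p) ((S.c i).wt p)⟫ := fun i p hp =>
    hc p _ ((S.c i).wt_ne (S.Γ_subset i hp))
  refine ⟨hF, hi, fun p => ⟨es, fun h0 => ?_⟩, ⟨n, hn, fun p v h0 => ?_, hw⟩,
    fun i k hik p hp => i2_pos (h i k hik p hp) (hw i p hp.1) (hw k p hp.2)⟩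
  · have := hc p es hes
    rw [h0, inner_zero_right] at this
    exact lt_irrefl _ this
  · have := hc p es hes
    rw [← h0, inner_dM_sff] at this
    exact lt_irrefl _ this

end Crest.Agent.R216.StartAux1
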