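import Crest.Agent.R216.LDefs
import Crest.Agent.R216.ManAuxB

/-!
# Row 216: modification of the two-jet at one point of the plane
-/

set_option autoImplicit false
set_option maxSynthPendingDepth 3

noncomputable section

namespace Crest.Agent.R216.StartAux2

open Set Metric Filter
open scoped ContDiff Topology RealInnerProductSpace

theorem ep_pos (n : ℕ) : 0 < ep n := by
  change 0 < ((n : ℝ) + 1)⁻¹
  positivity

theorem ep_mul (n : ℕ) : ep n * ((n : ℝ) + 1) = 1 := by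
  change ((n : ℝ) + 1)⁻¹ * ((n : ℝ) + 1) = 1
  exact inv_mul_cancel₀ (by positivity)

theorem ep_le_one (n : ℕ) : ep n ≤ 1 := by
  have h : (0 : ℝ) ≤ n := n.cast_nonneg
  exact inv_le_one_of_one_le₀ (by linarith)

theorem tendsto_ep : Tendsto ep atTop (𝓝 0) :=
  tendsto_inv_atTop_zero.comp (tendsto_atTop_add_const_right _ 1 tendsto_natCast_atTop_atTop)

theorem exists_Bl : ∃ B : (E →L[ℝ] V4) →L[ℝ] (E →L[ℝ] V4) →L[ℝ] Bil,
    ∀ L L' v w, B L L' v w = ⟪L v, L' w⟫ := by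
  let B0 : (E →L[ℝ] V4) →ₗ[ℝ] (E →L[ℝ] V4) →ₗ[ℝ] Bil :=
    LinearMap.mk₂ ℝ (fun L L' => (innerSL ℝ).bilinearComp L L')
      (fun L₁ L₂ L' => by ext v w; simp)
      (fun c L L' => by ext v w; simp)
      (fun L L₁ L₂ => by ext v w; simp [inner_add_right])
      (fun c L L' => by ext v w; simp)
  refine ⟨B0.mkContinuous₂ 1 fun L L' => ?_, fun L L' v w => rfl⟩
  refine ContinuousLinearMap.opNorm_le_bound₂ _ (by positivity) fun v w => ?_
  calc ‖B0 L L' v w‖ = ‖⟪L v, L' w⟫‖ := rfl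
    _ ≤ ‖L v‖ * ‖L' w‖ := norm_inner_le_norm _ _
    _ ≤ ‖L‖ * ‖v‖ * (‖L'‖ * ‖w‖) :=
        mul_le_mul (L.le_opNorm v) (L'.le_opNorm w) (norm_nonneg _) (by positivity)
    _ = _ := by ring

theorem bd_one {ι V : Type*} [NormedAddCommGroup V] [NormedSpace ℝ V] {c : Ctx ι E} {A : ι → ℝ}
    {f : ι → E → V} (h0 : ∀ i, 0 ≤ A i) (hs : ∀ i, ContDiffOn ℝ ∞ (f i) (c.U i)) {C C' : ℝ}
    (h1 : ∀ i, ∀ x ∈ c.U i, ‖f i x‖ ≤ C * A i)
    (h2 : ∀ i, ∀ x ∈ c.U i, ‖fderiv ℝ (f i) x‖ ≤ C' * (A i * c.M i)) : Bd c 1 0 A f := by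
  refine ⟨h0, hs, max C C', fun i m hm x hx => ?_⟩
  have hM : 0 ≤ c.M i := zero_le_one.trans (c.hM i)
  interval_cases m
  · rw [norm_iteratedFDeriv_zero, add_zero, pow_zero, mul_one]
    exact (h1 i x hx).trans (mul_le_mul_of_nonneg_right (le_max_left _ _) (h0 i))
  · rw [norm_iteratedFDeriv_one, zero_add, pow_one]
    exact (h2 i x hx).trans
      (mul_le_mul_of_nonneg_right (le_max_right _ _) (mul_nonneg (h0 i) hM))

theorem fderiv_scale {V : Type*} [NormedAddCommGroup V] [NormedSpace ℝ V] {f : E → V}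
    (hf : Differentiable ℝ f) (c ρ : ℝ) (x0 : E) :
    fderiv ℝ (fun x => c • f (ρ • (x - x0))) = fun x => (c * ρ) • fderiv ℝ f (ρ • (x - x0)) := by
  funext x
  have h1 : HasFDerivAt (fun x : E => ρ • (x - x0)) (ρ • ContinuousLinearMap.id ℝ E) x :=
    ((hasFDerivAt_id x).sub_const x0).const_smul ρ
  have h2 := ((hf (ρ • (x - x0))).hasFDerivAt.comp x h1).const_smul c
  have h3 : HasFDerivAt (fun x => c • f (ρ • (x - x0)))
      (c • (fderiv ℝ f (ρ • (x - x0))).comp (ρ • ContinuousLinearMap.id ℝ E)) x := h2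
  rw [h3.fderiv]
  ext1 v
  simp [mul_smul]

theorem inner_fderiv {f : E → V4} (hf : Differentiable ℝ f) {z : V4} (h : ∀ y, ⟪z, f y⟫ = 0)
    (y v : E) : ⟪z, fderiv ℝ f y v⟫ = 0 := by
  have h1 : HasFDerivAt (fun y => innerSL ℝ z (f y)) ((innerSL ℝ z).comp (fderiv ℝ f y)) y :=
    (innerSL ℝ z).hasFDerivAt.comp y (hf y).hasFDerivAt
  have h2 : (fun y => innerSL ℝ z (f y)) = fun _ => (0 : ℝ) := funext h
  rw [h2] at h1
  have h3 := h1.unique (hasFDerivAt_const (0 : ℝ) y)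
  exact congrArg (fun L : E →L[ℝ] ℝ => L v) h3

theorem inner_fderiv2 {f : E → V4} (hf : ContDiff ℝ ∞ f) {z : V4} (h : ∀ y, ⟪z, f y⟫ = 0)
    (y v w : E) : ⟪z, fderiv ℝ (fderiv ℝ f) y v w⟫ = 0 := by
  rw [← VecAux.dd_dd hf.contDiffAt]
  have h1 : ContDiff ℝ ∞ (fderiv ℝ f) := hf.fderiv_right (m := ∞) (by simp)
  have h2 : ContDiff ℝ ∞ (dd w f) := h1.clm_apply contDiff_const
  exact inner_fderiv (h2.differentiable (by simp))
    (fun y => inner_fderiv (hf.differentiable (by simp)) h y w) y v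

/-- A compactly supported function with a prescribed quadratic germ. -/
theorem exists_G (B : E →L[ℝ] E →L[ℝ] V4) (hB : ∀ v w, B v w = B w v) :
    ∃ G : E → V4, ContDiff ℝ ∞ G ∧ (∀ y, 1 ≤ ‖y‖ → G y = 0) ∧
      (∀ z : V4, (∀ v w, ⟪z, B v w⟫ = 0) → ∀ y, ⟪z, G y⟫ = 0) ∧ fderiv ℝ G 0 = 0 ∧
      fderiv ℝ (fderiv ℝ G) 0 = B := by
  let β : ContDiffBump (0 : E) := ⟨1 / 2, 1, by norm_num, by norm_num⟩
  have hq : ∀ y : E, HasFDerivAt (fun y : E => (2⁻¹ : ℝ) • B y y) (B y) y := fun y => by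
    have h1 := (B.hasFDerivAt.clm_apply (hasFDerivAt_id y)).const_smul (2⁻¹ : ℝ)
    have h2 : HasFDerivAt (fun y : E => (2⁻¹ : ℝ) • B y y)
        ((2⁻¹ : ℝ) • ((B y).comp (ContinuousLinearMap.id ℝ E) + B.flip y)) y := h1
    refine h2.congr_fderiv ?_
    ext1 v
    simp only [smul_apply, add_apply,
      ContinuousLinearMap.comp_apply, ContinuousLinearMap.id_apply,
      ContinuousLinearMap.flip_apply, hB v y]
    rw [← two_smul ℝ, smul_smul]
    norm_num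
  have he : (fun y : E => β y • (2⁻¹ : ℝ) • B y y) =ᶠ[𝓝 0] fun y => (2⁻¹ : ℝ) • B y y := by
    filter_upwards [β.eventuallyEq_one] with y hy
    rw [hy, Pi.one_apply, one_smul]
  have he1 : fderiv ℝ (fun y : E => β y • (2⁻¹ : ℝ) • B y y) =ᶠ[𝓝 0] B := by
    filter_upwards [he.fderiv (𝕜 := ℝ)] with y hy
    rw [hy, (hq y).fderiv]
  refine ⟨fun y => β y • (2⁻¹ : ℝ) • B y y, ?_, fun y hy => ?_, fun z hz y => ?_, ?_, ?_⟩
  · exact β.contDiff.smul ((B.contDiff.clm_apply contDiff_id).const_smul _)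
  · have : β y = 0 := β.zero_of_le_dist (by simpa using hy)
    dsimp only
    rw [this, zero_smul]
  · dsimp only
    rw [inner_smul_right, inner_smul_right, hz, mul_zero, mul_zero]
  · rw [he1.eq_of_nhds, map_zero]
  · rw [he1.fderiv_eq, B.fderiv]

theorem exists_lower (B : E →L[ℝ] E →L[ℝ] V4) (z : V4) (h : ∀ v, v ≠ 0 → 0 < ⟪z, B v v⟫) :
    ∃ c : ℝ, 0 < c ∧ ∀ v, c * ‖v‖ ^ 2 ≤ ⟪z, B v v⟫ := by
  have hc : Continuous fun v : E => ⟪z, B v v⟫ := by fun_prop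
  obtain ⟨v0, hv0, hmin⟩ := (isCompact_sphere (0 : E) 1).exists_isMinOn
    (NormedSpace.sphere_nonempty.2 zero_le_one) hc.continuousOn
  have hv0' : v0 ≠ 0 := by
    rintro rfl
    simp at hv0
  refine ⟨_, h v0 hv0', fun v => ?_⟩
  rcases eq_or_ne v 0 with rfl | hv
  · simp
  · have hn : 0 < ‖v‖ := norm_pos_iff.2 hv
    have h1 : ‖v‖⁻¹ • v ∈ sphere (0 : E) 1 := by
      rw [mem_sphere_zero_iff_norm, norm_smul, norm_inv, norm_norm, inv_mul_cancel₀ hn.ne']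
    have h2 : ⟪z, B v0 v0⟫ ≤ ⟪z, B (‖v‖⁻¹ • v) (‖v‖⁻¹ • v)⟫ := hmin h1
    rw [map_smul, map_smul, smul_apply, inner_smul_right,
      inner_smul_right] at h2
    have h3 := mul_le_mul_of_nonneg_right h2 (sq_nonneg ‖v‖)
    refine h3.trans (le_of_eq ?_)
    field_simp

theorem jet_add {H u : E → V4} {x : E} (hH : ContDiffAt ℝ ∞ H x) (hu : ContDiffAt ℝ ∞ u x) :
    fderiv ℝ (fun y => H y + u y) x = fderiv ℝ H x + fderiv ℝ u x ∧
      fderiv ℝ (fderiv ℝ fun y => H y + u y) x =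
        fderiv ℝ (fderiv ℝ H) x + fderiv ℝ (fderiv ℝ u) x := by
  have he : fderiv ℝ (fun y => H y + u y) =ᶠ[𝓝 x] fun y => fderiv ℝ H y + fderiv ℝ u y := by
    filter_upwards [(hH.of_le (m := 1) (by simp)).eventually (by simp),
      (hu.of_le (m := 1) (by simp)).eventually (by simp)] with y h1 h2
    exact fderiv_fun_add (h1.differentiableAt one_ne_zero) (h2.differentiableAt one_ne_zero)
  refine ⟨he.eq_of_nhds, ?_⟩
  rw [he.fderiv_eq]
  exact fderiv_fun_add ((hH.fderiv_right (m := 1) (by norm_cast)).differentiableAt one_ne_zero)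
    ((hu.fderiv_right (m := 1) (by norm_cast)).differentiableAt one_ne_zero)

theorem sffE_pn {H : E → V4} {x : E} (hH : ContDiffAt ℝ ∞ H x)
    (hg : gram (dd es H x) (dd et H x) ≠ 0) (v w : E) :
    sffE H x v w = pn (dd es H x) (dd et H x) (fderiv ℝ (fderiv ℝ H) x v w) := by
  rw [← VecAux.dd_dd hH]
  exact starProjection_eq_pn (fderiv ℝ H x) hg _

theorem metric {O : Set E} (hO : IsOpen O) {H : E → V4} (hH : ContDiffOn ℝ ∞ H O) {x0 : E}
    {r : ℝ} (hr : 0 < r) (hx : closedBall x0 (2 * r) ⊆ O) {u : ℕ → E → V4}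
    (hu : ∀ m, ContDiff ℝ ∞ (u m)) (h0 : ∀ m, ∀ x ∉ closedBall x0 (r * ep m), u m x = 0) {C : ℝ}
    (h1 : ∀ m x, ‖fderiv ℝ (u m) x‖ ≤ C * ep m)
    (h2 : ∀ m x, ‖fderiv ℝ (fderiv ℝ (u m)) x‖ ≤ C)
    (ho : ∀ m x v w, ⟪fderiv ℝ H x0 v, fderiv ℝ (u m) x w⟫ = 0) :
    Bd ((Sc.one ℕ).ctx (ball x0 (2 * r)) isOpen_ball) 1 0 ep
      (fun m x => indE (fun y => H y + u m y) x - indE H x) := by
  obtain ⟨B, hB⟩ := exists_Bl
  let c : Ctx ℕ E := ⟨fun m => ball x0 (2 * (r * ep m)), fun m => (m : ℝ) + 1,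
    fun _ => isOpen_ball, fun m => by have : (0 : ℝ) ≤ m := m.cast_nonneg; linarith⟩
  have hsub : ∀ m, c.U m ⊆ closedBall x0 (2 * r) := fun m =>
    ball_subset_closedBall.trans (closedBall_subset_closedBall (by
      have := mul_le_mul_of_nonneg_left (ep_le_one m) hr.le
      linarith))
  have hH1 : ContDiffOn ℝ ∞ (fderiv ℝ H) O := hH.fderiv_of_isOpen hO (by simp)
  have hH2 : ContinuousOn (fderiv ℝ (fderiv ℝ H)) O :=
    hH1.continuousOn_fderiv_of_isOpen hO (by simp)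
  obtain ⟨K, hK⟩ := (isCompact_closedBall x0 (2 * r)).exists_bound_of_continuousOn (hH2.mono hx)
  have hx0 : x0 ∈ closedBall x0 (2 * r) := mem_closedBall_self (by positivity)
  have hK0 : 0 ≤ K := (norm_nonneg _).trans (hK x0 hx0)
  have bA : Bd c 1 0 ep fun _ x => fderiv ℝ H x - fderiv ℝ H x0 := by
    refine bd_one (C := K * (2 * r)) (C' := K) (fun m => (ep_pos m).le)
      (fun m => (hH1.mono ((hsub m).trans hx)).sub contDiffOn_const) (fun m x hxm => ?_)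
      fun m x hxm => ?_
    · have h3 := (convex_closedBall x0 (2 * r)).norm_image_sub_le_of_norm_fderiv_le
        (fun y hy => (hH1.contDiffAt (hO.mem_nhds (hx hy))).differentiableAt (by simp)) hK hx0
        (hsub m hxm)
      have h4 : ‖x - x0‖ < 2 * (r * ep m) := mem_ball_iff_norm.1 hxm
      calc _ ≤ K * ‖x - x0‖ := h3
        _ ≤ K * (2 * (r * ep m)) := mul_le_mul_of_nonneg_left h4.le hK0
        _ = _ := by ring
    · change _ ≤ K * (ep m * ((m : ℝ) + 1))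
      rw [fderiv_sub_const, ep_mul, mul_one]
      exact hK x (hsub m hxm)
  have bW : Bd c 1 0 ep fun m => fderiv ℝ (u m) := by
    refine bd_one (C := C) (C' := C) (fun m => (ep_pos m).le)
      (fun m => ((hu m).fderiv_right (m := ∞) (by simp)).contDiffOn) (fun m x _ => h1 m x)
      fun m x _ => ?_
    change _ ≤ C * (ep m * ((m : ℝ) + 1))
    rw [ep_mul, mul_one]
    exact h2 m x
  have bT : Bd c 1 0 (fun m => ep m * ep m)
      (fun m x => indE (fun y => H y + u m y) x - indE H x) := by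
    refine (((bA.bilin B bW).add (bW.bilin B bA)).add (bW.bilin B bW)).congr fun m x hxm => ?_
    have h3 := (jet_add (hH.contDiffAt (hO.mem_nhds (hx (hsub m hxm)))) (hu m).contDiffAt).1
    ext1 v
    ext1 w
    have h4 : ⟪fderiv ℝ (u m) x v, fderiv ℝ H x0 w⟫ = 0 := by
      rw [real_inner_comm]; exact ho m x w v
    change ⟪fderiv ℝ (fun y => H y + u m y) x v, fderiv ℝ (fun y => H y + u m y) x w⟫ -
      ⟪fderiv ℝ H x v, fderiv ℝ H x w⟫ = _
    simp only [h3, add_apply, hB, sub_apply, inner_add_left, inner_add_right, inner_sub_left,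
      inner_sub_right, ho, h4]
    ring
  obtain ⟨D, hD0, hD⟩ := ClA1.le' bT
  have hz : ∀ m x, x ∉ c.U m →
      (fun x => indE (fun y => H y + u m y) x - indE H x) =ᶠ[𝓝 x] fun _ => 0 := by
    intro m x hxm
    have h3 : x ∉ closedBall x0 (r * ep m) := fun h =>
      hxm (closedBall_subset_ball (by linarith [mul_pos hr (ep_pos m)]) h)
    have h4 : (fun y => H y + u m y) =ᶠ[𝓝 x] H := by
      filter_upwards [isClosed_closedBall.isOpen_compl.mem_nhds h3] with y hy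
      rw [h0 m y hy, add_zero]
    filter_upwards [h4.fderiv (𝕜 := ℝ)] with y hy
    ext1 v
    ext1 w
    change ⟪fderiv ℝ (fun y => H y + u m y) y v, fderiv ℝ (fun y => H y + u m y) y w⟫ -
      ⟪fderiv ℝ H y v, fderiv ℝ H y w⟫ = 0
    rw [hy, sub_self]
  refine bd_one (C := D) (C' := D) (fun m => (ep_pos m).le) (fun m x hxm => ?_)
    (fun m x _ => ?_) fun m x _ => ?_
  · have h3 := hH.contDiffAt (hO.mem_nhds (hx (ball_subset_closedBall hxm)))
    exact ((ManB.contDiffAt_indE (h3.add (hu m).contDiffAt)).sub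
      (ManB.contDiffAt_indE h3)).contDiffWithinAt
  · by_cases hxm : x ∈ c.U m
    · have h3 := hD m 0 zero_le_one x hxm
      rw [norm_iteratedFDeriv_zero, add_zero, pow_zero, mul_one] at h3
      refine h3.trans (mul_le_mul_of_nonneg_left ?_ hD0)
      exact mul_le_of_le_one_right (ep_pos m).le (ep_le_one m)
    · have h3 : indE (fun y => H y + u m y) x - indE H x = 0 := (hz m x hxm).eq_of_nhds
      rw [h3, norm_zero]
      exact mul_nonneg hD0 (ep_pos m).le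
  · change _ ≤ D * (ep m * 1)
    by_cases hxm : x ∈ c.U m
    · have h3 := hD m 1 le_rfl x hxm
      rw [norm_iteratedFDeriv_one, zero_add, pow_one] at h3
      refine h3.trans (le_of_eq ?_)
      change D * (ep m * ep m * ((m : ℝ) + 1)) = _
      rw [mul_assoc, ep_mul]
    · rw [(hz m x hxm).fderiv_eq, fderiv_fun_const, Pi.zero_apply, norm_zero]
      exact mul_nonneg hD0 (by rw [mul_one]; exact (ep_pos m).le)

theorem ca_gram {Z : Type*} [TopologicalSpace Z] {a b : Z → V4} {z : Z} (ha : ContinuousAt a z)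
    (hb : ContinuousAt b z) : ContinuousAt (fun t => gram (a t) (b t)) z :=
  ContinuousAt.comp (g := fun q : V4 × V4 => gram q.1 q.2) (f := fun t => (a t, b t))
    contDiff_gram.continuous.continuousAt (ha.prodMk hb)

theorem ca_pn {Z : Type*} [TopologicalSpace Z] {a b y : Z → V4} {z : Z} (ha : ContinuousAt a z)
    (hb : ContinuousAt b z) (hy : ContinuousAt y z) (h : gram (a z) (b z) ≠ 0) :
    ContinuousAt (fun t => pn (a t) (b t) (y t)) z := by
  have ho : IsOpen {q : V4 × V4 × V4 | gram q.1 q.2.1 ≠ 0} :=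
    isOpen_ne_fun (continuous_iff_continuousAt.2 fun q =>
      ca_gram continuousAt_fst (continuous_fst.comp continuous_snd).continuousAt) continuous_const
  exact ContinuousAt.comp (g := fun q : V4 × V4 × V4 => pn q.1 q.2.1 q.2.2)
    (f := fun t => (a t, b t, y t))
    (continuousOn_pn.continuousAt (ho.mem_nhds h)) (ha.prodMk (hb.prodMk hy))

theorem near {L : E → E →L[ℝ] V4} {D : E → E →L[ℝ] E →L[ℝ] V4} {N : E → V4} {x0 : E}
    {O : Set E} (hO : O ∈ 𝓝 x0) (hL : ContinuousAt L x0) (hD : ContinuousAt D x0)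
    (hN : ContinuousAt N x0) (hg : gram (L x0 es) (L x0 et) ≠ 0) (h1 : ⟪N x0, L x0 es⟫ = 0)
    (h2 : ⟪N x0, L x0 et⟫ = 0) (C : ℝ) {c : ℝ} (hc : 0 < c) :
    ∃ η : ℝ, 0 < η ∧ ∀ x, ‖x - x0‖ ≤ η → ∀ W : E →L[ℝ] V4, ‖W‖ ≤ η → x ∈ O ∧
      gram ((L x + W) es) ((L x + W) et) ≠ 0 ∧ ‖N x0‖ * ‖D x - D x0‖ +
        ‖pn ((L x + W) es) ((L x + W) et) (N x) - N x0‖ * (‖D x‖ + C) < c := by
  have cf : ContinuousAt (Prod.fst : E × (E →L[ℝ] V4) → E) (x0, 0) := continuousAt_fst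
  have cL : ContinuousAt (fun p : E × (E →L[ℝ] V4) => L p.1 + p.2) (x0, 0) :=
    (ContinuousAt.comp (g := L) hL cf).add continuousAt_snd
  have ca : ContinuousAt (fun p : E × (E →L[ℝ] V4) => (L p.1 + p.2) es) (x0, 0) :=
    cL.clm_apply continuousAt_const
  have cb : ContinuousAt (fun p : E × (E →L[ℝ] V4) => (L p.1 + p.2) et) (x0, 0) :=
    cL.clm_apply continuousAt_const
  have cN : ContinuousAt (fun p : E × (E →L[ℝ] V4) => N p.1) (x0, 0) :=
    ContinuousAt.comp (g := N) hN cf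
  have cD : ContinuousAt (fun p : E × (E →L[ℝ] V4) => D p.1) (x0, 0) :=
    ContinuousAt.comp (g := D) hD cf
  have hg0 : gram ((L x0 + 0) es) ((L x0 + 0) et) ≠ 0 := by
    rw [add_zero]; exact hg
  have cg := ca_gram ca cb
  have cn := ca_pn ca cb cN hg0
  have cφ : ContinuousAt (fun p : E × (E →L[ℝ] V4) => ‖N x0‖ * ‖D p.1 - D x0‖ +
      ‖pn ((L p.1 + p.2) es) ((L p.1 + p.2) et) (N p.1) - N x0‖ * (‖D p.1‖ + C)) (x0, 0) :=
    (continuousAt_const.mul (cD.sub continuousAt_const).norm).add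
      ((cn.sub continuousAt_const).norm.mul (cD.norm.add continuousAt_const))
  have e1 := cφ.eventually (gt_mem_nhds (a := c) (by
    dsimp only
    rw [add_zero, pn_of_orth h1 h2, sub_self, sub_self, norm_zero, norm_zero, mul_zero, zero_mul,
      add_zero]
    exact hc))
  have e2 := cg.eventually_ne hg0
  have e3 : ∀ᶠ p : E × (E →L[ℝ] V4) in 𝓝 (x0, 0), p.1 ∈ O := cf.eventually hO
  obtain ⟨η, hη, hb⟩ := nhds_basis_closedBall.eventually_iff.1 (e3.and (e2.and e1))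
  refine ⟨η, hη, fun x hx W hW => hb (x := (x, W)) ?_⟩
  rw [mem_closedBall, Prod.dist_eq, dist_zero_right, dist_eq_norm]
  exact max_le hx hW

theorem alg {A A0 U : E →L[ℝ] E →L[ℝ] V4} {n N0 : V4} {c C : ℝ}
    (hlow : ∀ v, c * ‖v‖ ^ 2 ≤ ⟪N0, A0 v v⟫) (hU : ‖U‖ ≤ C) (hU' : ∀ v w, ⟪N0, U v w⟫ = 0)
    (h : ‖N0‖ * ‖A - A0‖ + ‖n - N0‖ * (‖A‖ + C) < c) {v : E} (hv : v ≠ 0) :
    0 < ⟪(A + U) v v, n⟫ := by
  have g0 : ⟪(A + U) v v, n⟫ = ⟪N0, A0 v v⟫ + ⟪N0, (A - A0) v v⟫ + ⟪n - N0, (A + U) v v⟫ := by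
    simp only [add_apply, sub_apply, inner_add_right, inner_sub_left,
      inner_sub_right, hU', real_inner_comm n]
    ring
  have g1 : |⟪N0, (A - A0) v v⟫| ≤ ‖N0‖ * (‖A - A0‖ * ‖v‖ * ‖v‖) :=
    (abs_real_inner_le_norm _ _).trans
      (mul_le_mul_of_nonneg_left ((A - A0).le_opNorm₂ v v) (norm_nonneg _))
  have g2 : |⟪n - N0, (A + U) v v⟫| ≤ ‖n - N0‖ * ((‖A‖ + C) * ‖v‖ * ‖v‖) := by
    refine (abs_real_inner_le_norm _ _).trans
      (mul_le_mul_of_nonneg_left (((A + U).le_opNorm₂ v v).trans ?_) (norm_nonneg _))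
    have : ‖A + U‖ ≤ ‖A‖ + C := (norm_add_le _ _).trans (by linarith)
    gcongr
  have g3 := mul_lt_mul_of_pos_right h (pow_pos (norm_pos_iff.2 hv) 2)
  rw [g0]
  nlinarith [hlow v, neg_abs_le ⟪N0, (A - A0) v v⟫, neg_abs_le ⟪n - N0, (A + U) v v⟫]

theorem convex {O : Set E} (hO : IsOpen O) {H N : E → V4} (hH : ContDiffOn ℝ ∞ H O)
    (hN : ContDiffOn ℝ ∞ N O) {x0 : E} (hx0 : x0 ∈ O)
    (hg : gram (dd es H x0) (dd et H x0) ≠ 0) (hp : ∀ v, v ≠ 0 → 0 < ⟪N x0, sffE H x0 v v⟫)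
    (h1 : ⟪N x0, dd es H x0⟫ = 0) (h2 : ⟪N x0, dd et H x0⟫ = 0) (C : ℝ) :
    ∃ η : ℝ, 0 < η ∧ ∀ x, ‖x - x0‖ ≤ η → ∀ u : E → V4, ContDiff ℝ ∞ u → ‖fderiv ℝ u x‖ ≤ η →
      ‖fderiv ℝ (fderiv ℝ u) x‖ ≤ C → (∀ v w, ⟪N x0, fderiv ℝ (fderiv ℝ u) x v w⟫ = 0) →
      gram (dd es (fun y => H y + u y) x) (dd et (fun y => H y + u y) x) ≠ 0 ∧
        ∀ v, v ≠ 0 → 0 < ⟪N x, sffE (fun y => H y + u y) x v v⟫ := by
  have hH0 := hH.contDiffAt (hO.mem_nhds hx0)
  obtain ⟨c, hc, hlow⟩ := exists_lower (fderiv ℝ (fderiv ℝ H) x0) (N x0) fun v hv => by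
    have h3 := hp v hv
    rwa [sffE_pn hH0 hg, real_inner_comm, inner_pn_orth _ _ _ (by rw [real_inner_comm, h1])
      (by rw [real_inner_comm, h2]), real_inner_comm] at h3
  have hH1 : ContDiffAt ℝ ∞ (fderiv ℝ H) x0 := hH0.fderiv_right (by simp)
  have hH2 : ContinuousAt (fderiv ℝ (fderiv ℝ H)) x0 :=
    (hH1.fderiv_right (m := 0) (by simp)).continuousAt
  obtain ⟨η, hη, hb⟩ := near (hO.mem_nhds hx0) hH1.continuousAt hH2
    (hN.contDiffAt (hO.mem_nhds hx0)).continuousAt hg h1 h2 C hc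
  refine ⟨η, hη, fun x hx u hu hu1 hu2 hu3 => ?_⟩
  obtain ⟨f3, f2, f1⟩ := hb x hx _ hu1
  have hHx := hH.contDiffAt (hO.mem_nhds f3)
  obtain ⟨j1, j2⟩ := jet_add hHx hu.contDiffAt
  rw [← j1] at f1 f2
  have f2' : gram (dd es (fun y => H y + u y) x) (dd et (fun y => H y + u y) x) ≠ 0 := f2
  refine ⟨f2', fun v hv => ?_⟩
  rw [sffE_pn (hHx.add hu.contDiffAt) f2', ← inner_pn_pn f2', real_inner_comm, inner_pn_pn f2', j2]
  exact alg hlow hu2 hu3 f1 hv

theorem exists_P (L : E →L[ℝ] V4) (hg : gram (L es) (L et) ≠ 0) {N0 : V4} (h0 : N0 ≠ 0)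
    (h1 : ⟪N0, L es⟫ = 0) (h2 : ⟪N0, L et⟫ = 0) : ∃ P : V4 →L[ℝ] V4,
      (∀ y v, ⟪L v, P y⟫ = 0) ∧ (∀ y, ⟪N0, P y⟫ = 0) ∧
        ∀ y, ∃ t : ℝ, pn (L es) (L et) (y + P y) = t • N0 := by
  obtain ⟨P, hP⟩ : ∃ P : V4 →L[ℝ] V4,
      ∀ y, P y = (⟪N0, y⟫ / ⟪N0, N0⟫) • N0 - pn (L es) (L et) y := by
    refine ⟨((⟪N0, N0⟫)⁻¹ • innerSL ℝ N0).smulRight N0 -
      (LinearMap.range (L : E →ₗ[ℝ] V4))ᗮ.starProjection, fun y => ?_⟩
    rw [sub_apply, starProjection_eq_pn L hg, ContinuousLinearMap.smulRight_apply, smul_apply,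
      innerSL_apply_apply, smul_eq_mul, div_eq_inv_mul]
  have h1' : ⟪L es, N0⟫ = 0 := by rw [real_inner_comm, h1]
  have h2' : ⟪L et, N0⟫ = 0 := by rw [real_inner_comm, h2]
  have a1 : ∀ y, ⟪P y, L es⟫ = 0 := fun y => by
    rw [hP, inner_sub_left, real_inner_smul_left, h1, inner_pn_1 hg, mul_zero, sub_zero]
  have a2 : ∀ y, ⟪P y, L et⟫ = 0 := fun y => by
    rw [hP, inner_sub_left, real_inner_smul_left, h2, inner_pn_2 hg, mul_zero, sub_zero]
  refine ⟨P, fun y v => ?_, fun y => ?_, fun y => ⟨⟪N0, y⟫ / ⟪N0, N0⟫, ?_⟩⟩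
  · rw [real_inner_comm, VecAux.map_eq L v, inner_add_right, inner_smul_right, inner_smul_right,
      a1, a2, mul_zero, mul_zero, add_zero]
  · have h3 : ⟪N0, N0⟫ ≠ 0 := fun h => h0 (inner_self_eq_zero.1 h)
    rw [hP, inner_sub_right, inner_smul_right, real_inner_comm (pn _ _ _) N0,
      inner_pn_orth _ _ _ h1' h2', div_mul_cancel₀ _ h3, real_inner_comm, sub_self]
  · rw [pn_add, pn_of_orth (a1 y) (a2 y), hP, add_sub_cancel]

theorem modify_plane {O : Set E} (hO : IsOpen O) {H N : E → V4} (hH : ContDiffOn ℝ ∞ H O)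
    (hN : ContDiffOn ℝ ∞ N O) (hg : ∀ x ∈ O, gram (dd es H x) (dd et H x) ≠ 0)
    (hp : ∀ x ∈ O, ∀ v, v ≠ 0 → 0 < ⟪N x, sffE H x v v⟫) {x0 : E} {r : ℝ} (hr : 0 < r)
    (hx : closedBall x0 (2 * r) ⊆ O) (h1 : ⟪N x0, dd es H x0⟫ = 0) (h2 : ⟪N x0, dd et H x0⟫ = 0) :
    ∃ u : ℕ → E → V4, (∀ m, ContDiff ℝ ∞ (u m)) ∧ (∀ m, ∀ x ∉ closedBall x0 r, u m x = 0) ∧
      Bd ((Sc.one ℕ).ctx (ball x0 (2 * r)) isOpen_ball) 1 0 ep
        (fun m x => indE (fun y => H y + u m y) x - indE H x) ∧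
      (∀ᶠ m in atTop, ∀ x ∈ closedBall x0 r,
        gram (dd es (fun y => H y + u m y) x) (dd et (fun y => H y + u m y) x) ≠ 0 ∧
        ∀ v, v ≠ 0 → 0 < ⟪N x, sffE (fun y => H y + u m y) x v v⟫) ∧
      ∀ m v w, ∃ t : ℝ, sffE (fun y => H y + u m y) x0 v w = t • N x0 := by
  have hx0 : x0 ∈ O := hx (mem_closedBall_self (by positivity))
  have hH0 := hH.contDiffAt (hO.mem_nhds hx0)
  have hes : es ≠ 0 := fun h => by
    have h3 : ‖es‖ = ‖(1 : ℝ)‖ := PiLp.norm_single _ _ _ _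
    rw [h] at h3
    simp at h3
  have hN0 : N x0 ≠ 0 := fun h => by
    have h3 := hp x0 hx0 es hes
    rw [h, inner_zero_left] at h3
    exact lt_irrefl _ h3
  obtain ⟨P, hP1, hP2, hP3⟩ := exists_P (fderiv ℝ H x0) (hg x0 hx0) hN0 h1 h2
  obtain ⟨B, hB⟩ : ∃ B : E →L[ℝ] E →L[ℝ] V4, ∀ v w, B v w = P (fderiv ℝ (fderiv ℝ H) x0 v w) :=
    ⟨(ContinuousLinearMap.compL ℝ E V4 V4 P).comp (fderiv ℝ (fderiv ℝ H) x0), fun v w => rfl⟩
  obtain ⟨G, hG, hG0, hGo, hG1, hG2⟩ := exists_G B fun v w => by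
    rw [hB, hB, (hH0.isSymmSndFDerivAt (by rw [minSmoothness_of_isRCLikeNormedField]; norm_cast)).eq v w]
  have hGc : HasCompactSupport G := HasCompactSupport.intro (isCompact_closedBall (0 : E) 1)
    fun y hy => hG0 y (le_of_lt (by simpa using hy))
  have hG' : ContDiff ℝ ∞ (fderiv ℝ G) := hG.fderiv_right (m := ∞) (by simp)
  have hG'' : ContDiff ℝ ∞ (fderiv ℝ (fderiv ℝ G)) := hG'.fderiv_right (m := ∞) (by simp)
  obtain ⟨C1, hC1⟩ := hG'.continuous.bounded_above_of_compact_support (hGc.fderiv ℝ)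
  obtain ⟨C2, hC2⟩ := hG''.continuous.bounded_above_of_compact_support ((hGc.fderiv ℝ).fderiv ℝ)
  have hρ : ∀ m, 0 < r * ep m := fun m => mul_pos hr (ep_pos m)
  obtain ⟨u, hu⟩ : ∃ u : ℕ → E → V4,
      u = fun m x => (r * ep m) ^ 2 • G ((r * ep m)⁻¹ • (x - x0)) := ⟨_, rfl⟩
  have hus : ∀ m, ContDiff ℝ ∞ (u m) := fun m => by
    rw [hu]
    exact (hG.comp ((contDiff_id.sub contDiff_const).const_smul _)).const_smul _
  have hu0 : ∀ m, ∀ x ∉ closedBall x0 (r * ep m), u m x = 0 := fun m x hxm => by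
    rw [hu]
    dsimp only
    rw [hG0, smul_zero]
    rw [mem_closedBall_iff_norm, not_le] at hxm
    rw [norm_smul, norm_inv, Real.norm_of_nonneg (hρ m).le, le_inv_mul_iff₀ (hρ m), mul_one]
    exact hxm.le
  have hd1 : ∀ m, fderiv ℝ (u m) =
      fun x => (r * ep m) • fderiv ℝ G ((r * ep m)⁻¹ • (x - x0)) := fun m => by
    rw [hu]
    dsimp only
    rw [fderiv_scale (hG.differentiable (by simp)), sq, mul_inv_cancel_right₀ (hρ m).ne']
  have hd2 : ∀ m x, fderiv ℝ (fderiv ℝ (u m)) x =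
      fderiv ℝ (fderiv ℝ G) ((r * ep m)⁻¹ • (x - x0)) := fun m x => by
    rw [hd1, fderiv_scale (hG'.differentiable (by simp)), mul_inv_cancel₀ (hρ m).ne']
    exact one_smul _ _
  have hb1 : ∀ m x, ‖fderiv ℝ (u m) x‖ ≤ max (C1 * r) C2 * ep m := fun m x => by
    rw [hd1]
    dsimp only
    rw [norm_smul, Real.norm_of_nonneg (hρ m).le]
    calc _ ≤ r * ep m * C1 := mul_le_mul_of_nonneg_left (hC1 _) (hρ m).le
      _ = C1 * r * ep m := by ring
      _ ≤ _ := mul_le_mul_of_nonneg_right (le_max_left _ _) (ep_pos m).le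
  have hb2 : ∀ m x, ‖fderiv ℝ (fderiv ℝ (u m)) x‖ ≤ max (C1 * r) C2 := fun m x => by
    rw [hd2]
    exact (hC2 _).trans (le_max_right _ _)
  have huo : ∀ z : V4, (∀ y, ⟪z, P y⟫ = 0) → ∀ m x, ⟪z, u m x⟫ = 0 := fun z hz m x => by
    rw [hu]
    dsimp only
    rw [inner_smul_right, hGo z (fun v w => by rw [hB, hz]), mul_zero]
  have hle : ∀ m, r * ep m ≤ r := fun m => mul_le_of_le_one_right hr.le (ep_le_one m)
  refine ⟨u, hus, fun m x hxm => hu0 m x fun h => hxm (closedBall_subset_closedBall (hle m) h),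
    metric hO hH hr hx hus hu0 hb1 hb2 fun m x v w => inner_fderiv
      ((hus m).differentiable (by simp)) (huo _ (fun y => hP1 y v) m) x w, ?_, fun m v w => ?_⟩
  · obtain ⟨η, hη, hb⟩ := convex hO hH hN hx0 (hg x0 hx0) (hp x0 hx0) h1 h2 (max (C1 * r) C2)
    have t1 : Tendsto (fun m => r * ep m) atTop (𝓝 0) := by
      simpa using tendsto_ep.const_mul r
    have t2 : Tendsto (fun m => max (C1 * r) C2 * ep m) atTop (𝓝 0) := by
      simpa using tendsto_ep.const_mul (max (C1 * r) C2)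
    filter_upwards [t1.eventually (ge_mem_nhds hη), t2.eventually (ge_mem_nhds hη)]
      with m e1 e2 x hxr
    by_cases hxm : x ∈ closedBall x0 (r * ep m)
    · exact hb x ((mem_closedBall_iff_norm.1 hxm).trans e1) (u m) (hus m) ((hb1 m x).trans e2)
        (hb2 m x) fun v w => inner_fderiv2 (hus m) (huo _ hP2 m) x v w
    · have hxO : x ∈ O := hx (closedBall_subset_closedBall (by linarith) hxr)
      have h4 : (fun y => H y + u m y) =ᶠ[𝓝 x] H := by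
        filter_upwards [isClosed_closedBall.isOpen_compl.mem_nhds hxm] with y hy
        rw [hu0 m y hy, add_zero]
      refine ⟨?_, ?_⟩
      · change gram (fderiv ℝ (fun y => H y + u m y) x es)
          (fderiv ℝ (fun y => H y + u m y) x et) ≠ 0
        rw [h4.fderiv_eq]
        exact hg x hxO
      · rw [sffE_congr h4]
        exact hp x hxO
  · obtain ⟨j1, j2⟩ := jet_add hH0 (hus m).contDiffAt
    have j3 : fderiv ℝ (u m) x0 = 0 := by
      rw [hd1]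
      dsimp only
      rw [sub_self, smul_zero, hG1, smul_zero]
    rw [j3, add_zero] at j1
    rw [hd2, sub_self, smul_zero, hG2] at j2
    have j4 : ∀ z, dd z (fun y => H y + u m y) x0 = fderiv ℝ H x0 z := fun z => by rw [← j1]; rfl
    have j5 : gram (dd es (fun y => H y + u m y) x0) (dd et (fun y => H y + u m y) x0) ≠ 0 := by
      rw [j4, j4]; exact hg x0 hx0
    rw [sffE_pn (hH0.add (hus m).contDiffAt) j5, j4, j4, j2, add_apply, add_apply, hB]
    exact hP3 _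

end Crest.Agent.R216.StartAux2
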