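import Crest.Agent.R216.Top
import Crest.Agent.R216.CovD
import Crest.Agent.R216.Stab

/-!
# Row 216: modification of the two-jet at finitely many points (auxiliary lemmas)
-/

set_option autoImplicit false
set_option linter.unusedSectionVars false

noncomputable section

namespace Crest.Agent.R216.StartAuxM

open Set Metric Filter
open scoped Manifold ContDiff Topology RealInnerProductSpace

universe u

variable {M : Type u} [TopologicalSpace M] [T2Space M] [CompactSpace M] [ChartedSpace E M]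
  [IsManifold (𝓡 2) ∞ M]

theorem dM_germ {F F' : M → V4} {q : M} (h : F' =ᶠ[𝓝 q] F) : dM F' q = dM F q :=
  h.mfderiv_eq

theorem sff_germ {F F' : M → V4} {q : M} (h : F' =ᶠ[𝓝 q] F) : sff F' q = sff F q := by
  have h1 : Tendsto (chartAt E q).symm (𝓝 (chartAt E q q)) (𝓝 q) :=
    (chartAt E q).tendsto_symm (mem_chart_source E q)
  exact sffE_congr (h.comp_tendsto h1)

theorem tendsto_ep : Tendsto ep atTop (𝓝 0) := by
  have := tendsto_one_div_add_atTop_nhds_zero_nat (𝕜 := ℝ)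
  simp only [one_div] at this
  exact this

theorem one (𝒜 : Atl M) {F n : M → V4} (hF : Sm F) (hi : Imm F) (hc : Cvx F n) (c : Ch M)
    {p : M} (hp : p ∈ c.e.source) {r : ℝ} (hr : 0 < r)
    (hx : closedBall (c.e p) (2 * r) ⊆ c.e.target) {δ : ℝ} (hδ : 0 < δ) {u : ℕ → E → V4}
    (hu : ∀ m, ContDiff ℝ ∞ (u m)) (h0 : ∀ m, ∀ x ∉ closedBall (c.e p) r, u m x = 0)
    (hb : Bd ((Sc.one ℕ).ctx (ball (c.e p) (2 * r)) isOpen_ball) 1 0 ep
      (fun m x => indE (fun y => c.rd F y + u m y) x - indE (c.rd F) x))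
    (he : ∀ᶠ m in atTop, ∀ x ∈ closedBall (c.e p) r,
      gram (dd es (fun y => c.rd F y + u m y) x) (dd et (fun y => c.rd F y + u m y) x) ≠ 0 ∧
      ∀ v, v ≠ 0 → 0 < ⟪c.rd n x, sffE (fun y => c.rd F y + u m y) x v v⟫)
    (hs : ∀ m v w, ∃ t : ℝ, sffE (fun y => c.rd F y + u m y) (c.e p) v w = t • c.rd n (c.e p)) :
    ∃ F' : M → V4, Sm F' ∧ Imm F' ∧ Cvx F' n ∧ Near1 𝒜 δ (fun q => ind F' q - ind F q) ∧
      (∀ q ∉ c.e.symm '' closedBall (c.e p) r, F' =ᶠ[𝓝 q] F) ∧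
      ∀ v w, ∃ t : ℝ, sff F' p v w = t • n p := by
  have hK : IsCompact (closedBall (c.e p) r) := isCompact_closedBall _ _
  have hKU : closedBall (c.e p) r ⊆ ball (c.e p) (2 * r) := closedBall_subset_ball (by linarith)
  have hUc : ball (c.e p) (2 * r) ⊆ c.e.target := ball_subset_closedBall.trans hx
  have hKc : closedBall (c.e p) r ⊆ c.e.target := hKU.trans hUc
  have hT := TB.push c isOpen_ball hK hKU hUc hb fun m x _ hxK => by
    have h1 : (fun y => c.rd F y + u m y) =ᶠ[𝓝 x] c.rd F := by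
      filter_upwards [isClosed_closedBall.isOpen_compl.mem_nhds hxK] with y hy
      rw [h0 m y hy, add_zero]
    simp only [indE, h1.fderiv_eq]
    ext v w; simp
  obtain ⟨m, hm1, hm2⟩ := ((Near1.of_TB 𝒜 tendsto_ep hT hδ).and he).exists
  have h0' : ∀ x ∈ c.e.target, x ∉ closedBall (c.e p) r → u m x = 0 := fun x _ => h0 m x
  have hS : Sm fun q => F q + c.ext (u m) q := hF.add (c.sm_ext (hu m).contDiffOn hK hKc h0')
  have hrd : ∀ x ∈ c.e.target,
      c.rd (fun q => F q + c.ext (u m) q) =ᶠ[𝓝 x] fun y => c.rd F y + u m y := by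
    intro x hx
    filter_upwards [c.e.open_target.mem_nhds hx] with y hy
    rw [← c.rd_ext (u m) hy]; rfl
  have hg : ∀ q ∉ c.e.symm '' closedBall (c.e p) r,
      (fun q => F q + c.ext (u m) q) =ᶠ[𝓝 q] F := by
    intro q hq
    filter_upwards [c.ext_eventually_zero hK hKc h0' hq] with y hy
    rw [hy, add_zero]
  have hdq : ∀ x ∈ c.e.target, ∀ v, c.dP x (c.dQ (c.e.symm x) v) = v := by
    intro x hx v
    have := c.dP_dQ (c.e.map_target hx) v
    rwa [c.e.right_inv hx] at this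
  have hsf : ∀ x ∈ c.e.target, ∀ v w, sff (fun q => F q + c.ext (u m) q) (c.e.symm x) v w =
      sffE (fun y => c.rd F y + u m y) x (c.dQ (c.e.symm x) v) (c.dQ (c.e.symm x) w) := by
    intro x hx v w
    rw [← sffE_congr (hrd x hx), ← c.sff_eq hS hx, hdq x hx, hdq x hx]
  refine ⟨fun q => F q + c.ext (u m) q, hS, fun q => ?_, fun q v hv => ?_, ?_, hg, fun v w => ?_⟩
  · by_cases hq : q ∈ c.e.symm '' closedBall (c.e p) r
    · obtain ⟨x, hxK, rfl⟩ := hq
      have hx := hKc hxK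
      have h1 := (gram_ne_iff (fderiv ℝ (fun y => c.rd F y + u m y) x)).1 (hm2 x hxK).1
      rw [← (hrd x hx).fderiv_eq] at h1
      intro v w hvw
      rw [← hdq x hx v, ← hdq x hx w, ← c.fderiv_rd hS hx, ← c.fderiv_rd hS hx] at hvw
      rw [← hdq x hx v, ← hdq x hx w, h1 hvw]
    · rw [dM_germ (hg q hq)]; exact hi q
  · by_cases hq : q ∈ c.e.symm '' closedBall (c.e p) r
    · obtain ⟨x, hxK, rfl⟩ := hq
      have hx := hKc hxK
      rw [hsf x hx]
      refine (hm2 x hxK).2 _ fun h => hv ?_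
      rw [← hdq x hx v, h, map_zero]
    · rw [sff_germ (hg q hq)]; exact hc q v hv
  · have e : (fun q => ind (fun q => F q + c.ext (u m) q) q - ind F q) =
        c.push fun x => indE (fun y => c.rd F y + u m y) x - indE (c.rd F) x :=
      funext fun q => ind_add_ext c hF (hu m).contDiffOn hK hKc h0' q
    rw [e]; exact hm1
  · have h1 := hsf (c.e p) (c.e.map_source hp) v w
    obtain ⟨t, ht⟩ := hs m (c.dQ (c.e.symm (c.e p)) v) (c.dQ (c.e.symm (c.e p)) w)
    rw [ht, Ch.rd, c.e.left_inv hp] at h1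
    exact ⟨t, h1⟩

theorem finite (𝒜 : Atl M) {n : M → V4}
    (h1 : ∀ {F : M → V4}, Sm F → Imm F → Cvx F n → ∀ {p : M}, (∀ v, ⟪n p, dM F p v⟫ = 0) →
      ∀ {Y : Set M}, IsClosed Y → p ∉ Y → ∀ {δ : ℝ}, 0 < δ → ∃ F' : M → V4, Sm F' ∧ Imm F' ∧
        Cvx F' n ∧ Near1 𝒜 δ (fun q => ind F' q - ind F q) ∧ (∀ q ∈ Y, F' =ᶠ[𝓝 q] F) ∧
        ∀ v w, ∃ t : ℝ, sff F' p v w = t • n p)
    {X : Set M} (hX : X.Finite) : ∀ {F : M → V4}, Sm F → Imm F → Cvx F n →
      (∀ p ∈ X, ∀ v, ⟪n p, dM F p v⟫ = 0) → ∀ {Y : Set M}, IsClosed Y → (∀ p ∈ X, p ∉ Y) →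
      ∀ {δ : ℝ}, 0 < δ → ∃ F' : M → V4, Sm F' ∧ Imm F' ∧ Cvx F' n ∧
        Near1 𝒜 δ (fun q => ind F' q - ind F q) ∧ (∀ q ∈ Y, F' =ᶠ[𝓝 q] F) ∧
        ∀ p ∈ X, ∀ v w, ∃ t : ℝ, sff F' p v w = t • n p := by
  induction X, hX using Set.Finite.induction_on with
  | empty =>
    intro F hF hi hc _ Y _ _ δ hδ
    refine ⟨F, hF, hi, hc, fun a x _ m _ => ?_, fun q _ => .rfl, fun p hp => hp.elim⟩
    have e : (𝒜.c a).pull (fun q => ind F q - ind F q) = fun _ => 0 := by
      funext y; rw [Ch.pull_sub]; ext v w; simp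
    rw [e, iteratedFDeriv_fun_zero]
    simpa using hδ.le
  | @insert a s ha hs ih =>
    intro F hF hi hc hp Y hY hXY δ hδ
    obtain ⟨F1, s1, i1, c1, n1, g1, t1⟩ := h1 hF hi hc (hp a (mem_insert _ _))
      (hY.union hs.isClosed) (fun h => h.elim (hXY a (mem_insert _ _)) ha) (half_pos hδ)
    obtain ⟨F2, s2, i2, c2, n2, g2, t2⟩ := ih s1 i1 c1
      (fun p hps v => by
        rw [dM_germ (g1 p (Or.inr hps))]; exact hp p (mem_insert_of_mem _ hps) v)
      (hY.union (isClosed_singleton (x := a)))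
      (fun p hps h => h.elim (hXY p (mem_insert_of_mem _ hps)) fun h => ha (h ▸ hps))
      (half_pos hδ)
    refine ⟨F2, s2, i2, c2, ?_, fun q hq => (g2 q (Or.inl hq)).trans (g1 q (Or.inl hq)), ?_⟩
    · have h2 := n2.add n1 ((smT_ind s2).sub (smT_ind s1)) ((smT_ind s1).sub (smT_ind hF))
      have e : (fun q => ind F2 q - ind F q) =
          fun q => ind F2 q - ind F1 q + (ind F1 q - ind F q) := by
        funext q; ext v w; simp
      rw [e, ← add_halves δ]; exact h2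
    · rintro p (rfl | hps) v w
      · rw [sff_germ (g2 p (Or.inr rfl))]; exact t1 v w
      · exact t2 p hps v w

end Crest.Agent.R216.StartAuxM
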