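import Crest.Agent.R216.Top
import Crest.Agent.R216.CovD
import Crest.Agent.R216.Stab
import Crest.Agent.R216.StartAux2
import Crest.Agent.R216.StartAuxM
import Crest.Agent.R216.StartAux1

/-!
# Row 216: the initial immersion
-/

set_option autoImplicit false
set_option linter.unusedSectionVars false

noncomputable section

namespace Crest.Agent.R216

open Set Metric Filter
open scoped Manifold ContDiff Topology RealInnerProductSpace

universe u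

variable {M : Type u} [TopologicalSpace M] [T2Space M] [CompactSpace M] [ChartedSpace E M]
  [IsManifold (𝓡 2) ∞ M]

theorem exists_short {G T : M → Bil} (hG : Met G) (hT : SmT T) :
    ∃ δ : ℝ, 0 < δ ∧ ∀ p v, v ≠ 0 → δ ^ 2 * T p v v < G p v v :=
  StartAux1.short hG hT

/-- An immersion in a paraboloid. -/
theorem exists_start {G : M → Bil} (hG : Met G) : ∃ F n : M → V4, Sm F ∧ Imm F ∧ Sm n ∧
    (∀ p v, ⟪n p, dM F p v⟫ = 0) ∧ Cvx F n ∧ Met fun p => G p - ind F p :=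
  StartAux1.start hG

/-- Modification of the two-jet at one point of the plane. -/
theorem modify_plane {O : Set E} (hO : IsOpen O) {H N : E → V4} (hH : ContDiffOn ℝ ∞ H O)
    (hN : ContDiffOn ℝ ∞ N O) (hg : ∀ x ∈ O, gram (dd es H x) (dd et H x) ≠ 0)
    (hp : ∀ x ∈ O, ∀ v, v ≠ 0 → 0 < ⟪N x, sffE H x v v⟫) {x0 : E} {r : ℝ} (hr : 0 < r)
    (hx : closedBall x0 (2 * r) ⊆ O) (h1 : ⟪N x0, dd es H x0⟫ = 0) (h2 : ⟪N x0, dd et H x0⟫ = 0) :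
    ∃ u : ℕ → E → V4, (∀ m, ContDiff ℝ ∞ (u m)) ∧ (∀ m, ∀ x ∉ closedBall x0 r, u m x = 0) ∧
      Bd ((Sc.one ℕ).ctx (ball x0 (2 * r)) isOpen_ball) 1 0 ep
        (fun m x => indE (fun y => H y + u m y) x - indE H x) ∧
      (∀ᶠ m in atTop, ∀ x ∈ closedBall x0 r,
        gram (dd es (fun y => H y + u m y) x) (dd et (fun y => H y + u m y) x) ≠ 0 ∧
        ∀ v, v ≠ 0 → 0 < ⟪N x, sffE (fun y => H y + u m y) x v v⟫) ∧
      ∀ m v w, ∃ t : ℝ, sffE (fun y => H y + u m y) x0 v w = t • N x0 :=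
  StartAux2.modify_plane hO hH hN hg hp hr hx h1 h2

theorem modify_one (𝒜 : Atl M) {F n : M → V4} (hF : Sm F) (hi : Imm F) (hn : Sm n) (hc : Cvx F n)
    {p : M} (hp : ∀ v, ⟪n p, dM F p v⟫ = 0) {Y : Set M} (hY : IsClosed Y) (hpY : p ∉ Y) {δ : ℝ}
    (hδ : 0 < δ) : ∃ F' : M → V4, Sm F' ∧ Imm F' ∧ Cvx F' n ∧
      Near1 𝒜 δ (fun q => ind F' q - ind F q) ∧ (∀ q ∈ Y, F' =ᶠ[𝓝 q] F) ∧
      ∀ v w, ∃ t : ℝ, sff F' p v w = t • n p := by
  obtain ⟨c, hce⟩ := exists_ch_chartAt (M := M) p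
  have hpc : p ∈ c.e.source := by rw [hce]; exact mem_chart_source E p
  have hx0 := c.e.map_source hpc
  have hW : IsOpen (c.e.target ∩ c.e.symm ⁻¹' Yᶜ) :=
    c.e.continuousOn_symm.isOpen_inter_preimage c.e.open_target hY.isOpen_compl
  obtain ⟨ε, hε, hεW⟩ := nhds_basis_closedBall.mem_iff.1
    (hW.mem_nhds (x := c.e p) ⟨hx0, by rw [mem_preimage, c.e.left_inv hpc]; exact hpY⟩)
  have hr : 0 < ε / 2 := half_pos hε
  have hx : closedBall (c.e p) (2 * (ε / 2)) ⊆ c.e.target := by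
    rw [mul_div_cancel₀ ε two_ne_zero]; exact fun x hx => (hεW hx).1
  have h1 : ∀ v, ⟪c.rd n (c.e p), dd v (c.rd F) (c.e p)⟫ = 0 := fun v => by
    rw [dd, c.fderiv_rd hF hx0, Ch.rd, c.e.left_inv hpc]; exact hp _
  obtain ⟨u, hu, h0, hb, he, hs⟩ := modify_plane c.e.open_target (c.contDiffOn_rd hF)
    (c.contDiffOn_rd hn) (fun x hx => hi.gram_ne hF c hx) (fun x hx v hv => by
      rw [← c.sff_eq hF hx]
      exact hc _ _ fun h => hv ((injective_iff_map_eq_zero _).1 (MClA.dP_inj c hx) v h))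
    hr hx (h1 es) (h1 et)
  obtain ⟨F', a1, a2, a3, a4, a5, a6⟩ := StartAuxM.one 𝒜 hF hi hc c hpc hr hx hδ hu h0 hb he hs
  refine ⟨F', a1, a2, a3, a4, fun q hq => a5 q ?_, a6⟩
  rintro ⟨x, hx, rfl⟩
  exact (hεW (closedBall_subset_closedBall (by linarith) hx)).2 hq

theorem modify_finite (𝒜 : Atl M) {F n : M → V4} (hF : Sm F) (hi : Imm F) (hn : Sm n)
    (hc : Cvx F n) {X : Set M} (hX : X.Finite) (hp : ∀ p ∈ X, ∀ v, ⟪n p, dM F p v⟫ = 0) {δ : ℝ}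
    (hδ : 0 < δ) : ∃ F' : M → V4, Sm F' ∧ Imm F' ∧ Cvx F' n ∧
      Near1 𝒜 δ (fun q => ind F' q - ind F q) ∧
      ∀ p ∈ X, ∀ v w, ∃ t : ℝ, sff F' p v w = t • n p := by
  obtain ⟨F', a1, a2, a3, a4, -, a6⟩ := StartAuxM.finite 𝒜
    (fun hF hi hc _ hp _ hY hpY _ hδ => modify_one 𝒜 hF hi hn hc hp hY hpY hδ) hX hF hi hc hp
    isClosed_empty (fun _ _ h => h) hδ
  exact ⟨F', a1, a2, a3, a4, a6⟩

theorem start_inv (𝒜 : Atl M) {S : Sys M} (hS : S.GP) {F n : M → V4} (hF : Sm F) (hi : Imm F)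
    (hn : Sm n) (hc : Cvx F n) (hp : ∀ p v, ⟪n p, dM F p v⟫ = 0) {δ : ℝ} (hδ : 0 < δ) :
    ∃ F' : M → V4, Inv S F' ∧ Near1 𝒜 δ fun q => ind F' q - ind F q := by
  have hX : (⋃ i, ⋃ k, ⋃ (_ : i ≠ k), S.Γ i ∩ S.Γ k).Finite :=
    finite_iUnion fun i => finite_iUnion fun k => finite_iUnion fun h => hS.gp1 i k h
  obtain ⟨F', h1, h2, h3, h4, h5⟩ := modify_finite 𝒜 hF hi hn hc hX (fun p _ => hp p) hδ
  exact ⟨F', StartAux1.inv h1 h2 hn h3 fun i k hik p hp' => h5 p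
    (mem_iUnion.2 ⟨i, mem_iUnion.2 ⟨k, mem_iUnion.2 ⟨hik, hp'⟩⟩⟩), h4⟩

end Crest.Agent.R216
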