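import Mathlib

/-!
# Row 216: local solution counts (auxiliary file for `TopD`)

A family of sets `S t` along a filter `l`: `Uq` (locally at most one point), `Ex` (a point in every
neighbourhood), `No` (locally no point).  On a compact space these local data determine the
cardinality of `S t`.  The local analysis of `F x' - F x = δ y'` near the diagonal.
-/

set_option autoImplicit false

noncomputable section

namespace Crest.Agent.R216.TopDAux

open Set Metric Filter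
open scoped Topology NNReal

section count

variable {P X Y : Type*} [TopologicalSpace X] [TopologicalSpace Y] {l : Filter P} {S : P → Set X}

/-- locally at most one point -/
def Uq (l : Filter P) (S : P → Set X) (a : X) : Prop :=
  ∃ U ∈ 𝓝 a, ∀ᶠ t in l, (S t ∩ U).Subsingleton

/-- a point in every neighbourhood -/
def Ex (l : Filter P) (S : P → Set X) (a : X) : Prop :=
  ∀ N ∈ 𝓝 a, ∀ᶠ t in l, (S t ∩ N).Nonempty

/-- locally no point -/
def No (l : Filter P) (S : P → Set X) (a : X) : Prop :=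
  ∃ U ∈ 𝓝 a, ∀ᶠ t in l, Disjoint (S t) U

theorem finite_T [T2Space X] [CompactSpace X] [l.NeBot] {T : Set X}
    (h1 : ∀ a ∈ T, Uq l S a ∧ Ex l S a) (h0 : ∀ a, a ∉ T → No l S a) : T.Finite := by
  have key : ∀ a, ∃ U ∈ 𝓝 a, (T ∩ U).Finite := fun a => by
    by_cases ha : a ∈ T
    · obtain ⟨U, hU, h⟩ := (h1 a ha).1
      refine ⟨interior U, interior_mem_nhds.2 hU, (finite_singleton a).subset fun b hb => ?_⟩
      by_contra hne
      obtain ⟨N, N', hN, hN', m, m', hd⟩ := t2_separation (show b ≠ a from hne)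
      obtain ⟨t, e1, ⟨x, x1, x2⟩, ⟨x', x1', x2'⟩⟩ := (h.and
        (((h1 b hb.1).2 _ (inter_mem (hN.mem_nhds m) (mem_interior_iff_mem_nhds.1 hb.2))).and
          ((h1 a ha).2 _ (inter_mem (hN'.mem_nhds m') hU)))).exists
      have e : x = x' := e1 ⟨x1, x2.2⟩ ⟨x1', x2'.2⟩
      exact hd.notMem_of_mem_left x2.1 (e ▸ x2'.1)
    · obtain ⟨U, hU, h⟩ := h0 a ha
      refine ⟨interior U, interior_mem_nhds.2 hU, finite_empty.subset fun b hb => ?_⟩
      obtain ⟨t, e1, x, x1, x2⟩ :=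
        (h.and ((h1 b hb.1).2 _ (mem_interior_iff_mem_nhds.1 hb.2))).exists
      exact e1.notMem_of_mem_left x1 x2
  have := isCompact_univ.induction_on (p := fun s : Set X => (T ∩ s).Finite) (by simp)
    (fun s t hst h => h.subset (inter_subset_inter_right _ hst))
    (fun s t h h' => by rw [inter_union_distrib_left]; exact h.union h')
    fun a _ => by
      obtain ⟨U, hU, h⟩ := key a
      exact ⟨U, mem_nhdsWithin_of_mem_nhds hU, h⟩
  simpa using this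

theorem ncard_eq [T2Space X] [CompactSpace X] {T : Set X} (hT : T.Finite)
    (h1 : ∀ a ∈ T, Uq l S a ∧ Ex l S a) (h0 : ∀ a, a ∉ T → No l S a) :
    ∀ᶠ t in l, (S t).ncard = T.ncard := by
  obtain ⟨W, hW, hd⟩ := hT.t2_separation
  choose! U hU hu using fun a ha => (h1 a ha).1
  have hK : IsCompact (⋃ a ∈ T, W a ∩ interior (U a))ᶜ :=
    (isOpen_biUnion fun a _ => (hW a).2.inter isOpen_interior).isClosed_compl.isCompact
  have e0 := hK.induction_on (p := fun s : Set X => ∀ᶠ t in l, Disjoint (S t) s) (by simp)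
    (fun s t hst h => h.mono fun _ h' => h'.mono_right hst)
    (fun s t h h' => (h.and h').mono fun _ h2 => disjoint_union_right.2 h2)
    fun a ha => by
      obtain ⟨V, hV, h⟩ := h0 a fun haT =>
        ha (mem_biUnion haT ⟨(hW a).1, mem_interior_iff_mem_nhds.2 (hU a haT)⟩)
      exact ⟨V, mem_nhdsWithin_of_mem_nhds hV, h⟩
  have e1 := (eventually_all_finite hT).2 hu
  have e2 := (eventually_all_finite hT).2 fun a ha =>
    (h1 a ha).2 _ (inter_mem ((hW a).2.mem_nhds (hW a).1) (hU a ha))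
  filter_upwards [e0, e1, e2] with t k0 k1 k2
  choose! g hg using k2
  symm
  refine ncard_congr (fun a _ => g a) (fun a ha => (hg a ha).1) (fun a b ha hb hab => ?_)
    fun x hx => ?_
  · by_contra hne
    exact (hd ha hb hne).notMem_of_mem_left (hg a ha).2.1 (hab ▸ (hg b hb).2.1)
  · obtain ⟨a, ha, hxa⟩ := mem_iUnion₂.1 (not_not.1 (k0.notMem_of_mem_left hx))
    exact ⟨a, ha, k1 a ha ⟨(hg a ha).1, (hg a ha).2.2⟩ ⟨hx, interior_subset hxa.2⟩⟩

theorem Uq.inter {a : X} (h : Uq l S a) (K : Set X) : Uq l (fun t => S t ∩ K) a := by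
  obtain ⟨U, hU, h⟩ := h
  exact ⟨U, hU, h.mono fun t ht => ht.anti (inter_subset_inter_left _ inter_subset_left)⟩

theorem Ex.inter {a : X} (h : Ex l S a) {K : Set X} (hK : K ∈ 𝓝 a) :
    Ex l (fun t => S t ∩ K) a := fun N hN =>
  (h _ (inter_mem hK hN)).mono fun t ht => by rwa [inter_assoc]

theorem No.inter {a : X} (h : No l S a) (K : Set X) : No l (fun t => S t ∩ K) a := by
  obtain ⟨U, hU, h⟩ := h
  exact ⟨U, hU, h.mono fun t ht => ht.mono_left inter_subset_left⟩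

theorem no_of_compl {a : X} {K : Set X} (hK : Kᶜ ∈ 𝓝 a) : No l (fun t => S t ∩ K) a :=
  ⟨Kᶜ, hK, Eventually.of_forall fun _ => disjoint_compl_right.mono_left inter_subset_right⟩

variable {S' : P → Set Y} {e : OpenPartialHomeomorph X Y} {a : X}

theorem Uq.of_chart (ha : a ∈ e.source) (hS : ∀ t, ∀ b ∈ e.source, b ∈ S t ↔ e b ∈ S' t)
    (h : Uq l S' (e a)) : Uq l S a := by
  obtain ⟨U, hU, h⟩ := h
  refine ⟨e.source ∩ e ⁻¹' U, inter_mem (e.open_source.mem_nhds ha) (e.continuousAt ha hU),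
    h.mono fun t ht b hb b' hb' => e.injOn hb.2.1 hb'.2.1 ?_⟩
  exact ht ⟨(hS t b hb.2.1).1 hb.1, hb.2.2⟩ ⟨(hS t b' hb'.2.1).1 hb'.1, hb'.2.2⟩

theorem Ex.of_chart (ha : a ∈ e.source) (hS : ∀ t, ∀ b ∈ e.source, b ∈ S t ↔ e b ∈ S' t)
    (h : Ex l S' (e a)) : Ex l S a := fun N hN => by
  refine (h _ (e.image_mem_nhds ha (inter_mem (e.open_source.mem_nhds ha) hN))).mono ?_
  rintro t ⟨_, h1, b, hb, rfl⟩
  exact ⟨b, (hS t b hb.1).2 h1, hb.2⟩

theorem No.of_chart (ha : a ∈ e.source) (hS : ∀ t, ∀ b ∈ e.source, b ∈ S t ↔ e b ∈ S' t)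
    (h : No l S' (e a)) : No l S a := by
  obtain ⟨U, hU, h⟩ := h
  refine ⟨e.source ∩ e ⁻¹' U, inter_mem (e.open_source.mem_nhds ha) (e.continuousAt ha hU),
    h.mono fun t ht => disjoint_left.2 fun b hb hb' => ?_⟩
  exact ht.notMem_of_mem_left ((hS t b hb'.1).1 hb) hb'.2

theorem no_of_ne [T2Space Y] {G : X → Y} (hG : ContinuousAt G a) {z : P → Y} {y : Y}
    (hz : Tendsto z l (𝓝 y)) (h : G a ≠ y) : No l (fun t => {b | G b = z t}) a := by
  obtain ⟨N, N', hN, hN', m, m', hd⟩ := t2_separation h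
  refine ⟨G ⁻¹' N, hG (hN.mem_nhds m), (hz.eventually (hN'.mem_nhds m')).mono fun t ht => ?_⟩
  refine disjoint_left.2 fun b hb hb' => hd.notMem_of_mem_left hb' ?_
  rw [show G b = z t from hb]
  exact ht

theorem even_of_swap {Z : Type*} {D : Set (Z × Z)} (hD : D.Finite) (h : ∀ a ∈ D, a.swap ∈ D)
    (h' : ∀ a ∈ D, a.1 ≠ a.2) : Even D.ncard := by
  rw [ncard_eq_toFinset_card D hD, ← ZMod.natCast_eq_zero_iff_even, Finset.card_eq_sum_ones]
  push_cast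
  refine Finset.sum_involution (fun a _ => a.swap) (fun _ _ => rfl) (fun a ha _ e => ?_)
    (fun a ha => hD.mem_toFinset.2 (h a (hD.mem_toFinset.1 ha))) fun _ _ => rfl
  exact h' a (hD.mem_toFinset.1 ha) (congrArg Prod.snd e)

end count

section localAnalysis

variable {P X V : Type*} [NormedAddCommGroup X] [NormedSpace ℝ X] [FiniteDimensional ℝ X]
  [NormedAddCommGroup V] [NormedSpace ℝ V]

theorem uq_ex_of_equiv {G : X → V} {A : X ≃L[ℝ] V} {a : X}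
    (hG : HasStrictFDerivAt G (A : X →L[ℝ] V) a) {l : Filter P} {z : P → V}
    (hz : Tendsto z l (𝓝 (G a))) :
    Uq l (fun t => {b | G b = z t}) a ∧ Ex l (fun t => {b | G b = z t}) a := by
  have := FiniteDimensional.complete ℝ X
  refine ⟨⟨_, hG.eventually_left_inverse, Eventually.of_forall fun t b hb b' hb' => ?_⟩,
    fun N hN => ?_⟩
  · have e1 : G b = z t := hb.1
    have e2 : G b' = z t := hb'.1
    have e3 : hG.localInverse G A a (G b) = b := hb.2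
    have e4 : hG.localInverse G A a (G b') = b' := hb'.2
    rw [← e3, ← e4, e1, e2]
  · have h1 : G '' N ∈ 𝓝 (G a) := hG.map_nhds_eq_of_equiv ▸ image_mem_map hN
    refine (hz.eventually h1).mono ?_
    rintro t ⟨b, hb, e⟩
    exact ⟨b, e, hb⟩

/-- the parameters `(δ, y')` -/
def lp (y : V) : Filter (ℝ × V) := 𝓝[>] 0 ×ˢ 𝓝 y

/-- the solutions near the diagonal -/
def Sol (F : X → V) (t : ℝ × V) : Set (X × X) := {a | F a.1 - F a.2 = t.1 • t.2}

theorem exists_lower {L : X →L[ℝ] V} (hi : Function.Injective L) :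
    ∃ K : ℝ, 0 < K ∧ ∀ v, ‖v‖ ≤ K * ‖L v‖ := by
  obtain ⟨K, hK, h⟩ := (L : X →ₗ[ℝ] V).exists_antilipschitzWith (LinearMap.ker_eq_bot.2 hi)
  exact ⟨K, hK, fun v => ZeroHomClass.bound_of_antilipschitz (L : X →ₗ[ℝ] V) h v⟩

theorem slope_close {F : X → V} {L : X →L[ℝ] V} {x₀ : X} (hF : HasStrictFDerivAt F L x₀)
    (hi : Function.Injective L) (y : V) {ε : ℝ} (hε : 0 < ε) :
    ∃ U ∈ 𝓝 (x₀, x₀), ∀ᶠ t in lp y, 0 < t.1 ∧
      ∀ a ∈ Sol F t ∩ U, ‖L (t.1⁻¹ • (a.1 - a.2)) - y‖ ≤ ε := by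
  obtain ⟨K, hK, h⟩ := exists_lower hi
  obtain ⟨R, hR⟩ : ∃ R, R = 2 * K * (‖y‖ + 1) := ⟨_, rfl⟩
  have hR0 : 0 < R := by rw [hR]; positivity
  obtain ⟨η, hη, h1, h2⟩ : ∃ η : ℝ, 0 < η ∧ K * η ≤ 1 / 2 ∧ η * R ≤ ε / 2 :=
    ⟨min (1 / (2 * K)) (ε / (2 * R)), lt_min (by positivity) (by positivity),
      (mul_le_mul_of_nonneg_left (min_le_left _ _) hK.le).trans_eq (by field_simp),
      (mul_le_mul_of_nonneg_right (min_le_right _ _) hR0.le).trans_eq (by field_simp)⟩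
  refine ⟨_, hF.isLittleO.def hη, ?_⟩
  have e1 : ∀ᶠ t in lp y, (0 : ℝ) < t.1 := tendsto_fst.eventually self_mem_nhdsWithin
  have e2 : ∀ᶠ t in lp y, dist t.2 y < min 1 (ε / 2) :=
    tendsto_snd.eventually (ball_mem_nhds y (lt_min one_pos (by positivity)))
  filter_upwards [e1, e2] with t h3 h4
  refine ⟨h3, fun a ha => ?_⟩
  rw [dist_eq_norm, lt_min_iff] at h4
  have h5 : ‖F a.1 - F a.2 - L (a.1 - a.2)‖ ≤ η * ‖a.1 - a.2‖ := ha.2
  rw [show F a.1 - F a.2 = t.1 • t.2 from ha.1] at h5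
  obtain ⟨v, hv⟩ : ∃ v, v = t.1⁻¹ • (a.1 - a.2) := ⟨_, rfl⟩
  have h6 : a.1 - a.2 = t.1 • v := by rw [hv, smul_inv_smul₀ h3.ne']
  rw [h6, map_smul, ← smul_sub, norm_smul, norm_smul, Real.norm_of_nonneg h3.le,
    mul_left_comm] at h5
  have h7 : ‖t.2 - L v‖ ≤ η * ‖v‖ := le_of_mul_le_mul_left h5 h3
  have h8 : ‖L v‖ ≤ ‖y‖ + ‖t.2 - y‖ + ‖t.2 - L v‖ := by
    have : L v = y + (t.2 - y) - (t.2 - L v) := by abel
    exact (congrArg norm this).trans_le ((norm_sub_le _ _).trans (by gcongr; exact norm_add_le _ _))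
  have h9 : ‖v‖ ≤ R := by
    have k1 := h v
    have k2 : K * ‖L v‖ ≤ K * (‖y‖ + 1 + η * ‖v‖) := by gcongr; linarith [h4.1]
    have k3 : K * η * ‖v‖ ≤ 1 / 2 * ‖v‖ := by gcongr
    rw [hR]
    nlinarith
  have h10 : ‖L v - y‖ ≤ ‖t.2 - y‖ + ‖t.2 - L v‖ := by
    have : L v - y = (t.2 - y) - (t.2 - L v) := by abel
    exact (congrArg norm this).trans_le (norm_sub_le _ _)
  have h11 : η * ‖v‖ ≤ η * R := by gcongr
  rw [← hv]
  linarith [h4.2]

theorem no_diag {F : X → V} {L : X →L[ℝ] V} {x₀ : X} (hF : HasStrictFDerivAt F L x₀)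
    (hi : Function.Injective L) {y : V} (hy : ∀ v, L v ≠ y) : No (lp y) (Sol F) (x₀, x₀) := by
  have hc := (LinearMap.range (L : X →ₗ[ℝ] V)).closed_of_finiteDimensional
  obtain ⟨ε, hε, h⟩ := Metric.isOpen_iff.1 hc.isOpen_compl y fun ⟨v, hv⟩ => hy v hv
  obtain ⟨U, hU, h1⟩ := slope_close hF hi y (half_pos hε)
  refine ⟨U, hU, h1.mono fun t ht => disjoint_left.2 fun a ha ha' => ?_⟩
  refine h (mem_ball_iff_norm.2 ((ht.2 a ⟨ha, ha'⟩).trans_lt (half_lt_self hε))) ⟨_, rfl⟩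

/-- the difference quotient -/
def Hq (F : X → V) (δ : ℝ) (q : X × X) : V := δ⁻¹ • (F (q.1 + δ • q.2) - F q.1)

omit [FiniteDimensional ℝ X] in
theorem approx {F : X → V} {x₀ v₀ : X} (hF : ContDiffAt ℝ 2 F x₀) {A : X × X →L[ℝ] V}
    (hA : ∀ q, A q = fderiv ℝ (fderiv ℝ F) x₀ q.1 v₀ + fderiv ℝ F x₀ q.2) {c : ℝ≥0} (hc : 0 < c) :
    ∃ r : ℝ, 0 < r ∧ ∀ᶠ δ in 𝓝[>] (0 : ℝ),
      ApproximatesLinearOn (Hq F δ) A (closedBall (x₀, v₀) r) c := by
  obtain ⟨B, hB⟩ : ∃ B, B = fderiv ℝ (fderiv ℝ F) x₀ := ⟨_, rfl⟩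
  have hs : ∀ v w, B v w = B w v := hB ▸ hF.isSymmSndFDerivAt (by simp)
  have h1 : ContDiffAt ℝ 1 (fderiv ℝ F) x₀ := hF.fderiv_right (by norm_num)
  have h2 : HasStrictFDerivAt (fderiv ℝ F) B x₀ := hB ▸ h1.hasStrictFDerivAt one_ne_zero
  have h3 : ∀ᶠ x in 𝓝 x₀, DifferentiableAt ℝ F x :=
    (hF.eventually (by simp)).mono fun x hx => hx.differentiableAt two_ne_zero
  have hc' : (0 : ℝ) < c := hc
  obtain ⟨ε, hε, hε'⟩ : ∃ ε : ℝ, 0 < ε ∧ ε * (‖v₀‖ + ‖B‖ + 2) = c :=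
    ⟨c / (‖v₀‖ + ‖B‖ + 2), by positivity, div_mul_cancel₀ _ (by positivity)⟩
  have t1 : Tendsto (fun w : ℝ × X × X => w.2.1 + w.1 • w.2.2) (𝓝[>] 0 ×ˢ 𝓝 (x₀, v₀)) (𝓝 x₀) := by
    have : Tendsto (fun w : ℝ × X × X => w.2.1 + w.1 • w.2.2) (𝓝 (0, x₀, v₀))
        (𝓝 (x₀ + (0 : ℝ) • v₀)) := Continuous.tendsto (by fun_prop) (0, x₀, v₀)
    rw [zero_smul, add_zero, nhds_prod_eq] at this
    exact this.mono_left (prod_mono_left _ nhdsWithin_le_nhds)
  have t2 : Tendsto (fun w : ℝ × X × X => w.2.1) (𝓝[>] 0 ×ˢ 𝓝 (x₀, v₀)) (𝓝 x₀) :=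
    (continuous_fst.tendsto (x₀, v₀)).comp tendsto_snd
  have t3 : Tendsto (fun w : ℝ × X × X => w.2.2) (𝓝[>] 0 ×ˢ 𝓝 (x₀, v₀)) (𝓝 v₀) :=
    (continuous_snd.tendsto (x₀, v₀)).comp tendsto_snd
  have key : ∀ᶠ w : ℝ × X × X in 𝓝[>] 0 ×ˢ 𝓝 (x₀, v₀), ∃ D : X × X →L[ℝ] V,
      HasFDerivAt (Hq F w.1) D w.2 ∧ ‖D - A‖ ≤ c := by
    filter_upwards [(t1.prodMk_nhds t2).eventually (h2.isLittleO.def hε),
      t1.eventually (h1.continuousAt.eventually (ball_mem_nhds _ hε)),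
      t3.eventually (ball_mem_nhds _ (lt_min one_pos hε)), t1.eventually h3, t2.eventually h3,
      tendsto_fst.eventually self_mem_nhdsWithin]
    rintro ⟨δ, x, v⟩ e1 e2 e3 e4 e5 (e6 : 0 < δ)
    simp only [add_sub_cancel_left, dist_eq_norm, lt_min_iff] at e1 e2 e3 e4 e5
    have d1 : HasFDerivAt (fun q : X × X => q.1 + δ • q.2)
        (ContinuousLinearMap.fst ℝ X X + δ • ContinuousLinearMap.snd ℝ X X) (x, v) :=
      hasFDerivAt_fst.add (hasFDerivAt_snd.const_smul δ)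
    have d2 := (HasFDerivAt.comp (x, v) (f := fun q : X × X => q.1 + δ • q.2)
      e4.hasFDerivAt d1).sub
      (HasFDerivAt.comp (x, v) (f := fun q : X × X => q.1) e5.hasFDerivAt hasFDerivAt_fst)
    refine ⟨_, d2.const_smul δ⁻¹, ContinuousLinearMap.opNorm_le_bound _ hc'.le fun q => ?_⟩
    have k1 : (δ⁻¹ • ((fderiv ℝ F (x + δ • v)).comp
          (ContinuousLinearMap.fst ℝ X X + δ • ContinuousLinearMap.snd ℝ X X) -
          (fderiv ℝ F x).comp (ContinuousLinearMap.fst ℝ X X)) - A) q =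
        δ⁻¹ • (fderiv ℝ F (x + δ • v) - fderiv ℝ F x - B (δ • v)) q.1 + B (v - v₀) q.1 +
          (fderiv ℝ F (x + δ • v) - fderiv ℝ F x₀) q.2 := by
      simp only [sub_apply, smul_apply, ContinuousLinearMap.comp_apply, add_apply,
        ContinuousLinearMap.coe_fst',
        ContinuousLinearMap.coe_snd', map_add, map_smul, map_sub, hA, ← hB, hs q.1 v₀, smul_sub,
        smul_add, inv_smul_smul₀ e6.ne']
      abel
    have n1 : ‖q.1‖ ≤ ‖q‖ := norm_fst_le q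
    have n2 : ‖q.2‖ ≤ ‖q‖ := norm_snd_le q
    have n3 : ‖v‖ ≤ ‖v₀‖ + 1 := by linarith [norm_le_norm_add_norm_sub' v v₀, e3.1]
    have k2 : ‖δ⁻¹ • (fderiv ℝ F (x + δ • v) - fderiv ℝ F x - B (δ • v)) q.1‖ ≤
        ε * (‖v₀‖ + 1) * ‖q‖ := by
      rw [norm_smul, Real.norm_of_nonneg e6.le] at e1
      rw [norm_smul, norm_inv, Real.norm_of_nonneg e6.le, inv_mul_le_iff₀ e6]
      refine (ContinuousLinearMap.le_opNorm _ _).trans ?_
      calc _ ≤ ε * (δ * (‖v₀‖ + 1)) * ‖q‖ := by gcongr; exact e1.trans (by gcongr)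
        _ = _ := by ring
    have k3 : ‖B (v - v₀) q.1‖ ≤ ‖B‖ * ε * ‖q‖ :=
      (B.le_opNorm₂ _ _).trans (by gcongr; exact e3.2.le)
    have k4 : ‖(fderiv ℝ F (x + δ • v) - fderiv ℝ F x₀) q.2‖ ≤ ε * ‖q‖ :=
      (ContinuousLinearMap.le_opNorm _ _).trans (by gcongr)
    rw [k1]
    refine (norm_add₃_le).trans ?_
    rw [← hε']
    linarith
  obtain ⟨pa, ha, pb, hb, h⟩ := eventually_prod_iff.1 key
  obtain ⟨r, hr, hr'⟩ := nhds_basis_closedBall.eventually_iff.1 hb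
  refine ⟨r, hr, ha.mono fun δ hδ q hq q' hq' => ?_⟩
  choose! D hD using fun q (hq : q ∈ closedBall (x₀, v₀) r) => h hδ (hr' hq)
  exact (convex_closedBall _ _).norm_image_sub_le_of_norm_hasFDerivWithin_le'
    (fun q hq => (hD q hq).1.hasFDerivWithinAt) (fun q hq => (hD q hq).2) hq' hq

theorem uq_ex_diag [Nontrivial X] {F : X → V} {x₀ v₀ : X} (hF : ContDiffAt ℝ 2 F x₀)
    (hi : Function.Injective (fderiv ℝ F x₀)) {A : (X × X) ≃L[ℝ] V}
    (hA : ∀ q, A q = fderiv ℝ (fderiv ℝ F) x₀ q.1 v₀ + fderiv ℝ F x₀ q.2) :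
    Uq (lp (fderiv ℝ F x₀ v₀)) (Sol F) (x₀, x₀) ∧ Ex (lp (fderiv ℝ F x₀ v₀)) (Sol F) (x₀, x₀) := by
  have := FiniteDimensional.complete ℝ X
  have hN : 0 < ‖(A.symm : V →L[ℝ] X × X)‖₊⁻¹ := inv_pos.2 A.nnnorm_symm_pos
  obtain ⟨r, hr, h⟩ := approx (A := (A : X × X →L[ℝ] V)) hF hA (half_pos hN)
  have hs := hF.hasStrictFDerivAt two_ne_zero
  constructor
  · obtain ⟨K, hK, hl⟩ := exists_lower hi
    obtain ⟨U, hU, h1⟩ := slope_close hs hi (fderiv ℝ F x₀ v₀) (div_pos hr hK)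
    refine ⟨U ∩ Prod.snd ⁻¹' closedBall x₀ r,
      inter_mem hU (continuous_snd.continuousAt (closedBall_mem_nhds x₀ hr)), ?_⟩
    filter_upwards [h1, tendsto_fst.eventually h] with t h2 h3
    have key : ∀ a ∈ Sol F t ∩ (U ∩ Prod.snd ⁻¹' closedBall x₀ r),
        (a.2, t.1⁻¹ • (a.1 - a.2)) ∈ closedBall (x₀, v₀) r ∧
          Hq F t.1 (a.2, t.1⁻¹ • (a.1 - a.2)) = t.2 := fun a ha => by
      constructor
      · rw [← closedBall_prod_same]
        refine ⟨ha.2.2, mem_closedBall_iff_norm.2 ((hl _).trans ?_)⟩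
        rw [map_sub, ← le_div_iff₀' hK]
        exact h2.2 a ⟨ha.1, ha.2.1⟩
      · have e : F a.1 - F a.2 = t.1 • t.2 := ha.1
        simp only [Hq, smul_inv_smul₀ h2.1.ne', add_sub_cancel, e, inv_smul_smul₀ h2.1.ne']
    intro a ha a' ha'
    have e := h3.injOn (Or.inr (half_lt_self hN)) (key a ha).1 (key a' ha').1
      ((key a ha).2.trans (key a' ha').2.symm)
    obtain ⟨e1, e2⟩ := Prod.ext_iff.1 e
    have e3 : a.1 - a.2 = a'.1 - a'.2 := smul_right_injective X (inv_ne_zero h2.1.ne') e2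
    have e4 : a.2 = a'.2 := e1
    exact Prod.ext (by rwa [e4, sub_left_inj] at e3) e4
  · intro N hN'
    have t1 : Tendsto (fun w : ℝ × X × X => (w.2.1 + w.1 • w.2.2, w.2.1)) (𝓝 0 ×ˢ 𝓝 (x₀, v₀))
        (𝓝 (x₀, x₀)) := by
      have : Tendsto (fun w : ℝ × X × X => (w.2.1 + w.1 • w.2.2, w.2.1)) (𝓝 (0, x₀, v₀))
          (𝓝 (x₀ + (0 : ℝ) • v₀, x₀)) := Continuous.tendsto (by fun_prop) (0, x₀, v₀)
      rwa [zero_smul, add_zero, nhds_prod_eq (x := (0 : ℝ))] at this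
    obtain ⟨pa, ha, pb, hb, h1⟩ := eventually_prod_iff.1 (t1.eventually hN')
    obtain ⟨ρ, hρ, hρ'⟩ :=
      nhds_basis_closedBall.eventually_iff.1 (hb.and (closedBall_mem_nhds (x₀, v₀) hr))
    have d1 : HasDerivAt (fun δ : ℝ => F (x₀ + δ • v₀)) (fderiv ℝ F x₀ v₀) 0 :=
      hs.hasFDerivAt.hasLineDerivAt v₀
    have t2 : Tendsto (fun t : ℝ × V => dist t.2 (Hq F t.1 (x₀, v₀))) (lp (fderiv ℝ F x₀ v₀))
        (𝓝 (dist (fderiv ℝ F x₀ v₀) (fderiv ℝ F x₀ v₀))) := by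
      refine tendsto_snd.dist (Tendsto.comp (g := fun δ => Hq F δ (x₀, v₀)) ?_ tendsto_fst)
      simpa [Hq] using d1.tendsto_slope_zero_right
    rw [dist_self] at t2
    have hp : 0 < (((‖(A.symm : V →L[ℝ] X × X)‖₊ : ℝ≥0) : ℝ)⁻¹ -
        (‖(A.symm : V →L[ℝ] X × X)‖₊⁻¹ / 2 : ℝ≥0)) * ρ := by
      refine mul_pos (sub_pos.2 ?_) hρ
      exact_mod_cast half_lt_self hN
    filter_upwards [t2.eventually_lt_const hp, tendsto_fst.eventually h,
      tendsto_fst.eventually (ha.filter_mono nhdsWithin_le_nhds),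
      tendsto_fst.eventually self_mem_nhdsWithin] with t e1 e2 e3 (e4 : 0 < t.1)
    obtain ⟨q, hq, e5⟩ := e2.surjOn_closedBall_of_nonlinearRightInverse A.toNonlinearRightInverse
      hρ.le (fun q hq => (hρ' hq).2) (mem_closedBall.2 e1.le)
    refine ⟨(q.1 + t.1 • q.2, q.1), ?_, h1 e3 (hρ' hq).1⟩
    show F (q.1 + t.1 • q.2) - F q.1 = t.1 • t.2
    rw [← e5, Hq, smul_inv_smul₀ e4.ne']

end localAnalysis

end Crest.Agent.R216.TopDAux
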