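import Crest.Agent.R216.TopC
import Crest.Agent.R216.TopDAux

/-!
# Row 216: the number of tangencies is even
-/

set_option autoImplicit false
set_option linter.unusedSectionVars false

noncomputable section

namespace Crest.Agent.R216

open Set Metric Filter
open scoped Manifold ContDiff Topology RealInnerProductSpace

variable {M : Type*} [TopologicalSpace M] [T2Space M] [CompactSpace M] [ChartedSpace E M]
  [IsManifold (𝓡 2) ∞ M]

namespace TopDAux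

/-- the solutions of `f p - f q = δ y'` -/
def SolM (f : M → V4) (t : ℝ × V4) : Set (M × M) := {a | f a.1 - f a.2 = t.1 • t.2}

theorem tendsto_lp (y : V4) : Tendsto (fun t : ℝ × V4 => t.1 • t.2) (lp y) (𝓝 0) := by
  have : Tendsto (fun t : ℝ × V4 => t.1 • t.2) (lp y) (𝓝 ((0 : ℝ) • y)) :=
    (tendsto_fst.mono_right nhdsWithin_le_nhds).smul tendsto_snd
  rwa [zero_smul] at this

theorem exists_ch (p : M) : ∃ c : Ch M, p ∈ c.e.source := by
  obtain ⟨c, hc⟩ := exists_ch_chartAt p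
  exact ⟨c, hc ▸ mem_chart_source E p⟩

theorem exists_equiv {A : E × E →L[ℝ] V4} (h : Function.Injective A ∨ Function.Surjective A) :
    ∃ B : (E × E) ≃L[ℝ] V4, (B : E × E →L[ℝ] V4) = A := by
  have hd : Module.finrank ℝ (E × E) = Module.finrank ℝ V4 := by simp
  have h2 := LinearMap.injective_iff_surjective_of_finrank_eq_finrank (f := (A : E × E →ₗ[ℝ] V4)) hd
  have hb : Function.Bijective (A : E × E →ₗ[ℝ] V4) :=
    h.elim (fun h => ⟨h, h2.1 h⟩) fun h => ⟨h2.2 h, h⟩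
  exact ⟨(LinearEquiv.ofBijective _ hb).toContinuousLinearEquiv, ContinuousLinearMap.ext fun _ => rfl⟩

theorem rd_at {f : M → V4} (hf : Sm f) (c : Ch M) {p : M} (hp : p ∈ c.e.source) :
    ContDiffAt ℝ 2 (c.rd f) (c.e p) :=
  ((c.contDiffOn_rd hf).contDiffAt (c.e.open_target.mem_nhds (c.e.map_source hp))).of_le
    (WithTop.coe_le_coe.2 (le_top : (2 : ℕ∞) ≤ ⊤))

theorem fderiv_rd_at {f : M → V4} (hf : Sm f) (c : Ch M) {p : M} (hp : p ∈ c.e.source) (v : E) :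
    fderiv ℝ (c.rd f) (c.e p) v = dM f p (c.dP (c.e p) v) := by
  rw [c.fderiv_rd hf (c.e.map_source hp), c.e.left_inv hp]

theorem inj_rd {f : M → V4} (hf : Sm f) (hi : Imm f) (c : Ch M) {p : M} (hp : p ∈ c.e.source) :
    Function.Injective (fderiv ℝ (c.rd f) (c.e p)) := fun v w h => by
  rw [fderiv_rd_at hf c hp, fderiv_rd_at hf c hp] at h
  rw [← c.dQ_dP (c.e.map_source hp) v, hi p h, c.dQ_dP (c.e.map_source hp)]

theorem solM_iff (f : M → V4) (c c' : Ch M) (t : ℝ × V4) (b : M × M)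
    (hb : b ∈ (c.e.prod c'.e).source) :
    b ∈ SolM f t ↔ (c.e.prod c'.e) b ∈ {a : E × E | c.rd f a.1 - c'.rd f a.2 = t.1 • t.2} := by
  change _ ↔ f (c.e.symm (c.e b.1)) - f (c'.e.symm (c'.e b.2)) = t.1 • t.2
  rw [c.e.left_inv hb.1, c'.e.left_inv hb.2]
  rfl

theorem at_double {f : M → V4} (hf : Sm f) {p q : M} (hpq : f p = f q)
    (hd : ∀ y : V4, ∃ v w : E, y = dM f p v - dM f q w) (y : V4) :
    Uq (lp y) (SolM f) (p, q) ∧ Ex (lp y) (SolM f) (p, q) := by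
  obtain ⟨c, hc⟩ := exists_ch p
  obtain ⟨c', hc'⟩ := exists_ch q
  have h1 : HasStrictFDerivAt (fun a : E × E => c.rd f a.1 - c'.rd f a.2)
      ((fderiv ℝ (c.rd f) (c.e p)).comp (ContinuousLinearMap.fst ℝ E E) -
        (fderiv ℝ (c'.rd f) (c'.e q)).comp (ContinuousLinearMap.snd ℝ E E)) (c.e p, c'.e q) :=
    (HasStrictFDerivAt.comp (c.e p, c'.e q) (f := Prod.fst)
      ((rd_at hf c hc).hasStrictFDerivAt two_ne_zero) hasStrictFDerivAt_fst).sub
    (HasStrictFDerivAt.comp (c.e p, c'.e q) (f := Prod.snd)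
      ((rd_at hf c' hc').hasStrictFDerivAt two_ne_zero) hasStrictFDerivAt_snd)
  obtain ⟨B, hB⟩ := exists_equiv (A := (fderiv ℝ (c.rd f) (c.e p)).comp
      (ContinuousLinearMap.fst ℝ E E) -
        (fderiv ℝ (c'.rd f) (c'.e q)).comp (ContinuousLinearMap.snd ℝ E E)) (Or.inr fun z => by
    obtain ⟨v, w, h⟩ := hd z
    refine ⟨(c.dQ p v, c'.dQ q w), ?_⟩
    change fderiv ℝ (c.rd f) (c.e p) (c.dQ p v) - fderiv ℝ (c'.rd f) (c'.e q) (c'.dQ q w) = z
    rw [fderiv_rd_at hf c hc, fderiv_rd_at hf c' hc', c.dP_dQ hc, c'.dP_dQ hc', h])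
  rw [← hB] at h1
  have h2 := uq_ex_of_equiv h1 (l := lp y) (z := fun t => t.1 • t.2) (by
    have e : c.rd f (c.e p) - c'.rd f (c'.e q) = 0 := by
      change f (c.e.symm (c.e p)) - f (c'.e.symm (c'.e q)) = 0
      rw [c.e.left_inv hc, c'.e.left_inv hc', hpq, sub_self]
    exact e ▸ tendsto_lp y)
  exact ⟨h2.1.of_chart (e := c.e.prod c'.e) ⟨hc, hc'⟩ (solM_iff f c c'),
    h2.2.of_chart (e := c.e.prod c'.e) ⟨hc, hc'⟩ (solM_iff f c c')⟩

theorem at_tangent {f : M → V4} (hf : Sm f) (hi : Imm f) {y : V4} (h : ND (dM f) fun _ => y)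
    {p : M} (hp : p ∈ Zs (dM f) fun _ => y) :
    Uq (lp y) (SolM f) (p, p) ∧ Ex (lp y) (SolM f) (p, p) := by
  obtain ⟨c, hc⟩ := exists_ch p
  obtain ⟨v, hv⟩ := hp
  have hx := c.e.map_source hc
  have e0 : ∀ x ∈ c.e.target, c.rdL (dM f) x = fderiv ℝ (c.rd f) x := fun x hx => by
    ext1 w
    exact (c.fderiv_rd hf hx w).symm
  have e1 : fderiv ℝ (c.rd f) (c.e p) (c.dQ p v) = y := by
    rw [fderiv_rd_at hf c hc, c.dP_dQ hc, hv]
  have h1 := h c (c.e p) (c.dQ p v) hx (by rw [e0 _ hx, e1]; rfl)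
  have h2 : HasFDerivAt (fderiv ℝ (c.rd f)) (fderiv ℝ (fderiv ℝ (c.rd f)) (c.e p)) (c.e p) :=
    (((rd_at hf c hc).fderiv_right (m := 1) (by norm_num)).differentiableAt one_ne_zero).hasFDerivAt
  have h3 := ((HasFDerivAt.comp (c.e p, c.dQ p v) (f := (Prod.fst : E × E → E)) h2
    hasFDerivAt_fst).clm_apply hasFDerivAt_snd).sub_const y
  have h4 : (fun q : E × E => c.rdL (dM f) q.1 q.2 - c.rd (fun _ => y) q.1) =ᶠ[𝓝 (c.e p, c.dQ p v)]
      fun q : E × E => (fderiv ℝ (c.rd f) ∘ Prod.fst) q q.2 - y := by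
    filter_upwards [continuous_fst.continuousAt (c.e.open_target.mem_nhds hx)] with q hq
    rw [e0 _ hq]
    rfl
  rw [(h3.congr_of_eventuallyEq h4).fderiv] at h1
  obtain ⟨B, hB⟩ := exists_equiv (Or.inl h1)
  have h5 := uq_ex_diag (A := B) (v₀ := c.dQ p v) (rd_at hf c hc) (inj_rd hf hi c hc) fun q => by
    rw [add_comm]
    exact congrArg (fun T : E × E →L[ℝ] V4 => T q) hB
  rw [e1] at h5
  exact ⟨h5.1.of_chart (e := c.e.prod c.e) ⟨hc, hc⟩ (solM_iff f c c),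
    h5.2.of_chart (e := c.e.prod c.e) ⟨hc, hc⟩ (solM_iff f c c)⟩

theorem at_regular {f : M → V4} (hf : Sm f) (hi : Imm f) {y : V4} {p : M}
    (hp : p ∉ Zs (dM f) fun _ => y) : No (lp y) (SolM f) (p, p) := by
  obtain ⟨c, hc⟩ := exists_ch p
  have h := no_diag ((rd_at hf c hc).hasStrictFDerivAt two_ne_zero) (inj_rd hf hi c hc) (y := y)
    fun v hv => hp ⟨_, (fderiv_rd_at hf c hc v).symm.trans hv⟩
  exact h.of_chart (e := c.e.prod c.e) ⟨hc, hc⟩ (solM_iff f c c)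

end TopDAux

open TopDAux in
theorem even_zs {f : M → V4} (hf : Sm f) (hi : Imm f)
    (hd : ∀ p q, p ≠ q → f p = f q → ∀ y : V4, ∃ v w : E, y = dM f p v - dM f q w)
    {y : V4} (hy : y ≠ 0) (h : ND (dM f) fun _ => y) {C : Set M} (hC : IsClopen C) :
    Even (Zs (dM f) (fun _ => y) ∩ C).ncard := by
  have : (lp y).NeBot := inferInstanceAs (𝓝[>] (0 : ℝ) ×ˢ 𝓝 y).NeBot
  have hK : IsClopen (C ×ˢ C) := hC.prod hC
  obtain ⟨D, hD⟩ : ∃ D : Set (M × M), D = {a | a.1 ≠ a.2 ∧ f a.1 = f a.2} ∩ C ×ˢ C := ⟨_, rfl⟩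
  obtain ⟨Z, hZ⟩ : ∃ Z : Set (M × M), Z = (fun p => (p, p)) '' (Zs (dM f) (fun _ => y) ∩ C) :=
    ⟨_, rfl⟩
  have h1 : ∀ a ∈ D ∪ Z, Uq (lp y) (fun t => SolM f t ∩ C ×ˢ C) a ∧
      Ex (lp y) (fun t => SolM f t ∩ C ×ˢ C) a := by
    rintro ⟨p, q⟩ (ha | ha)
    · rw [hD] at ha
      have k := at_double hf ha.1.2 (hd p q ha.1.1 ha.1.2) y
      exact ⟨k.1.inter _, k.2.inter (hK.isOpen.mem_nhds ha.2)⟩
    · rw [hZ] at ha
      obtain ⟨r, hr, e⟩ := ha
      have k := at_tangent hf hi h hr.1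
      rw [← e]
      exact ⟨k.1.inter _, k.2.inter (hK.isOpen.mem_nhds ⟨hr.2, hr.2⟩)⟩
  have h0 : ∀ a, a ∉ D ∪ Z → No (lp y) (fun t => SolM f t ∩ C ×ˢ C) a := by
    rintro ⟨p, q⟩ ha
    by_cases hc : (p, q) ∈ C ×ˢ C
    swap
    · exact no_of_compl (hK.compl.isOpen.mem_nhds hc)
    refine No.inter ?_ _
    by_cases hpq : p = q
    · subst hpq
      exact at_regular hf hi fun hp => ha (Or.inr (hZ ▸ ⟨p, ⟨hp, hc.1⟩, rfl⟩))
    · refine no_of_ne (G := fun a : M × M => f a.1 - f a.2)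
        ((hf.continuous.comp continuous_fst).sub (hf.continuous.comp continuous_snd)).continuousAt
        (tendsto_lp y) fun e => ha (Or.inl (hD ▸ ⟨⟨hpq, sub_eq_zero.1 e⟩, hc⟩))
  have hT := finite_T h1 h0
  obtain ⟨pa, ha, pb, hb, h2⟩ := eventually_prod_iff.1 (ncard_eq hT h1 h0)
  obtain ⟨δ, h3, (h4 : 0 < δ)⟩ := (ha.and self_mem_nhdsWithin).exists
  have h5 : (fun z : V4 => δ⁻¹ • z) ⁻¹' {z | pb z} ∈ 𝓝 (δ • y) :=
    (continuous_const_smul δ⁻¹).continuousAt (by rw [inv_smul_smul₀ h4.ne']; exact hb)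
  obtain ⟨z, h6, -, h7⟩ := MeasureTheory.Measure.exists_mem_of_measure_ne_zero_of_ae
    (MeasureTheory.Measure.measure_pos_of_mem_nhds MeasureTheory.volume h5).ne'
    (MeasureTheory.ae_restrict_of_ae (parity_ae hf hC))
  have h8 : {q : M × M | q.1 ∈ C ∧ q.2 ∈ C ∧ f q.1 - f q.2 = z} =
      SolM f (δ, δ⁻¹ • z) ∩ C ×ˢ C := by
    ext q
    simp only [SolM, mem_ofPred_eq, mem_inter_iff, mem_prod, smul_inv_smul₀ h4.ne']
    tauto
  have h9 : Disjoint D Z := by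
    rw [hD, hZ, disjoint_left]
    rintro _ ha ⟨r, -, rfl⟩
    exact ha.1.1 rfl
  have h10 : Even D.ncard := even_of_swap (hT.subset subset_union_left)
    (fun a ha => by
      rw [hD] at ha ⊢
      exact ⟨⟨ha.1.1.symm, ha.1.2.symm⟩, ha.2.2, ha.2.1⟩)
    fun a ha => by
      rw [hD] at ha
      exact ha.1.1
  rw [h8, h2 h3 h6, ncard_union_eq h9 (hT.subset subset_union_left) (hT.subset subset_union_right),
    Nat.even_add, hZ, ncard_image_of_injective _ fun _ _ e => congrArg Prod.fst e] at h7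
  exact h7.1 h10

end Crest.Agent.R216
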