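import Crest.Agent.R216.TopF

/-!
# Row 216: a formal immersion in three-space
-/

set_option autoImplicit false
set_option linter.unusedSectionVars false

noncomputable section

namespace Crest.Agent.R216

open Set Metric Filter
open scoped Manifold ContDiff Topology RealInnerProductSpace

variable {M : Type*} [TopologicalSpace M] [T2Space M] [CompactSpace M] [ChartedSpace E M]
  [IsManifold (𝓡 2) ∞ M]

namespace TopGAux

/-- Two tangencies in the same component cancel. -/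
theorem step {L : M → E →L[ℝ] V4} (hL : Fml L) {n : M → V4} (hn : Sm n) (h : ND L n) {p q : M}
    (hp : p ∈ Zs L n) (hq : q ∈ Zs L n) (hpq : q ≠ p) (hC : q ∈ connectedComponent p) :
    ∃ b ∈ Zs L n \ {p}, b ∈ connectedComponent p ∧ ∃ (L' : M → E →L[ℝ] V4) (n' : M → V4),
      Fml L' ∧ Sm n' ∧ ND L' n' ∧ Zs L' n' = (Zs L n \ {p}) \ {b} := by
  by_contra hcon
  set S := Zs L n \ {p} with hS
  have hf : S.Finite := (h.finite hL hn).subset sdiff_subset
  set R : Set M := {x | x ∉ S ∧ ∃ n', Sm n' ∧ ND L n' ∧ Zs L n' = insert x S} with hR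
  have key : ∀ x ∈ connectedComponent p, ∃ V ∈ 𝓝 x, ∀ a ∈ V, a ∈ R → V ⊆ R := by
    intro x hx
    by_cases hxS : x ∈ S
    · obtain ⟨V, hV, hVW, H⟩ := cancel_zero hL x (W := (S \ {x})ᶜ)
        ((hf.subset sdiff_subset).isClosed.isOpen_compl.mem_nhds fun h => h.2 rfl)
      refine ⟨V, hV, fun a ha ⟨a1, n', a2, a3, a4⟩ => (hcon ?_).elim⟩
      obtain ⟨L', n'', b1, b2, b3, b4⟩ := H n' a2 a3 a ha x (mem_of_mem_nhds hV)
        (fun e => a1 (e ▸ hxS)) (by rw [a4]; ext y; simp only [mem_inter_iff, mem_insert_iff,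
          mem_compl_iff, Set.mem_sdiff, mem_singleton_iff]; grind)
      refine ⟨x, hxS, hx, L', n'', b1, b2, b3, ?_⟩
      rw [b4, a4]
      ext y
      simp only [mem_insert_iff, Set.mem_sdiff, mem_singleton_iff]
      grind
    · obtain ⟨V, hV, hVW, H⟩ := move_zero hL x (W := Sᶜ) (hf.isClosed.isOpen_compl.mem_nhds hxS)
      refine ⟨V, hV, fun a ha ⟨a1, n', a2, a3, a4⟩ b hb => ⟨hVW hb, ?_⟩⟩
      obtain ⟨n'', b1, b2, b3⟩ := H n' a2 a3 a ha b hb (by
        rw [a4]; ext y; simp only [mem_inter_iff, mem_insert_iff, mem_compl_iff,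
          mem_singleton_iff]; grind)
      exact ⟨n'', b1, b2, by rw [b3, a4, insert_sdiff_self_of_notMem a1]⟩
  have hpR : p ∈ R := ⟨fun h => h.2 rfl, n, hn, h, by rw [hS, insert_sdiff_self_of_mem hp]⟩
  refine (interior_subset (isPreconnected_connectedComponent.subset_left_of_subset_union
    (u := interior R) (v := interior Rᶜ) isOpen_interior isOpen_interior
    (disjoint_compl_right.mono interior_subset interior_subset) (fun x hx => ?_) ⟨p, ?_, ?_⟩
    hC)).1 ⟨hq, hpq⟩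
  · obtain ⟨V, hV, H⟩ := key x hx
    by_cases hh : ∃ a ∈ V, a ∈ R
    · obtain ⟨a, a1, a2⟩ := hh
      exact Or.inl (mem_interior_iff_mem_nhds.2 (mem_of_superset hV (H a a1 a2)))
    · exact Or.inr (mem_interior_iff_mem_nhds.2 (mem_of_superset hV fun a a1 a2 => hh ⟨a, a1, a2⟩))
  · exact mem_connectedComponent
  · obtain ⟨V, hV, H⟩ := key p mem_connectedComponent
    exact mem_interior_iff_mem_nhds.2 (mem_of_superset hV (H p (mem_of_mem_nhds hV) hpR))

/-- The three quaternionic components of `w` orthogonal to `n`. -/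
def qu : V4 →ₗ[ℝ] V4 →ₗ[ℝ] V3 :=
  LinearMap.mk₂ ℝ (fun n w => !₂[-n 1 * w 0 + n 0 * w 1 - n 3 * w 2 + n 2 * w 3,
      -n 2 * w 0 + n 3 * w 1 + n 0 * w 2 - n 1 * w 3,
      -n 3 * w 0 - n 2 * w 1 + n 1 * w 2 + n 0 * w 3])
    (fun _ _ _ => by ext i; fin_cases i <;> simp <;> ring)
    (fun _ _ _ => by ext i; fin_cases i <;> simp <;> ring)
    (fun _ _ _ => by ext i; fin_cases i <;> simp <;> ring)
    (fun _ _ _ => by ext i; fin_cases i <;> simp <;> ring)

theorem qu_eq_zero {n w : V4} (h : qu n w = 0) : ⟪n, n⟫ • w = ⟪n, w⟫ • n := by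
  have h0 : -n 1 * w 0 + n 0 * w 1 - n 3 * w 2 + n 2 * w 3 = 0 := congrArg (· 0) h
  have h1 : -n 2 * w 0 + n 3 * w 1 + n 0 * w 2 - n 1 * w 3 = 0 := congrArg (· 1) h
  have h2 : -n 3 * w 0 - n 2 * w 1 + n 1 * w 2 + n 0 * w 3 = 0 := congrArg (· 2) h
  simp only [PiLp.inner_apply, Fin.sum_univ_four, RCLike.inner_apply, conj_trivial]
  ext i
  fin_cases i <;> simp only [PiLp.smul_apply, smul_eq_mul, Fin.zero_eta, Fin.mk_one,
    Fin.reduceFinMk]
  · linear_combination (-n 1) * h0 - n 2 * h1 - n 3 * h2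
  · linear_combination n 0 * h0 + n 3 * h1 - n 2 * h2
  · linear_combination (-n 3) * h0 + n 0 * h1 + n 1 * h2
  · linear_combination n 2 * h0 - n 1 * h1 + n 0 * h2

/-- The continuous version. -/
def quL : V4 →L[ℝ] V4 →L[ℝ] V3 :=
  LinearMap.toContinuousLinearMap (LinearMap.toContinuousLinearMap.toLinearMap ∘ₗ qu)

end TopGAux

theorem remove_zeros {L : M → E →L[ℝ] V4} (hL : Fml L) {n : M → V4} (hn : Sm n) (h : ND L n)
    (he : ∀ C : Set M, IsClopen C → Even (Zs L n ∩ C).ncard) :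
    ∃ (L' : M → E →L[ℝ] V4) (n' : M → V4), Fml L' ∧ Sm n' ∧ Zs L' n' = ∅ := by
  have := ChartedSpace.locallyConnectedSpace E M
  induction hk : (Zs L n).ncard using Nat.strong_induction_on generalizing L n with
  | _ k ih =>
  have hf := h.finite hL hn
  rcases (Zs L n).eq_empty_or_nonempty with h0 | ⟨p, hp⟩
  · exact ⟨L, n, hL, hn, h0⟩
  obtain ⟨q, ⟨hq, hC⟩, hpq⟩ : ∃ q ∈ Zs L n ∩ connectedComponent p, q ≠ p := by
    refine exists_ne_of_one_lt_ncard ?_ p
    have h1 := (ncard_pos (hf.inter_of_left (connectedComponent p))).2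
      ⟨p, hp, mem_connectedComponent⟩
    obtain ⟨r, hr⟩ := he _ (isClopen_connectedComponent (x := p))
    omega
  obtain ⟨b, hb, hbC, L', n', a1, a2, a3, a4⟩ := TopGAux.step hL hn h hp hq hpq hC
  refine ih _ ?_ a1 a2 a3 (fun C hC => ?_) rfl
  · rw [a4, ← hk]
    exact ncard_lt_ncard (sdiff_subset.trans_ssubset (sdiff_singleton_ssubset.2 hp)) hf
  · have h1 := he C hC
    by_cases hpC : p ∈ C
    · have h2 := ncard_sdiff_singleton_add_one (s := Zs L n ∩ C) ⟨hp, hpC⟩ (hf.inter_of_left C)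
      have h3 := ncard_sdiff_singleton_add_one (s := (Zs L n ∩ C) \ {p}) (a := b)
        ⟨⟨hb.1, hC.connectedComponent_subset hpC hbC⟩, hb.2⟩
        ((hf.inter_of_left C).subset sdiff_subset)
      rw [a4, show ((Zs L n \ {p}) \ {b}) ∩ C = ((Zs L n ∩ C) \ {p}) \ {b} by
        ext y; simp only [mem_inter_iff, Set.mem_sdiff]; tauto]
      rw [← h2, ← h3, add_assoc, Nat.even_add] at h1
      exact h1.2 even_two
    · have hbC' : b ∉ C := fun h' => hC.compl.connectedComponent_subset hpC hbC h'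
      rwa [a4, show ((Zs L n \ {p}) \ {b}) ∩ C = Zs L n ∩ C by
        ext y; simp only [mem_inter_iff, Set.mem_sdiff, mem_singleton_iff]; grind]

theorem fml_three {L : M → E →L[ℝ] V4} (hL : Fml L) {n : M → V4} (hn : Sm n) (h : Zs L n = ∅) :
    ∃ L' : M → E →L[ℝ] V3, Fml L' := by
  have h1 : ∀ p v, L p v ≠ n p := fun p v e => (h ▸ ⟨v, e⟩ : p ∈ (∅ : Set M))
  refine ⟨fun p => (TopGAux.quL (n p)).comp (L p), fun c => ?_, fun p => ?_⟩
  · have h2 : ContDiffOn ℝ ∞ (fun x => TopGAux.quL (c.rd n x)) c.e.target :=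
      TopGAux.quL.contDiff.comp_contDiffOn (c.contDiffOn_rd hn)
    exact (h2.clm_comp (hL.sm c)).congr fun x _ => ContinuousLinearMap.comp_assoc _ _ _
  · refine (injective_iff_map_eq_zero _).2 fun v hv => hL.inj p ?_
    have h2 := TopGAux.qu_eq_zero (n := n p) (w := L p v) hv
    by_cases h3 : ⟪n p, L p v⟫ = 0
    · rw [h3, zero_smul, smul_eq_zero, inner_self_eq_zero] at h2
      rw [map_zero]
      exact h2.resolve_left fun e => h1 p 0 (by rw [map_zero, e])
    · refine (h1 p (⟪n p, L p v⟫⁻¹ • ⟪n p, n p⟫ • v) ?_).elim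
      rw [map_smul, map_smul, h2, inv_smul_smul₀ h3]

end Crest.Agent.R216
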