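import Mathlib

/-!
# Row 216: parametric integrals and the universal family of loops (auxiliary file for `TopH`)
-/

set_option autoImplicit false

noncomputable section

namespace Crest.Agent.R216.TopHAux

open Set Metric Filter MeasureTheory
open scoped ContDiff Topology

theorem hasFDerivAt_int {X F : Type} [NormedAddCommGroup X] [NormedSpace ℝ X]
    [FiniteDimensional ℝ X] [NormedAddCommGroup F] [NormedSpace ℝ F]
    {f : X × ℝ → F} (hf : ContDiff ℝ ∞ f) (a b : ℝ) (x : X) :
    HasFDerivAt (fun x => ∫ s in a..b, f (x, s))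
      (∫ s in a..b, (fderiv ℝ f (x, s)).comp (ContinuousLinearMap.inl ℝ X ℝ)) x := by
  have : ProperSpace X := FiniteDimensional.proper ℝ X
  have hc : Continuous f := hf.continuous
  have hd : Continuous fun p : X × ℝ => (fderiv ℝ f p).comp (ContinuousLinearMap.inl ℝ X ℝ) :=
    (hf.continuous_fderiv (by simp)).clm_comp continuous_const
  obtain ⟨C, hC⟩ := ((isCompact_closedBall x 1).prod
    (isCompact_uIcc (a := a) (b := b))).exists_bound_of_continuousOn hd.continuousOn
  refine intervalIntegral.hasFDerivAt_integral_of_dominated_of_fderiv_le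
    (F := fun x s => f (x, s))
    (F' := fun x s => (fderiv ℝ f (x, s)).comp (ContinuousLinearMap.inl ℝ X ℝ))
    (bound := fun _ => C) (Metric.closedBall_mem_nhds x one_pos) ?_ ?_ ?_ ?_ ?_ ?_
  · exact Filter.Eventually.of_forall fun y =>
      (hc.comp (continuous_const.prodMk continuous_id)).aestronglyMeasurable
  · exact (hc.comp (continuous_const.prodMk continuous_id)).intervalIntegrable _ _
  · exact (hd.comp (continuous_const.prodMk continuous_id)).aestronglyMeasurable
  · exact Filter.Eventually.of_forall fun t ht y hy => hC (y, t) ⟨hy, Set.uIoc_subset_uIcc ht⟩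
  · exact intervalIntegrable_const
  · refine Filter.Eventually.of_forall fun t _ y _ => ?_
    exact ((hf.differentiable (by simp)) (y, t)).hasFDerivAt.comp y (hasFDerivAt_prodMk_left y t)

theorem contDiff_nat {X : Type} [NormedAddCommGroup X] [NormedSpace ℝ X]
    [FiniteDimensional ℝ X] (a b : ℝ) (m : ℕ) :
    ∀ (F : Type) [NormedAddCommGroup F] [NormedSpace ℝ F] (f : X × ℝ → F), ContDiff ℝ ∞ f →
      ContDiff ℝ m fun x => ∫ s in a..b, f (x, s) := by
  induction m with
  | zero =>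
    intro F _ _ f hf
    rw [Nat.cast_zero, contDiff_zero]
    exact intervalIntegral.continuous_parametric_intervalIntegral_of_continuous'
      (f := fun x s => f (x, s)) hf.continuous a b
  | succ m ih =>
    intro F _ _ f hf
    rw [Nat.cast_succ, contDiff_succ_iff_hasFDerivAt]
    refine ⟨_, ih (X →L[ℝ] F)
      (fun p => (fderiv ℝ f p).comp (ContinuousLinearMap.inl ℝ X ℝ)) ?_,
      fun x => hasFDerivAt_int hf a b x⟩
    exact (contDiff_infty_iff_fderiv.1 hf).2.clm_comp contDiff_const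

theorem contDiff_int {X F : Type} [NormedAddCommGroup X] [NormedSpace ℝ X]
    [FiniteDimensional ℝ X] [NormedAddCommGroup F] [NormedSpace ℝ F]
    {f : X × ℝ → F} (hf : ContDiff ℝ ∞ f) (a b : ℝ) :
    ContDiff ℝ ∞ fun x => ∫ s in a..b, f (x, s) :=
  contDiff_infty.2 fun m => contDiff_nat a b m F f hf

/-- the unimodular loop -/
def lp (q : ℝ × ℝ) : ℂ := Complex.exp ((q.1 * Real.sin (2 * Real.pi * q.2) : ℝ) * Complex.I)

theorem contDiff_lp : ContDiff ℝ ∞ lp := by
  refine Complex.contDiff_exp.comp (ContDiff.mul ?_ contDiff_const)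
  have h : ContDiff ℝ ∞ fun q : ℝ × ℝ => q.1 * Real.sin (2 * Real.pi * q.2) := by fun_prop
  exact Complex.ofRealCLM.contDiff.comp h

theorem norm_lp (q : ℝ × ℝ) : ‖lp q‖ = 1 := Complex.norm_exp_ofReal_mul_I _

/-- its mean -/
def mn (A : ℝ) : ℂ := ∫ s in (0 : ℝ)..1, lp (A, s)

theorem contDiff_mn : ContDiff ℝ ∞ mn := contDiff_int contDiff_lp 0 1

theorem mn_zero : mn 0 = 1 := by simp [mn, lp]

theorem lp_int (A : ℝ) : IntervalIntegrable (fun s => lp (A, s)) volume 0 1 :=
  (contDiff_lp.continuous.comp (continuous_const.prodMk continuous_id)).intervalIntegrable _ _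

theorem mn_im (A : ℝ) : (mn A).im = 0 := by
  have h1 : (mn A).im = ∫ s in (0 : ℝ)..1, Real.sin (A * Real.sin (2 * Real.pi * s)) := by
    have := (Complex.imCLM.intervalIntegral_comp_comm (lp_int A)).symm
    simp only [Complex.imCLM_apply] at this
    rw [mn, this]
    simp only [lp, Complex.exp_ofReal_mul_I_im]
  have h2 := intervalIntegral.integral_comp_sub_left (a := 0) (b := 1)
    (fun s => Real.sin (A * Real.sin (2 * Real.pi * s))) 1
  have h3 : ∀ s : ℝ, Real.sin (A * Real.sin (2 * Real.pi * (1 - s))) =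
      -Real.sin (A * Real.sin (2 * Real.pi * s)) := fun s => by
    rw [mul_sub, mul_one, Real.sin_two_pi_sub, mul_neg, Real.sin_neg]
  simp only [h3, intervalIntegral.integral_neg, sub_self, sub_zero] at h2
  rw [h1]
  linarith

theorem mn_pi : (mn Real.pi).re ≤ 0 := by
  have h1 : (mn Real.pi).re = ∫ s in (0 : ℝ)..1, Real.cos (Real.pi * Real.sin (2 * Real.pi * s)) := by
    have := (Complex.reCLM.intervalIntegral_comp_comm (lp_int Real.pi)).symm
    simp only [Complex.reCLM_apply] at this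
    rw [mn, this]
    simp only [lp, Complex.exp_ofReal_mul_I_re]
  have hπ := Real.pi_pos
  have h2 : ∫ s in (0 : ℝ)..1, Real.cos (4 * Real.pi * s) = 0 := by
    rw [intervalIntegral.integral_comp_mul_left (fun t => Real.cos t) (by positivity), integral_cos,
      mul_zero, mul_one, Real.sin_zero, show 4 * Real.pi = (4 : ℕ) * Real.pi by norm_num,
      Real.sin_nat_mul_pi]
    simp
  rw [h1]
  refine le_of_le_of_eq ?_ h2
  have c1 : Continuous fun s => Real.cos (Real.pi * Real.sin (2 * Real.pi * s)) := by fun_prop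
  have c2 : Continuous fun s => Real.cos (4 * Real.pi * s) := by fun_prop
  refine intervalIntegral.integral_mono_on (μ := volume) zero_le_one (c1.intervalIntegrable _ _)
    (c2.intervalIntegrable _ _) fun s _ => ?_
  have h3 : |Real.pi * Real.sin (2 * Real.pi * s)| ≤ Real.pi := by
    rw [abs_mul, abs_of_pos hπ]
    exact mul_le_of_le_one_right hπ.le (Real.abs_sin_le_one _)
  refine (Real.cos_le_one_sub_mul_cos_sq h3).trans (le_of_eq ?_)
  rw [show 4 * Real.pi * s = 2 * (2 * Real.pi * s) by ring, Real.cos_two_mul, Real.cos_sq']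
  field_simp
  ring

theorem exists_amp {δ : ℝ} (h0 : 0 < δ) (h1 : δ ≤ 1) : ∃ A₁ : ℝ, 0 ≤ A₁ ∧ ‖mn A₁‖ = δ ∧
    ∀ A ∈ Icc 0 A₁, mn A ≠ 0 := by
  have hc : Continuous fun A => (mn A).re := Complex.continuous_re.comp contDiff_mn.continuous
  have ivt : ∀ A : ℝ, 0 ≤ A → (mn A).re ≤ 0 → ∃ A' ∈ Icc 0 A, (mn A').re = δ := fun A hA h =>
    intermediate_value_Icc' hA hc.continuousOn ⟨h.trans h0.le, by simpa [mn_zero] using h1⟩
  have hS : IsCompact (Icc 0 Real.pi ∩ {A | (mn A).re = δ}) :=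
    isCompact_Icc.inter_right (isClosed_eq hc continuous_const)
  obtain ⟨A₁, ⟨h2, h3⟩, h4⟩ := hS.exists_isLeast (ivt Real.pi Real.pi_pos.le mn_pi)
  refine ⟨A₁, h2.1, ?_, fun A hA h => ?_⟩
  · have : mn A₁ = (δ : ℂ) := Complex.ext h3 (mn_im A₁)
    rw [this, Complex.norm_real, Real.norm_of_nonneg h0.le]
  · obtain ⟨A', h5, h6⟩ := ivt A hA.1 (by rw [h]; rfl)
    have h7 : A₁ ≤ A' := h4 ⟨⟨h5.1, h5.2.trans (hA.2.trans h2.2)⟩, h6⟩
    have h8 : A = A₁ := le_antisymm hA.2 (h7.trans h5.2)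
    have h9 : (mn A₁).re = δ := h3
    rw [← h8, h] at h9
    exact h0.ne h9

theorem loops (T : ℝ) : ∃ c : ℝ × ℝ → ℂ, ContDiff ℝ ∞ c ∧ (∀ τ s, c (τ, s + 1) = c (τ, s)) ∧
    (∀ τ s, c (τ, s) ≠ 0) ∧ (∀ τ, ∫ s in (0 : ℝ)..1, c (τ, s) = 1) ∧ (∀ s, c (0, s) = 1) ∧
    ∀ s, T ≤ ‖c (1, s)‖ := by
  have hT : 1 ≤ |T| + 1 := le_add_of_nonneg_left (abs_nonneg T)
  obtain ⟨A₁, h1, h2, h3⟩ := exists_amp (δ := (|T| + 1)⁻¹) (by positivity) (inv_le_one_of_one_le₀ hT)
  have hm : ∀ τ, mn (A₁ * Real.smoothTransition τ) ≠ 0 := fun τ =>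
    h3 _ ⟨mul_nonneg h1 (Real.smoothTransition.nonneg τ),
      mul_le_of_le_one_right h1 (Real.smoothTransition.le_one τ)⟩
  have hs : ContDiff ℝ ∞ fun q : ℝ × ℝ => A₁ * Real.smoothTransition q.1 :=
    contDiff_const.mul (Real.smoothTransition.contDiff.comp contDiff_fst)
  refine ⟨fun q => lp (A₁ * Real.smoothTransition q.1, q.2) * (mn (A₁ * Real.smoothTransition q.1))⁻¹,
    ?_, fun τ s => ?_, fun τ s => ?_, fun τ => ?_, fun s => ?_, fun s => ?_⟩
  · exact (contDiff_lp.comp (hs.prodMk contDiff_snd)).mul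
      ((contDiff_mn.comp hs).inv fun q => hm q.1)
  · simp only [lp]
    rw [mul_add, mul_one, Real.sin_add_two_pi]
  · exact mul_ne_zero (Complex.exp_ne_zero _) (inv_ne_zero (hm τ))
  · simp only
    rw [intervalIntegral.integral_mul_const]
    exact mul_inv_cancel₀ (hm τ)
  · simp [lp, mn_zero]
  · simp only [Real.smoothTransition.one, mul_one, norm_mul, norm_lp, norm_inv, h2, inv_inv, one_mul]
    linarith [le_abs_self T]

/-- the loops with their periodic primitives -/
theorem prims (T : ℝ) : ∃ c C : ℝ × ℝ → ℂ, ContDiff ℝ ∞ C ∧ (∀ τ s, C (τ, s + 1) = C (τ, s)) ∧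
    (∀ s, C (0, s) = 0) ∧ (∀ τ s, HasDerivAt (fun s => C (τ, s)) (c (τ, s) - 1) s) ∧
    (∀ τ s, c (τ, s) ≠ 0) ∧ ∀ s, T ≤ ‖c (1, s)‖ := by
  obtain ⟨c, h1, h2, h3, h4, h5, h6⟩ := loops T
  have hc : ∀ τ, Continuous fun s => c (τ, s) - 1 := fun τ =>
    (h1.continuous.comp (continuous_const.prodMk continuous_id)).sub continuous_const
  refine ⟨c, fun q => ∫ s in (0 : ℝ)..q.2, (c (q.1, s) - 1), ?_, fun τ s => ?_, fun s => ?_,
    fun τ s => ?_, h3, h6⟩
  · have e : (fun q : ℝ × ℝ => ∫ s in (0 : ℝ)..q.2, (c (q.1, s) - 1)) =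
        fun q : ℝ × ℝ => q.2 • ∫ t in (0 : ℝ)..1, (c (q.1, q.2 * t) - 1) := by
      funext q
      rw [intervalIntegral.smul_integral_comp_mul_left (fun s => c (q.1, s) - 1) q.2, mul_zero, mul_one]
    rw [e]
    refine contDiff_snd.smul (contDiff_int (f := fun r : (ℝ × ℝ) × ℝ => c (r.1.1, r.1.2 * r.2) - 1) ?_ 0 1)
    exact (h1.comp (by fun_prop)).sub contDiff_const
  · have hp : Function.Periodic (fun s => c (τ, s) - 1) 1 := fun s => by simp only [h2]
    simp only
    rw [← intervalIntegral.integral_add_adjacent_intervals ((hc τ).intervalIntegrable 0 s)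
      ((hc τ).intervalIntegrable s (s + 1)), hp.intervalIntegral_add_eq s 0, zero_add,
      intervalIntegral.integral_sub (f := fun s => c (τ, s)) (g := fun _ => (1 : ℂ))
        ((h1.continuous.comp (continuous_const.prodMk continuous_id)).intervalIntegrable 0 1)
        intervalIntegrable_const, h4]
    simp
  · simp [h5]
  · exact ((hc τ).integral_hasStrictDerivAt 0 s).hasDerivAt

end Crest.Agent.R216.TopHAux
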