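import Crest.Agent.R216.Basic
import Crest.Agent.R216.TopHAux1

/-!
# Row 216: one corrugation (auxiliary file for `TopH`)
-/

set_option autoImplicit false

noncomputable section

namespace Crest.Agent.R216.TopHAux

open Set Metric Filter
open scoped ContDiff Topology RealInnerProductSpace

/-- the cross product -/
def crs (a b : V3) : V3 := !₂[a 1 * b 2 - a 2 * b 1, a 2 * b 0 - a 0 * b 2, a 0 * b 1 - a 1 * b 0]

theorem contDiff_crs : ContDiff ℝ ∞ fun q : V3 × V3 => crs q.1 q.2 := by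
  rw [contDiff_euclidean]
  intro i
  fin_cases i <;> simp [crs] <;> fun_prop

theorem inner3 (a b : V3) : ⟪a, b⟫ = a 0 * b 0 + a 1 * b 1 + a 2 * b 2 := by
  simp [PiLp.inner_apply, Fin.sum_univ_three, mul_comm]

theorem crs_l (a b : V3) : ⟪a, crs a b⟫ = 0 := by simp [inner3, crs]; ring
theorem crs_r (a b : V3) : ⟪b, crs a b⟫ = 0 := by simp [inner3, crs]; ring
theorem crs_tri (a b : V3) : ⟪b, crs (crs a b) a⟫ = ⟪crs a b, crs a b⟫ := by
  rw [inner3, inner3]; simp [crs]; ring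
theorem crs_crs (a b : V3) : crs (crs a b) a = ⟪a, a⟫ • b - ⟪a, b⟫ • a := by
  rw [inner3, inner3]
  ext i
  fin_cases i <;> simp [crs] <;> ring
theorem crs_zero (a : V3) : crs 0 a = 0 := by
  ext i
  fin_cases i <;> simp [crs]

theorem exists_zw {ξ : E →L[ℝ] ℝ} (hξ : ξ ≠ 0) : ∃ z w : E, ξ z = 1 ∧ ξ w = 0 ∧ w ≠ 0 ∧
    ∀ y, ∃ α : ℝ, y = α • w + ξ y • z := by
  have dec : ∀ y : E, y = y 0 • es + y 1 • et := fun y => by
    ext i
    fin_cases i <;> simp [es, et]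
  have val : ∀ y : E, ξ y = y 0 * ξ es + y 1 * ξ et := fun y => by
    conv_lhs => rw [dec y]
    simp
  set p := ξ es
  set q := ξ et
  have hN : p ^ 2 + q ^ 2 ≠ 0 := by
    intro h
    have hp : p = 0 := by nlinarith [sq_nonneg p, sq_nonneg q]
    have hq : q = 0 := by nlinarith [sq_nonneg p, sq_nonneg q]
    exact hξ (ContinuousLinearMap.ext fun y => by rw [val, hp, hq]; simp)
  refine ⟨!₂[p / (p ^ 2 + q ^ 2), q / (p ^ 2 + q ^ 2)], !₂[q, -p], ?_, ?_, fun h => ?_, fun y => ?_⟩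
  · rw [val]; simp; field_simp
  · rw [val]; simp; ring
  · have h0 := congrArg (fun y : E => y 0) h
    have h1 := congrArg (fun y : E => y 1) h
    simp at h0 h1
    exact hN (by rw [h0, h1]; norm_num)
  · refine ⟨(q * y 0 - p * y 1) / (p ^ 2 + q ^ 2), ?_⟩
    rw [val]
    ext i
    fin_cases i <;> simp <;> field_simp <;> ring

theorem crs_ne {L : E →L[ℝ] V3} (hL : Function.Injective L) {ξ : E →L[ℝ] ℝ} {z w : E}
    (hz : ξ z = 1) (hw : ξ w = 0) (hw0 : w ≠ 0) : crs (L w) (L z) ≠ 0 := by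
  intro h
  have h1 := crs_crs (L w) (L z)
  rw [h, crs_zero, ← map_smul, ← map_smul, ← map_sub] at h1
  have h2 := congrArg ξ (hL (h1.symm.trans (map_zero L).symm))
  rw [map_sub, map_smul, map_smul, hz, hw, smul_zero, sub_zero, smul_eq_mul, mul_one, map_zero,
    inner_self_eq_zero] at h2
  exact hw0 (hL (h2.trans (map_zero L).symm))

/-- the two coordinates of `v` transverse to `a` in the basis `a, b, a × b` -/
def zet (a b v : V3) : ℂ :=
  ((⟪v, crs (crs a b) a⟫ / ⟪crs a b, crs a b⟫ : ℝ) : ℂ) +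
    ((⟪v, crs a b⟫ / ⟪crs a b, crs a b⟫ : ℝ) : ℂ) * Complex.I

theorem zet_eq {a b : V3} (h : crs a b ≠ 0) (α : ℝ) (c : ℂ) :
    zet a b (α • a + c.re • b + c.im • crs a b) = c := by
  have hn : ⟪crs a b, crs a b⟫ ≠ 0 := by rwa [Ne, inner_self_eq_zero]
  rw [zet]
  simp only [inner_add_left, real_inner_smul_left, crs_l, crs_r, crs_tri, mul_zero, zero_add,
    add_zero]
  rw [mul_div_cancel_right₀ _ hn, mul_div_cancel_right₀ _ hn, Complex.re_add_im]

theorem inj0 {L : E →L[ℝ] V3} (hL : Function.Injective L) {ξ : E →L[ℝ] ℝ} {z w : E}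
    (hz : ξ z = 1) (hw : ξ w = 0) (hw0 : w ≠ 0) (hy : ∀ y, ∃ α : ℝ, y = α • w + ξ y • z)
    {v : V3} {c : ℂ} (hc : zet (L w) (L z) v ≠ c) :
    Function.Injective (L + ξ.smulRight ((c - 1).re • L z + (c - 1).im • crs (L w) (L z)) -
      ξ.smulRight v : E →L[ℝ] V3) := by
  refine (injective_iff_map_eq_zero _).2 fun y h => ?_
  simp only [sub_apply, add_apply, ContinuousLinearMap.smulRight_apply] at h
  by_cases h0 : ξ y = 0
  · rw [h0, zero_smul, zero_smul, add_zero, sub_zero] at h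
    exact hL (h.trans (map_zero L).symm)
  · exfalso
    obtain ⟨α, hα⟩ := hy y
    have h1 : L y = α • L w + ξ y • L z := by
      conv_lhs => rw [hα]
      rw [map_add, map_smul, map_smul]
    refine hc ?_
    rw [← zet_eq (crs_ne hL hz hw hw0) (α / ξ y) c]
    congr 1
    refine smul_right_injective V3 h0 ?_
    rw [h1, sub_eq_zero] at h
    simp only
    rw [← h, Complex.sub_re, Complex.sub_im, Complex.one_re, Complex.one_im, sub_zero, smul_add,
      smul_add, smul_add, smul_smul, smul_smul, smul_smul, smul_smul, mul_div_cancel₀ _ h0]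
    module

theorem pert {O K' : Set E} (hO : IsOpen O) (hK' : IsCompact K') (hKO : K' ⊆ O)
    {L : E → E →L[ℝ] V3} (hL : ContinuousOn L O) {v : E → V3} (hv : ContinuousOn v O)
    (ξ : E →L[ℝ] ℝ) {G : E × ℝ → V3} (hG : ContDiffOn ℝ ∞ G (O ×ˢ univ))
    (hper : ∀ x s, G (x, s + 1) = G (x, s))
    (h0 : ∀ x ∈ O, ∀ s, Function.Injective
      (L x + ξ.smulRight (fderiv ℝ G (x, s) (0, 1)) - ξ.smulRight (v x) : E →L[ℝ] V3)) :
    ∃ ε : ℝ, ∀ x ∈ K', Function.Injective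
      (L x + fderiv ℝ (fun x => ε • G (x, ε⁻¹ * ξ x)) x - ξ.smulRight (v x) : E →L[ℝ] V3) := by
  have hO' : IsOpen (O ×ˢ (univ : Set ℝ)) := hO.prod isOpen_univ
  have hGd : ∀ x ∈ O, ∀ s, DifferentiableAt ℝ G (x, s) := fun x hx s =>
    (hG.contDiffAt (hO'.mem_nhds ⟨hx, trivial⟩)).differentiableAt (by simp)
  have hGp : ∀ x, Function.Periodic (fun s => fderiv ℝ G (x, s)) 1 := by
    intro x s
    have e : (fun q : E × ℝ => G (q + (0, 1))) = G := by
      funext q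
      rw [show q + (0, 1) = (q.1, q.2 + 1) from Prod.ext (add_zero _) rfl, hper]
    have := fderiv_comp_add_right (𝕜 := ℝ) (f := G) (x := (x, s)) (0, 1)
    rw [e] at this
    simp only [this, Prod.mk_add_mk, add_zero]
  obtain ⟨Φ, hΦ⟩ : ∃ Φ : ℝ × (E × ℝ) → E →L[ℝ] V3, Φ = fun r =>
    L r.2.1 + (r.1 • (fderiv ℝ G r.2).comp (ContinuousLinearMap.inl ℝ E ℝ) +
      ξ.smulRight (fderiv ℝ G r.2 (0, 1))) - ξ.smulRight (v r.2.1) := ⟨_, rfl⟩
  have hΦ0 : ∀ x ∈ O, ∀ s, Function.Injective (Φ (0, (x, s))) := by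
    intro x hx s
    have e : Φ (0, (x, s)) =
        L x + ξ.smulRight (fderiv ℝ G (x, s) (0, 1)) - ξ.smulRight (v x) := by
      ext1 y
      simp [hΦ]
    rw [e]
    exact h0 x hx s
  have hΦc : ∀ x ∈ O, ∀ s, ContinuousAt Φ (0, (x, s)) := by
    intro x hx s
    have h1 : ContinuousAt (fun r : ℝ × (E × ℝ) => fderiv ℝ G r.2) (0, (x, s)) :=
      ContinuousAt.comp (g := fderiv ℝ G)
        ((hG.continuousOn_fderiv_of_isOpen hO' (by simp)).continuousAt
          (hO'.mem_nhds ⟨hx, trivial⟩)) continuousAt_snd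
    have h2 : ContinuousAt (fun r : ℝ × (E × ℝ) => L r.2.1) (0, (x, s)) :=
      ContinuousAt.comp (g := L) (hL.continuousAt (hO.mem_nhds hx)) (by fun_prop)
    have h3 : ContinuousAt (fun r : ℝ × (E × ℝ) => v r.2.1) (0, (x, s)) :=
      ContinuousAt.comp (g := v) (hv.continuousAt (hO.mem_nhds hx)) (by fun_prop)
    have h4 : Continuous fun y : V3 => ξ.smulRight y :=
      (ContinuousLinearMap.smulRightL ℝ E V3 ξ).continuous
    rw [hΦ]
    exact (h2.add ((continuousAt_fst.smul (h1.clm_comp continuousAt_const)).add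
      (h4.continuousAt.comp (h1.clm_apply continuousAt_const)))).sub (h4.continuousAt.comp h3)
  have hev : ∀ᶠ ε in 𝓝 (0 : ℝ), ∀ q ∈ K' ×ˢ Icc (0 : ℝ) 1, Function.Injective (Φ (ε, q)) := by
    refine (hK'.prod isCompact_Icc).eventually_forall_of_forall_eventually fun q hq => ?_
    exact (hΦc q.1 (hKO hq.1) q.2).eventually
      (ContinuousLinearMap.isOpen_injective.mem_nhds (hΦ0 q.1 (hKO hq.1) q.2))
  obtain ⟨ε, hε, hε0⟩ := ((hev.filter_mono nhdsWithin_le_nhds).and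
    (self_mem_nhdsWithin : Ioi (0 : ℝ) ∈ 𝓝[>] 0)).exists
  have hε0' : ε ≠ 0 := ne_of_gt hε0
  refine ⟨ε, fun x hxK => ?_⟩
  have hx := hKO hxK
  have h1 : HasFDerivAt (fun x => ε • G (x, ε⁻¹ * ξ x))
      (ε • (fderiv ℝ G (x, ε⁻¹ * ξ x)).comp ((ContinuousLinearMap.id ℝ E).prod (ε⁻¹ • ξ))) x :=
    ((hGd x hx _).hasFDerivAt.comp x
      ((hasFDerivAt_id x).prodMk (ξ.hasFDerivAt.const_mul ε⁻¹))).const_smul ε
  have h2 := hε (x, Int.fract (ε⁻¹ * ξ x))
    ⟨hxK, Int.fract_nonneg _, (Int.fract_lt_one _).le⟩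
  have h3 : fderiv ℝ G (x, Int.fract (ε⁻¹ * ξ x)) = fderiv ℝ G (x, ε⁻¹ * ξ x) := by
    have := (hGp x).sub_int_mul_eq (x := ε⁻¹ * ξ x) ⌊ε⁻¹ * ξ x⌋
    rwa [mul_one] at this
  have h4 : L x + fderiv ℝ (fun x => ε • G (x, ε⁻¹ * ξ x)) x - ξ.smulRight (v x) =
      Φ (ε, x, Int.fract (ε⁻¹ * ξ x)) := by
    rw [h1.fderiv, hΦ]
    ext1 y
    have e : ((y, ε⁻¹ * ξ y) : E × ℝ) = (y, 0) + (ε⁻¹ * ξ y) • (0, 1) := by simp
    simp only [h3, smul_apply, ContinuousLinearMap.comp_apply, ContinuousLinearMap.prod_apply,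
      ContinuousLinearMap.id_apply, smul_eq_mul, add_apply, sub_apply,
      ContinuousLinearMap.inl_apply, ContinuousLinearMap.smulRight_apply]
    rw [e, map_add, map_smul, smul_add, smul_smul, mul_inv_cancel_left₀ hε0']
  rw [h4]
  exact h2

theorem corr {O K K' : Set E} (hO : IsOpen O) (hK : IsCompact K) (hK' : IsCompact K')
    (hKK : K ⊆ interior K') (hKO : K' ⊆ O) {L : E → E →L[ℝ] V3} (hL : ContDiffOn ℝ ∞ L O)
    (hi : ∀ x ∈ O, Function.Injective (L x)) {v : E → V3} (hv : ContDiffOn ℝ ∞ v O)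
    (hv0 : ∀ x ∈ O, x ∉ K → v x = 0) {ξ : E →L[ℝ] ℝ} (hξ : ξ ≠ 0) :
    ∃ u : E → V3, ContDiffOn ℝ ∞ u O ∧ (∀ x ∈ O, x ∉ K' → u x = 0) ∧
      ∀ x ∈ O, Function.Injective (L x + fderiv ℝ u x - ξ.smulRight (v x) : E →L[ℝ] V3) := by
  obtain ⟨z, w, hz, hw, hw0, hy⟩ := exists_zw hξ
  have hKO' : K ⊆ O := hKK.trans (interior_subset.trans hKO)
  have ha : ContDiffOn ℝ ∞ (fun x => L x w) O := hL.clm_apply contDiffOn_const
  have hb : ContDiffOn ℝ ∞ (fun x => L x z) O := hL.clm_apply contDiffOn_const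
  have hn : ContDiffOn ℝ ∞ (fun x => crs (L x w) (L x z)) O :=
    contDiff_crs.comp_contDiffOn (ha.prodMk hb)
  have hm : ContDiffOn ℝ ∞ (fun x => crs (crs (L x w) (L x z)) (L x w)) O :=
    contDiff_crs.comp_contDiffOn (hn.prodMk ha)
  have hζ : ContinuousOn (fun x => zet (L x w) (L x z) (v x)) O := by
    have h0 : ∀ x ∈ O, ⟪crs (L x w) (L x z), crs (L x w) (L x z)⟫ ≠ 0 := fun x hx => by
      rw [Ne, inner_self_eq_zero]; exact crs_ne (hi x hx) hz hw hw0
    have h1 := hn.continuousOn.inner (𝕜 := ℝ) hn.continuousOn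
    refine ContinuousOn.add (Complex.continuous_ofReal.comp_continuousOn ?_)
      (ContinuousOn.mul (Complex.continuous_ofReal.comp_continuousOn ?_) continuousOn_const)
    · exact (hv.continuousOn.inner (𝕜 := ℝ) hm.continuousOn).div h1 h0
    · exact (hv.continuousOn.inner (𝕜 := ℝ) hn.continuousOn).div h1 h0
  obtain ⟨T, hT⟩ := hK.exists_bound_of_continuousOn (hζ.mono hKO')
  obtain ⟨c, C, hC, hper, hC0, hder, hc0, hc1⟩ := prims (T + 1)
  obtain ⟨χ, hχ, hχ0, hχ1⟩ : ∃ χ : E → ℝ, ContDiff ℝ ∞ χ ∧ EqOn χ 0 (interior K')ᶜ ∧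
      EqOn χ 1 K := by
    obtain ⟨χ', hχ0, hχ1, -⟩ := exists_contMDiffMap_zero_one_of_isClosed (n := ⊤)
      (modelWithCornersSelf ℝ E) (s := (interior K')ᶜ) (t := K) isOpen_interior.isClosed_compl
      hK.isClosed (disjoint_compl_left_iff_subset.2 hKK)
    exact ⟨χ', χ'.contMDiff.contDiff, hχ0, hχ1⟩
  -- the corrugation profile
  obtain ⟨G, hGe⟩ : ∃ G : E × ℝ → V3, ∀ x s, G (x, s) =
      (C (χ x, s)).re • L x z + (C (χ x, s)).im • crs (L x w) (L x z) :=
    ⟨fun q => (C (χ q.1, q.2)).re • L q.1 z + (C (χ q.1, q.2)).im • crs (L q.1 w) (L q.1 z),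
      fun _ _ => rfl⟩
  have hO' : IsOpen (O ×ˢ (univ : Set ℝ)) := hO.prod isOpen_univ
  have hG : ContDiffOn ℝ ∞ G (O ×ˢ univ) := by
    have h1 : ContDiff ℝ ∞ fun q : E × ℝ => C (χ q.1, q.2) :=
      hC.comp ((hχ.comp contDiff_fst).prodMk contDiff_snd)
    have h2 : MapsTo Prod.fst (O ×ˢ (univ : Set ℝ)) O := fun q hq => hq.1
    exact (((Complex.reCLM.contDiff.comp h1).contDiffOn.smul (hb.comp contDiffOn_fst h2)).add
      ((Complex.imCLM.contDiff.comp h1).contDiffOn.smul (hn.comp contDiffOn_fst h2))).congr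
      fun q _ => hGe q.1 q.2
  have hGs : ∀ x ∈ O, ∀ s, fderiv ℝ G (x, s) (0, 1) =
      (c (χ x, s) - 1).re • L x z + (c (χ x, s) - 1).im • crs (L x w) (L x z) := by
    intro x hx s
    have hd : DifferentiableAt ℝ G (x, s) :=
      (hG.contDiffAt (hO'.mem_nhds ⟨hx, trivial⟩)).differentiableAt (by simp)
    have h1 : HasDerivAt (fun s => G (x, s)) (fderiv ℝ G (x, s) (0, 1)) s :=
      hd.hasFDerivAt.comp_hasDerivAt s ((hasDerivAt_const s x).prodMk (hasDerivAt_id s))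
    have h3 : HasDerivAt (fun s => (C (χ x, s)).re) (c (χ x, s) - 1).re s :=
      Complex.reCLM.hasFDerivAt.comp_hasDerivAt s (hder (χ x) s)
    have h4 : HasDerivAt (fun s => (C (χ x, s)).im) (c (χ x, s) - 1).im s :=
      Complex.imCLM.hasFDerivAt.comp_hasDerivAt s (hder (χ x) s)
    have h2 := (h3.smul_const (L x z)).fun_add (h4.smul_const (crs (L x w) (L x z)))
    simp only [← hGe] at h2
    exact h1.unique h2
  obtain ⟨ε, hε⟩ := pert hO hK' hKO hL.continuousOn hv.continuousOn ξ hG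
    (fun x s => by rw [hGe, hGe, hper]) (fun x hx s => by
      rw [hGs x hx s]
      refine inj0 (hi x hx) hz hw hw0 hy fun h => ?_
      by_cases hxK : x ∈ K
      · have h1 := hT x hxK
        have h2 := hc1 s
        have h3 : χ x = 1 := hχ1 hxK
        rw [h, h3] at h1
        linarith
      · rw [hv0 x hx hxK] at h
        exact hc0 _ _ (h.symm.trans (by simp [zet])))
  have hu0 : ∀ x, x ∉ K' → ε • G (x, ε⁻¹ * ξ x) = 0 := fun x hx => by
    have : χ x = 0 := hχ0 fun h => hx (interior_subset h)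
    simp [hGe, this, hC0]
  refine ⟨fun x => ε • G (x, ε⁻¹ * ξ x), ?_, fun x _ hx => hu0 x hx, fun x hx => ?_⟩
  · refine ContDiffOn.const_smul ε (hG.comp (s := O) ?_ fun x hx => ⟨hx, trivial⟩)
    exact (contDiff_id.prodMk (contDiff_const.mul ξ.contDiff)).contDiffOn
  · by_cases hxK : x ∈ K'
    · exact hε x hxK
    · have h1 : (fun x => ε • G (x, ε⁻¹ * ξ x)) =ᶠ[𝓝 x] fun _ => 0 :=
        Filter.eventually_of_mem (hK'.isClosed.isOpen_compl.mem_nhds hxK) hu0
      have e : L x + fderiv ℝ (fun x => ε • G (x, ε⁻¹ * ξ x)) x - ξ.smulRight (v x) = L x := by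
        rw [h1.fderiv_eq, fderiv_fun_const, hv0 x hx fun h => hxK (interior_subset (hKK h))]
        ext1 y
        simp
      rw [e]
      exact hi x hx

end Crest.Agent.R216.TopHAux
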