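import Crest.Agent.R216.TopB
import Crest.Agent.R216.TopHAux2

/-!
# Row 216: convex integration for immersions in three-space
-/

set_option autoImplicit false
set_option linter.unusedSectionVars false

noncomputable section

namespace Crest.Agent.R216

open Set Metric Filter
open scoped Manifold ContDiff Topology RealInnerProductSpace

/-- The universal family of loops in `ℂ \ 0` with mean `1`. -/
theorem exists_loops (T : ℝ) : ∃ c : ℝ × ℝ → ℂ, ContDiff ℝ ∞ c ∧ (∀ τ s, c (τ, s + 1) = c (τ, s)) ∧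
    (∀ τ s, c (τ, s) ≠ 0) ∧ (∀ τ, ∫ s in (0 : ℝ)..1, c (τ, s) = 1) ∧ (∀ s, c (0, s) = 1) ∧
    ∀ s, T ≤ ‖c (1, s)‖ := TopHAux.loops T

/-- One corrugation in the plane: the term `ξ ⊗ v` is absorbed in the differential of `u`. -/
theorem corrugate {O K K' : Set E} (hO : IsOpen O) (hK : IsCompact K) (hK' : IsCompact K')
    (hKK : K ⊆ interior K') (hKO : K' ⊆ O) {L : E → E →L[ℝ] V3} (hL : ContDiffOn ℝ ∞ L O)
    (hi : ∀ x ∈ O, Function.Injective (L x)) {v : E → V3} (hv : ContDiffOn ℝ ∞ v O)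
    (hv0 : ∀ x ∈ O, x ∉ K → v x = 0) {ξ : E →L[ℝ] ℝ} (hξ : ξ ≠ 0) :
    ∃ u : E → V3, ContDiffOn ℝ ∞ u O ∧ (∀ x ∈ O, x ∉ K' → u x = 0) ∧
      ∀ x ∈ O, Function.Injective (L x + fderiv ℝ u x - ξ.smulRight (v x) : E →L[ℝ] V3) :=
  TopHAux.corr hO hK hK' hKK hKO hL hi hv hv0 hξ

variable {M : Type*} [TopologicalSpace M] [T2Space M] [CompactSpace M] [ChartedSpace E M]
  [IsManifold (𝓡 2) ∞ M]

namespace TopHAux

theorem dM_const (a : V3) (p : M) : dM (fun _ : M => a) p = 0 := mfderiv_const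

theorem dM_of_eventually {φ : M → V3} {p : M} (h : ∀ᶠ q in 𝓝 p, φ q = 0) : dM φ p = 0 := by
  have h' : φ =ᶠ[𝓝 p] fun _ => 0 := h
  rw [dM, h'.mfderiv_eq]
  exact mfderiv_const

theorem dP_inj (c : Ch M) {x : E} (hx : x ∈ c.e.target) : Function.Injective (c.dP x) :=
  fun a b h => by rw [← c.dQ_dP hx a, h, c.dQ_dP hx b]

/-- the rank one field `ξ ⊗ v` of a chart -/
def tm (c : Ch M) (ξ : E →L[ℝ] ℝ) (v : E → V3) (p : M) : E →L[ℝ] V3 :=
  (ξ.comp (c.dQ p)).smulRight (c.ext v p)

theorem step (c : Ch M) (hc : closedBall (0 : E) 3 ⊆ c.e.target) {F : M → E →L[ℝ] V3}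
    (hF : Fml F) {v : E → V3} (hv : ContDiffOn ℝ ∞ v c.e.target)
    (hv0 : ∀ x ∈ c.e.target, x ∉ closedBall (0 : E) 1 → v x = 0) {ξ : E →L[ℝ] ℝ} (hξ : ξ ≠ 0) :
    ∃ ψ : M → V3, Sm ψ ∧ Fml fun p => F p + dM ψ p - tm c ξ v p := by
  have h12 : closedBall (0 : E) 1 ⊆ closedBall 0 2 := closedBall_subset_closedBall (by norm_num)
  have h2 : closedBall (0 : E) 2 ⊆ c.e.target :=
    (closedBall_subset_closedBall (by norm_num)).trans hc
  obtain ⟨u, hu, hu0, hui⟩ := corrugate c.e.open_target (isCompact_closedBall (0 : E) 1)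
    (isCompact_closedBall (0 : E) 2)
    ((closedBall_subset_ball (by norm_num)).trans ball_subset_interior_closedBall) h2 (hF.sm c)
    (fun x hx => (hF.inj _).comp (dP_inj c hx)) hv hv0 hξ
  have hψ : Sm (c.ext u) := c.sm_ext hu (isCompact_closedBall (0 : E) 2) h2 hu0
  have key : ∀ x ∈ c.e.target, c.rdL (fun p => F p + dM (c.ext u) p - tm c ξ v p) x =
      c.rdL F x + fderiv ℝ u x - ξ.smulRight (v x) := by
    intro x hx
    have e : c.rd (c.ext u) =ᶠ[𝓝 x] u :=
      Filter.eventually_of_mem (c.e.open_target.mem_nhds hx) fun y hy => c.rd_ext u hy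
    have e2 : c.ext v (c.e.symm x) = v x := c.rd_ext v hx
    ext1 y
    simp only [Ch.rdL, tm, ContinuousLinearMap.comp_apply, sub_apply, add_apply,
      ContinuousLinearMap.smulRight_apply]
    rw [← c.fderiv_rd hψ hx, e.fderiv_eq, c.dQ_dP hx, e2]
  have out : ∀ p, p ∉ c.e.source → ∀ᶠ q in 𝓝 p, F q + dM (c.ext u) q - tm c ξ v q = F q := by
    intro p hp
    have hp' : p ∉ c.e.symm '' closedBall (0 : E) 2 := by
      rintro ⟨x, hx, rfl⟩
      exact hp (c.e.map_target (h2 hx))
    have a1 := c.ext_eventually_zero (isCompact_closedBall (0 : E) 2) h2 hu0 hp'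
    have a2 := c.ext_eventually_zero (isCompact_closedBall (0 : E) 2) h2
      (fun x hx h => hv0 x hx fun h' => h (h12 h')) hp'
    filter_upwards [a1.eventually_nhds, a2] with q h1 h3
    rw [dM_of_eventually h1, tm, h3]
    ext1 y
    simp
  refine ⟨c.ext u, hψ, fml_of_ch (fun p => ?_) fun p => ?_⟩
  · by_cases hp : p ∈ c.e.source
    · refine ⟨c, hp, ?_⟩
      have hx := c.e.map_source hp
      have h3 : ContDiffOn ℝ ∞ (fun x => c.rdL F x + fderiv ℝ u x - ξ.smulRight (v x))
          c.e.target :=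
        ((hF.sm c).add (hu.fderiv_of_isOpen c.e.open_target (by simp))).sub
          ((ContinuousLinearMap.smulRightL ℝ E V3 ξ).contDiff.comp_contDiffOn hv)
      exact (h3.congr key).contDiffAt (c.e.open_target.mem_nhds hx)
    · obtain ⟨c', hc'⟩ := exists_ch_chartAt p
      have hp' : p ∈ c'.e.source := by rw [hc']; exact mem_chart_source E p
      refine ⟨c', hp', ?_⟩
      have hx := c'.e.map_source hp'
      refine ((hF.sm c').contDiffAt (c'.e.open_target.mem_nhds hx)).congr_of_eventuallyEq ?_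
      have h3 : Tendsto c'.e.symm (𝓝 (c'.e p)) (𝓝 p) := c'.e.tendsto_symm hp'
      filter_upwards [h3.eventually (out p hp)] with x hx
      simp only [Ch.rdL, hx]
  · by_cases hp : p ∈ c.e.source
    · have hx := c.e.map_source hp
      have h3 := hui _ hx
      rw [← key _ hx] at h3
      intro a b hab
      rw [← c.dP_dQ hp a, ← c.dP_dQ hp b]
      congr 1
      apply h3
      simp only [Ch.rdL, ContinuousLinearMap.comp_apply, c.e.left_inv hp, c.dP_dQ hp]
      exact hab
    · rw [(out p hp).self_of_nhds]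
      exact hF.inj p

end TopHAux

open TopHAux in
theorem imm_of_fml {L : M → E →L[ℝ] V3} (hL : Fml L) : ∃ φ : M → V3, Sm φ ∧ Imm φ := by
  classical
  obtain ⟨A⟩ := exists_atl (M := M)
  let ξ : Fin 2 → E →L[ℝ] ℝ := fun i => EuclideanSpace.proj i
  let v : Fin A.n × Fin 2 → E → V3 := fun t x =>
    (A.c t.1).rd (A.ρ t.1) x • (A.c t.1).rdL L x (EuclideanSpace.single t.2 1)
  have hξ : ∀ i, ξ i ≠ 0 := fun i h => by
    have := congrArg (fun f : E →L[ℝ] ℝ => f (EuclideanSpace.single i 1)) h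
    simp [ξ] at this
  have hv : ∀ t, ContDiffOn ℝ ∞ (v t) (A.c t.1).e.target := fun t =>
    ((A.c t.1).contDiffOn_rd (A.sm t.1)).smul ((hL.sm _).clm_apply contDiffOn_const)
  have hv0 : ∀ t, ∀ x ∈ (A.c t.1).e.target, x ∉ closedBall (0 : E) 1 → v t x = 0 := by
    intro t x hx h
    have : (A.c t.1).rd (A.ρ t.1) x = 0 := by
      by_contra h'
      have := (A.supp t.1 _ h').2
      rw [(A.c t.1).e.right_inv hx] at this
      exact h (mem_closedBall_zero_iff.2 this.le)
    simp only [v, this, zero_smul]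
  have ind : ∀ S : Finset (Fin A.n × Fin 2), ∃ φ : M → V3, Sm φ ∧
      Fml fun p => L p + dM φ p - ∑ t ∈ S, tm (A.c t.1) (ξ t.2) (v t) p := by
    intro S
    induction S using Finset.induction_on with
    | empty =>
      refine ⟨fun _ => 0, contMDiff_const, ?_⟩
      simpa only [dM_const, Finset.sum_empty, add_zero, sub_zero] using hL
    | insert t S ht ih =>
      obtain ⟨φ, h1, h2⟩ := ih
      obtain ⟨ψ, h3, h4⟩ := step (A.c t.1) (A.sub t.1) h2 (hv t) (hv0 t) (hξ t.2)
      refine ⟨fun q => φ q + ψ q, h1.add h3, ?_⟩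
      convert h4 using 2 with p
      rw [dM_add h1 h3, Finset.sum_insert ht]
      abel
  obtain ⟨φ, h1, h2⟩ := ind Finset.univ
  refine ⟨φ, h1, fun p => ?_⟩
  have e : ∑ t : Fin A.n × Fin 2, tm (A.c t.1) (ξ t.2) (v t) p = L p := by
    have e1 : ∀ a, ∑ i : Fin 2, tm (A.c a) (ξ i) (v (a, i)) p = A.ρ a p • L p := by
      intro a
      ext1 y
      by_cases hp : p ∈ (A.c a).e.source
      · have e2 : (A.c a).dQ p y = ∑ i : Fin 2, ((A.c a).dQ p y) i • EuclideanSpace.single i (1 : ℝ) := by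
          ext j
          fin_cases j <;> simp
        simp only [tm, sum_apply, ContinuousLinearMap.smulRight_apply,
          ContinuousLinearMap.comp_apply, Ch.ext, if_pos hp, v, Ch.rd, Ch.rdL,
          (A.c a).e.left_inv hp, smul_apply]
        conv_rhs => rw [← (A.c a).dP_dQ hp y, e2, map_sum, map_sum, Finset.smul_sum]
        refine Finset.sum_congr rfl fun i _ => ?_
        rw [map_smul, map_smul, smul_comm]
        rfl
      · have : A.ρ a p = 0 := by
          by_contra h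
          exact hp (A.supp a p h).1
        simp [tm, Ch.ext, hp, this]
    rw [Fintype.sum_prod_type]
    simp only [e1]
    rw [← Finset.sum_smul, A.sum, one_smul]
  have h3 := h2.inj p
  rwa [e, add_sub_cancel_left] at h3

end Crest.Agent.R216
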