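import Crest.Agent.R216.TopA
import Crest.Agent.R216.TopD
import Crest.Agent.R216.TopG
import Crest.Agent.R216.TopH

/-!
# Row 216: every closed surface immerses in three-space
-/

set_option autoImplicit false
set_option linter.unusedSectionVars false

noncomputable section

namespace Crest.Agent.R216

open Set Metric Filter
open scoped Manifold ContDiff Topology RealInnerProductSpace

variable {M : Type*} [TopologicalSpace M] [T2Space M] [CompactSpace M] [ChartedSpace E M]
  [IsManifold (𝓡 2) ∞ M]

theorem exists_imm3 : ∃ φ : M → V3, Sm φ ∧ Imm φ := by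
  obtain ⟨f, hf, hi, hd⟩ := exists_imm4 (M := M)
  have hL := fml_dM hf hi
  obtain ⟨y, hy, h⟩ := exists_nd hL
  obtain ⟨L', n', hL', hn', h'⟩ :=
    remove_zeros hL contMDiff_const h fun C hC => even_zs hf hi hd hy h hC
  obtain ⟨L3, hL3⟩ := fml_three hL' hn' h'
  exact imm_of_fml hL3

end Crest.Agent.R216
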