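import Crest.Agent.R216.TopDefs

/-!
# Row 216: an immersion in four-space with transverse double points
-/

set_option autoImplicit false
set_option linter.unusedSectionVars false

noncomputable section

namespace Crest.Agent.R216

open Set Metric Filter
open scoped Manifold ContDiff Topology RealInnerProductSpace

variable {M : Type*} [TopologicalSpace M] [T2Space M] [CompactSpace M] [ChartedSpace E M]
  [IsManifold (𝓡 2) ∞ M]

namespace TopAAux

open Module MeasureTheory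

/-- Euclidean space. -/
abbrev W (n : ℕ) : Type := EuclideanSpace ℝ (Fin n)

/-- Sard's theorem when the source is not larger than the target. -/
theorem sard {X : Type*} [NormedAddCommGroup X] [NormedSpace ℝ X] [FiniteDimensional ℝ X] {n : ℕ}
    (hn : finrank ℝ X ≤ n) {φ : X → W n} {s : Set X} (hs : ∀ x ∈ s, DifferentiableAt ℝ φ x) :
    ∀ᵐ z : W n, ∀ x ∈ s, φ x = z → Function.Surjective (fderiv ℝ φ x) := by
  obtain ⟨i, hi⟩ := (finrank_le_iff_exists_linearMap (R := ℝ) (M := X) (M' := W n)).1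
    (by rwa [finrank_euclideanSpace_fin])
  obtain ⟨π, hπ⟩ := i.exists_leftInverse_of_injective (LinearMap.ker_eq_bot.2 hi)
  have h := addHaar_image_eq_zero_of_det_fderivWithin_eq_zero (volume : Measure (W n))
    (f := φ ∘ π.toContinuousLinearMap)
    (f' := fun w => (fderiv ℝ φ (π w)).comp π.toContinuousLinearMap)
    (s := {w | π w ∈ s ∧ ¬ Function.Surjective (fderiv ℝ φ (π w))})
    (fun w hw => ((hs _ hw.1).hasFDerivAt.comp w
      π.toContinuousLinearMap.hasFDerivAt).hasFDerivWithinAt)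
    fun w hw => by
      by_contra h0
      refine hw.2 fun y => ?_
      obtain ⟨u, hu⟩ := (ContinuousLinearMap.toContinuousLinearEquivOfDetNeZero _ h0).surjective y
      exact ⟨_, hu⟩
  filter_upwards [measure_eq_zero_iff_ae_notMem.1 h] with z hz x hx hxz
  by_contra h1
  have e : π (i x) = x := LinearMap.congr_fun hπ x
  exact hz ⟨i x, ⟨by rwa [e], by rwa [e]⟩, (congrArg φ e).trans hxz⟩

theorem dM_comp {V V' : Type*} [NormedAddCommGroup V] [NormedSpace ℝ V] [NormedAddCommGroup V']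
    [NormedSpace ℝ V'] (L : V →L[ℝ] V') {f : M → V} (hf : Sm f) (p : M) (v : E) :
    dM (fun q => L (f q)) p v = L (dM f p v) := by
  have h := (L.hasFDerivAt (x := f p)).hasMFDerivAt.comp p
    (hf.mdifferentiableAt (by simp)).hasMFDerivAt
  exact congrArg (fun A : E →L[ℝ] V' => A v) h.mfderiv

/-- Immersions with transverse double points. -/
def Good {n : ℕ} (f : M → W n) : Prop := Sm f ∧ Imm f ∧
  ∀ p q, p ≠ q → f p = f q → ∀ y : W n, ∃ v w : E, y = dM f p v - dM f q w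

theorem finrank_EE : finrank ℝ (E × E) = 4 := by
  rw [finrank_prod, finrank_euclideanSpace_fin]

theorem not_surj {n : ℕ} (hn : 4 < n) (A : (E × E) →L[ℝ] W n) : ¬ Function.Surjective A :=
  fun h => by
    have h1 := LinearMap.finrank_le_finrank_of_surjective (f := (A : (E × E) →ₗ[ℝ] W n)) h
    rw [finrank_EE, finrank_euclideanSpace_fin] at h1
    omega

theorem Good.inj {n : ℕ} (hn : 4 < n) {f : M → W n} (h : Good f) : Function.Injective f := by
  intro p q hpq
  by_contra hne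
  refine not_surj hn ((dM f p).comp (ContinuousLinearMap.fst ℝ E E) -
    (dM f q).comp (ContinuousLinearMap.snd ℝ E E)) fun y => ?_
  obtain ⟨v, w, h1⟩ := h.2.2 p q hne hpq y
  exact ⟨(v, w), h1.symm⟩

theorem diff_rd {n : ℕ} (c : Ch M) {f : M → W n} (hf : Sm f) {x : E} (hx : x ∈ c.e.target) :
    DifferentiableAt ℝ (c.rd f) x :=
  ((c.contDiffOn_rd hf).contDiffAt (c.e.open_target.mem_nhds hx)).differentiableAt (by simp)

theorem ae_tangent {n : ℕ} (hn : 4 < n) (c : Ch M) {f : M → W n} (hf : Sm f) :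
    ∀ᵐ z : W n, ∀ p ∈ c.e.source, ∀ v, dM f p v ≠ z := by
  have h := sard (X := E × E) (finrank_EE.trans_le hn.le)
    (φ := fun u => fderiv ℝ (c.rd f) u.1 u.2) (s := {u | u.1 ∈ c.e.target}) fun u hu => by
      have h1 : DifferentiableAt ℝ (fderiv ℝ (c.rd f)) u.1 :=
        (((c.contDiffOn_rd hf).fderiv_of_isOpen (m := 1) c.e.open_target
          (WithTop.coe_le_coe.2 le_top)).contDiffAt (c.e.open_target.mem_nhds hu)).differentiableAt
          one_ne_zero
      exact (h1.comp u differentiableAt_fst).clm_apply differentiableAt_snd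
  filter_upwards [h] with z hz p hp v hv
  refine not_surj hn _ (hz (c.e p, c.dQ p v) (c.e.map_source hp) ?_)
  rw [c.fderiv_rd hf (c.e.map_source hp), c.dP_dQ hp, c.e.left_inv hp, hv]

theorem ae_secant {n : ℕ} (hn : 4 < n) (c c' : Ch M) {f : M → W n} (hf : Sm f) :
    ∀ᵐ z : W n, ∀ p ∈ c.e.source, ∀ q ∈ c'.e.source, ∀ t : ℝ, t • (f p - f q) = z →
      ∀ y, ∃ (v w : E) (s : ℝ), y = dM f p v - dM f q w + s • (f p - f q) := by
  have hd : ∀ u : (E × E) × ℝ, u.1.1 ∈ c.e.target → u.1.2 ∈ c'.e.target →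
      HasFDerivAt (𝕜 := ℝ) (fun u : (E × E) × ℝ => u.2 • (c.rd f u.1.1 - c'.rd f u.1.2)) _ u :=
    fun u h1 h2 => hasFDerivAt_snd.smul
      (((diff_rd c hf h1).hasFDerivAt.comp u (hasFDerivAt_fst.comp u hasFDerivAt_fst)).sub
        ((diff_rd c' hf h2).hasFDerivAt.comp u (hasFDerivAt_snd.comp u hasFDerivAt_fst)))
  have h := sard (X := (E × E) × ℝ) (n := n) (by rw [finrank_prod, finrank_EE, finrank_self]; omega)
    (s := {u | u.1.1 ∈ c.e.target ∧ u.1.2 ∈ c'.e.target})
    fun u hu => (hd u hu.1 hu.2).differentiableAt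
  filter_upwards [h] with z hz p hp q hq t ht y
  have e1 : c.rd f (c.e p) = f p := congrArg f (c.e.left_inv hp)
  have e2 : c'.rd f (c'.e q) = f q := congrArg f (c'.e.left_inv hq)
  obtain ⟨⟨⟨v, w⟩, s⟩, h1⟩ := hz ((c.e p, c'.e q), t) ⟨c.e.map_source hp, c'.e.map_source hq⟩
    (by rw [e1, e2, ht]) y
  rw [(hd ((c.e p, c'.e q), t) (c.e.map_source hp) (c'.e.map_source hq)).fderiv] at h1
  refine ⟨t • c.dP (c.e p) v, t • c'.dP (c'.e q) w, s, ?_⟩
  have h2 : t • (fderiv ℝ (c.rd f) (c.e p) v - fderiv ℝ (c'.rd f) (c'.e q) w) +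
      s • (c.rd f (c.e p) - c'.rd f (c'.e q)) = y := h1
  rw [c.fderiv_rd hf (c.e.map_source hp), c'.fderiv_rd hf (c'.e.map_source hq), e1, e2,
    c.e.left_inv hp, c'.e.left_inv hq] at h2
  rw [map_smul, map_smul, ← smul_sub, h2]

theorem exists_proj {n : ℕ} {z : W (n + 1)} (hz : z ≠ 0) : ∃ L : W (n + 1) →L[ℝ] W n,
    Function.Surjective L ∧ ∀ y, L y = 0 ↔ ∃ t : ℝ, t • z = y := by
  have h1 := (ℝ ∙ z).finrank_quotient_add_finrank
  rw [finrank_span_singleton hz, finrank_euclideanSpace_fin] at h1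
  obtain ⟨e⟩ := FiniteDimensional.nonempty_linearEquiv_of_finrank_eq (R := ℝ)
    (M := W (n + 1) ⧸ (ℝ ∙ z)) (M' := W n) (by rw [finrank_euclideanSpace_fin]; omega)
  refine ⟨(e.toLinearMap ∘ₗ (ℝ ∙ z).mkQ).toContinuousLinearMap,
    e.surjective.comp (ℝ ∙ z).mkQ_surjective, fun y => ?_⟩
  exact e.map_eq_zero_iff.trans ((Submodule.Quotient.mk_eq_zero _).trans
    Submodule.mem_span_singleton)

theorem step {n : ℕ} (hn : 4 ≤ n) {f : M → W (n + 1)} (h : Good f) : ∃ g : M → W n, Good g := by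
  have hn' : 4 < n + 1 := Nat.lt_succ_of_le hn
  obtain ⟨A⟩ := exists_atl (M := M)
  have hcov : ∀ p, ∃ a, p ∈ (A.c a).e.source := fun p => by
    obtain ⟨a, -, ha⟩ := Finset.exists_ne_zero_of_sum_ne_zero ((A.sum p).trans_ne one_ne_zero)
    exact ⟨a, (A.supp a p ha).1⟩
  obtain ⟨z, ⟨hz0, hz1⟩, hz2⟩ := (((Measure.ae_ne volume (0 : W (n + 1))).and
    (ae_all_iff.2 fun a => ae_tangent hn' (A.c a) h.1)).and
    (ae_all_iff.2 fun a => ae_all_iff.2 fun b => ae_secant hn' (A.c a) (A.c b) h.1)).exists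
  obtain ⟨L, hL, hker⟩ := exists_proj hz0
  refine ⟨fun p => L (f p), L.contMDiff.comp h.1, fun p => ?_, fun p q hpq he y => ?_⟩
  · refine (injective_iff_map_eq_zero _).2 fun v hv => ?_
    rw [dM_comp L h.1] at hv
    obtain ⟨t, ht⟩ := (hker _).1 hv
    rcases eq_or_ne t 0 with rfl | h0
    · exact (injective_iff_map_eq_zero _).1 (h.2.1 p) v (by rw [← ht, zero_smul])
    · obtain ⟨a, ha⟩ := hcov p
      exact absurd (by rw [map_smul, ← ht, inv_smul_smul₀ h0]) (hz1 a p ha (t⁻¹ • v))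
  · have h1 : L (f p - f q) = 0 := by rw [map_sub]; exact sub_eq_zero.2 he
    obtain ⟨t, ht⟩ := (hker _).1 h1
    have h0 : t ≠ 0 := fun h0 => hpq (h.inj hn' (sub_eq_zero.1 (by rw [← ht, h0, zero_smul])))
    obtain ⟨a, ha⟩ := hcov p
    obtain ⟨b, hb⟩ := hcov q
    obtain ⟨u, rfl⟩ := hL y
    obtain ⟨v, w, s, rfl⟩ := hz2 a b p ha q hb t⁻¹ (by rw [← ht, inv_smul_smul₀ h0]) u
    exact ⟨v, w, by rw [dM_comp L h.1, dM_comp L h.1, map_add, map_smul, h1, smul_zero, add_zero,
      map_sub]⟩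

theorem descend (k : ℕ) {f : M → W (4 + k)} (h : Good f) : ∃ g : M → W 4, Good g := by
  induction k with
  | zero => exact ⟨f, h⟩
  | succ k ih =>
    obtain ⟨g, hg⟩ := step (n := 4 + k) (Nat.le_add_right _ _) h
    exact ih hg

end TopAAux

theorem exists_imm4 : ∃ f : M → V4, Sm f ∧ Imm f ∧
    ∀ p q, p ≠ q → f p = f q → ∀ y : V4, ∃ v w : E, y = dM f p v - dM f q w := by
  obtain ⟨n, f, h1, h2, h3⟩ := exists_embedding_euclidean_of_compact (I := 𝓡 2) (M := M)
  obtain ⟨i, hi⟩ := (finrank_le_iff_exists_linearMap (R := ℝ) (M := TopAAux.W n)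
    (M' := TopAAux.W (4 + n))).1 (by
      rw [finrank_euclideanSpace_fin, finrank_euclideanSpace_fin]; omega)
  refine TopAAux.descend n (f := fun p => i.toContinuousLinearMap (f p))
    ⟨i.toContinuousLinearMap.contMDiff.comp h1, fun p v w hvw => ?_,
      fun p q hpq he => absurd (h2.injective (hi he)) hpq⟩
  rw [TopAAux.dM_comp _ h1, TopAAux.dM_comp _ h1] at hvw
  exact h3 p (hi hvw)

end Crest.Agent.R216
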