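import Crest.Agent.R216.TopDefs

/-!
# Row 216: a generic direction
-/

set_option autoImplicit false
set_option linter.unusedSectionVars false

noncomputable section

namespace Crest.Agent.R216

open Set Metric Filter
open scoped Manifold ContDiff Topology RealInnerProductSpace

variable {M : Type*} [TopologicalSpace M] [T2Space M] [CompactSpace M] [ChartedSpace E M]
  [IsManifold (𝓡 2) ∞ M]

namespace TopBAux

variable {V : Type*} [NormedAddCommGroup V] [NormedSpace ℝ V]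

theorem rdL_tr (c c' : Ch M) (L : M → E →L[ℝ] V) {x : E} (hx : x ∈ c.e.target)
    (hx' : c.e.symm x ∈ c'.e.source) :
    c.rdL L x = (c'.rdL L (c.tr c' x)).comp (fderiv ℝ (c.tr c') x) := by
  ext1 v
  simp only [Ch.rdL, ContinuousLinearMap.comp_apply, c.fderiv_tr c' hx hx', Ch.tr,
    c'.e.left_inv hx', c'.dP_dQ hx']

theorem rd_tr (c c' : Ch M) (n : M → V) {x : E} (hx' : c.e.symm x ∈ c'.e.source) :
    c.rd n x = c'.rd n (c.tr c' x) := by
  simp only [Ch.rd, Ch.tr, c'.e.left_inv hx']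

theorem tr_at (c c' : Ch M) {x : E} (hx : x ∈ c.e.target) (hx' : c.e.symm x ∈ c'.e.source) :
    ContDiffAt ℝ ∞ (c.tr c') x :=
  (c.contDiffOn_tr c').contDiffAt ((c.isOpen_tr c').mem_nhds ⟨hx, hx'⟩)

theorem tr_inj (c c' : Ch M) {x : E} (hx : x ∈ c.e.target) (hx' : c.e.symm x ∈ c'.e.source)
    {v : E} (h : fderiv ℝ (c.tr c') x v = 0) : v = 0 := by
  rw [c.fderiv_tr c' hx hx'] at h
  have h1 := c'.dP_dQ hx' (c.dP x v)
  have h2 := c.dQ_dP hx v
  rw [h, map_zero] at h1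
  rw [← h1, map_zero] at h2
  exact h2.symm

theorem diffAt {L : M → E →L[ℝ] V} (hL : Fml L) {n : M → V} (hn : Sm n) (c : Ch M) {x : E}
    (hx : x ∈ c.e.target) (v : E) :
    DifferentiableAt ℝ (fun q : E × E => c.rdL L q.1 q.2 - c.rd n q.1) (x, v) := by
  have h1 : DifferentiableAt ℝ (c.rdL L) x :=
    ((hL.sm c).contDiffAt (c.e.open_target.mem_nhds hx)).differentiableAt (by simp)
  have h2 : DifferentiableAt ℝ (c.rd n) x :=
    ((c.contDiffOn_rd hn).contDiffAt (c.e.open_target.mem_nhds hx)).differentiableAt (by simp)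
  have h3 : DifferentiableAt ℝ (Prod.fst : E × E → E) (x, v) := differentiableAt_fst
  have h4 := h2.comp (x, v) h3
  exact ((h1.comp (x, v) h3).clm_apply differentiableAt_snd).sub h4

theorem rdL_inj {L : M → E →L[ℝ] V} (hL : Fml L) (c : Ch M) {x : E} (hx : x ∈ c.e.target) :
    Function.Injective (c.rdL L x) := fun v w h => by
  have h1 : c.dP x v = c.dP x w := hL.inj _ h
  rw [← c.dQ_dP hx v, h1, c.dQ_dP hx]

/-- Solutions of `A x v = b x` are locally bounded. -/
theorem bdd {A : E → E →L[ℝ] V} {b : E → V} {x₀ : E} (hA : ContinuousAt A x₀)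
    (hb : ContinuousAt b x₀) (hi : Function.Injective (A x₀)) :
    ∃ R : ℝ, ∀ᶠ x in 𝓝 x₀, ∀ v, A x v = b x → ‖v‖ ≤ R := by
  obtain ⟨K, hK, h⟩ := LinearMap.exists_antilipschitzWith (A x₀ : E →ₗ[ℝ] V)
    (LinearMap.ker_eq_bot.2 hi)
  have hK' : (0 : ℝ) < K := hK
  refine ⟨2 * K * (‖b x₀‖ + 1), ?_⟩
  filter_upwards [hA.eventually (ball_mem_nhds _ (show (0 : ℝ) < 1 / (2 * K) by positivity)),
    hb.eventually (ball_mem_nhds _ one_pos)] with x h1 h2 v hv
  rw [dist_eq_norm] at h1 h2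
  have e1 : ‖v‖ ≤ K * ‖A x₀ v‖ := by simpa using h.le_mul_dist v 0
  have e2 : ‖A x₀ v‖ ≤ ‖b x‖ + 1 / (2 * K) * ‖v‖ := by
    have : A x₀ v = b x - (A x - A x₀) v := by rw [← hv]; simp
    rw [this]
    exact (norm_sub_le _ _).trans (add_le_add le_rfl (((A x - A x₀).le_opNorm v).trans
      (mul_le_mul_of_nonneg_right h1.le (norm_nonneg _))))
  have e3 : ‖b x‖ ≤ ‖b x₀‖ + 1 := by linarith [norm_sub_norm_le (b x) (b x₀)]
  have e4 : K * (1 / (2 * K) * ‖v‖) = ‖v‖ / 2 := by field_simp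
  nlinarith [mul_le_mul_of_nonneg_left e2 hK'.le, mul_le_mul_of_nonneg_left e3 hK'.le]

end TopBAux

open TopBAux

theorem fml_dM {V : Type*} [NormedAddCommGroup V] [NormedSpace ℝ V] {f : M → V} (hf : Sm f)
    (hi : Imm f) : Fml (dM f) := by
  refine ⟨fun c => ?_, hi⟩
  refine ((c.contDiffOn_rd hf).fderiv_of_isOpen c.e.open_target (by simp)).congr fun x hx => ?_
  ext1 v
  rw [c.fderiv_rd hf hx]
  rfl

theorem TopBAux.nd_of_ch {L : M → E →L[ℝ] V4} (hL : Fml L) {n : M → V4} (hn : Sm n)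
    (h : ∀ p ∈ Zs L n, ∃ c : Ch M, p ∈ c.e.source ∧ ∀ v, c.rdL L (c.e p) v = n p →
      Function.Injective (fderiv ℝ (fun q : E × E => c.rdL L q.1 q.2 - c.rd n q.1) (c.e p, v))) :
    ND L n := by
  intro c x v hx hv
  obtain ⟨c', hp, hc'⟩ := h (c.e.symm x) ⟨c.dP x v, hv⟩
  have hT := tr_at c c' hx hp
  have d1 : HasFDerivAt (c.tr c') (fderiv ℝ (c.tr c') x) x :=
    (hT.differentiableAt (by simp)).hasFDerivAt
  have d2 : HasFDerivAt (fderiv ℝ (c.tr c')) (fderiv ℝ (fderiv ℝ (c.tr c')) x) x :=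
    ((hT.fderiv_right (m := ∞) (by simp)).differentiableAt (by simp)).hasFDerivAt
  have f1 : HasFDerivAt (Prod.fst : E × E → E) (ContinuousLinearMap.fst ℝ E E) (x, v) :=
    hasFDerivAt_fst
  have f2 : HasFDerivAt (Prod.snd : E × E → E) (ContinuousLinearMap.snd ℝ E E) (x, v) :=
    hasFDerivAt_snd
  have d3 := (d1.comp (x, v) f1).prodMk ((d2.comp (x, v) f1).clm_apply f2)
  have hi := hc' (fderiv ℝ (c.tr c') x v) (by
    have := rdL_tr c c' L hx hp
    rw [this] at hv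
    exact hv)
  have d4 := ((diffAt hL hn c' (c'.e.map_source hp)
    (fderiv ℝ (c.tr c') x v)).hasFDerivAt.comp (x, v) d3)
  have hev : (fun q : E × E => c.rdL L q.1 q.2 - c.rd n q.1) =ᶠ[𝓝 (x, v)]
      (fun q : E × E => c'.rdL L q.1 q.2 - c'.rd n q.1) ∘ fun q : E × E =>
        ((c.tr c' ∘ Prod.fst) q, (fderiv ℝ (c.tr c') ∘ Prod.fst) q q.2) := by
    filter_upwards [continuousAt_fst.eventually ((c.isOpen_tr c').mem_nhds
      (show (x, v).1 ∈ _ from ⟨hx, hp⟩))] with q hq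
    simp only [Function.comp_apply]
    rw [rdL_tr c c' L hq.1 hq.2, rd_tr c c' n hq.2]
    rfl
  rw [(d4.congr_of_eventuallyEq hev).fderiv, ContinuousLinearMap.coe_comp]
  refine hi.comp ((injective_iff_map_eq_zero _).2 ?_)
  rintro ⟨a, b⟩ hab
  have h1 : a = 0 := tr_inj c c' hx hp (congrArg Prod.fst hab)
  subst h1
  have h2 := congrArg Prod.snd hab
  simp only [ContinuousLinearMap.prod_apply, add_apply,
    ContinuousLinearMap.comp_apply, ContinuousLinearMap.flip_apply, ContinuousLinearMap.coe_fst',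
    ContinuousLinearMap.coe_snd', map_zero, zero_apply, add_zero,
    Function.comp_apply, Prod.snd_zero] at h2
  rw [tr_inj c c' hx hp h2]
  rfl

/-- Easy Sard theorem for `(x, v) ↦ L x v`. -/
theorem exists_nd {L : M → E →L[ℝ] V4} (hL : Fml L) : ∃ y : V4, y ≠ 0 ∧ ND L fun _ => y := by
  obtain ⟨A⟩ := exists_atl (M := M)
  let φ : V4 ≃L[ℝ] E × E := ContinuousLinearEquiv.ofFinrankEq (by simp)
  let f : Fin A.n → E × E → V4 := fun a q => (A.c a).rdL L q.1 q.2
  let S : Fin A.n → Set V4 := fun a =>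
    {z | (φ z).1 ∈ (A.c a).e.target ∧ ¬ Function.Injective (fderiv ℝ (f a) (φ z))}
  have h0 : ∀ a, MeasureTheory.volume ((f a ∘ φ) '' S a) = 0 := by
    intro a
    refine MeasureTheory.addHaar_image_eq_zero_of_det_fderivWithin_eq_zero _
      (f' := fun z => (fderiv ℝ (f a) (φ z)).comp (φ : V4 →L[ℝ] E × E)) (fun z hz => ?_)
      fun z hz => ?_
    · have := diffAt hL (n := fun _ => 0) contMDiff_const (A.c a) hz.1 (φ z).2
      simp only [Ch.rd, sub_zero] at this
      exact (this.hasFDerivAt.comp z φ.hasFDerivAt).hasFDerivWithinAt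
    · refine LinearMap.det_eq_zero_iff_ker_ne_bot.2 fun hk => hz.2 ?_
      have hk' := LinearMap.ker_eq_bot.1 hk
      exact Function.Injective.of_comp_right (g := φ) hk' φ.surjective
  have h1 : MeasureTheory.volume ({0} ∪ ⋃ a, (f a ∘ φ) '' S a) = 0 :=
    MeasureTheory.measure_union_null (MeasureTheory.measure_singleton _)
      (MeasureTheory.measure_iUnion_null h0)
  obtain ⟨y, hy⟩ : ∃ y : V4, y ∉ {0} ∪ ⋃ a, (f a ∘ φ) '' S a := by
    by_contra hc
    push Not at hc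
    rw [eq_univ_of_forall hc] at h1
    exact (isOpen_univ.measure_pos _ univ_nonempty).ne' h1
  refine ⟨y, fun h => hy (Or.inl h), TopBAux.nd_of_ch hL contMDiff_const fun p _ => ?_⟩
  obtain ⟨a, -, ha⟩ := Finset.exists_ne_zero_of_sum_ne_zero ((A.sum p).trans_ne one_ne_zero)
  refine ⟨A.c a, (A.supp a p ha).1, fun v hv => ?_⟩
  by_contra hni
  refine hy (Or.inr (mem_iUnion.2 ⟨a, φ.symm ((A.c a).e p, v), ⟨?_, ?_⟩, ?_⟩))
  · rw [φ.apply_symm_apply]
    exact (A.c a).e.map_source (A.supp a p ha).1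
  · rw [φ.apply_symm_apply]
    simpa only [Ch.rd, fderiv_sub_const] using hni
  · rw [Function.comp_apply, φ.apply_symm_apply]
    exact hv

theorem ND.finite {L : M → E →L[ℝ] V4} (hL : Fml L) {n : M → V4} (hn : Sm n) (h : ND L n) :
    (Zs L n).Finite := by
  have key : ∀ p : M, ∀ᶠ q in 𝓝 p, q ∈ Zs L n → q = p := by
    intro p
    obtain ⟨c, hc⟩ := exists_ch_chartAt p
    have hp : p ∈ c.e.source := hc ▸ mem_chart_source E p
    have hx := c.e.map_source hp
    obtain ⟨R, hR⟩ := bdd ((hL.sm c).contDiffAt (c.e.open_target.mem_nhds hx)).continuousAt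
      ((c.contDiffOn_rd hn).contDiffAt (c.e.open_target.mem_nhds hx)).continuousAt
      (rdL_inj hL c hx)
    have h1 : ∀ᶠ x in 𝓝 (c.e p), ∀ v ∈ closedBall (0 : E) R,
        c.rdL L x v - c.rd n x = 0 → x = c.e p := by
      refine (isCompact_closedBall _ _).eventually_forall_of_forall_eventually fun v _ => ?_
      have hd := diffAt hL hn c hx v
      by_cases hv : c.rdL L (c.e p) v = c.rd n (c.e p)
      · obtain ⟨K, -, hK⟩ := LinearMap.exists_antilipschitzWith (fderiv ℝ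
          (fun q : E × E => c.rdL L q.1 q.2 - c.rd n q.1) (c.e p, v) : E × E →ₗ[ℝ] V4)
          (LinearMap.ker_eq_bot.2 (h c _ v hx hv))
        filter_upwards [eventually_nhdsWithin_iff.1
          (hd.hasFDerivAt.eventually_ne (c := 0) ⟨K, hK⟩)] with z hz hz0
        by_contra hne
        exact hz (fun e => hne (congrArg Prod.fst e)) hz0
      · filter_upwards [hd.continuousAt.eventually_ne (sub_ne_zero.2 hv)] with z hz hz0
        exact absurd hz0 hz
    filter_upwards [(c.e.continuousAt hp).eventually (hR.and h1), c.e.open_source.mem_nhds hp]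
      with q hq hqs ⟨w, hw⟩
    have e : c.rdL L (c.e q) (c.dQ q w) = c.rd n (c.e q) := by
      simp only [Ch.rdL, Ch.rd, ContinuousLinearMap.comp_apply, c.e.left_inv hqs, c.dP_dQ hqs, hw]
    exact c.e.injOn hqs hp (hq.2 _ (mem_closedBall_zero_iff.2 (hq.1 _ e)) (sub_eq_zero.2 e))
  obtain ⟨t, -, ht⟩ := isCompact_univ.elim_nhds_subcover (fun p => {q | q ∈ Zs L n → q = p})
    fun p _ => key p
  refine t.finite_toSet.subset fun q hq => ?_
  obtain ⟨p, hp, hqp⟩ := mem_iUnion₂.1 (ht (mem_univ q))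
  exact hqp hq ▸ hp

/-- Nondegeneracy can be tested in one chart at every point. -/
theorem nd_of_ch {L : M → E →L[ℝ] V4} (hL : Fml L) {n : M → V4} (hn : Sm n)
    (h : ∀ p ∈ Zs L n, ∃ c : Ch M, p ∈ c.e.source ∧ ∀ v, c.rdL L (c.e p) v = n p →
      Function.Injective (fderiv ℝ (fun q : E × E => c.rdL L q.1 q.2 - c.rd n q.1) (c.e p, v))) :
    ND L n := TopBAux.nd_of_ch hL hn h

theorem fml_of_ch {V : Type*} [NormedAddCommGroup V] [NormedSpace ℝ V] {L : M → E →L[ℝ] V}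
    (h : ∀ p, ∃ c : Ch M, p ∈ c.e.source ∧ ContDiffAt ℝ ∞ (c.rdL L) (c.e p))
    (hi : ∀ p, Function.Injective (L p)) : Fml L := by
  refine ⟨fun c x hx => ?_, hi⟩
  obtain ⟨c', hp, hc'⟩ := h (c.e.symm x)
  have hT := tr_at c c' hx hp
  refine (((hc'.comp x hT).clm_comp (hT.fderiv_right (by simp))).congr_of_eventuallyEq
    ?_).contDiffWithinAt
  filter_upwards [(c.isOpen_tr c').mem_nhds ⟨hx, hp⟩] with y hy
  exact rdL_tr c c' L hy.1 hy.2

end Crest.Agent.R216
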