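import Crest.Agent.R216.Basic
import Crest.Agent.Lib.Degree.Exists
import Crest.Agent.Lib.Degree.IntHtp

/-!
# Row 216: degree modulo two, auxiliary lemmas
-/

set_option autoImplicit false

noncomputable section

namespace Crest.Agent.R216.TopCAux

open Set Metric Filter MeasureTheory
open scoped ContDiff Topology
open Crest.Agent.Lib.Degree Crest.Agent.Lib.Degree.Ex

/-- A closed subset of a compact set all of whose points are isolated is finite. -/
theorem finite_of_isolated {X : Type*} [TopologicalSpace X] {Z : Set X} (hZ : IsCompact Z)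
    (h : ∀ x ∈ Z, ∀ᶠ y in 𝓝[≠] x, y ∉ Z) : Z.Finite :=
  hZ.finite (isDiscrete_iff_nhdsNE.2 fun x hx => inf_principal_eq_bot.2 (h x hx))

section general

variable {X Y : Type} [NormedAddCommGroup X] [NormedSpace ℝ X] [FiniteDimensional ℝ X]
  [NormedAddCommGroup Y] [NormedSpace ℝ Y]

theorem isolated {G : X → Y} {x : X} (hG : DifferentiableAt ℝ G x)
    (hi : Function.Injective (fderiv ℝ G x)) (c : Y) : ∀ᶠ y in 𝓝[≠] x, G y ≠ c := by
  obtain ⟨K, -, hK⟩ := LinearMap.exists_antilipschitzWith (fderiv ℝ G x : X →ₗ[ℝ] Y)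
    (LinearMap.ker_eq_bot.2 hi)
  exact hG.hasFDerivAt.eventually_ne ⟨K, hK⟩

variable [MeasurableSpace X] [BorelSpace X] (μ : Measure X) [μ.IsAddHaarMeasure]

/-- The local degree at a regular zero is `± 1`. -/
theorem local_has {f : X → X} {U N : Set X} (hU : IsOpen U) (hf : ContDiffOn ℝ ∞ f U) {z : X}
    (hz : z ∈ U) (h0 : f z = 0) (hi : Function.Injective (fderiv ℝ f z)) (hN : N ∈ 𝓝 z) :
    ∃ (s : ℤ) (W : Set X), (s : ZMod 2) = 1 ∧ IsOpen W ∧ z ∈ W ∧ W ⊆ N ∧ Has μ f W s := by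
  have hz' := hU.mem_nhds hz
  let A : X ≃L[ℝ] X :=
    (LinearEquiv.ofInjectiveEndo (fderiv ℝ f z : X →ₗ[ℝ] X) hi).toContinuousLinearEquiv
  have hA : (A : X →L[ℝ] X) = fderiv ℝ f z := by ext; rfl
  have hs : HasStrictFDerivAt f (A : X →L[ℝ] X) z :=
    hA ▸ (hf.contDiffAt hz').hasStrictFDerivAt (by simp)
  have hd : (fderiv ℝ f z).det ≠ 0 := hA ▸ (LinearEquiv.isUnit_det' A.toLinearEquiv).ne_zero
  have hc : ContinuousAt (fun u => (fderiv ℝ f u).det) z :=
    (ContinuousLinearMap.continuous_det.comp_continuousOn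
      (hf.continuousOn_fderiv_of_isOpen hU (by simp))).continuousAt hz'
  obtain ⟨s, hs1, hs2⟩ : ∃ s : ℤ, (s : ZMod 2) = 1 ∧
      ∀ᶠ u in 𝓝 z, (fderiv ℝ f u).det = s * |(fderiv ℝ f u).det| := by
    rcases hd.lt_or_gt with h | h
    · refine ⟨-1, by decide, ?_⟩
      filter_upwards [hc.eventually (gt_mem_nhds h)] with u hu
      simp [abs_of_neg hu]
    · refine ⟨1, by decide, ?_⟩
      filter_upwards [hc.eventually (lt_mem_nhds h)] with u hu
      simp [abs_of_pos hu]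
  let φ := hs.toOpenPartialHomeomorph f
  have hφ : φ.source ∈ 𝓝 z := φ.open_source.mem_nhds hs.mem_toOpenPartialHomeomorph_source
  obtain ⟨W, hW, hWo, hzW⟩ := _root_.mem_nhds_iff.1
    (inter_mem (inter_mem hN hz') (inter_mem hφ hs2))
  have him : f '' W ∈ 𝓝 (0 : X) := by
    rw [← h0, ← hs.map_nhds_eq_of_equiv]
    exact image_mem_map (hWo.mem_nhds hzW)
  obtain ⟨r, hr, hb⟩ := Metric.mem_nhds_iff.1 him
  refine ⟨s, W, hs1, hWo, hzW, fun u hu => (hW hu).1.1, r, hr, fun ρ hρ => ?_⟩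
  have e := integral_image_eq_integral_abs_det_fderiv_smul μ hWo.measurableSet
    (f := f) (f' := fderiv ℝ f) (fun u hu => (((hf.contDiffAt (hU.mem_nhds (hW hu).1.2)
      ).differentiableAt (by simp)).hasFDerivAt).hasFDerivWithinAt)
    (φ.injOn.mono fun u hu => (hW hu).2.1) ρ
  rw [setIntegral_eq_integral_of_forall_compl_eq_zero fun u hu => hρ.eq_zero
    (not_lt.1 fun hc => hu (hb (mem_ball_zero_iff.2 hc)))] at e
  rw [e, I, ← integral_const_mul]
  refine setIntegral_congr_fun hWo.measurableSet fun u hu => ?_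
  have h1 : (fderiv ℝ f u).det = s * |(fderiv ℝ f u).det| := (hW hu).2.2
  simp only [smul_eq_mul]
  linear_combination ρ (f u) * h1

/-- The degree is the number of the regular zeros modulo two. -/
theorem count_has {f : X → X} {U V : Set X} (hU : IsOpen U) (hf : ContDiffOn ℝ ∞ f U)
    (hV : IsOpen V) (hc : IsCompact (closure V)) (hs : closure V ⊆ U)
    (h0 : ∀ u ∈ closure V, f u = 0 → u ∈ V)
    (hr : ∀ u ∈ U, f u = 0 → Function.Injective (fderiv ℝ f u)) :
    ∃ n : ℤ, Has μ f V n ∧ (n : ZMod 2) = ({u ∈ V | f u = 0}.ncard : ZMod 2) := by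
  classical
  have hcl : IsCompact {u ∈ V | f u = 0} := by
    have h1 := (hf.continuousOn.mono hs).preimage_isClosed_of_isClosed isClosed_closure
      (isClosed_singleton (x := (0 : X)))
    convert hc.of_isClosed_subset h1 inter_subset_left using 1
    exact Set.ext fun u => ⟨fun h => ⟨subset_closure h.1, h.2⟩, fun h => ⟨h0 u h.1 h.2, h.2⟩⟩
  have hfin : {u ∈ V | f u = 0}.Finite := finite_of_isolated hcl fun x hx => by
    have hxU := hs (subset_closure hx.1)
    filter_upwards [isolated ((hf.contDiffAt (hU.mem_nhds hxU)).differentiableAt (by simp))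
      (hr x hxU hx.2) 0] with y hy hy' using hy hy'.2
  obtain ⟨N, hN, hNd⟩ := hfin.t2_separation
  have key : ∀ z : X, ∃ (s : ℤ) (W : Set X), z ∈ {u ∈ V | f u = 0} →
      (s : ZMod 2) = 1 ∧ IsOpen W ∧ z ∈ W ∧ W ⊆ N z ∩ V ∧ Has μ f W s := fun z => by
    by_cases hz : z ∈ {u ∈ V | f u = 0}
    · obtain ⟨s, W, h⟩ := local_has μ hU hf (hs (subset_closure hz.1)) hz.2
        (hr z (hs (subset_closure hz.1)) hz.2)
        (inter_mem ((hN z).2.mem_nhds (hN z).1) (hV.mem_nhds hz.1))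
      exact ⟨s, W, fun _ => h⟩
    · exact ⟨0, ∅, fun h => absurd h hz⟩
  choose s W hW using key
  have hmem : ∀ z, z ∈ hfin.toFinset ↔ z ∈ {u ∈ V | f u = 0} := fun z => hfin.mem_toFinset
  have hWo : IsOpen (⋃ z ∈ hfin.toFinset, W z) :=
    isOpen_biUnion fun z hz => (hW z ((hmem z).1 hz)).2.1
  obtain ⟨r₀, hr₀, h₀⟩ := exists_sep (hc.diff hWo)
    (hf.continuousOn.mono (sdiff_subset.trans hs)) fun u hu h => hu.2
      (mem_biUnion ((hmem u).2 ⟨h0 u hu.1 h, h⟩) (hW u ⟨h0 u hu.1 h, h⟩).2.2.1)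
  have hev : ∀ᶠ r in 𝓝[>] (0 : ℝ), ∀ z ∈ hfin.toFinset,
      ∀ ρ, T r ρ → I μ f (W z) ρ = s z * ∫ y, ρ y ∂μ := by
    refine (eventually_all_finset _).2 fun z hz => ?_
    obtain ⟨r, hr, h⟩ := (hW z ((hmem z).1 hz)).2.2.2.2
    filter_upwards [Ioc_mem_nhdsGT hr] with r' hr' ρ hρ using h ρ (hρ.mono hr'.2)
  obtain ⟨r, hr1, hr2⟩ := (hev.and (Ioc_mem_nhdsGT hr₀)).exists
  refine ⟨∑ z ∈ hfin.toFinset, s z, ⟨r, hr2.1, fun ρ hρ => ?_⟩, ?_⟩
  · have hsub : (⋃ z ∈ hfin.toFinset, W z) ⊆ V :=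
      iUnion₂_subset fun z hz u hu => ((hW z ((hmem z).1 hz)).2.2.2.1 hu).2
    have hi : IntegrableOn (fun u => ρ (f u) * (fderiv ℝ f u).det) V μ :=
      ((((hρ.smooth.continuous.comp_continuousOn hf.continuousOn).mul
        (ContinuousLinearMap.continuous_det.comp_continuousOn
          (hf.continuousOn_fderiv_of_isOpen hU (by simp)))).mono hs).integrableOn_compact
            hc).mono_set subset_closure
    rw [I, setIntegral_eq_of_subset_of_forall_sdiff_eq_zero hV.measurableSet hsub fun u hu => by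
      rw [hρ.eq_zero (hr2.2.trans (h₀ u ⟨subset_closure hu.1, hu.2⟩)), zero_mul],
      integral_biUnion_finset _ (fun z hz => (hW z ((hmem z).1 hz)).2.1.measurableSet)
        (fun z hz z' hz' hne => (hNd ((hmem z).1 hz) ((hmem z').1 hz') hne).mono
          (fun u hu => ((hW z ((hmem z).1 hz)).2.2.2.1 hu).1)
          fun u hu => ((hW z' ((hmem z').1 hz')).2.2.2.1 hu).1)
        fun z hz => hi.mono_set fun u hu => ((hW z ((hmem z).1 hz)).2.2.2.1 hu).2]
    push_cast
    rw [Finset.sum_mul]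
    exact Finset.sum_congr rfl fun z hz => hr1 z hz ρ hρ
  · rw [ncard_eq_toFinset_card _ hfin, Finset.card_eq_sum_ones]
    push_cast
    exact Finset.sum_congr rfl fun z hz => (hW z ((hmem z).1 hz)).1

end general

theorem parity_self {X : Type} [NormedAddCommGroup X] [NormedSpace ℝ X] [FiniteDimensional ℝ X]
    {U K : Set X} (hU : IsOpen U) (hK : IsCompact K) (hKU : K ⊆ U)
    {G G' : X → X} (hG : ContDiffOn ℝ ∞ G U) (hG' : ContDiffOn ℝ ∞ G' U)
    (h : ∀ q ∈ U, q ∉ K → G q = G' q)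
    (hr : ∀ q ∈ U, G q = 0 → Function.Injective (fderiv ℝ G q))
    (hr' : ∀ q ∈ U, G' q = 0 → Function.Injective (fderiv ℝ G' q)) :
    ({q ∈ K | G q = 0}.ncard : ZMod 2) = ({q ∈ K | G' q = 0}.ncard : ZMod 2) := by
  borelize X
  let μ : Measure X := Measure.addHaar
  have hK0 : K ⊆ interior {y | y ∈ U ∧ (G y = 0 → y ∈ K)} := fun k hk => by
    have hkU := hU.mem_nhds (hKU hk)
    rw [mem_interior_iff_mem_nhds]
    by_cases h0 : G k = 0
    · have := eventually_nhdsWithin_iff.1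
        (isolated ((hG.contDiffAt hkU).differentiableAt (by simp)) (hr k (hKU hk) h0) 0)
      filter_upwards [this, hkU] with y hy hy'
      refine ⟨hy', fun h1 => ?_⟩
      by_cases hyk : y = k
      · exact hyk ▸ hk
      · exact absurd h1 (hy hyk)
    · filter_upwards [(hG.continuousOn.continuousAt hkU).eventually_ne h0, hkU] with y hy hy'
      exact ⟨hy', fun h1 => absurd h1 hy⟩
  obtain ⟨V, hV, hKV, hV0, hc⟩ := exists_open_between_and_isCompact_closure hK isOpen_interior hK0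
  have hs : closure V ⊆ U := fun u hu => (interior_subset (hV0 hu)).1
  have hz : ∀ u ∈ closure V, G u = 0 → u ∈ K := fun u hu => (interior_subset (hV0 hu)).2
  have hz' : ∀ u ∈ closure V, G' u = 0 → u ∈ K := fun u hu h0 => by
    by_contra hn
    exact hn (hz u hu ((h u (hs hu) hn).trans h0))
  obtain ⟨n, hn, e⟩ := count_has μ hU hG hV hc hs (fun u hu h0 => hKV (hz u hu h0)) hr
  obtain ⟨n', hn', e'⟩ := count_has μ hU hG' hV hc hs (fun u hu h0 => hKV (hz' u hu h0)) hr'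
  obtain ⟨r, hr0, hsep⟩ := exists_sep (hc.diff hV) (hG.continuousOn.mono (sdiff_subset.trans hs))
    fun u hu h0 => hu.2 (hKV (hz u hu.1 h0))
  have hI : ∀ ρ, T r ρ → I μ G V ρ = I μ G' V ρ := fun ρ hρ => by
    simpa using I_htp (μ := μ) intHtp (F := fun p => G p.2 + p.1 • (G' p.2 - G p.2))
      ((hG.comp contDiffOn_snd fun _ hp => hp.2).add (contDiffOn_fst.smul
        ((hG'.comp contDiffOn_snd fun _ hp => hp.2).sub (hG.comp contDiffOn_snd fun _ hp => hp.2))))
      hV hc hs (fun t _ u hu => by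
        simpa [← h u (hs hu.1) fun hk => hu.2 (hKV hk)] using hsep u hu) hρ
  have hnn : n = n' := by exact_mod_cast hn.unique (hn'.of_eq hr0 hI)
  have s1 : {q ∈ K | G q = 0} = {u ∈ V | G u = 0} :=
    Set.ext fun u => ⟨fun h => ⟨hKV h.1, h.2⟩, fun h => ⟨hz u (subset_closure h.1) h.2, h.2⟩⟩
  have s2 : {q ∈ K | G' q = 0} = {u ∈ V | G' u = 0} :=
    Set.ext fun u => ⟨fun h => ⟨hKV h.1, h.2⟩, fun h => ⟨hz' u (subset_closure h.1) h.2, h.2⟩⟩
  rw [s1, s2, ← e, ← e', hnn]

/-- `E × E` is four-space. -/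
def L4 : V4 ≃L[ℝ] E × E := ContinuousLinearEquiv.ofFinrankEq (by simp)

/-- Easy Sard theorem. -/
theorem sard {U : Set (E × E)} (hU : IsOpen U) {G : E × E → V4} (hG : ContDiffOn ℝ ∞ G U) :
    ∀ᵐ z : V4, ∀ q ∈ U, G q = z → Function.Injective (fderiv ℝ G q) := by
  have h := addHaar_image_eq_zero_of_det_fderivWithin_eq_zero (volume : Measure V4)
    (f := fun x => G (L4 x)) (f' := fun x => (fderiv ℝ G (L4 x)).comp (L4 : V4 →L[ℝ] E × E))
    (s := {x | L4 x ∈ U ∧ ¬ Function.Injective (fderiv ℝ G (L4 x))})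
    (fun x hx => ((((hG.contDiffAt (hU.mem_nhds hx.1)).differentiableAt
      (by simp)).hasFDerivAt).comp x L4.hasFDerivAt).hasFDerivWithinAt)
    (fun x hx => by
      by_contra hd
      have h1 : Function.Injective
          (((fderiv ℝ G (L4 x)).comp (L4 : V4 →L[ℝ] E × E) : V4 →L[ℝ] V4) : V4 →ₗ[ℝ] V4) :=
        LinearMap.ker_eq_bot.1 (by_contra fun hk => hd (LinearMap.det_eq_zero_iff_ker_ne_bot.2 hk))
      exact hx.2 (Function.Injective.of_comp_right (g := L4) h1 L4.surjective))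
  filter_upwards [measure_eq_zero_iff_ae_notMem.1 h] with z hz q hq hqz
  by_contra hn
  exact hz ⟨L4.symm q, by simpa using ⟨hq, hn⟩, by simpa using hqz⟩

end Crest.Agent.R216.TopCAux
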