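import Crest.Agent.R216.TopB
import Crest.Agent.R216.TopCAux

/-!
# Row 216: degree modulo two
-/

set_option autoImplicit false
set_option linter.unusedSectionVars false

noncomputable section

namespace Crest.Agent.R216

open Set Metric Filter
open scoped Manifold ContDiff Topology RealInnerProductSpace

/-- Two maps of an open subset of `E × E` to `V4` which agree outside a compact set and have the
regular value `0` take it the same number of times modulo two. -/
theorem parity_local {U K : Set (E × E)} (hU : IsOpen U) (hK : IsCompact K) (hKU : K ⊆ U)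
    {G G' : E × E → V4} (hG : ContDiffOn ℝ ∞ G U) (hG' : ContDiffOn ℝ ∞ G' U)
    (h : ∀ q ∈ U, q ∉ K → G q = G' q)
    (hr : ∀ q ∈ U, G q = 0 → Function.Injective (fderiv ℝ G q))
    (hr' : ∀ q ∈ U, G' q = 0 → Function.Injective (fderiv ℝ G' q)) :
    ({q ∈ K | G q = 0}.ncard : ZMod 2) = ({q ∈ K | G' q = 0}.ncard : ZMod 2) := by
  have key : ∀ {G : E × E → V4}, (∀ q ∈ U, G q = 0 → Function.Injective (fderiv ℝ G q)) →
      ∀ q ∈ U, (TopCAux.L4 ∘ G) q = 0 → Function.Injective (fderiv ℝ (TopCAux.L4 ∘ G) q) :=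
    fun {G} hr q hq h0 => by
      rw [TopCAux.L4.comp_fderiv]
      exact TopCAux.L4.injective.comp (hr q hq (by simpa using h0))
  simpa using TopCAux.parity_self hU hK hKU (TopCAux.L4.contDiff.comp_contDiffOn hG)
    (TopCAux.L4.contDiff.comp_contDiffOn hG') (fun q hq hq' => congrArg _ (h q hq hq'))
    (key hr) (key hr')

variable {M : Type*} [TopologicalSpace M] [T2Space M] [CompactSpace M] [ChartedSpace E M]
  [IsManifold (𝓡 2) ∞ M]

namespace TopCAux

/-- The intermediate maps. -/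
def GS (A : Atl M) (f : M → V4) (c : V4) (S : Finset (Fin A.n × Fin A.n)) (q : M × M) : V4 :=
  f q.1 - f q.2 + (∑ i ∈ S, A.ρ i.1 q.1 * A.ρ i.2 q.2) • c

/-- The product chart. -/
def ch (A : Atl M) (i : Fin A.n × Fin A.n) (x : E × E) : M × M :=
  ((A.c i.1).e.symm x.1, (A.c i.2).e.symm x.2)

/-- Its domain. -/
def tg (A : Atl M) (i : Fin A.n × Fin A.n) : Set (E × E) :=
  (A.c i.1).e.target ×ˢ (A.c i.2).e.target

/-- The solution set. -/
def Sol (A : Atl M) (f : M → V4) (c : V4) (C : Set M) (z : V4) (S : Finset (Fin A.n × Fin A.n)) :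
    Set (M × M) := {q | q.1 ∈ C ∧ q.2 ∈ C ∧ GS A f c S q = z}

variable {A : Atl M} {f : M → V4} {c z : V4} {C : Set M}

theorem isOpen_tg (i : Fin A.n × Fin A.n) : IsOpen (tg A i) :=
  (A.c i.1).e.open_target.prod (A.c i.2).e.open_target

theorem injOn_ch (i : Fin A.n × Fin A.n) : InjOn (ch A i) (tg A i) := fun _ hx _ hy h =>
  Prod.ext ((A.c i.1).e.symm.injOn hx.1 hy.1 (congrArg Prod.fst h))
    ((A.c i.2).e.symm.injOn hx.2 hy.2 (congrArg Prod.snd h))

theorem continuousOn_ch (i : Fin A.n × Fin A.n) : ContinuousOn (ch A i) (tg A i) :=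
  ((A.c i.1).e.continuousOn_symm.comp continuousOn_fst fun _ h => h.1).prodMk
    ((A.c i.2).e.continuousOn_symm.comp continuousOn_snd fun _ h => h.2)

theorem contDiffOn_GS (hf : Sm f) (S : Finset (Fin A.n × Fin A.n)) (i : Fin A.n × Fin A.n) :
    ContDiffOn ℝ ∞ (fun x => GS A f c S (ch A i x)) (tg A i) := by
  have h1 : ∀ {V : Type} [NormedAddCommGroup V] [NormedSpace ℝ V] {g : M → V}, Sm g →
      ContDiffOn ℝ ∞ (fun x => g (ch A i x).1) (tg A i) := fun hg =>
    ((A.c i.1).contDiffOn_rd hg).comp contDiffOn_fst fun _ h => h.1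
  have h2 : ∀ {V : Type} [NormedAddCommGroup V] [NormedSpace ℝ V] {g : M → V}, Sm g →
      ContDiffOn ℝ ∞ (fun x => g (ch A i x).2) (tg A i) := fun hg =>
    ((A.c i.2).contDiffOn_rd hg).comp contDiffOn_snd fun _ h => h.2
  exact ((h1 hf).sub (h2 hf)).add
    ((ContDiffOn.sum fun (j : Fin A.n × Fin A.n) _ =>
      (h1 (A.sm j.1)).mul (h2 (A.sm j.2))).smul contDiffOn_const)

theorem continuous_GS (hf : Sm f) (S : Finset (Fin A.n × Fin A.n)) : Continuous (GS A f c S) :=
  ((hf.continuous.comp continuous_fst).sub (hf.continuous.comp continuous_snd)).add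
    ((continuous_finsetSum _ fun (j : Fin A.n × Fin A.n) _ =>
      ((A.sm j.1).continuous.comp continuous_fst).mul
      ((A.sm j.2).continuous.comp continuous_snd)).smul continuous_const)

theorem exists_source (p : M) : ∃ a, p ∈ (A.c a).e.source := by
  by_contra h
  have : ∑ a, A.ρ a p = 0 :=
    Finset.sum_eq_zero fun a _ => by_contra fun h' => h ⟨a, (A.supp a p h').1⟩
  rw [A.sum] at this
  exact one_ne_zero this

/-- `z` is a regular value of all the intermediate maps. -/
def Reg (A : Atl M) (f : M → V4) (c z : V4) : Prop :=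
  ∀ S i, ∀ x ∈ tg A i, GS A f c S (ch A i x) = z →
    Function.Injective (fderiv ℝ (fun x => GS A f c S (ch A i x)) x)

theorem ae_reg (hf : Sm f) : ∀ᵐ z : V4, Reg A f c z :=
  MeasureTheory.ae_all_iff.2 fun S => MeasureTheory.ae_all_iff.2 fun i =>
    sard (isOpen_tg i) (contDiffOn_GS hf S i)

theorem finite_Sol (hf : Sm f) (hC : IsClopen C) (h : Reg A f c z)
    (S : Finset (Fin A.n × Fin A.n)) : (Sol A f c C z S).Finite := by
  refine finite_of_isolated (IsClosed.isCompact ((hC.1.preimage continuous_fst).inter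
    ((hC.1.preimage continuous_snd).inter (isClosed_eq (continuous_GS hf S) continuous_const))))
    fun q hq => ?_
  obtain ⟨a, ha⟩ := exists_source (A := A) q.1
  obtain ⟨b, hb⟩ := exists_source (A := A) q.2
  let φ := (A.c a).e.prod (A.c b).e
  have hqφ : q ∈ φ.source := ⟨ha, hb⟩
  have hx : φ q ∈ tg A (a, b) := φ.map_source hqφ
  have hl : ∀ y ∈ φ.source, ch A (a, b) (φ y) = y := fun y hy => φ.left_inv hy
  have h1 := eventually_nhdsWithin_iff.1 (isolated (((contDiffOn_GS (c := c) hf S (a, b)).contDiffAt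
    ((isOpen_tg _).mem_nhds hx)).differentiableAt (by simp))
    (h S (a, b) _ hx (by rw [hl q hqφ]; exact hq.2.2)) z)
  rw [eventually_nhdsWithin_iff]
  filter_upwards [(φ.continuousAt hqφ).eventually h1, φ.open_source.mem_nhds hqφ]
    with y hy hy' hne hs
  refine hy (fun he => hne (φ.injOn hy' hqφ he)) ?_
  rw [hl y hy']
  exact hs.2.2

theorem ncard_insert (hf : Sm f) (hC : IsClopen C) (h : Reg A f c z)
    {S : Finset (Fin A.n × Fin A.n)} {i : Fin A.n × Fin A.n} (hi : i ∉ S) :
    ((Sol A f c C z (insert i S)).ncard : ZMod 2) = ((Sol A f c C z S).ncard : ZMod 2) := by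
  let B : Set (E × E) := closedBall 0 1 ×ˢ closedBall 0 1
  have hB : B ⊆ tg A i := prod_mono ((closedBall_subset_closedBall (by norm_num)).trans (A.sub _))
    ((closedBall_subset_closedBall (by norm_num)).trans (A.sub _))
  have hBc : IsCompact B := (isCompact_closedBall _ _).prod (isCompact_closedBall _ _)
  let U : Set (E × E) := tg A i ∩ ch A i ⁻¹' (C ×ˢ C)
  let K : Set (E × E) := B ∩ ch A i ⁻¹' (C ×ˢ C)
  have hU : IsOpen U := (continuousOn_ch i).isOpen_inter_preimage (isOpen_tg i) (hC.2.prod hC.2)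
  have hK : IsCompact K := hBc.of_isClosed_subset
    (((continuousOn_ch i).mono hB).preimage_isClosed_of_isClosed hBc.isClosed (hC.1.prod hC.1))
    inter_subset_left
  have hKU : K ⊆ U := inter_subset_inter_left _ hB
  have hout : ∀ q : M × M, q ∉ ch A i '' B → GS A f c (insert i S) q = GS A f c S q := by
    intro q hq
    have : A.ρ i.1 q.1 * A.ρ i.2 q.2 = 0 := by
      by_contra h0
      obtain ⟨h1, h2⟩ := A.supp _ _ (left_ne_zero_of_mul h0)
      obtain ⟨h3, h4⟩ := A.supp _ _ (right_ne_zero_of_mul h0)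
      exact hq ⟨((A.c i.1).e q.1, (A.c i.2).e q.2),
        ⟨mem_closedBall_zero_iff.2 h2.le, mem_closedBall_zero_iff.2 h4.le⟩,
        Prod.ext ((A.c i.1).e.left_inv h1) ((A.c i.2).e.left_inv h3)⟩
    simp only [GS, Finset.sum_insert hi, this, zero_add]
  have hreg : ∀ S', ∀ x ∈ U, GS A f c S' (ch A i x) - z = 0 →
      Function.Injective (fderiv ℝ (fun x => GS A f c S' (ch A i x) - z) x) := fun S' x hx h0 => by
    rw [fderiv_sub_const]
    exact h S' i x hx.1 (sub_eq_zero.1 h0)
  have key := parity_local hU hK hKU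
    (((contDiffOn_GS (c := c) hf (insert i S) i).mono inter_subset_left).sub
      (contDiffOn_const (c := z)))
    (((contDiffOn_GS (c := c) hf S i).mono inter_subset_left).sub (contDiffOn_const (c := z)))
    (fun x hx hx' => by
      rw [hout]
      rintro ⟨y, hy, he⟩
      exact hx' ⟨injOn_ch i (hB hy) hx.1 he ▸ hy, hx.2⟩) (hreg _) (hreg _)
  have hin : ∀ S', (Sol A f c C z S' ∩ ch A i '' B).ncard =
      {x ∈ K | GS A f c S' (ch A i x) - z = 0}.ncard := fun S' => by
    rw [← ((injOn_ch i).mono fun x (hx : x ∈ {x ∈ K | GS A f c S' (ch A i x) - z = 0}) =>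
      hB hx.1.1).ncard_image]
    congr 1
    ext q
    constructor
    · rintro ⟨hq, x, hx, rfl⟩
      exact ⟨x, ⟨⟨hx, hq.1, hq.2.1⟩, sub_eq_zero.2 hq.2.2⟩, rfl⟩
    · rintro ⟨x, hx, rfl⟩
      exact ⟨⟨hx.1.2.1, hx.1.2.2, sub_eq_zero.1 hx.2⟩, x, hx.1.1, rfl⟩
  have hdiff : Sol A f c C z (insert i S) \ ch A i '' B = Sol A f c C z S \ ch A i '' B := by
    ext q
    refine and_congr_left fun hq => ?_
    simp only [Sol, mem_ofPred_eq, hout q hq]
  rw [← ncard_inter_add_ncard_sdiff_eq_ncard _ (ch A i '' B) (finite_Sol hf hC h (insert i S)),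
    ← ncard_inter_add_ncard_sdiff_eq_ncard _ (ch A i '' B) (finite_Sol hf hC h S), hin, hin, hdiff]
  push_cast
  rw [key]

theorem ncard_eq (hf : Sm f) (hC : IsClopen C) (h : Reg A f c z)
    (S : Finset (Fin A.n × Fin A.n)) :
    ((Sol A f c C z S).ncard : ZMod 2) = ((Sol A f c C z ∅).ncard : ZMod 2) := by
  induction S using Finset.induction_on with
  | empty => rfl
  | insert i S hi ih => rw [ncard_insert hf hC h hi, ih]

end TopCAux

/-- For almost every `z` the equation `f p - f q = z` has an even (finite) number of solutions. -/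
theorem parity_ae {f : M → V4} (hf : Sm f) {C : Set M} (hC : IsClopen C) :
    ∀ᵐ z : V4, {q : M × M | q.1 ∈ C ∧ q.2 ∈ C ∧ f q.1 - f q.2 = z}.Finite ∧
      Even {q : M × M | q.1 ∈ C ∧ q.2 ∈ C ∧ f q.1 - f q.2 = z}.ncard := by
  obtain ⟨A⟩ := exists_atl (M := M)
  obtain ⟨R, hR⟩ := isCompact_univ.exists_bound_of_continuousOn hf.continuous.continuousOn
  have h := MeasureTheory.ae_all_iff.2 fun n : ℕ => TopCAux.ae_reg (A := A)
    (c := EuclideanSpace.single 0 (2 * |R| + n + 1)) hf
  filter_upwards [h] with z hz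
  obtain ⟨n, hn⟩ := exists_nat_ge ‖z‖
  set c : V4 := EuclideanSpace.single 0 (2 * |R| + n + 1) with hc
  have e0 : TopCAux.Sol A f c C z ∅ = {q : M × M | q.1 ∈ C ∧ q.2 ∈ C ∧ f q.1 - f q.2 = z} := by
    simp [TopCAux.Sol, TopCAux.GS]
  have e1 : TopCAux.Sol A f c C z Finset.univ = ∅ := by
    refine eq_empty_of_forall_notMem fun q hq => ?_
    have h1 := hq.2.2
    simp only [TopCAux.GS, Fintype.sum_prod_type, ← Finset.sum_mul_sum, A.sum, one_mul,
      one_smul] at h1
    have h2 : ‖c‖ = 2 * |R| + n + 1 := by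
      rw [hc, PiLp.norm_single, Real.norm_of_nonneg (by positivity)]
    have h3 : c = z - f q.1 + f q.2 := by rw [← h1]; abel
    have h4 := (norm_add_le (z - f q.1) (f q.2)).trans
      (add_le_add_left (norm_sub_le z (f q.1)) _)
    rw [← h3, h2] at h4
    linarith [hR q.1 trivial, hR q.2 trivial, le_abs_self R]
  have h1 := TopCAux.ncard_eq hf hC (hz n) Finset.univ
  rw [e1, e0, ncard_empty, Nat.cast_zero] at h1
  exact ⟨e0 ▸ TopCAux.finite_Sol hf hC (hz n) ∅, ZMod.natCast_eq_zero_iff_even.1 h1.symm⟩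

end Crest.Agent.R216
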