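import Crest.Agent.R216.Man

/-!
# Row 216: formal immersions (definitions for the topological part)
-/

set_option autoImplicit false

noncomputable section

namespace Crest.Agent.R216

open Set Metric Filter
open scoped Manifold ContDiff Topology RealInnerProductSpace

variable {M : Type*} [TopologicalSpace M] [ChartedSpace E M]
variable {V : Type*} [NormedAddCommGroup V] [NormedSpace ℝ V]

/-- Immersions. -/
def Imm (F : M → V) : Prop := ∀ p, Function.Injective (dM F p)

/-- A vector valued one-form read in a chart. -/
def Ch.rdL (c : Ch M) (L : M → E →L[ℝ] V) (x : E) : E →L[ℝ] V := (L (c.e.symm x)).comp (c.dP x)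

/-- Formal immersions: smooth fields of injective linear maps. -/
structure Fml (L : M → E →L[ℝ] V) : Prop where
  sm : ∀ c : Ch M, ContDiffOn ℝ ∞ (c.rdL L) c.e.target
  inj : ∀ p, Function.Injective (L p)

/-- The points where `n` is tangent. -/
def Zs (L : M → E →L[ℝ] V) (n : M → V) : Set M := {p | ∃ v, L p v = n p}

/-- All the points where `n` is tangent are nondegenerate. -/
def ND (L : M → E →L[ℝ] V) (n : M → V) : Prop :=
  ∀ (c : Ch M) (x v : E), x ∈ c.e.target → c.rdL L x v = c.rd n x →
    Function.Injective (fderiv ℝ (fun q : E × E => c.rdL L q.1 q.2 - c.rd n q.1) (x, v))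

end Crest.Agent.R216
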