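import Crest.Agent.R216.TopB

/-!
# Row 216: moving and cancelling tangencies
-/

set_option autoImplicit false
set_option linter.unusedSectionVars false

noncomputable section

namespace Crest.Agent.R216

open Set Metric Filter
open scoped Manifold ContDiff Topology RealInnerProductSpace

namespace TopEAux

theorem exists_compl (L : E →L[ℝ] V4) (hL : Function.Injective L) :
    ∃ A : (E × E) ≃L[ℝ] V4, ∀ v, A (v, 0) = L v := by
  obtain ⟨q, hq⟩ := Submodule.exists_isCompl (LinearMap.range (L : E →ₗ[ℝ] V4))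
  have h1 : Module.finrank ℝ (LinearMap.range (L : E →ₗ[ℝ] V4)) = 2 := by
    rw [LinearMap.finrank_range_of_inj hL]; simp
  have h2 : Module.finrank ℝ E = Module.finrank ℝ q := by
    have := Submodule.finrank_add_eq_of_isCompl hq
    simp only [finrank_euclideanSpace, Fintype.card_fin] at this ⊢
    omega
  let A0 : (E × E) ≃ₗ[ℝ] V4 :=
    ((LinearEquiv.ofInjective (L : E →ₗ[ℝ] V4) hL).prodCongr (LinearEquiv.ofFinrankEq E q h2)).trans
      (Submodule.prodEquivOfIsCompl _ _ hq)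
  refine ⟨A0.toContinuousLinearEquiv, fun v => ?_⟩
  simp [A0]

theorem exists_equiv (T : (E × E) →L[ℝ] V4) (hT : Function.Injective T) :
    ∃ A : (E × E) ≃L[ℝ] V4, (A : (E × E) →L[ℝ] V4) = T := by
  refine ⟨(LinearMap.linearEquivOfInjective (T : (E × E) →ₗ[ℝ] V4) hT
    (by simp)).toContinuousLinearEquiv, ?_⟩
  exact ContinuousLinearMap.ext fun _ => rfl

/-- The rescaling `z ↦ r⁻¹ (z - y)`. -/
def resc (y : E) (r : ℝ) (hr : r ≠ 0) : E ≃ₜ E where
  toFun z := r⁻¹ • (z - y)
  invFun z := y + r • z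
  left_inv z := by simp [smul_smul, hr]
  right_inv z := by simp [smul_smul, hr]
  continuous_toFun := by fun_prop
  continuous_invFun := by fun_prop

/-- The derivative of the tangency equation at a zero, in a frame. -/
theorem hasFDerivAt_frame {A : E → (E × E) →L[ℝ] V4} {N : E → E × E} {z v : E}
    {N' : E →L[ℝ] E × E} (hA : DifferentiableAt ℝ A z) (hN : HasFDerivAt N N' z)
    (h0 : N z = (v, 0)) :
    HasFDerivAt (fun q : E × E => A q.1 ((q.2, 0) - N q.1))
      ((A z).comp ((ContinuousLinearMap.inl ℝ E E).comp (ContinuousLinearMap.snd ℝ E E)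
        - N'.comp (ContinuousLinearMap.fst ℝ E E))) (z, v) := by
  have h1 : HasFDerivAt (fun q : E × E => A q.1)
      ((fderiv ℝ A z).comp (ContinuousLinearMap.fst ℝ E E)) (z, v) :=
    HasFDerivAt.comp (z, v) (g := A) hA.hasFDerivAt hasFDerivAt_fst
  have h2 : HasFDerivAt (fun q : E × E => ((q.2, 0) : E × E))
      ((ContinuousLinearMap.inl ℝ E E).comp (ContinuousLinearMap.snd ℝ E E)) (z, v) :=
    ((ContinuousLinearMap.inl ℝ E E).comp (ContinuousLinearMap.snd ℝ E E)).hasFDerivAt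
  have h3 : HasFDerivAt (fun q : E × E => N q.1)
      (N'.comp (ContinuousLinearMap.fst ℝ E E)) (z, v) :=
    HasFDerivAt.comp (z, v) (g := N) hN hasFDerivAt_fst
  have h4 := h1.clm_apply (h2.fun_sub h3)
  simpa [h0] using h4

end TopEAux

variable {M : Type*} [TopologicalSpace M] [T2Space M] [CompactSpace M] [ChartedSpace E M]
  [IsManifold (𝓡 2) ∞ M]

theorem TopEAux.dP_inj (c : Ch M) {y : E} (hy : y ∈ c.e.target) : Function.Injective (c.dP y) :=
  fun v w h => by rw [← c.dQ_dP hy v, h, c.dQ_dP hy w]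

theorem TopEAux.mem_Zs (c : Ch M) (L : M → E →L[ℝ] V4) (n : M → V4) {y : E}
    (hy : y ∈ c.e.target) : c.e.symm y ∈ Zs L n ↔ ∃ v, c.rdL L y v = c.rd n y := by
  constructor
  · rintro ⟨v, hv⟩
    refine ⟨c.dQ (c.e.symm y) v, ?_⟩
    have := c.dP_dQ (c.e.map_target hy) v
    rw [c.e.right_inv hy] at this
    simp only [Ch.rdL, ContinuousLinearMap.comp_apply, this, Ch.rd, hv]
  · rintro ⟨v, hv⟩
    exact ⟨c.dP y v, hv⟩

/-- Local frame: near every point there is a chart onto a set containing the ball of radius `3`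
in which `L` is the standard inclusion `v ↦ (v, 0)` for a smooth frame `A`. -/
theorem exists_frame {L : M → E →L[ℝ] V4} (hL : Fml L) (x : M) {W : Set M} (hW : W ∈ 𝓝 x) :
    ∃ (c : Ch M) (A : E → (E × E) ≃L[ℝ] V4), x ∈ c.e.source ∧ c.e x = 0 ∧
      closedBall (0 : E) 3 ⊆ c.e.target ∧ c.e.symm '' closedBall 0 3 ⊆ W ∧
      ContDiffOn ℝ ∞ (fun y => (A y : E × E →L[ℝ] V4)) (ball 0 3) ∧
      ContDiffOn ℝ ∞ (fun y => ((A y).symm : V4 →L[ℝ] E × E)) (ball 0 3) ∧
      ∀ y ∈ ball (0 : E) 3, ∀ v, c.rdL L y v = A y (v, 0) := by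
  obtain ⟨c0, hc0⟩ := exists_ch_chartAt x
  have hx0 : x ∈ c0.e.source := hc0 ▸ mem_chart_source E x
  have hy0 : c0.e x ∈ c0.e.target := c0.e.map_source hx0
  have hinj : Function.Injective (c0.rdL L (c0.e x)) :=
    (hL.inj _).comp (TopEAux.dP_inj c0 hy0)
  obtain ⟨A0, hA0⟩ := TopEAux.exists_compl _ hinj
  let B : (E × E) →L[ℝ] V4 := (A0 : (E × E) →L[ℝ] V4).comp
    ((ContinuousLinearMap.inr ℝ E E).comp (ContinuousLinearMap.snd ℝ E E))
  let T : Ch M → E → (E × E) →L[ℝ] V4 := fun c y =>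
    (c.rdL L y).comp (ContinuousLinearMap.fst ℝ E E) + B
  have hT : ∀ c : Ch M, ContDiffOn ℝ ∞ (T c) c.e.target := fun c =>
    ((hL.sm c).clm_comp contDiffOn_const).add contDiffOn_const
  have hT0 : T c0 (c0.e x) = A0 := by
    refine ContinuousLinearMap.ext fun ⟨v, w⟩ => ?_
    simp only [T, B, add_apply, ContinuousLinearMap.comp_apply,
      ContinuousLinearMap.coe_fst', ContinuousLinearMap.coe_snd', ContinuousLinearMap.inr_apply,
      ContinuousLinearEquiv.coe_coe, ← hA0, ← map_add]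
    simp
  have hU1 : ∀ᶠ y in 𝓝 (c0.e x), T c0 y ∈ range ((↑) : ((E × E) ≃L[ℝ] V4) → (E × E) →L[ℝ] V4) :=
    ((hT c0).continuousOn.continuousAt (c0.e.open_target.mem_nhds hy0)).eventually_mem
      (ContinuousLinearEquiv.isOpen.mem_nhds ⟨A0, hT0.symm⟩)
  have hU2 : ∀ᶠ y in 𝓝 (c0.e x), y ∈ c0.e.target := c0.e.open_target.mem_nhds hy0
  have hU3 : ∀ᶠ y in 𝓝 (c0.e x), c0.e.symm y ∈ W :=
    (c0.e.continuousAt_symm hy0).eventually_mem (by rwa [c0.e.left_inv hx0])
  obtain ⟨ε, hε, hball⟩ := Metric.nhds_basis_closedBall.eventually_iff.mp (hU1.and (hU2.and hU3))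
  have hr : ε / 3 ≠ 0 := by positivity
  let φ := TopEAux.resc (c0.e x) (ε / 3) hr
  have hφs : ∀ z, φ.symm z = c0.e x + (ε / 3) • z := fun _ => rfl
  have hφ : ∀ z, φ z = (ε / 3)⁻¹ • (z - c0.e x) := fun _ => rfl
  obtain ⟨c, hcs, hct, hce, hcsy⟩ := c0.exists_trans φ
    (show ContDiff ℝ ∞ fun z : E => (ε / 3)⁻¹ • (z - c0.e x) by fun_prop)
    (show ContDiff ℝ ∞ fun z : E => c0.e x + (ε / 3) • z by fun_prop)
  have hmem : ∀ z ∈ closedBall (0 : E) 3, φ.symm z ∈ closedBall (c0.e x) ε := by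
    intro z hz
    rw [mem_closedBall_zero_iff] at hz
    rw [hφs, mem_closedBall, dist_eq_norm, add_sub_cancel_left, norm_smul, Real.norm_eq_abs,
      abs_of_pos (by positivity)]
    nlinarith
  have htar : closedBall (0 : E) 3 ⊆ c.e.target := fun z hz => by
    rw [hct]
    exact ⟨φ.symm z, (hball (hmem z hz)).2.1, φ.apply_symm_apply z⟩
  have hrd : ∀ z ∈ c.e.target, ∀ v, c.rdL L z v = c0.rdL L (φ.symm z) ((ε / 3) • v) := by
    intro z hz v
    have hz0 : φ.symm z ∈ c0.e.target := by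
      rw [hct] at hz
      obtain ⟨w, hw, rfl⟩ := hz
      rwa [φ.symm_apply_apply]
    have hp : c.e.symm z ∈ c0.e.source := hcs ▸ c.e.map_target hz
    have h1 := c.fderiv_tr c0 hz hp v
    have h2 : c.tr c0 =ᶠ[𝓝 z] fun w => c0.e x + (ε / 3) • w := by
      filter_upwards [c.e.open_target.mem_nhds hz] with w hw
      have hw0 : φ.symm w ∈ c0.e.target := by
        rw [hct] at hw
        obtain ⟨w', hw', rfl⟩ := hw
        rwa [φ.symm_apply_apply]
      rw [Ch.tr, hcsy, c0.e.right_inv hw0, hφs]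
    have h3 : HasFDerivAt (fun w : E => c0.e x + (ε / 3) • w)
        ((ε / 3) • ContinuousLinearMap.id ℝ E) z :=
      ((hasFDerivAt_id z).const_smul (ε / 3)).const_add _
    rw [h2.fderiv_eq, h3.fderiv] at h1
    have h4 := c0.dP_dQ hp (c.dP z v)
    rw [← h1, hcsy, c0.e.right_inv hz0] at h4
    simp only [Ch.rdL, ContinuousLinearMap.comp_apply, hcsy, ← h4]
    simp
  have hex : ∀ z : E, ∃ A : (E × E) ≃L[ℝ] V4, z ∈ ball (0 : E) 3 →
      (A : (E × E) →L[ℝ] V4) = T c z := by
    intro z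
    by_cases hz : z ∈ ball (0 : E) 3
    · have hz' := ball_subset_closedBall hz
      obtain ⟨A1, hA1⟩ := (hball (hmem z hz')).1
      have : Function.Injective (T c z) := by
        rintro ⟨v, w⟩ ⟨v', w'⟩ h
        have e : ∀ v w, T c z (v, w) = A1 ((ε / 3) • v, w) := by
          intro v w
          have : A1 ((ε / 3) • v, w) = T c0 (φ.symm z) ((ε / 3) • v, w) := by rw [← hA1]; rfl
          rw [this]
          simp only [T, B, add_apply, ContinuousLinearMap.comp_apply,
            ContinuousLinearMap.coe_fst', ContinuousLinearMap.coe_snd', hrd z (htar hz')]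
        rw [e, e] at h
        have h' := A1.injective h
        simp only [Prod.mk.injEq] at h' ⊢
        exact ⟨smul_right_injective E hr h'.1, h'.2⟩
      obtain ⟨A, hA⟩ := TopEAux.exists_equiv _ this
      exact ⟨A, fun _ => hA⟩
    · exact ⟨A0, fun h => absurd h hz⟩
  choose A hA using hex
  have hTc : ContDiffOn ℝ ∞ (T c) (ball 0 3) := (hT c).mono (ball_subset_closedBall.trans htar)
  refine ⟨c, A, hcs ▸ hx0, by rw [hce, hφ]; simp, htar, ?_, hTc.congr hA, ?_, ?_⟩
  · rintro _ ⟨z, hz, rfl⟩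
    rw [hcsy]
    exact (hball (hmem z hz)).2.2
  · have : ContDiffOn ℝ ∞ (fun y => (T c y).inverse) (ball 0 3) := by
      intro y hy
      have h1 : ContDiffAt ℝ ∞ ContinuousLinearMap.inverse (T c y) := by
        rw [← hA y hy]
        exact contDiffAt_map_inverse _
      exact h1.comp_contDiffWithinAt y (hTc y hy)
    refine this.congr fun y hy => ?_
    rw [← hA y hy, ContinuousLinearMap.inverse_equiv]
  · intro y hy v
    have : A y (v, 0) = T c y (v, 0) := by rw [← hA y hy]; rfl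
    rw [this]
    simp [T, B]

theorem move_zero {L : M → E →L[ℝ] V4} (hL : Fml L) (x : M) {W : Set M} (hW : W ∈ 𝓝 x) :
    ∃ V ∈ 𝓝 x, V ⊆ W ∧ ∀ n : M → V4, Sm n → ND L n → ∀ p ∈ V, ∀ q ∈ V, Zs L n ∩ W = {p} →
      ∃ n' : M → V4, Sm n' ∧ ND L n' ∧ Zs L n' = insert q (Zs L n \ {p}) := by
  obtain ⟨c, A, hxs, hx0, htar, hWc, hA, hA', hLA⟩ := exists_frame hL x hW
  have hb3 : ball (0 : E) 3 ⊆ c.e.target := ball_subset_closedBall.trans htar
  have hsub : ∀ {r : ℝ}, r < 3 → closedBall (0 : E) r ⊆ ball 0 3 := fun h =>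
    closedBall_subset_ball h
  have hhalf : ball (0 : E) (1 / 2) ⊆ ball 0 3 := ball_subset_ball (by norm_num)
  refine ⟨c.e.symm '' ball 0 (1 / 2), ?_, ?_, ?_⟩
  · have := c.e.symm.image_mem_nhds (x := 0) (hb3 (mem_ball_self (by norm_num)))
      (ball_mem_nhds (0 : E) (ε := 1 / 2) (by norm_num))
    rwa [← hx0, c.e.left_inv hxs, hx0] at this
  · exact (image_mono (hhalf.trans ball_subset_closedBall)).trans hWc
  rintro n hn hnd _ ⟨p, hp, rfl⟩ _ ⟨q, hq, rfl⟩ hZ
  -- the components of `n` in the frame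
  let N : E → E × E := fun z => ((A z).symm : V4 →L[ℝ] E × E) (c.rd n z)
  have hN : ContDiffOn ℝ ∞ N (ball 0 3) := hA'.clm_apply ((c.contDiffOn_rd hn).mono hb3)
  have hAN : ∀ z, A z (N z) = c.rd n z := fun z => by simp [N]
  have hzero : ∀ (m : M → V4) (z : E) (a : E × E), z ∈ ball (0 : E) 3 → c.rd m z = A z a →
      (c.e.symm z ∈ Zs L m ↔ a.2 = 0) := by
    intro m z a hz ha
    rw [TopEAux.mem_Zs c L m (hb3 hz), ha]
    constructor
    · rintro ⟨v, hv⟩
      rw [hLA z hz] at hv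
      rw [← (A z).injective hv]
    · intro h
      exact ⟨a.1, by rw [hLA z hz, ← h]⟩
  have hNz : ∀ z ∈ ball (0 : E) 3, (N z).2 = 0 ↔ z = p := by
    intro z hz
    rw [← hzero n z (N z) hz (hAN z).symm]
    constructor
    · intro h
      have : c.e.symm z ∈ Zs L n ∩ W := ⟨h, hWc ⟨z, ball_subset_closedBall hz, rfl⟩⟩
      rw [hZ] at this
      exact c.e.symm.injOn (hb3 hz) (hb3 (hhalf hp)) this
    · rintro rfl
      have : c.e.symm z ∈ Zs L n ∩ W := by rw [hZ]; rfl
      exact this.1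
  -- the translation
  let χ : ContDiffBump (0 : E) := ⟨1, 3 / 2, by norm_num, by norm_num⟩
  let φ : E → E := fun z => z + χ z • (p - q)
  have hφ : ContDiff ℝ ∞ φ := contDiff_id.add (χ.contDiff.smul contDiff_const)
  have hpn : ‖p‖ < 1 / 2 := mem_ball_zero_iff.mp hp
  have hqn : ‖q‖ < 1 / 2 := mem_ball_zero_iff.mp hq
  have hφ1 : ∀ z : E, 3 / 2 ≤ ‖z‖ → φ z = z := by
    intro z hz
    have : χ z = 0 := χ.zero_of_le_dist (by simpa using hz)
    simp [φ, this]
  have hφ3 : ∀ z ∈ ball (0 : E) 3, φ z ∈ ball (0 : E) 3 := by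
    intro z hz
    by_cases h : 3 / 2 ≤ ‖z‖
    · rwa [hφ1 z h]
    · rw [mem_ball_zero_iff]
      have h1 : ‖χ z • (p - q)‖ ≤ 1 := by
        rw [norm_smul, Real.norm_eq_abs, abs_of_nonneg χ.nonneg]
        have := norm_sub_le p q
        have h2 : χ z ≤ 1 := χ.le_one
        have h3 : 0 ≤ χ z := χ.nonneg
        nlinarith [norm_nonneg (p - q)]
      have := norm_add_le z (χ z • (p - q))
      simp only [φ]
      linarith
  have hχ1 : ∀ z ∈ ball (0 : E) (1 / 2), χ =ᶠ[𝓝 z] 1 := fun z hz =>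
    χ.eventuallyEq_one_of_mem_ball (ball_subset_ball (by norm_num [χ]) hz)
  have hφp : ∀ z : E, φ z = p ↔ z = q := by
    intro z
    constructor
    · intro h
      have h1 : z = (1 - χ z) • p + χ z • q := by
        have : z = p - χ z • (p - q) := eq_sub_of_add_eq h
        rw [sub_smul, one_smul]
        conv_lhs => rw [this]
        rw [smul_sub]; abel
      have h2 : z ∈ ball (0 : E) (1 / 2) := by
        rw [h1]
        exact convex_ball _ _ hp hq (sub_nonneg.mpr χ.le_one) χ.nonneg (by ring)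
      have h3 : χ z = 1 := (hχ1 z h2).eq_of_nhds
      rw [h1, h3]; simp
    · rintro rfl
      have h3 : χ z = 1 := (hχ1 z hq).eq_of_nhds
      simp [φ, h3]
  let g : E → V4 := fun z => (A z : E × E →L[ℝ] V4) (N (φ z) - N z)
  have hg0 : ∀ z : E, 3 / 2 ≤ ‖z‖ → g z = 0 := fun z hz => by simp [g, hφ1 z hz]
  have hg : ContDiffOn ℝ ∞ g c.e.target := by
    intro z _
    refine ContDiffAt.contDiffWithinAt ?_
    by_cases hz : z ∈ ball (0 : E) 3
    · exact (hA.clm_apply ((hN.comp hφ.contDiffOn hφ3).sub hN)).contDiffAt (isOpen_ball.mem_nhds hz)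
    · have hz' : 3 / 2 < ‖z‖ := by
        rw [mem_ball_zero_iff] at hz; linarith
      have : g =ᶠ[𝓝 z] fun _ => 0 := by
        filter_upwards [(isOpen_lt continuous_const continuous_norm).mem_nhds hz'] with w hw
        exact hg0 w (le_of_lt hw)
      exact contDiffAt_const.congr_of_eventuallyEq this
  have hK : IsCompact (closedBall (0 : E) 2) := isCompact_closedBall _ _
  have hKc : closedBall (0 : E) 2 ⊆ c.e.target := (hsub (by norm_num)).trans hb3
  have hK0 : ∀ z ∈ c.e.target, z ∉ closedBall (0 : E) 2 → g z = 0 := fun z _ hz =>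
    hg0 z (by rw [mem_closedBall_zero_iff] at hz; linarith)
  let n' : M → V4 := fun m => n m + c.ext g m
  have hn' : Sm n' := hn.add (c.sm_ext hg hK hKc hK0)
  have hrd : ∀ z ∈ ball (0 : E) 3, c.rd n' z = A z (N (φ z)) := by
    intro z hz
    have h1 : c.rd n' z = c.rd n z + c.rd (c.ext g) z := rfl
    rw [h1, c.rd_ext g (hb3 hz), ← hAN]
    simp [g]
  have hin : ∀ z ∈ ball (0 : E) 3, c.e.symm z ∈ Zs L n' ↔ z = q := by
    intro z hz
    rw [hzero n' z _ hz (hrd z hz), hNz _ (hφ3 z hz), hφp]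
  have hout : ∀ m ∉ c.e.symm '' closedBall 0 2, n' =ᶠ[𝓝 m] n := by
    intro m hm
    filter_upwards [c.ext_eventually_zero hK hKc hK0 hm] with a ha
    simp [n', ha]
  have hhalf2 : ball (0 : E) (1 / 2) ⊆ closedBall 0 2 :=
    ball_subset_closedBall.trans (closedBall_subset_closedBall (by norm_num))
  refine ⟨n', hn', nd_of_ch hL hn' fun m hm => ?_, ?_⟩
  · by_cases hmK : m ∈ c.e.symm '' closedBall 0 2
    · obtain ⟨z, hz, rfl⟩ := hmK
      obtain rfl := (hin z (hsub (by norm_num) hz)).mp hm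
      have hz3 := hhalf hq
      have hp3 := hhalf hp
      refine ⟨c, c.e.map_target (hb3 hz3), fun v hv => ?_⟩
      rw [c.e.right_inv (hb3 hz3)] at hv ⊢
      have hφz : φ z = p := (hφp z).mpr rfl
      have hv' : N p = (v, 0) := by
        have : c.rd n' z = n' (c.e.symm z) := rfl
        rw [← this, hrd z hz3, hLA z hz3, hφz] at hv
        exact ((A z).injective hv).symm
      have hNp : HasFDerivAt N (fderiv ℝ N p) p :=
        ((hN.contDiffAt (isOpen_ball.mem_nhds hp3)).differentiableAt (by simp)).hasFDerivAt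
      have hdφ : HasFDerivAt φ (ContinuousLinearMap.id ℝ E) z := by
        have : φ =ᶠ[𝓝 z] fun w => w + (p - z) := by
          filter_upwards [hχ1 z hq] with w hw
          simp only [Pi.one_apply] at hw
          simp [φ, hw]
        exact ((hasFDerivAt_id z).add_const _).congr_of_eventuallyEq this
      have hNz' : HasFDerivAt (fun w => N (φ w)) (fderiv ℝ N p) z := by
        have h1 : HasFDerivAt N (fderiv ℝ N p) (φ z) := by rw [hφz]; exact hNp
        have := HasFDerivAt.comp z (g := N) h1 hdφ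
        rw [ContinuousLinearMap.comp_id] at this
        exact this
      have hAd : ∀ y ∈ ball (0 : E) 3, DifferentiableAt ℝ (fun y => (A y : E × E →L[ℝ] V4)) y :=
        fun y hy => (hA.contDiffAt (isOpen_ball.mem_nhds hy)).differentiableAt (by simp)
      have d1 := TopEAux.hasFDerivAt_frame (hAd p hp3) hNp hv'
      have d2 := TopEAux.hasFDerivAt_frame (hAd z hz3) hNz' (v := v) (by rw [hφz, hv'])
      have ev : ∀ y ∈ ball (0 : E) 3, ∀ᶠ a : E × E in 𝓝 (y, v), a.1 ∈ ball (0 : E) 3 := fun y hy =>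
        continuousAt_fst.eventually_mem (isOpen_ball.mem_nhds hy)
      have e1 : (fun a : E × E => c.rdL L a.1 a.2 - c.rd n a.1) =ᶠ[𝓝 (p, v)]
          fun a : E × E => (A a.1 : E × E →L[ℝ] V4) ((a.2, 0) - N a.1) := by
        filter_upwards [ev p hp3] with a ha
        rw [hLA _ ha, ← hAN]; simp
      have e2 : (fun a : E × E => c.rdL L a.1 a.2 - c.rd n' a.1) =ᶠ[𝓝 (z, v)]
          fun a : E × E => (A a.1 : E × E →L[ℝ] V4) ((a.2, 0) - N (φ a.1)) := by
        filter_upwards [ev z hz3] with a ha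
        rw [hLA _ ha, hrd _ ha]; simp
      have i1 := hnd c p v (hb3 hp3) (by rw [hLA p hp3, ← hAN, hv'])
      rw [e1.fderiv_eq, d1.fderiv] at i1
      rw [e2.fderiv_eq, d2.fderiv]
      simp only [ContinuousLinearMap.coe_comp, ContinuousLinearEquiv.coe_coe] at i1 ⊢
      exact (A z).injective.comp i1.of_comp
    · obtain ⟨c1, hc1⟩ := exists_ch_chartAt m
      have hm1 : m ∈ c1.e.source := hc1 ▸ mem_chart_source E m
      refine ⟨c1, hm1, fun v hv => ?_⟩
      have hy1 := c1.e.map_source hm1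
      have e0 : c1.rd n' =ᶠ[𝓝 (c1.e m)] c1.rd n := by
        have h1 : Tendsto c1.e.symm (𝓝 (c1.e m)) (𝓝 m) := by
          have := c1.e.continuousAt_symm hy1
          rwa [ContinuousAt, c1.e.left_inv hm1] at this
        exact h1.eventually (hout m hmK)
      have e1 : (fun a : E × E => c1.rdL L a.1 a.2 - c1.rd n' a.1) =ᶠ[𝓝 (c1.e m, v)]
          fun a : E × E => c1.rdL L a.1 a.2 - c1.rd n a.1 := by
        have h1 : Tendsto (Prod.fst : E × E → E) (𝓝 (c1.e m, v)) (𝓝 (c1.e m)) := continuousAt_fst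
        filter_upwards [h1.eventually e0] with a ha
        rw [ha]
      rw [e1.fderiv_eq]
      refine hnd c1 _ v hy1 ?_
      rw [hv, Ch.rd, c1.e.left_inv hm1]
      exact (hout m hmK).eq_of_nhds
  · ext m
    by_cases hmK : m ∈ c.e.symm '' closedBall 0 2
    · obtain ⟨z, hz, rfl⟩ := hmK
      have hz3 := hsub (by norm_num) hz
      rw [hin z hz3]
      constructor
      · rintro rfl
        exact mem_insert _ _
      · rintro (h | ⟨h, h'⟩)
        · exact c.e.symm.injOn (hb3 hz3) (hb3 (hhalf hq)) h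
        · have : c.e.symm z ∈ Zs L n ∩ W := ⟨h, hWc ⟨z, ball_subset_closedBall hz3, rfl⟩⟩
          rw [hZ] at this
          exact absurd this h'
    · have h1 : n' m = n m := (hout m hmK).eq_of_nhds
      have h2 : m ∈ Zs L n' ↔ m ∈ Zs L n := by simp only [Zs, mem_ofPred_eq, h1]
      have h3 : m ≠ c.e.symm q := fun h => hmK ⟨q, hhalf2 hq, h.symm⟩
      have h4 : m ≠ c.e.symm p := fun h => hmK ⟨p, hhalf2 hp, h.symm⟩
      simp [h2, h3, h4]

end Crest.Agent.R216
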