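import Mathlib

/-!
# Row 216: cancelling two tangencies, the model over `ℂ`
-/

set_option autoImplicit false

noncomputable section

namespace Crest.Agent.R216.TopFAux

open Set Metric Filter Complex
open scoped ContDiff Topology ComplexConjugate

/-- `z` or `conj z`. -/
def sg (s : Bool) (z : ℂ) : ℂ := if s then z else conj z

theorem contDiff_conj : ContDiff ℝ ∞ fun z : ℂ => conj z := Complex.conjCLE.contDiff

theorem contDiff_sg (s : Bool) : ContDiff ℝ ∞ (sg s) := by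
  cases s
  · exact contDiff_conj
  · exact contDiff_id

theorem norm_sg (s : Bool) (z : ℂ) : ‖sg s z‖ = ‖z‖ := by
  cases s <;> simp [sg]

theorem sg_ne {s : Bool} {z : ℂ} (h : z ≠ 0) : sg s z ≠ 0 := by
  rw [← norm_ne_zero_iff, norm_sg]
  exact norm_ne_zero_iff.2 h

theorem sg_mul (s : Bool) (z w : ℂ) : sg s (z * w) = sg s z * sg s w := by
  cases s <;> simp [sg]

theorem sg_real (s : Bool) (r : ℝ) : sg s r = r := by
  cases s <;> simp [sg]

theorem sg_mul_not {s s' : Bool} (h : s ≠ s') (z : ℂ) : sg s z * sg s' z = (‖z‖ ^ 2 : ℝ) := by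
  cases s <;> cases s' <;> simp [sg, Complex.mul_conj', Complex.conj_mul'] at h ⊢

/-- An injective real linear map of the plane has a dominant conformal or anticonformal part. -/
theorem lin_split {D : ℂ →L[ℝ] ℂ} (hD : Function.Injective D) :
    ∃ (s : Bool) (a b : ℂ), ‖b‖ < ‖a‖ ∧ ∀ z, D z = a * sg s z + b * sg (!s) z := by
  set a := (D 1 - I * D I) / 2 with ha
  set b := (D 1 + I * D I) / 2 with hb
  have h : ∀ z, D z = a * z + b * conj z := fun z => by
    have e : z = z.re • (1 : ℂ) + z.im • I := by simp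
    have e' : conj z = z.re - z.im * I := by apply Complex.ext <;> simp
    have e'' : z = z.re + z.im * I := (Complex.re_add_im z).symm
    rw [e', congrArg D e, map_add, map_smul, map_smul, real_smul, real_smul]
    conv_rhs => rw [e'']
    simp only [ha, hb, add_re, add_im, ofReal_re, ofReal_im, mul_re, mul_im, I_re, I_im]
    simp only [mul_zero, mul_one, sub_self, add_zero, zero_add]
    linear_combination ((z.im : ℂ) * D I) * I_mul_I
  rcases lt_trichotomy ‖b‖ ‖a‖ with h1 | h1 | h1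
  · exact ⟨true, a, b, h1, h⟩
  · exfalso
    have h2 : a * conj a = b * conj b := by rw [Complex.mul_conj', Complex.mul_conj', h1]
    have h3 : conj a - b = 0 := hD (by
      rw [h, map_zero, map_sub, conj_conj]
      linear_combination h2)
    have h4 : I * (conj a + b) = 0 := hD (by
      rw [h, map_zero, map_mul, map_add, conj_conj, conj_I]
      linear_combination I * h2)
    have h5 : conj a + b = 0 := (mul_eq_zero.1 h4).resolve_left I_ne_zero
    have h6 : b = 0 := by linear_combination (h5 - h3) / 2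
    have h7 : a = 0 := by rw [← norm_eq_zero, ← h1, h6, norm_zero]
    have h8 : (1 : ℂ) = 0 := hD (by rw [h, h6, h7, map_zero]; ring)
    exact one_ne_zero h8
  · exact ⟨false, b, a, h1, fun z => by rw [h, add_comm]; rfl⟩

/-- Division by a nondegenerate zero. -/
theorem factor {U : Set ℂ} (hU : IsOpen U) {u : ℂ → ℂ} (hu : ContDiffOn ℝ ∞ u U) {p : ℂ}
    (hp : p ∈ U) (h0 : u p = 0) (hd : Function.Injective (fderiv ℝ u p)) {r : ℝ} (hr : 0 < r) :
    ∃ (s : Bool) (w : ℂ → ℂ), ContDiffOn ℝ ∞ w U ∧ (∀ z, r ≤ ‖z - p‖ → u z = w z * sg s (z - p)) ∧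
      ∀ z, w z = 0 → u z = 0 ∧ z ≠ p := by
  obtain ⟨s, a, b, hab, hD⟩ := lin_split hd
  have hder : HasFDerivAt u (fderiv ℝ u p) p :=
    ((hu.contDiffAt (hU.mem_nhds hp)).differentiableAt (by simp)).hasFDerivAt
  have h1 := (hasFDerivAt_iff_isLittleO.1 hder).bound (c := (‖a‖ - ‖b‖) / 2) (by linarith)
  obtain ⟨δ₀, hδ₀, h2⟩ := Metric.eventually_nhds_iff.1 h1
  set δ := min δ₀ r with hδ
  have hδ0 : 0 < δ := lt_min hδ₀ hr
  let χ : ContDiffBump p := ⟨δ / 2, δ, by linarith, by linarith⟩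
  have ha : a ≠ 0 := by
    rw [← norm_pos_iff]
    exact (norm_nonneg b).trans_lt hab
  have hfar : ∀ z, δ ≤ ‖z - p‖ → a + (1 - χ z) • (u z / sg s (z - p) - a) = u z / sg s (z - p) := by
    intro z hz
    rw [χ.zero_of_le_dist (by rw [dist_eq_norm]; exact hz), sub_zero, one_smul]
    ring
  refine ⟨s, fun z => a + (1 - χ z) • (u z / sg s (z - p) - a), fun z hz => ?_, fun z hz => ?_,
    fun z hz => ?_⟩
  · refine ContDiffAt.contDiffWithinAt ?_
    by_cases hzp : z = p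
    · subst hzp
      refine (contDiffAt_const (c := a)).congr_of_eventuallyEq ?_
      filter_upwards [χ.eventuallyEq_one] with y hy
      rw [hy, Pi.one_apply, sub_self, zero_smul, add_zero]
    · have h3 : ContDiffAt ℝ ∞ (fun z => sg s (z - p)) z :=
        ((contDiff_sg s).comp (contDiff_id.sub contDiff_const)).contDiffAt
      simp only [div_eq_mul_inv]
      exact contDiffAt_const.add ((contDiffAt_const.sub χ.contDiff.contDiffAt).smul
        (((hu.contDiffAt (hU.mem_nhds hz)).mul (h3.inv (sg_ne (sub_ne_zero.2 hzp)))).sub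
          contDiffAt_const))
  · have h3 : z - p ≠ 0 := by
      rw [← norm_pos_iff]
      exact hr.trans_le hz
    beta_reduce
    rw [hfar z ((min_le_right _ _).trans hz), div_mul_cancel₀ _ (sg_ne h3)]
  · beta_reduce at hz
    have hzp : z ≠ p := by
      rintro rfl
      rw [χ.one_of_mem_closedBall (mem_closedBall_self χ.rIn_pos.le), sub_self, zero_smul,
        add_zero] at hz
      exact ha hz
    have h3 : z - p ≠ 0 := sub_ne_zero.2 hzp
    have h4 : 0 < ‖z - p‖ := norm_pos_iff.2 h3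
    refine ⟨?_, hzp⟩
    by_cases hδz : δ ≤ ‖z - p‖
    · rw [hfar z hδz] at hz
      exact (div_eq_zero_iff.1 hz).resolve_right (sg_ne h3)
    · exfalso
      have h5 := h2 (y := z) (by
        rw [dist_eq_norm]
        exact (not_le.1 hδz).trans_le (min_le_left _ _))
      rw [h0, sub_zero, hD] at h5
      have h6 : ‖u z - a * sg s (z - p)‖ ≤ (‖a‖ - ‖b‖) / 2 * ‖z - p‖ + ‖b‖ * ‖z - p‖ := by
        have e : u z - a * sg s (z - p) = (u z - (a * sg s (z - p) + b * sg (!s) (z - p))) +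
          b * sg (!s) (z - p) := by ring
        rw [e]
        refine (norm_add_le _ _).trans (add_le_add h5 ?_)
        rw [norm_mul, norm_sg]
      have h7 : ‖u z / sg s (z - p) - a‖ < ‖a‖ := by
        rw [div_sub' (sg_ne h3), norm_div, norm_sg, div_lt_iff₀ h4, mul_comm (sg s _)]
        nlinarith
      have h8 : ‖(1 - χ z) • (u z / sg s (z - p) - a)‖ ≤ ‖u z / sg s (z - p) - a‖ := by
        rw [norm_smul, Real.norm_of_nonneg (sub_nonneg.2 χ.le_one)]
        exact mul_le_of_le_one_left (norm_nonneg _) (by linarith [χ.nonneg (x := z)])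
      rw [← neg_eq_of_add_eq_zero_right hz, norm_neg] at h8
      linarith

/-- Outside the disc of radius `2` the map is a unit times a square. -/
theorem factor_two {u : ℂ → ℂ} (hu : ContDiffOn ℝ ∞ u (ball 0 3)) {p q : ℂ} (hp : ‖p‖ < 1)
    (hq : ‖q‖ < 1) (hpq : p ≠ q) (h0 : ∀ y ∈ ball (0 : ℂ) 3, u y = 0 ↔ y = p ∨ y = q)
    (hp' : Function.Injective (fderiv ℝ u p)) (hq' : Function.Injective (fderiv ℝ u q)) :
    ∃ V l : ℂ → ℂ, ContDiffOn ℝ ∞ V (ball 0 3) ∧ ContDiff ℝ ∞ l ∧ (∀ z ∈ ball (0 : ℂ) 3, V z ≠ 0) ∧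
      (∀ z, z ≠ 0 → l z ≠ 0) ∧ ∀ z, 2 ≤ ‖z‖ → u z = V z * l z ^ 2 := by
  have hp3 : p ∈ ball (0 : ℂ) 3 := mem_ball_zero_iff.2 (by linarith)
  have hq3 : q ∈ ball (0 : ℂ) 3 := mem_ball_zero_iff.2 (by linarith)
  have hqp : q - p ≠ 0 := sub_ne_zero.2 hpq.symm
  have hr : 0 < ‖q - p‖ := norm_pos_iff.2 hqp
  obtain ⟨s, w, hw, hw1, hw2⟩ := factor isOpen_ball hu hp3 ((h0 p hp3).2 (Or.inl rfl)) hp'
    (half_pos hr)
  have hwq : w q = 0 := by
    have h1 := hw1 q (by linarith)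
    rw [(h0 q hq3).2 (Or.inr rfl)] at h1
    exact (mul_eq_zero.1 h1.symm).resolve_right (sg_ne hqp)
  have hwd : Function.Injective (fderiv ℝ w q) := by
    have h1 : u =ᶠ[𝓝 q] fun z => w z * sg s (z - p) := by
      have h2 : ∀ᶠ z in 𝓝 q, ‖q - p‖ / 2 < ‖z - p‖ :=
        (continuous_id.sub continuous_const).norm.continuousAt.eventually
          (lt_mem_nhds (by show ‖q - p‖ / 2 < ‖q - p‖; linarith))
      filter_upwards [h2] with z hz using hw1 z hz.le
    have d1 : DifferentiableAt ℝ w q :=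
      (hw.contDiffAt (isOpen_ball.mem_nhds hq3)).differentiableAt (by simp)
    have d2 : DifferentiableAt ℝ (fun z => sg s (z - p)) q :=
      ((contDiff_sg s).comp (contDiff_id.sub contDiff_const)).differentiable (by simp) q
    refine (injective_iff_map_eq_zero _).2 fun v hv => (injective_iff_map_eq_zero _).1 hq' v ?_
    rw [h1.fderiv_eq, fderiv_fun_mul d1 d2, hwq]
    simp [hv]
  obtain ⟨s', w', hw', hw1', hw2'⟩ := factor isOpen_ball hw hq3 hwq hwd one_pos
  have hne : ∀ z ∈ ball (0 : ℂ) 3, w' z ≠ 0 := fun z hz h => by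
    obtain ⟨h1, h2⟩ := hw2' z h
    obtain ⟨h3, h4⟩ := hw2 z h1
    exact ((h0 z hz).1 h3).elim h4 h2
  let t : ContDiffBump (0 : ℂ) := ⟨1, 2, one_pos, one_lt_two⟩
  let ρ : ℂ → ℝ := fun z => ‖z‖ ^ 2 + t z
  have hρ : ContDiff ℝ ∞ fun z => (ρ z : ℂ) :=
    Complex.ofRealCLM.contDiff.comp ((contDiff_norm_sq ℝ).add t.contDiff)
  have hρ1 : ∀ z, ‖z‖ ≤ ρ z ∧ 1 ≤ ρ z := fun z => by
    have h1 : 0 ≤ t z := t.nonneg
    rcases le_total ‖z‖ 1 with h | h
    · have h2 : t z = 1 := t.one_of_mem_closedBall (mem_closedBall_zero_iff.2 h)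
      constructor <;> simp only [ρ, h2] <;> nlinarith [sq_nonneg ‖z‖]
    · constructor <;> simp only [ρ] <;> nlinarith
  have hρ0 : ∀ z, (ρ z : ℂ) ≠ 0 := fun z => by
    have := (hρ1 z).2
    exact_mod_cast (show ρ z ≠ 0 by linarith)
  let g : ℂ → ℂ → ℂ := fun c z => 1 - c * conj z / ρ z
  have hg : ∀ c, ContDiff ℝ ∞ (g c) := fun c => by
    simp only [g, div_eq_mul_inv]
    exact contDiff_const.sub ((contDiff_const.mul contDiff_conj).mul (hρ.inv hρ0))
  have hg0 : ∀ c, ‖c‖ < 1 → ∀ z, g c z ≠ 0 := fun c hc z h => by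
    have h1 : ‖c * conj z / ρ z‖ = 1 := by
      rw [← sub_eq_zero.1 h, norm_one]
    have h2 := hρ1 z
    rw [norm_div, norm_mul, RCLike.norm_conj, Complex.norm_real, Real.norm_of_nonneg (by linarith),
      div_eq_one_iff_eq (by linarith)] at h1
    nlinarith [norm_nonneg z, norm_nonneg c]
  have ht : ∀ z, 2 ≤ ‖z‖ → (ρ z : ℂ) = (‖z‖ ^ 2 : ℝ) := fun z hz => by
    have h2 : t z = 0 := t.zero_of_le_dist (by rw [dist_zero_right]; exact hz)
    simp only [ρ, h2, add_zero]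
  have hgz : ∀ c z, 2 ≤ ‖z‖ → z - c = g c z * z := fun c z hz => by
    have h1 := hρ0 z
    have h2 : conj z * z = ρ z := by rw [ht z hz, Complex.conj_mul']; push_cast; rfl
    simp only [g]
    field_simp
    linear_combination c * h2
  have hu2 : ∀ z, 2 ≤ ‖z‖ → u z = w' z * sg s' (g q z) * sg s (g p z) * (sg s' z * sg s z) := by
    intro z hz
    have h1 : ‖z‖ - ‖p‖ ≤ ‖z - p‖ := norm_sub_norm_le z p
    have h2 : ‖z‖ - ‖q‖ ≤ ‖z - q‖ := norm_sub_norm_le z q
    have h3 : ‖q - p‖ ≤ ‖q‖ + ‖p‖ := norm_sub_le q p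
    rw [hw1 z (by linarith), hw1' z (by linarith), hgz p z hz, hgz q z hz, sg_mul, sg_mul]
    ring
  have hV : ContDiffOn ℝ ∞ (fun z => w' z * sg s' (g q z) * sg s (g p z)) (ball 0 3) :=
    (hw'.mul ((contDiff_sg s').comp (hg q)).contDiffOn).mul
      ((contDiff_sg s).comp (hg p)).contDiffOn
  have hV0 : ∀ z ∈ ball (0 : ℂ) 3, w' z * sg s' (g q z) * sg s (g p z) ≠ 0 := fun z hz =>
    mul_ne_zero (mul_ne_zero (hne z hz) (sg_ne (hg0 q hq z))) (sg_ne (hg0 p hp z))
  by_cases hs : s' = s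
  · exact ⟨_, sg s, hV, contDiff_sg s, hV0, fun z hz => sg_ne hz, fun z hz => by
      rw [hu2 z hz, hs, sq]⟩
  · exact ⟨fun z => w' z * sg s' (g q z) * sg s (g p z) * ρ z, fun _ => 1, hV.mul hρ.contDiffOn,
      contDiff_const, fun z hz => mul_ne_zero (hV0 z hz) (hρ0 z), fun _ _ => one_ne_zero,
      fun z hz => by rw [hu2 z hz, sg_mul_not hs, ← ht z hz, one_pow, mul_one]⟩

/-- The triple `(1, a i ā, a j ā)`, `a = l + t j`, is independent. -/
theorem indep {l V : ℂ} {t : ℝ} (hV : V ≠ 0) (hR : 0 < ‖l‖ ^ 2 + t ^ 2) {a b c : ℝ}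
    (h1 : (a : ℂ) + b * (I * (l * conj l - t ^ 2)) = c * (t * (l - conj l)))
    (h2 : (b : ℂ) * (V * (-2 * I * t * l)) = c * (V * (l ^ 2 + t ^ 2))) :
    a = 0 ∧ b = 0 ∧ c = 0 := by
  have h3 : (b : ℂ) * (-2 * I * t * l) = c * (l ^ 2 + t ^ 2) :=
    mul_left_cancel₀ hV (by linear_combination h2)
  rw [Complex.sq_norm, Complex.normSq_apply] at hR
  have e1 := congrArg re h1
  have e2 := congrArg im h1
  have e3 := congrArg re h3
  have e4 := congrArg im h3
  simp only [sq, add_re, add_im, mul_re, mul_im, sub_re, sub_im, ofReal_re, ofReal_im, I_re, I_im,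
    conj_re, conj_im, neg_re, neg_im, re_ofNat, im_ofNat] at e1 e2 e3 e4
  have hR2 : (l.re * l.re + l.im * l.im + t ^ 2) ^ 2 ≠ 0 := by positivity
  refine ⟨by linear_combination e1, mul_right_cancel₀ hR2 ?_, mul_right_cancel₀ hR2 ?_⟩
  · linear_combination (l.re * l.re + l.im * l.im - t * t) * e2 + (2 * t * l.im) * e3 -
      (2 * t * l.re) * e4
  · linear_combination -(2 * t * l.im) * e2 - (l.re * l.re - l.im * l.im + t * t) * e3 -
      (2 * l.re * l.im) * e4

theorem cancel_C {τ u : ℂ → ℂ} (hτ : ContDiffOn ℝ ∞ τ (ball 0 3))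
    (hu : ContDiffOn ℝ ∞ u (ball 0 3)) {p q : ℂ} (hp : ‖p‖ < 1) (hq : ‖q‖ < 1) (hpq : p ≠ q)
    (h0 : ∀ y ∈ ball (0 : ℂ) 3, u y = 0 ↔ y = p ∨ y = q)
    (hp' : Function.Injective (fderiv ℝ u p)) (hq' : Function.Injective (fderiv ℝ u q)) :
    ∃ (L : ℂ → ℂ →L[ℝ] ℂ × ℂ) (n : ℂ → ℂ × ℂ), ContDiffOn ℝ ∞ L (ball 0 3) ∧
      ContDiffOn ℝ ∞ n (ball 0 3) ∧
      (∀ y ∈ ball (0 : ℂ) 3, Function.Injective (L y) ∧ ∀ v, L y v ≠ n y) ∧
      ∀ y ∈ ball (0 : ℂ) 3, 5 / 2 ≤ ‖y‖ → (∀ v, L y v = (v, 0)) ∧ n y = (τ y, u y) := by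
  obtain ⟨V, l, hV, hl, hV0, hl0, hu2⟩ := factor_two hu hp hq hpq h0 hp' hq'
  let t : ContDiffBump (0 : ℂ) := ⟨1, 2, one_pos, one_lt_two⟩
  let χ : ContDiffBump (0 : ℂ) := ⟨2, 5 / 2, two_pos, by norm_num⟩
  have htc : ContDiff ℝ ∞ fun z => (t z : ℂ) := Complex.ofRealCLM.contDiff.comp t.contDiff
  have hlc : ContDiff ℝ ∞ fun z => conj (l z) := contDiff_conj.comp hl
  let R : ℂ → ℝ := fun z => ‖l z‖ ^ 2 + t z ^ 2
  have hR : ContDiff ℝ ∞ R := ((contDiff_norm_sq ℝ).comp hl).add (t.contDiff.pow 2)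
  have hR0 : ∀ z, 0 < R z := fun z => by
    by_cases hz : z = 0
    · have h1 : t z = 1 := t.one_of_mem_closedBall (by rw [hz]; exact mem_closedBall_self one_pos.le)
      simp only [R, h1]
      positivity
    · have h1 := norm_pos_iff.2 (hl0 z hz)
      simp only [R]
      positivity
  let B : ℂ → ℂ × ℂ := fun z => (R z)⁻¹ •
    (I * (l z * conj (l z) - (t z : ℂ) ^ 2), V z * (-2 * I * t z * l z))
  have hB : ContDiffOn ℝ ∞ B (ball 0 3) :=
    (hR.inv fun z => (hR0 z).ne').contDiffOn.smul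
      ((contDiff_const.mul ((hl.mul hlc).sub (htc.pow 2))).contDiffOn.prodMk
        (hV.mul ((contDiff_const.mul htc).mul hl).contDiffOn))
  let L : ℂ → ℂ →L[ℝ] ℂ × ℂ := fun z =>
    reCLM.smulRight ((1 : ℂ), (0 : ℂ)) + imCLM.smulRight (B z)
  have hL : ∀ z v, L z v = ((v.re : ℂ) + (v.im / R z : ℝ) * (I * (l z * conj (l z) - (t z : ℂ) ^ 2)),
      ((v.im / R z : ℝ) : ℂ) * (V z * (-2 * I * t z * l z))) := fun z v => by
    simp only [L, B, add_apply, ContinuousLinearMap.smulRight_apply,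
      reCLM_apply, imCLM_apply, Prod.smul_mk, Prod.mk_add_mk, real_smul, mul_one,
      mul_zero, zero_add, div_eq_mul_inv, ofReal_mul, mul_assoc]
  have hL2 : ∀ z, 2 ≤ ‖z‖ → t z = 0 ∧ ∀ v, L z v = (v, 0) := fun z hz => by
    have h1 : t z = 0 := t.zero_of_le_dist (by rw [dist_zero_right]; exact hz)
    refine ⟨h1, fun v => ?_⟩
    have h2 : (R z : ℂ) ≠ 0 := by exact_mod_cast (hR0 z).ne'
    have h3 : l z * conj (l z) = R z := by
      simp only [R, h1, Complex.mul_conj']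
      push_cast
      ring
    rw [hL, h1, h3]
    push_cast
    refine Prod.ext ?_ (by simp)
    conv_rhs => rw [← Complex.re_add_im v]
    field_simp
    ring
  refine ⟨L, fun z => ((1 - χ z) • τ z + t z * (l z - conj (l z)), V z * (l z ^ 2 + (t z : ℂ) ^ 2)),
    contDiffOn_const.add (contDiffOn_const.smulRight hB),
    (((contDiff_const.sub χ.contDiff).contDiffOn.smul hτ).add
      (htc.mul (hl.sub hlc)).contDiffOn).prodMk (hV.mul ((hl.pow 2).add (htc.pow 2)).contDiffOn),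
    fun z hz => ⟨(injective_iff_map_eq_zero _).2 fun v hv => ?_, fun v hv => ?_⟩,
    fun z hz hz' => ?_⟩
  · rw [hL] at hv
    obtain ⟨h1, h2, -⟩ := indep (c := 0) (hV0 z hz) (hR0 z)
      ((congrArg Prod.fst hv).trans (by simp)) ((congrArg Prod.snd hv).trans (by simp))
    exact Complex.ext h1 ((div_eq_zero_iff.1 h2).resolve_right (hR0 z).ne')
  · rcases le_total ‖z‖ 2 with h | h
    · have h1 : χ z = 1 := χ.one_of_mem_closedBall (mem_closedBall_zero_iff.2 h)
      rw [hL] at hv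
      obtain ⟨-, -, h2⟩ := indep (c := 1) (hV0 z hz) (hR0 z)
        ((congrArg Prod.fst hv).trans (by simp [h1])) ((congrArg Prod.snd hv).trans (by simp))
      exact one_ne_zero h2
    · obtain ⟨h1, h2⟩ := hL2 z h
      have h3 := congrArg Prod.snd hv
      have hz0 : z ≠ 0 := by
        rw [← norm_pos_iff]
        linarith
      rw [h2] at h3
      simp only [h1, ofReal_zero, ne_eq, OfNat.ofNat_ne_zero, not_false_eq_true, zero_pow,
        add_zero] at h3
      exact mul_ne_zero (hV0 z hz) (pow_ne_zero 2 (hl0 z hz0)) h3.symm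
  · obtain ⟨h1, h2⟩ := hL2 z (by linarith)
    have h3 : χ z = 0 := χ.zero_of_le_dist (by rw [dist_zero_right]; exact hz')
    refine ⟨h2, ?_⟩
    rw [hu2 z (by linarith)]
    simp [h1, h3]

end Crest.Agent.R216.TopFAux
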