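import Crest.Agent.R216.TopE
import Crest.Agent.R216.TopFAux

/-!
# Row 216: cancelling two tangencies
-/

set_option autoImplicit false
set_option linter.unusedSectionVars false

noncomputable section

namespace Crest.Agent.R216

open Set Metric Filter
open scoped Manifold ContDiff Topology RealInnerProductSpace

/-- The model: `n = (τ, u)` has two nondegenerate tangencies with `E × 0`; they are removed by a
modification of the formal data supported in the ball of radius `5/2`. -/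
theorem cancel_model {τ u : E → E} (hτ : ContDiffOn ℝ ∞ τ (ball 0 3))
    (hu : ContDiffOn ℝ ∞ u (ball 0 3)) {p q : E} (hp : ‖p‖ < 1) (hq : ‖q‖ < 1) (hpq : p ≠ q)
    (h0 : ∀ y ∈ ball (0 : E) 3, u y = 0 ↔ y = p ∨ y = q)
    (hp' : Function.Injective (fderiv ℝ u p)) (hq' : Function.Injective (fderiv ℝ u q)) :
    ∃ (L : E → E →L[ℝ] E × E) (n : E → E × E), ContDiffOn ℝ ∞ L (ball 0 3) ∧
      ContDiffOn ℝ ∞ n (ball 0 3) ∧
      (∀ y ∈ ball (0 : E) 3, Function.Injective (L y) ∧ ∀ v, L y v ≠ n y) ∧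
      ∀ y ∈ ball (0 : E) 3, 5 / 2 ≤ ‖y‖ → (∀ v, L y v = (v, 0)) ∧ n y = (τ y, u y) := by
  let φ : ℂ ≃ₗᵢ[ℝ] E := Complex.orthonormalBasisOneI.repr
  let ψ : ℂ ≃L[ℝ] E := φ.toContinuousLinearEquiv
  have hn : ∀ z, ‖ψ z‖ = ‖z‖ := φ.norm_map
  have hn' : ∀ y, ‖ψ.symm y‖ = ‖y‖ := φ.symm.norm_map
  have hm : MapsTo ψ (ball 0 3) (ball 0 3) := fun z hz => by
    rwa [mem_ball_zero_iff, hn, ← mem_ball_zero_iff]
  have hm' : MapsTo ψ.symm (ball 0 3) (ball 0 3) := fun z hz => by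
    rwa [mem_ball_zero_iff, hn', ← mem_ball_zero_iff]
  have hd : ∀ y, Function.Injective (fderiv ℝ u y) →
      Function.Injective (fderiv ℝ (ψ.symm ∘ u ∘ ψ) (ψ.symm y)) := fun y hy => by
    rw [ψ.symm.comp_fderiv, ψ.comp_right_fderiv, ψ.apply_symm_apply]
    exact ψ.symm.injective.comp (hy.comp ψ.injective)
  obtain ⟨L, n, hL, hn₀, h1, h2⟩ := TopFAux.cancel_C (τ := ψ.symm ∘ τ ∘ ψ) (u := ψ.symm ∘ u ∘ ψ)
    (ψ.symm.contDiff.comp_contDiffOn (hτ.comp ψ.contDiff.contDiffOn hm))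
    (ψ.symm.contDiff.comp_contDiffOn (hu.comp ψ.contDiff.contDiffOn hm))
    (p := ψ.symm p) (q := ψ.symm q) (by rwa [hn']) (by rwa [hn']) (ψ.symm.injective.ne hpq)
    (fun y hy => by
      rw [Function.comp_apply, Function.comp_apply, ψ.symm.map_eq_zero_iff, h0 _ (hm hy),
        ψ.eq_symm_apply, ψ.eq_symm_apply]) (hd p hp') (hd q hq')
  let Ψ : (ℂ × ℂ) ≃L[ℝ] E × E := ψ.prodCongr ψ
  refine ⟨fun y => (Ψ : ℂ × ℂ →L[ℝ] E × E).comp ((L (ψ.symm y)).comp (ψ.symm : E →L[ℝ] ℂ)),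
    fun y => Ψ (n (ψ.symm y)),
    contDiffOn_const.clm_comp ((hL.comp ψ.symm.contDiff.contDiffOn hm').clm_comp contDiffOn_const),
    Ψ.contDiff.comp_contDiffOn (hn₀.comp ψ.symm.contDiff.contDiffOn hm'),
    fun y hy => ⟨Ψ.injective.comp ((h1 _ (hm' hy)).1.comp ψ.symm.injective),
      fun v hv => (h1 _ (hm' hy)).2 _ (Ψ.injective hv)⟩, fun y hy hy' => ?_⟩
  obtain ⟨h3, h4⟩ := h2 _ (hm' hy) (by rwa [hn'])
  refine ⟨fun v => ?_, ?_⟩
  · show Ψ (L (ψ.symm y) (ψ.symm v)) = (v, 0)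
    rw [h3]
    simp [Ψ]
  · show Ψ (n (ψ.symm y)) = _
    rw [h4]
    simp [Ψ]

variable {M : Type*} [TopologicalSpace M] [T2Space M] [CompactSpace M] [ChartedSpace E M]
  [IsManifold (𝓡 2) ∞ M]

theorem cancel_zero {L : M → E →L[ℝ] V4} (hL : Fml L) (x : M) {W : Set M} (hW : W ∈ 𝓝 x) :
    ∃ V ∈ 𝓝 x, V ⊆ W ∧ ∀ n : M → V4, Sm n → ND L n → ∀ p ∈ V, ∀ q ∈ V, p ≠ q →
      Zs L n ∩ W = {p, q} → ∃ (L' : M → E →L[ℝ] V4) (n' : M → V4), Fml L' ∧ Sm n' ∧ ND L' n' ∧
        Zs L' n' = Zs L n \ {p, q} := by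
  classical
  obtain ⟨c, A, hx, hx0, hsub, hW', hA, hA', hLA⟩ := exists_frame hL x hW
  have hb : ball (0 : E) 3 ⊆ c.e.target := ball_subset_closedBall.trans hsub
  have h13 : ball (0 : E) 1 ⊆ ball 0 3 := ball_subset_ball (by norm_num)
  refine ⟨c.e.symm '' ball 0 1, ?_, (image_mono (h13.trans ball_subset_closedBall)).trans hW', ?_⟩
  · have h1 := c.e.symm.image_mem_nhds (x := 0) (hb (mem_ball_self (by norm_num)))
      (ball_mem_nhds (0 : E) one_pos)
    rwa [← hx0, c.e.left_inv hx, hx0] at h1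
  rintro n hn hnd _ ⟨p, hp, rfl⟩ _ ⟨q, hq, rfl⟩ hpq hZ
  let f : E → E × E := fun y => (A y).symm (c.rd n y)
  have hf : ContDiffOn ℝ ∞ f (ball 0 3) := hA'.clm_apply ((c.contDiffOn_rd hn).mono hb)
  have hAf : ∀ y, A y (f y) = c.rd n y := fun y => (A y).apply_symm_apply _
  have hG : ∀ y ∈ ball (0 : E) 3, ∀ v, c.rdL L y v - c.rd n y = A y ((v, 0) - f y) :=
    fun y hy v => by rw [hLA y hy, map_sub, hAf]
  have hz : ∀ y ∈ ball (0 : E) 3, (f y).2 = 0 ↔ c.e.symm y ∈ Zs L n := fun y hy => by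
    constructor
    · intro h
      refine ⟨c.dP y (f y).1, ?_⟩
      show c.rdL L y (f y).1 = c.rd n y
      rw [hLA y hy, ← hAf, ← h]
    · rintro ⟨v, hv⟩
      have h1 := c.dP_dQ (c.e.map_target (hb hy)) v
      rw [c.e.right_inv (hb hy)] at h1
      have h2 : c.rdL L y (c.dQ (c.e.symm y) v) = c.rd n y := by
        show L (c.e.symm y) (c.dP y (c.dQ (c.e.symm y) v)) = n (c.e.symm y)
        rw [h1, hv]
      rw [hLA y hy, ← hAf] at h2
      rw [← (A y).injective h2]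
  have h0 : ∀ y ∈ ball (0 : E) 3, (f y).2 = 0 ↔ y = p ∨ y = q := fun y hy => by
    have h1 : c.e.symm y ∈ Zs L n ↔ c.e.symm y ∈ Zs L n ∩ W :=
      ⟨fun h => ⟨h, hW' ⟨y, ball_subset_closedBall hy, rfl⟩⟩, fun h => h.1⟩
    rw [hz y hy, h1, hZ, mem_insert_iff, mem_singleton_iff,
      c.e.symm.injOn.eq_iff (hb hy) (hb (h13 hp)), c.e.symm.injOn.eq_iff (hb hy) (hb (h13 hq))]
  have hd : ∀ y ∈ ball (0 : E) 3, (f y).2 = 0 →
      Function.Injective (fderiv ℝ (fun y => (f y).2) y) := by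
    intro y hy hy0
    have e0 : ((f y).1, (0 : E)) - f y = 0 := by rw [← hy0, sub_self]
    have h1 := hnd c y (f y).1 (hb hy) (by rw [← sub_eq_zero, hG y hy, e0, map_zero])
    have h2 : (fun r : E × E => c.rdL L r.1 r.2 - c.rd n r.1) =ᶠ[𝓝 (y, (f y).1)]
        fun r => (A r.1 : E × E →L[ℝ] V4) ((r.2, 0) - f r.1) := by
      filter_upwards [continuous_fst.continuousAt.eventually
        (isOpen_ball.mem_nhds (show ((y, (f y).1) : E × E).1 ∈ ball 0 3 from hy))] with r hr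
      exact hG r.1 hr r.2
    have d1 : HasFDerivAt f (fderiv ℝ f y) y :=
      ((hf.contDiffAt (isOpen_ball.mem_nhds hy)).differentiableAt (by simp)).hasFDerivAt
    have d2 := ((hA.contDiffAt (isOpen_ball.mem_nhds hy)).differentiableAt (by simp)).hasFDerivAt
    have d3 : HasFDerivAt (fun r : E × E => ((r.2, 0) : E × E) - f r.1) _ (y, (f y).1) :=
      (hasFDerivAt_snd.prodMk (hasFDerivAt_const (0 : E) _)).sub
        (HasFDerivAt.comp (f := Prod.fst) (y, (f y).1) d1 hasFDerivAt_fst)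
    have d4 := (HasFDerivAt.comp (f := Prod.fst) (y, (f y).1) d2 hasFDerivAt_fst).clm_apply d3
    have d5 : fderiv ℝ (fun r : E × E => (A r.1 : E × E →L[ℝ] V4) ((r.2, 0) - f r.1))
      (y, (f y).1) = _ := d4.fderiv
    rw [h2.fderiv_eq, d5] at h1
    rw [d1.snd.fderiv]
    refine (injective_iff_map_eq_zero _).2 fun w hw => ?_
    have h3 := (injective_iff_map_eq_zero _).1 h1 (w, (fderiv ℝ f y w).1) (by
      have h4 : ((fderiv ℝ f y w).1, (0 : E)) - fderiv ℝ f y w = 0 := by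
        rw [← show (fderiv ℝ f y w).2 = 0 from hw, sub_self]
      simp [e0, ← map_sub, h4])
    exact congrArg Prod.fst h3
  have hpq' : p ≠ q := fun h => hpq (by rw [h])
  obtain ⟨L₀, n₀, hL₀, hn₀, h1, h2⟩ := cancel_model hf.fst hf.snd (mem_ball_zero_iff.1 hp)
    (mem_ball_zero_iff.1 hq) hpq' h0 (hd p (h13 hp) ((h0 p (h13 hp)).2 (Or.inl rfl)))
    (hd q (h13 hq) ((h0 q (h13 hq)).2 (Or.inr rfl)))
  let O : Set M := c.e.source ∩ c.e ⁻¹' ball 0 3
  let L' : M → E →L[ℝ] V4 := fun m => if m ∈ O then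
    (A (c.e m) : E × E →L[ℝ] V4).comp ((L₀ (c.e m)).comp (c.dQ m)) else L m
  let n' : M → V4 := fun m => if m ∈ O then A (c.e m) (n₀ (c.e m)) else n m
  have hO : ∀ y ∈ ball (0 : E) 3, c.e.symm y ∈ O := fun y hy =>
    ⟨c.e.map_target (hb hy), by rw [mem_preimage, c.e.right_inv (hb hy)]; exact hy⟩
  have hK : closedBall (0 : E) (5 / 2) ⊆ ball 0 3 := closedBall_subset_ball (by norm_num)
  have hKc : IsClosed (c.e.symm '' closedBall 0 (5 / 2)) :=
    ((isCompact_closedBall _ _).image_of_continuousOn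
      (c.e.continuousOn_symm.mono (hK.trans hb))).isClosed
  have hout : ∀ m, m ∉ O → ∀ᶠ m' in 𝓝 m, L' m' = L m' ∧ n' m' = n m' := by
    intro m hm
    have h3 : m ∉ c.e.symm '' closedBall 0 (5 / 2) := by
      rintro ⟨y, hy, rfl⟩
      exact hm (hO y (hK hy))
    filter_upwards [hKc.isOpen_compl.mem_nhds h3] with m' hm'
    by_cases h4 : m' ∈ O
    · have h5 : 5 / 2 ≤ ‖c.e m'‖ := not_lt.1 fun h =>
        hm' ⟨c.e m', mem_closedBall_zero_iff.2 h.le, c.e.left_inv h4.1⟩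
      obtain ⟨h6, h7⟩ := h2 _ h4.2 h5
      simp only [L', n', if_pos h4]
      constructor
      · ext1 v
        show A (c.e m') (L₀ (c.e m') (c.dQ m' v)) = L m' v
        rw [h6, ← hLA _ h4.2]
        show L (c.e.symm (c.e m')) (c.dP (c.e m') (c.dQ m' v)) = L m' v
        rw [c.dP_dQ h4.1, c.e.left_inv h4.1]
      · rw [h7, hAf, Ch.rd, c.e.left_inv h4.1]
    · simp only [L', n', if_neg h4, and_self]
  have hch : ∀ (c' : Ch M) y, y ∈ c'.e.target → c'.e.symm y ∉ O →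
      ∀ᶠ y' in 𝓝 y, c'.rdL L' y' = c'.rdL L y' ∧ c'.rd n' y' = c'.rd n y' := by
    intro c' y hy hy'
    filter_upwards [(c'.e.continuousAt_symm hy).eventually (hout _ hy')] with y' h3
    exact ⟨by rw [Ch.rdL, Ch.rdL, h3.1], h3.2⟩
  have hdQ : ∀ m ∈ c.e.source, Function.Injective (c.dQ m) := fun m hm =>
    Function.LeftInverse.injective (c.dP_dQ hm)
  have hnz : ∀ m ∈ O, m ∉ Zs L' n' := by
    rintro m hm ⟨v, hv⟩
    simp only [L', n', if_pos hm] at hv
    exact (h1 _ hm.2).2 _ ((A (c.e m)).injective hv)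
  refine ⟨L', n', fml_of_ch (fun m => ?_) fun m => ?_, sm_of_ch fun m => ?_, ?_, ?_⟩
  · by_cases hm : m ∈ O
    · refine ⟨c, hm.1, ((hA.clm_comp hL₀).contDiffAt
        (isOpen_ball.mem_nhds hm.2)).congr_of_eventuallyEq ?_⟩
      filter_upwards [isOpen_ball.mem_nhds hm.2] with y hy
      ext1 v
      simp only [Ch.rdL, L', if_pos (hO y hy), c.e.right_inv (hb hy),
        ContinuousLinearMap.comp_apply, c.dQ_dP (hb hy)]
    · obtain ⟨c', hc'⟩ := exists_ch_chartAt m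
      have h3 : m ∈ c'.e.source := hc' ▸ mem_chart_source E m
      have h4 := c'.e.map_source h3
      refine ⟨c', h3, ((hL.sm c').contDiffAt
        (c'.e.open_target.mem_nhds h4)).congr_of_eventuallyEq ?_⟩
      filter_upwards [hch c' _ h4 (by rwa [c'.e.left_inv h3])] with y hy using hy.1
  · by_cases hm : m ∈ O
    · simp only [L', if_pos hm]
      exact (A (c.e m)).injective.comp ((h1 _ hm.2).1.comp (hdQ m hm.1))
    · simp only [L', if_neg hm]
      exact hL.inj m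
  · by_cases hm : m ∈ O
    · refine ⟨c, hm.1, ((hA.clm_apply hn₀).contDiffAt
        (isOpen_ball.mem_nhds hm.2)).congr_of_eventuallyEq ?_⟩
      filter_upwards [isOpen_ball.mem_nhds hm.2] with y hy
      simp only [Ch.rd, n', if_pos (hO y hy), c.e.right_inv (hb hy), ContinuousLinearEquiv.coe_coe]
    · obtain ⟨c', hc'⟩ := exists_ch_chartAt m
      have h3 : m ∈ c'.e.source := hc' ▸ mem_chart_source E m
      have h4 := c'.e.map_source h3
      refine ⟨c', h3, ((c'.contDiffOn_rd hn).contDiffAt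
        (c'.e.open_target.mem_nhds h4)).congr_of_eventuallyEq ?_⟩
      filter_upwards [hch c' _ h4 (by rwa [c'.e.left_inv h3])] with y hy using hy.2
  · intro c' y v hy hv
    have h3 : c'.e.symm y ∉ O := fun h => hnz _ h ⟨c'.dP y v, hv⟩
    have h4 := hch c' y hy h3
    have h5 : (fun r : E × E => c'.rdL L' r.1 r.2 - c'.rd n' r.1) =ᶠ[𝓝 (y, v)]
        fun r => c'.rdL L r.1 r.2 - c'.rd n r.1 := by
      filter_upwards [(continuous_fst.tendsto (y, v)).eventually h4] with r hr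
      rw [hr.1, hr.2]
    rw [h5.fderiv_eq]
    exact hnd c' y v hy (by rw [← h4.self_of_nhds.1, ← h4.self_of_nhds.2, hv])
  · ext m
    by_cases hm : m ∈ O
    · refine iff_of_false (hnz m hm) fun h => h.2 ?_
      rw [← hZ]
      exact ⟨h.1, hW' ⟨c.e m, ball_subset_closedBall hm.2, c.e.left_inv hm.1⟩⟩
    · have h3 := (hout m hm).self_of_nhds
      have h4 : m ∉ ({c.e.symm p, c.e.symm q} : Set M) := by
        rintro (rfl | rfl)
        · exact hm (hO p (h13 hp))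
        · exact hm (hO q (h13 hq))
      simp only [Set.mem_sdiff, h4, not_false_eq_true, and_true, Zs, mem_ofPred_eq, h3.1, h3.2]

end Crest.Agent.R216
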