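import Crest.Agent.R216.WaveB

/-!
# Row 216: one round of the correction scheme (`U`, `tt` and `ss` parts)
-/

set_option autoImplicit false
set_option linter.unusedSectionVars false

noncomputable section

namespace Crest.Agent.R216.WaveRAux1

open Set Metric Filter
open scoped ContDiff Topology RealInnerProductSpace

variable {ι : Type*} {B : Base ι}

/-- Change of the three parameters at once. -/
theorem fit {V : Type} [NormedAddCommGroup V] [NormedSpace ℝ V] [FiniteDimensional ℝ V]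
    {p p' j j' : ℕ} {A A' : ι → ℝ} {f : ι → E × ℝ → V} (h : IdP B.c B.χ p j A f) (hp : p' ≤ p)
    (hj : j ≤ j') (hA : ∀ i, A i ≤ A' i) : IdP B.c B.χ p' j' A' f :=
  (h.mono B.clχ hp hj).size (fun i => (h.nonneg i).trans (hA i)) (C := 1) fun i => by
    rw [one_mul]
    exact mul_le_mul_of_nonneg_right (hA i) (pow_nonneg (zero_le_one.trans (B.c.hM i)) _)

theorem fit' {V : Type} [NormedAddCommGroup V] [NormedSpace ℝ V] [FiniteDimensional ℝ V]
    {p p' j j' : ℕ} {A A' : ι → ℝ} {f : ι → E → V} (h : Idl B.c B.χ p j A f) (hp : p' ≤ p)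
    (hj : j ≤ j') (hA : ∀ i, A i ≤ A' i) : Idl B.c B.χ p' j' A' f :=
  (h.mono B.clχ hp hj).size (fun i => (h.nonneg i).trans (hA i)) (C := 1) fun i => by
    rw [one_mul]
    exact mul_le_mul_of_nonneg_right (hA i) (pow_nonneg (zero_le_one.trans (B.c.hM i)) _)

/-- Multiplication by `ε`. -/
theorem eps {V : Type} [NormedAddCommGroup V] [NormedSpace ℝ V] [FiniteDimensional ℝ V]
    {p j : ℕ} {A ε : ι → ℝ} {f : ι → E × ℝ → V} (h : IdP B.c B.χ p j A f) (hε : ∀ i, 0 < ε i) :
    IdP B.c B.χ p j (fun i => ε i * A i) fun i q => ε i • f i q :=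
  h.csmul (fun i => mul_nonneg (hε i).le (h.nonneg i)) (C := 1) fun i => by
    rw [abs_of_pos (hε i), one_mul]

theorem two {p j : ℕ} {A : ι → ℝ} {f : ι → E × ℝ → ℝ} (h : IdP B.c B.χ p j A f) :
    IdP B.c B.χ p j A fun i q => 2 * f i q :=
  (h.add h).congr fun _ _ _ _ => two_mul _

theorem diffAt {V : Type} [NormedAddCommGroup V] [NormedSpace ℝ V] [FiniteDimensional ℝ V]
    {p j : ℕ} {A : ι → ℝ} {f : ι → E × ℝ → V} (h : IdP B.c B.χ p j A f) {i : ι} {x : E}
    (hx : x ∈ B.c.U i) (θ : ℝ) : DifferentiableAt ℝ (f i) (x, θ) :=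
  (((h.cl B.clχ).sm i).contDiffAt (((B.c.cyl.hU i)).mem_nhds ⟨hx, mem_univ _⟩)).differentiableAt
    (by simp)

theorem cont {V : Type} [NormedAddCommGroup V] [NormedSpace ℝ V] [FiniteDimensional ℝ V]
    {p j : ℕ} {A : ι → ℝ} {f : ι → E × ℝ → V} (h : IdP B.c B.χ p j A f) {i : ι} {x : E}
    (hx : x ∈ B.c.U i) : Continuous fun θ => f i (x, θ) :=
  continuous_slice ((h.cl B.clχ).sm i) hx

theorem mean_add' {p j p' j' : ℕ} {A A' : ι → ℝ} {f g : ι → E × ℝ → ℝ} (h : IdP B.c B.χ p j A f)
    (h' : IdP B.c B.χ p' j' A' g) {i : ι} {x : E} (hx : x ∈ B.c.U i) :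
    mean (fun q => f i q + g i q) x = mean (f i) x + mean (g i) x :=
  mean_add (cont h hx) (cont h' hx)

variable {D : WData B} {ε : ι → ℝ} {p p' j : ℕ} {e β : ι → ℝ} {U V : ι → E × ℝ → V4}

theorem idp_U (hp : p ≤ B.K) (h : WInv D ε p e β U) :
    IdP B.c B.χ p 1 (fun i => B.κ i * (1 + β i)) U := by
  have h1 := fit h.hU le_rfl (Nat.zero_le 1) (A' := fun i => B.κ i * (1 + β i)) fun i => by
    have := B.κ0 i
    nlinarith
  have h2 := fit D.hG hp le_rfl (A' := fun i => B.κ i * (1 + β i)) fun i => by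
    have := mul_nonneg (B.κ0 i).le (h.β0 i)
    linarith
  exact (h1.add h2).congr fun i x _ θ => (sub_add_cancel _ _).symm

theorem round_U (hp : p' + 3 ≤ p) (h : WInv D ε p e β U) (hc : WCorr D ε p j e U V) :
    IdP B.c B.χ p' 0 (fun i => B.κ i * (β i + e i * B.c.M i ^ j))
      fun i q => (U i q + V i q) - D.G i q := by
  have hM : ∀ i, 0 ≤ B.κ i * (e i * B.c.M i ^ j) := fun i =>
    mul_nonneg (B.κ0 i).le (mul_nonneg (h.e0 i) (pow_nonneg (zero_le_one.trans (B.c.hM i)) _))
  have hβ : ∀ i, 0 ≤ B.κ i * β i := fun i => mul_nonneg (B.κ0 i).le (h.β0 i)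
  have h1 := fit h.hU (p' := p') (by omega) le_rfl
    (A' := fun i => B.κ i * (β i + e i * B.c.M i ^ j)) fun i => by
    have := hM i
    linarith
  have h2 := (hc.hV.mono B.clχ (p' := p') (by omega) le_rfl).size (j' := 0)
    (A' := fun i => B.κ i * (β i + e i * B.c.M i ^ j)) h1.nonneg (C := 1) fun i => by
    have := hβ i
    simp only [pow_zero, mul_one, one_mul]
    linarith
  exact (h1.add h2).congr fun i x _ θ => by abel

theorem round_tt (hε : ∀ i, 0 < ε i) (hε1 : ∀ i, ε i ≤ 1) (hp : p ≤ B.K)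
    (hp' : p' + B.K + 6 ≤ 2 * p) (h : WInv D ε p e β U) (hc : WCorr D ε p j e U V) :
    IdP B.c B.χ (B.K + p') (2 * j + 3)
      (fun i => B.κ i ^ 2 * (ε i * ((ε i + β i + e i) * e i)))
      (B.ett ε fun i q => U i q + V i q) := by
  have hU := idp_U hp h
  have dU := hU.dx B.clχ B.bw
  have dV := hc.hV.dx B.clχ B.bw
  have h1 := fit (eps (eps (dU.inner dV) hε) hε) (p' := B.K + p') (j' := 2 * j + 3) (by omega)
    (by omega) (A' := fun i => B.κ i ^ 2 * (ε i * ((ε i + β i + e i) * e i))) fun i => by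
      have a1 := h.e0 i
      have a2 := h.β0 i
      have a3 := hε i
      have a4 : ε i * (1 + β i) ≤ ε i + β i + e i := by nlinarith [hε1 i]
      calc ε i * (ε i * (B.κ i * (1 + β i) * (B.κ i * e i)))
          = B.κ i ^ 2 * (ε i * (ε i * (1 + β i) * e i)) := by ring
        _ ≤ _ := by gcongr
  have h2 := fit (eps (eps (dV.inner dV) hε) hε) (p' := B.K + p') (j' := 2 * j + 3) (by omega)
    (by omega) (A' := fun i => B.κ i ^ 2 * (ε i * ((ε i + β i + e i) * e i))) fun i => by
      have a1 := h.e0 i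
      have a2 := h.β0 i
      have a3 := hε i
      have a4 : ε i * e i ≤ ε i + β i + e i := by nlinarith [hε1 i]
      calc ε i * (ε i * (B.κ i * e i * (B.κ i * e i)))
          = B.κ i ^ 2 * (ε i * (ε i * e i * e i)) := by ring
        _ ≤ _ := by gcongr
  refine ((two h1).add h2).congr fun i x hx θ => ?_
  have e1 := hc.tt i x hx θ
  have e2 : dx (B.w i) (fun q => U i q + V i q) (x, θ) =
      dx (B.w i) (U i) (x, θ) + dx (B.w i) (V i) (x, θ) :=
    dd_add (diffAt hU hx θ) (diffAt hc.hV hx θ) _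
  simp only [Base.ett, Base.T] at e1 ⊢
  rw [e2]
  generalize dx (B.w i) (U i) (x, θ) = a at e1 ⊢
  generalize dx (B.w i) (V i) (x, θ) = b at e1 ⊢
  generalize B.Ft i x = c at e1 ⊢
  simp only [inner_add_left, inner_add_right, smul_add, real_inner_smul_left,
    real_inner_smul_right, smul_eq_mul, real_inner_comm a b, real_inner_comm a c,
    real_inner_comm b c] at e1 ⊢
  linarith

theorem round_ss (hε : ∀ i, 0 < ε i) (hε1 : ∀ i, ε i ≤ 1) (hp : p ≤ B.K)
    (hp' : p' + B.K + 6 ≤ 2 * p) (h : WInv D ε p e β U) (hc : WCorr D ε p j e U V) :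
    IdP B.c B.χ p' (2 * j + 3) (fun i => B.κ i * ((ε i + β i + e i) * e i))
      (B.ess ε fun i q => U i q + V i q) ∧
    Idl B.c B.χ (B.K + p') (2 * j + 3) (fun i => B.κ i ^ 2 * ((ε i + β i + e i) * e i))
      fun i => mean (B.ess ε (fun i q => U i q + V i q) i) := by
  have hU := idp_U hp h
  have dU := hU.dx B.clχ B.bz
  have dV := hc.hV.dx B.clχ B.bz
  have tV := hc.hV.dθ B.clχ
  have he := h.e0
  have hβ := h.β0
  have hκ := B.κ0
  have hεβ : ∀ i, ε i * (1 + β i) ≤ ε i + β i := fun i => by nlinarith [hε1 i, hβ i]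
  -- `S - W`
  have hY := (fit (h.hU.dθ B.clχ) (p' := p - 1) (j' := 2) (by omega) (by omega)
      (A' := fun i => B.κ i * (ε i + β i)) fun i => by
        have := mul_pos (hκ i) (hε i)
        linarith).add
    (fit (eps dU hε) (p' := p - 1) (j' := 2) le_rfl le_rfl
      (A' := fun i => B.κ i * (ε i + β i)) fun i => by
        have := mul_le_mul_of_nonneg_left (hεβ i) (hκ i).le
        linarith)
  -- `S - F_s`
  have hS := (fit (hU.dθ B.clχ) (p' := p - 1) (j' := 2) (by omega) le_rfl fun i => le_rfl).add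
    (fit (eps dU hε) (p' := p - 1) (j' := 2) le_rfl le_rfl
      (A' := fun i => B.κ i * (1 + β i)) fun i =>
        mul_le_of_le_one_left (hU.nonneg i) (hε1 i))
  -- the increment of `S`
  have hQ := (fit tV (p' := p - 2 - 1) (by omega) le_rfl fun i => le_rfl).add
    (fit (eps dV hε) le_rfl le_rfl (A' := fun i => B.κ i * e i) fun i =>
        mul_le_of_le_one_left (dV.nonneg i) (hε1 i))
  have h1 := fit (hY.inner tV) (p' := B.K + p') (j' := 2 * j + 3) (by omega)
    (by omega) (A' := fun i => B.κ i ^ 2 * ((ε i + β i + e i) * e i)) fun i => by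
      have a1 := he i
      have a2 : ε i + β i ≤ ε i + β i + e i := by linarith
      calc B.κ i * (ε i + β i) * (B.κ i * e i) = B.κ i ^ 2 * ((ε i + β i) * e i) := by ring
        _ ≤ _ := mul_le_mul_of_nonneg_left (mul_le_mul_of_nonneg_right a2 a1) (sq_nonneg _)
  have h2 := fit (eps (hS.inner dV) hε) (p' := B.K + p') (j' := 2 * j + 3) (by omega)
    (by omega) (A' := fun i => B.κ i ^ 2 * ((ε i + β i + e i) * e i)) fun i => by
      have a1 := he i
      have a2 := hεβ i
      calc ε i * (B.κ i * (1 + β i) * (B.κ i * e i))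
          = B.κ i ^ 2 * (ε i * (1 + β i) * e i) := by ring
        _ ≤ _ := by gcongr; linarith
  have h3 := fit (hQ.inner hQ) (p' := B.K + p') (j' := 2 * j + 3) (by omega)
    (by omega) (A' := fun i => B.κ i ^ 2 * ((ε i + β i + e i) * e i)) fun i => by
      have a1 := he i
      have a2 := hβ i
      have a3 := hε i
      calc B.κ i * e i * (B.κ i * e i) = B.κ i ^ 2 * (e i * e i) := by ring
        _ ≤ _ := by gcongr; linarith
  have hR := ((two h1).add (two h2)).add h3
  have hF := (Idl.of_cl (χ := B.χ) B.clFs).lift.inner dV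
  have h4 := fit (eps hF hε) (p' := p') (j' := 2 * j + 3) (by omega) (by omega)
    (A' := fun i => B.κ i * ((ε i + β i + e i) * e i)) fun i => by
      have a1 := he i
      have a2 := hβ i
      have a3 := hκ i
      calc ε i * (1 * (B.κ i * e i)) = B.κ i * (ε i * e i) := by ring
        _ ≤ _ := by gcongr; linarith
  have key : ∀ i, ∀ x ∈ B.c.U i, ∀ θ, B.ess ε (fun i q => U i q + V i q) i (x, θ) =
      (2 * ⟪dθ (fun q => U i q - D.G i q) (x, θ) + ε i • dx (B.z i) (U i) (x, θ),
          dθ (V i) (x, θ)⟫ +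
        2 * (ε i • ⟪dθ (U i) (x, θ) + ε i • dx (B.z i) (U i) (x, θ), dx (B.z i) (V i) (x, θ)⟫) +
        ⟪dθ (V i) (x, θ) + ε i • dx (B.z i) (V i) (x, θ),
          dθ (V i) (x, θ) + ε i • dx (B.z i) (V i) (x, θ)⟫) +
      2 * (ε i • ⟪B.Fs i x, dx (B.z i) (V i) (x, θ)⟫) := by
    intro i x hx θ
    have e1 := hc.ss i x hx θ
    have e2 : dx (B.z i) (fun q => U i q + V i q) (x, θ) =
        dx (B.z i) (U i) (x, θ) + dx (B.z i) (V i) (x, θ) :=
      dd_add (diffAt hU hx θ) (diffAt hc.hV hx θ) _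
    have e3 : dθ (fun q => U i q + V i q) (x, θ) = dθ (U i) (x, θ) + dθ (V i) (x, θ) :=
      dd_add (diffAt hU hx θ) (diffAt hc.hV hx θ) _
    have e4 : dθ (fun q => U i q - D.G i q) (x, θ) = dθ (U i) (x, θ) - dθ (D.G i) (x, θ) :=
      dd_sub (diffAt hU hx θ) (diffAt D.hG hx θ) _
    simp only [Base.ess, Base.S, WData.W] at e1 ⊢
    rw [e2, e3, e4]
    generalize dx (B.z i) (U i) (x, θ) = a at e1 ⊢
    generalize dx (B.z i) (V i) (x, θ) = b at e1 ⊢
    generalize dθ (U i) (x, θ) = a' at e1 ⊢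
    generalize dθ (V i) (x, θ) = b' at e1 ⊢
    generalize dθ (D.G i) (x, θ) = g at e1 ⊢
    generalize B.Fs i x = c at e1 ⊢
    simp only [inner_add_left, inner_add_right, inner_sub_left, smul_add, real_inner_smul_left,
      real_inner_smul_right, smul_eq_mul, real_inner_comm a b, real_inner_comm a c,
      real_inner_comm b c, real_inner_comm a a', real_inner_comm a b', real_inner_comm b a',
      real_inner_comm b b', real_inner_comm a' b', real_inner_comm a' c,
      real_inner_comm b' c] at e1 ⊢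
    linarith
  constructor
  · refine ((fit hR (p' := p') (by omega) le_rfl fun i => ?_).add (two h4)).congr key
    have a1 := hκ i
    have a2 : 0 ≤ (ε i + β i + e i) * e i := mul_nonneg (by linarith [hε i, hβ i, he i]) (he i)
    have a3 : B.κ i ^ 2 ≤ B.κ i := by nlinarith [B.κ1 i]
    exact mul_le_mul_of_nonneg_right a3 a2
  · have m1 := (Idl.of_cl (χ := B.χ) B.clFs).bilin (innerSL ℝ) (hc.mV.dd B.clχ B.bz)
    have m2 := fit' (m1.csmul (a := fun i => 2 * ε i)
      (A' := fun i => ε i * (B.κ i ^ 2 * e i))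
      (fun i => mul_nonneg (hε i).le (hc.mV.nonneg i)) (C := 2) fun i => by
        rw [abs_of_pos (by linarith [hε i])]
        exact le_of_eq (by ring)) (p' := B.K + p') (j' := 2 * j + 3) (by omega) (by omega)
      (A' := fun i => B.κ i ^ 2 * ((ε i + β i + e i) * e i)) fun i => by
        have a1 := he i
        have a2 := hβ i
        calc ε i * (B.κ i ^ 2 * e i) = B.κ i ^ 2 * (ε i * e i) := by ring
          _ ≤ _ := by gcongr; linarith
    refine (hR.mean.add m2).congr fun i x hx => ?_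
    refine ((mean_congr ?_).trans (mean_add' hR (two h4) hx)).trans ?_
    · exact key i x hx
    congr 1
    rw [← mean_dx (B.c.hU i) ((hc.hV.cl B.clχ).sm i) hx, innerSL_apply_apply,
      ← mean_inner (cont dV hx) (B.Fs i), ← mean_smul fun _ => 2 * ε i]
    exact mean_congr fun θ => by simp only [smul_eq_mul]; ring

end Crest.Agent.R216.WaveRAux1
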