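import Crest.Agent.R216.WaveB

/-!
# Row 216: the `st` error after one round (auxiliary to `WaveR.lean`)
-/

set_option autoImplicit false
set_option linter.unusedSectionVars false

noncomputable section

namespace Crest.Agent.R216
namespace WaveRSt

open Set Metric Filter
open scoped ContDiff Topology RealInnerProductSpace

universe u

variable {ι : Type u} {B : Base ι}

theorem weak {W : Type} [NormedAddCommGroup W] [NormedSpace ℝ W] [FiniteDimensional ℝ W]
    {p p' j j' : ℕ} {A A' : ι → ℝ} {f : ι → E × ℝ → W} (h : IdP B.c B.χ p j A f) (hp : p' ≤ p)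
    (hj : j ≤ j') (hA : ∀ i, A i ≤ A' i) : IdP B.c B.χ p' j' A' f :=
  (h.mono B.clχ hp hj).size (fun i => (h.nonneg i).trans (hA i)) (C := 1) fun i => by
    rw [one_mul]
    exact mul_le_mul_of_nonneg_right (hA i) (pow_nonneg (zero_le_one.trans (B.c.hM i)) _)

theorem sm {W : Type} [NormedAddCommGroup W] [NormedSpace ℝ W] [FiniteDimensional ℝ W]
    {p j : ℕ} {A : ι → ℝ} {f : ι → E × ℝ → W} (h : IdP B.c B.χ p j A f) (i : ι) :
    ContDiffOn ℝ ∞ (f i) (B.c.U i ×ˢ univ) := (h.cl B.clχ 0).sm i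

theorem diff {W : Type} [NormedAddCommGroup W] [NormedSpace ℝ W] [FiniteDimensional ℝ W]
    {p j : ℕ} {A : ι → ℝ} {f : ι → E × ℝ → W} (h : IdP B.c B.χ p j A f) {i : ι} {x : E}
    (hx : x ∈ B.c.U i) (θ : ℝ) : DifferentiableAt ℝ (f i) (x, θ) :=
  ((sm h i).contDiffAt (((B.c.hU i).prod isOpen_univ).mem_nhds ⟨hx, trivial⟩)).differentiableAt
    (by simp)

theorem csmul {W : Type} [NormedAddCommGroup W] [NormedSpace ℝ W] [FiniteDimensional ℝ W]
    {p j : ℕ} {A ε : ι → ℝ} {f : ι → E × ℝ → W} (h : IdP B.c B.χ p j A f) (h0 : ∀ i, 0 < ε i) :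
    IdP B.c B.χ p j (fun i => ε i * A i) fun i q => ε i • f i q :=
  h.csmul (fun i => mul_nonneg (h0 i).le (h.nonneg i)) (C := 1) fun i => by
    rw [one_mul, abs_of_pos (h0 i)]

theorem mean3 {F L R : E × ℝ → ℝ} {x : E} {m ε : ℝ}
    (hF : ∀ θ, F (x, θ) = m + ε • L (x, θ) + R (x, θ)) (hL : Continuous fun θ => L (x, θ))
    (hR : Continuous fun θ => R (x, θ)) (h : m + ε * mean L x = 0) : mean F x = mean R x := by
  have h1 : Continuous fun θ => ε • L (x, θ) := hL.const_smul ε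
  rw [mean_congr (g := fun q => m + ε • L q + R q) hF,
    mean_add (f := fun q => m + ε • L q) (continuous_const.add h1) hR,
    mean_add (f := fun _ => m) (g := fun q => ε • L q) continuous_const h1,
    mean_const fun _ => m, mean_smul fun _ => ε, smul_eq_mul, h, zero_add]

theorem main (j : ℕ) (D : WData B) (ε : ι → ℝ)
    (p p' : ℕ) (e β : ι → ℝ) (U V : ι → E × ℝ → V4) (h0 : ∀ i, 0 < ε i) (h1 : ∀ i, ε i ≤ 1)
    (hp : p ≤ B.K) (hp' : p' + B.K + 6 ≤ 2 * p) (hI : WInv D ε p e β U) (hC : WCorr D ε p j e U V) :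
    IdP B.c B.χ p' (2 * j + 3) (fun i => B.κ i * ((ε i + β i + e i) * e i))
      (B.est ε fun i q => U i q + V i q) ∧
    Idl B.c B.χ (B.K + p') (2 * j + 3) (fun i => B.κ i ^ 2 * (ε i * ((ε i + β i + e i) * e i)))
      fun i => mean (B.est ε (fun i q => U i q + V i q) i) := by
  have e0 := hI.e0
  have β0 := hI.β0
  have κ0 := B.κ0
  have κ1 := B.κ1
  have hH := hI.hU
  have hV := hC.hV
  have hU : IdP B.c B.χ p 1 (fun i => B.κ i * (1 + β i)) U := by
    refine ((weak hH le_rfl zero_le_one fun i => ?_).add (weak D.hG hp le_rfl fun i => ?_)).congr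
      fun i x _ θ => (sub_add_cancel _ _).symm
    · exact mul_le_mul_of_nonneg_left (by linarith) (κ0 i).le
    · exact le_mul_of_one_le_right (κ0 i).le (by linarith [β0 i])
  have V' := hV.dθ B.clχ
  have Vt := hV.dx B.clχ B.bw
  have Vs := hV.dx B.clχ B.bz
  have Ut := hU.dx B.clχ B.bw
  have Us := hU.dx B.clχ B.bz
  have k1 : ∀ i, B.κ i * e i * (B.κ i * β i) ≤ B.κ i ^ 2 * ((ε i + β i + e i) * e i) := fun i => by
    have := mul_nonneg (sq_nonneg (B.κ i)) (mul_nonneg (add_nonneg (h0 i).le (e0 i)) (e0 i))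
    linarith
  have k2 : ∀ i, ε i * (B.κ i * e i * (B.κ i * (1 + β i))) ≤
      B.κ i ^ 2 * ((ε i + β i + e i) * e i) := fun i => by
    have := mul_nonneg (sq_nonneg (B.κ i)) (mul_nonneg (add_nonneg
      (mul_nonneg (sub_nonneg.2 (h1 i)) (β0 i)) (e0 i)) (e0 i))
    linarith
  have k3 : ∀ i, B.κ i * e i * (B.κ i * e i) ≤ B.κ i ^ 2 * ((ε i + β i + e i) * e i) := fun i => by
    have := mul_nonneg (sq_nonneg (B.κ i)) (mul_nonneg (add_nonneg (h0 i).le (β0 i)) (e0 i))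
    linarith
  have k4 : ∀ i, ε i * (B.κ i * e i * (B.κ i * e i)) ≤ B.κ i ^ 2 * ((ε i + β i + e i) * e i) :=
    fun i => (mul_le_of_le_one_left (mul_self_nonneg _) (h1 i)).trans (k3 i)
  have hR : IdP B.c B.χ (B.K + p') (2 * j + 3) (fun i => B.κ i ^ 2 * ((ε i + β i + e i) * e i))
      fun i q => ⟪dθ (V i) q, dx (B.w i) (fun q => U i q - D.G i q) q⟫ +
        ε i • ⟪dx (B.z i) (V i) q, dx (B.w i) (U i) q⟫ +
        ⟪dx (B.w i) (V i) q, dθ (fun q => U i q - D.G i q) q⟫ +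
        ε i • ⟪dx (B.w i) (V i) q, dx (B.z i) (U i) q⟫ +
        ⟪dθ (V i) q, dx (B.w i) (V i) q⟫ +
        ε i • ⟪dx (B.z i) (V i) q, dx (B.w i) (V i) q⟫ :=
    (((((weak (V'.inner (hH.dx B.clχ B.bw)) (by omega) (by omega) k1).add
      (weak (csmul (Vs.inner Ut) h0) (by omega) (by omega) k2)).add
      (weak (Vt.inner (hH.dθ B.clχ)) (by omega) (by omega) k1)).add
      (weak (csmul (Vt.inner Us) h0) (by omega) (by omega) k2)).add
      (weak (V'.inner Vt) (by omega) (by omega) k3)).add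
      (weak (csmul (Vs.inner Vt) h0) (by omega) (by omega) k4)
  have hL : IdP B.c B.χ p' (2 * j + 3) (fun i => B.κ i * e i)
      fun i q => ⟪B.Ft i q.1, dx (B.z i) (V i) q⟫ + ⟪D.W i q, dx (B.w i) (V i) q⟫
        + ⟪dθ (V i) q, dx (B.w i) (D.G i) q⟫ :=
    ((weak ((Idl.of_cl B.clFt).lift.inner Vs) (by omega) (by omega) fun i => (one_mul _).le).add
      (weak (D.idp_W.inner Vt) (by omega) (by omega) fun i => (one_mul _).le)).add
      (weak (V'.inner (D.hG.dx B.clχ B.bw)) (by omega) (by omega) fun i =>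
        mul_le_of_le_one_right (mul_nonneg (κ0 i).le (e0 i)) (κ1 i))
  have key : ∀ i, ∀ x ∈ B.c.U i, ∀ θ, B.est ε (fun i q => U i q + V i q) i (x, θ) =
      mean (B.est ε U i) x + ε i • (⟪B.Ft i x, dx (B.z i) (V i) (x, θ)⟫ +
        ⟪D.W i (x, θ), dx (B.w i) (V i) (x, θ)⟫ + ⟪dθ (V i) (x, θ), dx (B.w i) (D.G i) (x, θ)⟫) +
      ε i • (⟪dθ (V i) (x, θ), dx (B.w i) (fun q => U i q - D.G i q) (x, θ)⟫ +
        ε i • ⟪dx (B.z i) (V i) (x, θ), dx (B.w i) (U i) (x, θ)⟫ +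
        ⟪dx (B.w i) (V i) (x, θ), dθ (fun q => U i q - D.G i q) (x, θ)⟫ +
        ε i • ⟪dx (B.w i) (V i) (x, θ), dx (B.z i) (U i) (x, θ)⟫ +
        ⟪dθ (V i) (x, θ), dx (B.w i) (V i) (x, θ)⟫ +
        ε i • ⟪dx (B.z i) (V i) (x, θ), dx (B.w i) (V i) (x, θ)⟫) := by
    intro i x hx θ
    rw [← hC.st i x hx θ]
    unfold Base.est Base.S Base.T WData.W dx dθ
    simp only [dd_add (diff hU hx θ) (diff hV hx θ), dd_sub (diff hU hx θ) (diff D.hG hx θ)]
    generalize dd ((B.w i, 0) : E × ℝ) (U i) (x, θ) = ut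
    generalize dd ((B.z i, 0) : E × ℝ) (U i) (x, θ) = us
    generalize dd (((0 : E), 1) : E × ℝ) (U i) (x, θ) = u'
    generalize dd ((B.w i, 0) : E × ℝ) (V i) (x, θ) = vt
    generalize dd ((B.z i, 0) : E × ℝ) (V i) (x, θ) = vs
    generalize dd (((0 : E), 1) : E × ℝ) (V i) (x, θ) = v'
    generalize dd ((B.w i, 0) : E × ℝ) (D.G i) (x, θ) = gt
    generalize dd (((0 : E), 1) : E × ℝ) (D.G i) (x, θ) = g'
    generalize B.Ft i x = ft
    generalize B.Fs i x = fs
    simp only [inner_add_left, inner_add_right, inner_sub_right, real_inner_smul_left,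
      real_inner_smul_right, smul_eq_mul, real_inner_comm vt, real_inner_comm ft]
    ring
  have s0 : ∀ i, 0 ≤ (ε i + β i + e i) * e i := fun i =>
    mul_nonneg (add_nonneg (add_nonneg (h0 i).le (β0 i)) (e0 i)) (e0 i)
  have s1 : ∀ i, ε i * e i ≤ (ε i + β i + e i) * e i := fun i =>
    mul_le_mul_of_nonneg_right (by linarith [β0 i, e0 i]) (e0 i)
  have s2 : ∀ i, B.κ i ^ 2 ≤ B.κ i := fun i => by nlinarith [κ0 i, κ1 i]
  refine ⟨(((weak hI.mst.lift (by omega) (Nat.zero_le _) fun i => ?_).add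
    (weak (csmul hL h0) le_rfl le_rfl fun i => ?_)).add
    (weak (csmul hR h0) (by omega) le_rfl fun i => ?_)).congr key, ?_⟩
  · exact mul_le_mul (s2 i) (s1 i) (mul_nonneg (h0 i).le (e0 i)) (κ0 i).le
  · rw [mul_left_comm]
    exact mul_le_mul_of_nonneg_left (s1 i) (κ0 i).le
  · exact (mul_le_of_le_one_left (mul_nonneg (sq_nonneg _) (s0 i)) (h1 i)).trans
      (mul_le_mul_of_nonneg_right (s2 i) (s0 i))
  · refine (weak (csmul hR h0) le_rfl le_rfl fun i => (mul_left_comm _ _ _).le).mean.congr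
      fun i x hx => ?_
    exact mean3 (key i x hx) (continuous_slice (sm hL i) hx)
      (continuous_slice (sm (csmul hR h0) i) hx) (hC.mst i x hx)

end WaveRSt
end Crest.Agent.R216
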