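import Crest.Agent.R216.WaveB
import Crest.Agent.R216.WaveRAuxSt
import Crest.Agent.R216.WaveRAux1

/-!
# Row 216: one round of the correction scheme
-/

set_option autoImplicit false
set_option linter.unusedSectionVars false

noncomputable section

namespace Crest.Agent.R216

open Set Metric Filter
open scoped ContDiff Topology RealInnerProductSpace

universe u

theorem round_U (j : ℕ) : ∃ c0 : ℕ, ∀ {ι : Type u} {B : Base ι} (D : WData B) (ε : ι → ℝ)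
    (p p' : ℕ) (e β : ι → ℝ) (U V : ι → E × ℝ → V4), p' + 3 ≤ p →
    WInv D ε p e β U → WCorr D ε p j e U V →
    IdP B.c B.χ p' 0 (fun i => B.κ i * (β i + e i * B.c.M i ^ c0))
      fun i q => (U i q + V i q) - D.G i q :=
  ⟨j, fun _ _ _ _ _ _ _ _ hp h hc => WaveRAux1.round_U hp h hc⟩

theorem round_tt (j : ℕ) : ∃ c0 : ℕ, ∀ {ι : Type u} {B : Base ι} (D : WData B) (ε : ι → ℝ)
    (p p' : ℕ) (e β : ι → ℝ) (U V : ι → E × ℝ → V4), (∀ i, 0 < ε i) → (∀ i, ε i ≤ 1) →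
    p ≤ B.K → p' + B.K + 6 ≤ 2 * p → WInv D ε p e β U → WCorr D ε p j e U V →
    IdP B.c B.χ (B.K + p') c0 (fun i => B.κ i ^ 2 * (ε i * ((ε i + β i + e i) * e i)))
      (B.ett ε fun i q => U i q + V i q) :=
  ⟨2 * j + 3, fun _ _ _ _ _ _ _ _ hε hε1 hp hp' h hc => WaveRAux1.round_tt hε hε1 hp hp' h hc⟩

theorem round_ss (j : ℕ) : ∃ c0 : ℕ, ∀ {ι : Type u} {B : Base ι} (D : WData B) (ε : ι → ℝ)
    (p p' : ℕ) (e β : ι → ℝ) (U V : ι → E × ℝ → V4), (∀ i, 0 < ε i) → (∀ i, ε i ≤ 1) →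
    p ≤ B.K → p' + B.K + 6 ≤ 2 * p → WInv D ε p e β U → WCorr D ε p j e U V →
    IdP B.c B.χ p' c0 (fun i => B.κ i * ((ε i + β i + e i) * e i))
      (B.ess ε fun i q => U i q + V i q) ∧
    Idl B.c B.χ (B.K + p') c0 (fun i => B.κ i ^ 2 * ((ε i + β i + e i) * e i))
      fun i => mean (B.ess ε (fun i q => U i q + V i q) i) :=
  ⟨2 * j + 3, fun _ _ _ _ _ _ _ _ hε hε1 hp hp' h hc => WaveRAux1.round_ss hε hε1 hp hp' h hc⟩

theorem round_st (j : ℕ) : ∃ c0 : ℕ, ∀ {ι : Type u} {B : Base ι} (D : WData B) (ε : ι → ℝ)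
    (p p' : ℕ) (e β : ι → ℝ) (U V : ι → E × ℝ → V4), (∀ i, 0 < ε i) → (∀ i, ε i ≤ 1) →
    p ≤ B.K → p' + B.K + 6 ≤ 2 * p → WInv D ε p e β U → WCorr D ε p j e U V →
    IdP B.c B.χ p' c0 (fun i => B.κ i * ((ε i + β i + e i) * e i))
      (B.est ε fun i q => U i q + V i q) ∧
    Idl B.c B.χ (B.K + p') c0 (fun i => B.κ i ^ 2 * (ε i * ((ε i + β i + e i) * e i)))
      fun i => mean (B.est ε (fun i q => U i q + V i q) i) :=
  ⟨2 * j + 3, fun D => WaveRSt.main j D⟩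

end Crest.Agent.R216
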