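import Crest.Agent.R216.WaveL
import Crest.Agent.R216.WaveR

/-!
# Row 216: waves that are exact to any order
-/

set_option autoImplicit false
set_option linter.unusedSectionVars false

noncomputable section

namespace Crest.Agent.R216

open Set Metric Filter
open scoped ContDiff Topology RealInnerProductSpace

universe u

namespace WaveAux

variable {ι : Type*} {B : Base ι}

theorem fin {q p : ℕ} {A A' a : ι → ℝ} {f : ι → E × ℝ → ℝ} (h : IdP B.c B.χ q 4 A f) (hp : p ≤ q)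
    (h0 : ∀ i, 0 ≤ A' i) {C : ℝ} (ha : ∀ i, |a i| * (A i * B.c.M i ^ 4) ≤ C * A' i) :
    IdP B.c B.χ p 0 A' fun i q => a i * f i q := by
  have h1 : IdP B.c B.χ p 0 (fun i => A i * B.c.M i ^ 4) f :=
    (h.mono B.clχ hp le_rfl).size (C := 1)
      (fun i => mul_nonneg (h.nonneg i) (pow_nonneg (by linarith [B.c.hM i]) _)) fun i => by simp
  exact h1.csmul h0 ha

variable (D : WData B) (ε : ι → ℝ)

theorem smG (i : ι) : ContDiffOn ℝ ∞ (D.G i) (B.c.U i ×ˢ univ) := (D.hG.cl B.clχ).sm i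

theorem mean_dxG {i : ι} {x : E} (hx : x ∈ B.c.U i) (v : E) : mean (dx v (D.G i)) x = 0 := by
  rw [mean_dx (B.c.hU i) (smG D i) hx,
    dd_congr (b := fun _ => 0) (B.c.hU i) (fun y hy => D.meanG i y hy) hx]
  simp [dd]

theorem ett_eq {i : ι} {x : E} (hx : x ∈ B.c.U i) (θ : ℝ) : B.ett ε D.G i (x, θ) =
    ε i ^ 2 * ⟪dx (B.w i) (D.G i) (x, θ), dx (B.w i) (D.G i) (x, θ)⟫ := by
  have h := B.inner_Ft_dx_of_InP (smG D i) (D.GP i) hx θ
  have h' := h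
  rw [real_inner_comm] at h'
  simp only [Base.ett, Base.T, inner_add_left, inner_add_right, real_inner_smul_left,
    real_inner_smul_right, h, h']
  ring

theorem ess_eq {i : ι} {x : E} (hx : x ∈ B.c.U i) (θ : ℝ) : B.ess ε D.G i (x, θ) =
    2 * ε i * ⟪D.W i (x, θ), dx (B.z i) (D.G i) (x, θ)⟫ +
      ε i ^ 2 * ⟪dx (B.z i) (D.G i) (x, θ), dx (B.z i) (D.G i) (x, θ)⟫ := by
  have h := D.norm_W hx θ
  have e : B.S ε D.G i (x, θ) = D.W i (x, θ) + ε i • dx (B.z i) (D.G i) (x, θ) := rfl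
  simp only [Base.ess, e, inner_add_left, inner_add_right, real_inner_smul_left,
    real_inner_smul_right, h, real_inner_comm (D.W i (x, θ)) (dx (B.z i) (D.G i) (x, θ))]
  ring

theorem est_eq {i : ι} {x : E} (hx : x ∈ B.c.U i) (θ : ℝ) : B.est ε D.G i (x, θ) =
    ε i * ⟪D.W i (x, θ), dx (B.w i) (D.G i) (x, θ)⟫ +
      ε i * ⟪B.Ft i x, dx (B.z i) (D.G i) (x, θ)⟫ +
      ε i ^ 2 * ⟪dx (B.z i) (D.G i) (x, θ), dx (B.w i) (D.G i) (x, θ)⟫ := by
  have h : ⟪D.W i (x, θ), B.Ft i x⟫ = ⟪B.Fs i x, B.Ft i x⟫ := by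
    have := (D.G'P hx θ).1
    rw [real_inner_comm] at this
    simp only [WData.W, inner_add_left, this, add_zero]
  have e : B.S ε D.G i (x, θ) = D.W i (x, θ) + ε i • dx (B.z i) (D.G i) (x, θ) := rfl
  simp only [Base.est, Base.T, e, inner_add_left, inner_add_right, real_inner_smul_left,
    real_inner_smul_right, h, real_inner_comm (B.Ft i x) (dx (B.z i) (D.G i) (x, θ))]
  ring

theorem mean_mul (a : ℝ) (f : E × ℝ → ℝ) (x : E) : mean (fun q => a * f q) x = a * mean f x :=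
  mean_smul (f := f) (x := x) fun _ => a

theorem mean_lin2 (a b : ℝ) (f g : E × ℝ → ℝ) {x : E} (hf : Continuous fun θ => f (x, θ))
    (hg : Continuous fun θ => g (x, θ)) :
    mean (fun q => a * f q + b * g q) x = a * mean f x + b * mean g x := by
  rw [← mean_mul, ← mean_mul]
  exact mean_add (f := fun q => a * f q) (g := fun q => b * g q) (hf.const_mul a) (hg.const_mul b)

theorem mean_lin3 (a b c : ℝ) (f g h : E × ℝ → ℝ) {x : E} (hf : Continuous fun θ => f (x, θ))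
    (hg : Continuous fun θ => g (x, θ)) (hh : Continuous fun θ => h (x, θ)) :
    mean (fun q => a * f q + b * g q + c * h q) x = a * mean f x + b * mean g x + c * mean h x := by
  rw [← mean_lin2 a b f g hf hg, ← mean_mul c]
  exact mean_add (f := fun q => a * f q + b * g q) (g := fun q => c * h q)
    ((hf.const_mul a).add (hg.const_mul b)) (hh.const_mul c)

theorem cont {V : Type} [NormedAddCommGroup V] [NormedSpace ℝ V] [FiniteDimensional ℝ V]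
    {p j : ℕ} {A : ι → ℝ} {f : ι → E × ℝ → V} (h : IdP B.c B.χ p j A f) {i : ι} {x : E}
    (hx : x ∈ B.c.U i) : Continuous fun θ => f i (x, θ) :=
  continuous_slice ((h.cl B.clχ).sm i) hx

/-- The mean of `⟪W, ∂_v G⟫`. -/
theorem mean_W {v : ι → E} (hv : Bc v) {i : ι} {x : E} (hx : x ∈ B.c.U i) :
    mean (fun q => ⟪D.W i q, dx (v i) (D.G i) q⟫) x =
      mean (fun q => ⟪dθ (D.G i) q, dx (v i) (D.G i) q⟫) x := by
  have c1 := cont (D.hG.dx B.clχ hv) hx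
  have c2 := cont D.idp_G' hx
  simp only [WData.W, inner_add_left]
  rw [mean_add (f := fun q => ⟪B.Fs i q.1, dx (v i) (D.G i) q⟫)
    (g := fun q => ⟪dθ (D.G i) q, dx (v i) (D.G i) q⟫) 
      ((continuous_const (y := B.Fs i x)).inner c1) (c2.inner c1),
    mean_inner c1, mean_dxG D hx, inner_zero_right, zero_add]

/-- The depth lost after `n` rounds. -/
def dep : ℕ → ℕ
  | 0 => 2
  | n + 1 => 2 * dep n + 6

end WaveAux

open WaveAux

/-- The leading term satisfies the invariant. -/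
theorem wave_init : ∃ c0 : ℕ, ∀ {ι : Type u} {B : Base ι} (D : WData B) (ε : ι → ℝ) (p : ℕ),
    (∀ i, 0 < ε i) → (∀ i, ε i ≤ 1) → p + 2 ≤ B.K →
    WInv D ε p (fun i => ε i * B.c.M i ^ c0) (fun _ => 0) D.G := by
  refine ⟨4, fun {ι B} D ε p h0 h1 hp => ?_⟩
  have hM : ∀ i, 0 < B.c.M i ^ 4 := fun i => pow_pos (by linarith [B.c.hM i]) _
  have Gs := D.hG.dx B.clχ B.bz
  have Gt := D.hG.dx B.clχ B.bw
  have Ft := (Idl.of_cl (χ := B.χ) B.clFt).lift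
  have n1 : ∀ i, 0 ≤ B.κ i * (ε i * B.c.M i ^ 4) := fun i => by
    have := B.κ0 i; have := h0 i; have := hM i; positivity
  have n2 : ∀ i, 0 ≤ B.κ i ^ 2 * (ε i * B.c.M i ^ 4) := fun i => by
    have := h0 i; have := hM i; positivity
  have n3 : ∀ i, 0 ≤ B.κ i ^ 2 * (ε i * (ε i * B.c.M i ^ 4)) := fun i => by
    have := h0 i; have := hM i; positivity
  have a1 : ∀ i, |ε i| * (1 * B.κ i * B.c.M i ^ 4) ≤ 1 * (B.κ i * (ε i * B.c.M i ^ 4)) :=
    fun i => by rw [abs_of_pos (h0 i)]; exact le_of_eq (by ring)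
  have a2 : ∀ i, |2 * ε i| * (1 * B.κ i * B.c.M i ^ 4) ≤ 2 * (B.κ i * (ε i * B.c.M i ^ 4)) :=
    fun i => by rw [abs_of_pos (by linarith [h0 i])]; exact le_of_eq (by ring)
  have a3 : ∀ i, |ε i ^ 2| * (B.κ i * B.κ i * B.c.M i ^ 4) ≤
      1 * (B.κ i ^ 2 * (ε i * (ε i * B.c.M i ^ 4))) :=
    fun i => by rw [abs_of_nonneg (sq_nonneg _)]; exact le_of_eq (by ring)
  have a4 : ∀ i, |ε i ^ 2| * (B.κ i * B.κ i * B.c.M i ^ 4) ≤
      1 * (B.κ i ^ 2 * (ε i * B.c.M i ^ 4)) := fun i => (a3 i).trans (by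
    nlinarith [mul_le_mul_of_nonneg_right (h1 i) (n2 i)])
  have a5 : ∀ i, |ε i ^ 2| * (B.κ i * B.κ i * B.c.M i ^ 4) ≤
      1 * (B.κ i * (ε i * B.c.M i ^ 4)) := fun i => (a4 i).trans (by
    nlinarith [mul_le_mul_of_nonneg_right (B.κ1 i) (n1 i)])
  have a6 : ∀ i, |2 * ε i| * (B.κ i * B.κ i * B.c.M i ^ 4) ≤
      2 * (B.κ i ^ 2 * (ε i * B.c.M i ^ 4)) :=
    fun i => by rw [abs_of_pos (by linarith [h0 i])]; exact le_of_eq (by ring)
  refine ⟨fun i => (mul_pos (h0 i) (hM i)).le, fun _ => le_rfl, ?_, ?_, ?_, ?_, ?_, ?_⟩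
  · exact (IdP.zero fun i => by simp).congr fun i x _ θ => sub_self _
  · exact ((fin (D.idp_W.inner Gs) (by omega) n1 a2).add
      (fin (Gs.inner Gs) (by omega) n1 a5)).congr fun i x hx θ => ess_eq D ε hx θ
  · exact (((fin (D.idp_W.inner Gt) (by omega) n1 a1).add
      (fin ((Ft.inner Gs).mono B.clχ le_rfl (by norm_num)) (by omega) n1 a1)).add
      (fin (Gs.inner Gt) (by omega) n1 a5)).congr fun i x hx θ => est_eq D ε hx θ
  · refine ((fin (D.idp_G'.inner Gs) (by omega) n2 a6).add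
      (fin (Gs.inner Gs) (by omega) n2 a4)).mean.congr fun i x hx => ?_
    have c1 := cont (D.idp_W.inner Gs) hx
    have c2 := cont (Gs.inner Gs) hx
    have c3 := cont (D.idp_G'.inner Gs) hx
    rw [mean_congr (g := fun q => 2 * ε i * ⟪D.W i q, dx (B.z i) (D.G i) q⟫ +
      ε i ^ 2 * ⟪dx (B.z i) (D.G i) q, dx (B.z i) (D.G i) q⟫) (ess_eq D ε hx),
      mean_lin2 _ _ (fun q => ⟪D.W i q, dx (B.z i) (D.G i) q⟫)
        (fun q => ⟪dx (B.z i) (D.G i) q, dx (B.z i) (D.G i) q⟫) c1 c2,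
      mean_lin2 _ _ (fun q => ⟪dθ (D.G i) q, dx (B.z i) (D.G i) q⟫)
        (fun q => ⟪dx (B.z i) (D.G i) q, dx (B.z i) (D.G i) q⟫) c3 c2, mean_W D B.bz hx]
  · refine (fin (Gs.inner Gt) (by omega) n3 a3).mean.congr fun i x hx => ?_
    have c1 := cont (D.idp_W.inner Gt) hx
    have c2 := cont (Ft.inner Gs) hx
    have c3 := cont (Gs.inner Gt) hx
    rw [mean_congr (g := fun q => ε i * ⟪D.W i q, dx (B.w i) (D.G i) q⟫ +
      ε i * ⟪B.Ft i q.1, dx (B.z i) (D.G i) q⟫ +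
      ε i ^ 2 * ⟪dx (B.z i) (D.G i) q, dx (B.w i) (D.G i) q⟫) (est_eq D ε hx),
      mean_lin3 _ _ _ (fun q => ⟪D.W i q, dx (B.w i) (D.G i) q⟫)
        (fun q => ⟪B.Ft i q.1, dx (B.z i) (D.G i) q⟫)
        (fun q => ⟪dx (B.z i) (D.G i) q, dx (B.w i) (D.G i) q⟫) c1 c2 c3,
      mean_mul, mean_W D B.bw hx, D.Gst i x hx, mean_inner (cont Gs hx), mean_dxG D hx]
    simp
  · exact (fin (Gt.inner Gt) (by omega) n3 a3).congr fun i x hx θ => ett_eq D ε hx θ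

theorem wave_round : ∃ c0 : ℕ, ∀ {ι : Type u} {B : Base ι} (D : WData B) (ε : ι → ℝ)
    (p p' : ℕ) (e β : ι → ℝ) (U : ι → E × ℝ → V4), (∀ i, 0 < ε i) → (∀ i, ε i ≤ 1) →
    p ≤ B.K → p' + B.K + 6 ≤ 2 * p → WInv D ε p e β U →
    ∃ U', WInv D ε p' (fun i => (ε i + β i + e i) * e i * B.c.M i ^ c0)
      (fun i => β i + e i * B.c.M i ^ c0) U' := by
  obtain ⟨j, hj⟩ := exists_corr.{u}
  obtain ⟨c1, h1⟩ := round_U.{u} j
  obtain ⟨c2, h2⟩ := round_tt.{u} j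
  obtain ⟨c3, h3⟩ := round_ss.{u} j
  obtain ⟨c4, h4⟩ := round_st.{u} j
  refine ⟨c1 + c2 + c3 + c4, fun {ι B} D ε p p' e β U h0 hε hp hp' h => ?_⟩
  obtain ⟨V, hV⟩ := hj D ε p e β U h0 hε (by omega) h
  have hM : ∀ i, ∀ c ≤ c1 + c2 + c3 + c4, B.c.M i ^ c ≤ B.c.M i ^ (c1 + c2 + c3 + c4) :=
    fun i c hc => pow_le_pow_right₀ (B.c.hM i) hc
  have hM0 : ∀ i, 0 ≤ B.c.M i ^ (c1 + c2 + c3 + c4) :=
    fun i => pow_nonneg (by linarith [B.c.hM i]) _
  have q0 : ∀ i, 0 ≤ (ε i + β i + e i) * e i := fun i => by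
    have := h0 i; have := h.e0 i; have := h.β0 i; positivity
  have key : ∀ (A A' : ι → ℝ) (c : ℕ), c ≤ c1 + c2 + c3 + c4 → (∀ i, 0 ≤ A i) →
      (∀ i, A' i = A i * B.c.M i ^ (c1 + c2 + c3 + c4)) →
      (∀ i, 0 ≤ A' i) ∧ ∀ i, A i * B.c.M i ^ c ≤ 1 * (A' i * B.c.M i ^ 0) :=
    fun A A' c hc hA he => ⟨fun i => he i ▸ mul_nonneg (hA i) (hM0 i), fun i => by
      rw [he, pow_zero, mul_one, one_mul]
      exact mul_le_mul_of_nonneg_left (hM i c hc) (hA i)⟩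
  obtain ⟨s1, s2⟩ := h3 D ε p p' e β U V h0 hε hp hp' h hV
  obtain ⟨t1, t2⟩ := h4 D ε p p' e β U V h0 hε hp hp' h hV
  have r := h2 D ε p p' e β U V h0 hε hp hp' h hV
  have b0 : ∀ i, 0 ≤ β i + e i * B.c.M i ^ (c1 + c2 + c3 + c4) :=
    fun i => add_nonneg (h.β0 i) (mul_nonneg (h.e0 i) (hM0 i))
  refine ⟨fun i q => U i q + V i q, fun i => mul_nonneg (q0 i) (hM0 i), b0, ?_, ?_, ?_, ?_, ?_, ?_⟩
  · refine (h1 D ε p p' e β U V (by omega) h hV).size (C := 1)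
      (fun i => mul_nonneg (B.κ0 i).le (b0 i)) fun i => ?_
    rw [pow_zero, mul_one, mul_one, one_mul]
    exact mul_le_mul_of_nonneg_left (add_le_add le_rfl
      (mul_le_mul_of_nonneg_left (hM i c1 (by omega)) (h.e0 i))) (B.κ0 i).le
  · obtain ⟨k1, k2⟩ := key _ (fun i => B.κ i * ((ε i + β i + e i) * e i *
      B.c.M i ^ (c1 + c2 + c3 + c4))) c3 (by omega) s1.nonneg fun i => by ring
    exact s1.size k1 k2
  · obtain ⟨k1, k2⟩ := key _ (fun i => B.κ i * ((ε i + β i + e i) * e i *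
      B.c.M i ^ (c1 + c2 + c3 + c4))) c4 (by omega) t1.nonneg fun i => by ring
    exact t1.size k1 k2
  · obtain ⟨k1, k2⟩ := key _ (fun i => B.κ i ^ 2 * ((ε i + β i + e i) * e i *
      B.c.M i ^ (c1 + c2 + c3 + c4))) c3 (by omega) s2.nonneg fun i => by ring
    exact s2.size k1 k2
  · obtain ⟨k1, k2⟩ := key _ (fun i => B.κ i ^ 2 * (ε i * ((ε i + β i + e i) * e i *
      B.c.M i ^ (c1 + c2 + c3 + c4)))) c4 (by omega) t2.nonneg fun i => by ring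
    exact t2.size k1 k2
  · obtain ⟨k1, k2⟩ := key _ (fun i => B.κ i ^ 2 * (ε i * ((ε i + β i + e i) * e i *
      B.c.M i ^ (c1 + c2 + c3 + c4)))) c2 (by omega) r.nonneg fun i => by ring
    exact r.size k1 k2

/-- Change of the sizes in the invariant. -/
theorem WInv.size {ι : Type*} {B : Base ι} {D : WData B} {ε : ι → ℝ} {p : ℕ} {e β e' β' : ι → ℝ}
    {U : ι → E × ℝ → V4} (h : WInv D ε p e β U) (hε : ∀ i, 0 < ε i) (he0 : ∀ i, 0 ≤ e' i)
    (hβ0 : ∀ i, 0 ≤ β' i) {C : ℝ} (he : ∀ i, e i ≤ C * e' i) (hβ : ∀ i, β i ≤ C * β' i) :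
    WInv D ε p e' β' U := by
  have key : ∀ (a : ℝ) (x y : ℝ) (i : ι), 0 ≤ a → x ≤ C * y →
      a * x * B.c.M i ^ 0 ≤ C * (a * y * B.c.M i ^ 0) := fun a x y i ha hxy => by
    rw [pow_zero, mul_one, mul_one, mul_left_comm]
    exact mul_le_mul_of_nonneg_left hxy ha
  have e1 : ∀ i, ε i * e i ≤ C * (ε i * e' i) := fun i => by
    rw [mul_left_comm]
    exact mul_le_mul_of_nonneg_left (he i) (hε i).le
  have n1 : ∀ i, 0 ≤ B.κ i * e' i := fun i => mul_nonneg (B.κ0 i).le (he0 i)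
  have n2 : ∀ i, 0 ≤ B.κ i ^ 2 * (ε i * e' i) :=
    fun i => mul_nonneg (sq_nonneg _) (mul_nonneg (hε i).le (he0 i))
  exact ⟨he0, hβ0,
    h.hU.size (fun i => mul_nonneg (B.κ0 i).le (hβ0 i)) fun i => key _ _ _ i (B.κ0 i).le (hβ i),
    h.ss.size n1 fun i => key _ _ _ i (B.κ0 i).le (he i),
    h.st.size n1 fun i => key _ _ _ i (B.κ0 i).le (he i),
    h.mss.size (fun i => mul_nonneg (sq_nonneg _) (he0 i))
      fun i => key _ _ _ i (sq_nonneg _) (he i),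
    h.mst.size n2 fun i => key _ _ _ i (sq_nonneg _) (e1 i),
    h.tt.size n2 fun i => key _ _ _ i (sq_nonneg _) (e1 i)⟩

theorem wave : ∃ c0 : ℕ, ∀ N : ℕ, ∃ K0 : ℕ, 3 ≤ K0 ∧ ∀ {ι : Type u} {B : Base ι} (D : WData B)
    (ε : ι → ℝ), K0 ≤ B.K → (∀ i, 0 < ε i) → (∀ i, ε i * B.c.M i ^ c0 ≤ 1) →
    ∃ U : ι → E × ℝ → V4,
      IdP B.c B.χ 3 c0 (fun i => B.κ i * ε i) (fun i q => U i q - D.G i q) ∧
      Cl B.c.cyl 0 (fun i => (ε i * B.c.M i ^ c0) ^ N) (B.ett ε U) ∧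
      Cl B.c.cyl 0 (fun i => (ε i * B.c.M i ^ c0) ^ N) (B.est ε U) ∧
      Cl B.c.cyl 0 (fun i => (ε i * B.c.M i ^ c0) ^ N) (B.ess ε U) := by
  obtain ⟨c1, h1⟩ := wave_init.{u}
  obtain ⟨c2, h2⟩ := wave_round.{u}
  refine ⟨3 * (c1 + c2), fun N => ⟨dep N + 3, by omega, fun {ι B} D ε hK h0 hε => ?_⟩⟩
  set m : ι → ℝ := fun i => B.c.M i ^ (c1 + c2) with hm
  have m1 : ∀ i, 1 ≤ m i := fun i => one_le_pow₀ (B.c.hM i)
  have m3 : ∀ i, B.c.M i ^ (3 * (c1 + c2)) = m i ^ 3 := fun i => by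
    rw [mul_comm, pow_mul]
  have mc1 : ∀ i, B.c.M i ^ c1 ≤ m i := fun i => pow_le_pow_right₀ (B.c.hM i) (by omega)
  have mc2 : ∀ i, B.c.M i ^ c2 ≤ m i := fun i => pow_le_pow_right₀ (B.c.hM i) (by omega)
  simp only [m3] at hε ⊢
  have x0 : ∀ i, 0 ≤ ε i * m i ^ 3 := fun i => by have := h0 i; have := m1 i; positivity
  have x1 : ∀ i, ε i * m i ≤ 1 := fun i =>
    (mul_le_mul_of_nonneg_left (le_self_pow₀ (m1 i) (by norm_num)) (h0 i).le).trans (hε i)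
  have ε1 : ∀ i, ε i ≤ 1 := fun i => (le_mul_of_one_le_right (h0 i).le (m1 i)).trans (x1 i)
  have y0 : ∀ n i, 0 ≤ (ε i * m i ^ 3) ^ n * (ε i * m i) := fun n i => by
    have := h0 i; have := m1 i; positivity
  have y1 : ∀ n i, (ε i * m i ^ 3) ^ n * (ε i * m i) ≤ ε i * m i := fun n i =>
    mul_le_of_le_one_left (by have := h0 i; have := m1 i; positivity) (pow_le_one₀ (x0 i) (hε i))
  have z0 : ∀ i, 0 ≤ ε i * m i ^ 2 := fun i => by have := h0 i; positivity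
  have main : ∀ n, dep n ≤ B.K → ∃ U, WInv D ε (B.K - dep n)
      (fun i => (ε i * m i ^ 3) ^ n * (ε i * m i)) (fun i => ε i * m i ^ 2) U := by
    intro n
    induction n with
    | zero =>
      intro hn
      refine ⟨D.G, (h1 D ε _ h0 ε1 (by simp only [dep] at hn ⊢; omega)).size h0 (y0 0) z0 (C := 1)
        (fun i => ?_) fun i => by simpa using z0 i⟩
      simpa using mul_le_mul_of_nonneg_left (mc1 i) (h0 i).le
    | succ n ih =>
      intro hn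
      simp only [dep] at hn
      obtain ⟨U, hU⟩ := ih (by omega)
      obtain ⟨U', hU'⟩ := h2 D ε _ (B.K - dep (n + 1)) _ _ U h0 ε1 (Nat.sub_le _ _)
        (by simp only [dep]; omega) hU
      refine ⟨U', hU'.size h0 (y0 (n + 1)) z0 (C := 3) (fun i => ?_) fun i => ?_⟩
      · have a1 : ε i ≤ ε i * m i ^ 2 := le_mul_of_one_le_right (h0 i).le (one_le_pow₀ (m1 i))
        have a2 : ε i * m i ≤ ε i * m i ^ 2 :=
          mul_le_mul_of_nonneg_left (le_self_pow₀ (m1 i) (by norm_num)) (h0 i).le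
        calc _ ≤ (3 * (ε i * m i ^ 2)) * ((ε i * m i ^ 3) ^ n * (ε i * m i)) * m i :=
              mul_le_mul (mul_le_mul_of_nonneg_right (by linarith [y1 n i]) (y0 n i)) (mc2 i)
                (pow_nonneg (by linarith [B.c.hM i]) _) (mul_nonneg (by linarith [z0 i]) (y0 n i))
          _ = _ := by ring
      · have a1 : (ε i * m i ^ 3) ^ n * (ε i * m i) * B.c.M i ^ c2 ≤ ε i * m i * m i :=
          mul_le_mul (y1 n i) (mc2 i) (pow_nonneg (by linarith [B.c.hM i]) _)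
            (mul_nonneg (h0 i).le (by linarith [m1 i]))
        nlinarith [z0 i]
  obtain ⟨U, hU⟩ := main N (by omega)
  have w0 : ∀ i, 0 ≤ (ε i * m i ^ 3) ^ N := fun i => pow_nonneg (x0 i) _
  have w1 : ∀ i, (ε i * m i ^ 3) ^ N * (ε i * m i) ≤ (ε i * m i ^ 3) ^ N :=
    fun i => mul_le_of_le_one_right (w0 i) (x1 i)
  have w2 : ∀ (a : ℝ) (i : ι), a ≤ 1 → a * ((ε i * m i ^ 3) ^ N * (ε i * m i)) *
      B.c.cyl.M i ^ 0 ≤ 1 * ((ε i * m i ^ 3) ^ N * B.c.cyl.M i ^ 0) := fun a i ha => by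
    rw [pow_zero, mul_one, mul_one, one_mul]
    exact (mul_le_of_le_one_left (y0 N i) ha).trans (w1 i)
  refine ⟨U, (hU.hU.mono B.clχ (by omega) le_rfl).size (C := 1)
    (fun i => (mul_pos (B.κ0 i) (h0 i)).le) fun i => ?_,
    (hU.tt.cl B.clχ).size w0 (C := 1) fun i => ?_,
    (hU.st.cl B.clχ).size w0 fun i => w2 _ i (B.κ1 i),
    (hU.ss.cl B.clχ).size w0 fun i => w2 _ i (B.κ1 i)⟩
  · rw [m3, pow_zero, mul_one, one_mul, mul_assoc]
    exact mul_le_mul_of_nonneg_left (mul_le_mul_of_nonneg_left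
      (pow_le_pow_right₀ (m1 i) (by norm_num)) (h0 i).le) (B.κ0 i).le
  · rw [← mul_assoc (B.κ i ^ 2)]
    exact w2 _ i (mul_le_one₀ (pow_le_one₀ (B.κ0 i).le (B.κ1 i)) (h0 i).le (ε1 i))

end Crest.Agent.R216
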