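import Crest.Agent.R216.WaveDefs
import Crest.Agent.R216.Vec

/-!
# Row 216: small tools for `WaveB` (part 1)
-/

set_option autoImplicit false
set_option linter.unusedSectionVars false

noncomputable section

namespace Crest.Agent.R216.WaveBAux

open Set Metric Filter
open scoped ContDiff Topology RealInnerProductSpace

section cl

variable {ι X V : Type*} [NormedAddCommGroup X] [NormedSpace ℝ X] [NormedAddCommGroup V]
  [NormedSpace ℝ V] {c : Ctx ι X} {j j' : ℕ}

theorem mul1 {a a' : ι → X → ℝ} (h : Cl c j (fun _ => 1) a) (h' : Cl c j' (fun _ => 1) a') :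
    Cl c (j + j') (fun _ => 1) fun i x => a i x * a' i x := by
  simpa only [one_mul] using h.mul h'

theorem inner1 {a a' : ι → X → V4} (h : Cl c j (fun _ => 1) a) (h' : Cl c j' (fun _ => 1) a') :
    Cl c (j + j') (fun _ => 1) fun i x => ⟪a i x, a' i x⟫ := by
  simpa only [one_mul] using h.inner h'

theorem smul1 {a : ι → X → ℝ} {f : ι → X → V} (h : Cl c j (fun _ => 1) a)
    (h' : Cl c j' (fun _ => 1) f) : Cl c (j + j') (fun _ => 1) fun i x => a i x • f i x := by
  simpa only [one_mul] using h.smul h'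

theorem cl_dd {A : ι → ℝ} {f : ι → X → V} (h : Cl c j A fun i => fderiv ℝ (f i)) {v : ι → X}
    (hv : Bc v) : Cl c j A fun i => dd (v i) (f i) := by
  obtain ⟨C, hC⟩ := hv
  have hL : Bc fun i => ContinuousLinearMap.apply ℝ V (v i) := by
    refine ⟨C, fun i => ContinuousLinearMap.opNorm_le_bound _ ((norm_nonneg _).trans (hC i))
      fun L => ?_⟩
    rw [ContinuousLinearMap.apply_apply, mul_comm]
    exact (L.le_opNorm _).trans (mul_le_mul_of_nonneg_left (hC i) (norm_nonneg _))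
  exact h.clm hL

end cl

section dd

variable {Y V : Type} [NormedAddCommGroup Y] [NormedSpace ℝ Y] [NormedAddCommGroup V]
  [NormedSpace ℝ V] {O : Set Y}

theorem sm_dd (hO : IsOpen O) {f : Y → V} (hf : ContDiffOn ℝ ∞ f O) (v : Y) :
    ContDiffOn ℝ ∞ (dd v f) O :=
  (hf.fderiv_of_isOpen hO (by simp)).clm_apply contDiffOn_const

theorem diffAt (hO : IsOpen O) {f : Y → V} (hf : ContDiffOn ℝ ∞ f O) {y : Y} (hy : y ∈ O) :
    DifferentiableAt ℝ f y :=
  (hf.contDiffAt (hO.mem_nhds hy)).differentiableAt (by simp)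

/-- Differentiating an orthogonality relation. -/
theorem inner_dd_of_orth (hO : IsOpen O) {a b : Y → V4} (ha : ContDiffOn ℝ ∞ a O)
    (hb : ContDiffOn ℝ ∞ b O) (h : ∀ y ∈ O, ⟪a y, b y⟫ = 0) {y : Y} (hy : y ∈ O) (v : Y) :
    ⟪a y, dd v b y⟫ = -⟪dd v a y, b y⟫ := by
  have h1 := dd_inner (diffAt hO ha hy) (diffAt hO hb hy) v
  have h2 : dd v (fun y => ⟪a y, b y⟫) y = 0 := by
    rw [dd_congr hO h hy]; simp [dd]
  linarith

theorem sm_lift {U : Set Y} {a : Y → V} (ha : ContDiffOn ℝ ∞ a U) :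
    ContDiffOn ℝ ∞ (fun q : Y × ℝ => a q.1) (U ×ˢ univ) :=
  ha.comp contDiffOn_fst fun _ hz => hz.1

end dd

end Crest.Agent.R216.WaveBAux
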