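import Crest.Agent.R216.WaveDefs
import Crest.Agent.R240.Par

/-!
# Row 216: the functions `sc`, `cc`, `c2`
-/

set_option autoImplicit false

noncomputable section

namespace Crest.Agent.R216.WaveBAux2

open Set Metric Filter
open scoped ContDiff Topology

theorem mul_sc (x : ℝ) : x * sc x = Real.sin x := by
  rw [sc, intervalIntegral.mul_integral_comp_mul_right (f := Real.cos), integral_cos]
  simp

theorem mul_cc (x : ℝ) : x * cc x = 1 - Real.cos x := by
  rw [cc, intervalIntegral.mul_integral_comp_mul_right (f := Real.sin), integral_sin]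
  simp

theorem mul_c2 (x : ℝ) : x ^ 2 * c2 x = 1 - Real.cos x := by
  rw [c2, ← intervalIntegral.integral_const_mul,
    intervalIntegral.integral_eq_sub_of_hasDerivAt
      (f := fun τ => x * ((1 - τ) * Real.sin (τ * x)) - Real.cos (τ * x)) (fun τ _ => ?_)
      (Continuous.intervalIntegrable (by fun_prop) _ _)]
  · simp; ring
  · have h := hasDerivAt_mul_const (x := τ) x
    exact ((((hasDerivAt_id' τ).const_sub 1).mul h.sin).const_mul x |>.sub h.cos).congr_deriv
      (by ring)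

theorem sc_zero : sc 0 = 1 := by simp [sc]
theorem cc_zero : cc 0 = 0 := by simp [cc]
theorem c2_zero : c2 0 = 1 / 2 := by
  simp only [c2, mul_zero, Real.cos_zero, mul_one]
  rw [intervalIntegral.integral_sub (by simp) (by simp)]
  simp
  norm_num
theorem sc_neg (x : ℝ) : sc (-x) = sc x := by simp [sc]
theorem c2_neg (x : ℝ) : c2 (-x) = c2 x := by simp [c2]

theorem contDiff_sc : ContDiff ℝ ∞ sc :=
  R240.contDiff_intervalIntegral (Φ := fun q : ℝ × ℝ => Real.cos (q.2 * q.1)) (by fun_prop) 0 1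
theorem contDiff_cc : ContDiff ℝ ∞ cc :=
  R240.contDiff_intervalIntegral (Φ := fun q : ℝ × ℝ => Real.sin (q.2 * q.1)) (by fun_prop) 0 1
theorem contDiff_c2 : ContDiff ℝ ∞ c2 :=
  R240.contDiff_intervalIntegral (Φ := fun q : ℝ × ℝ => (1 - q.2) * Real.cos (q.2 * q.1))
    (by fun_prop) 0 1

theorem norm_le {f : ℝ → ℝ} (hf : ContDiff ℝ ∞ f) (hb : ∀ m x, |iteratedDeriv m f x| ≤ 1) (m : ℕ)
    (x : ℝ) : ‖iteratedFDeriv ℝ m (fun x => ∫ τ in (0 : ℝ)..1, f (τ * x)) x‖ ≤ 1 := by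
  refine (R240.norm_iteratedFDeriv_intervalIntegral_le (Φ := fun q : ℝ × ℝ => f (q.2 * q.1))
    (by fun_prop) zero_le_one m x (c := 1) fun t ht => ?_).trans_eq (by norm_num)
  rw [norm_iteratedFDeriv_eq_norm_iteratedDeriv, Real.norm_eq_abs,
    iteratedDeriv_comp_const_mul (hf.of_le (by exact_mod_cast le_top)) t, abs_mul, abs_pow,
    abs_of_nonneg ht.1]
  exact mul_le_one₀ (pow_le_one₀ ht.1 ht.2) (abs_nonneg _) (hb _ _)

theorem norm_iteratedFDeriv_sc (m : ℕ) (x : ℝ) : ‖iteratedFDeriv ℝ m sc x‖ ≤ 1 :=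
  norm_le Real.contDiff_cos Real.abs_iteratedDeriv_cos_le_one m x
theorem norm_iteratedFDeriv_cc (m : ℕ) (x : ℝ) : ‖iteratedFDeriv ℝ m cc x‖ ≤ 1 :=
  norm_le Real.contDiff_sin Real.abs_iteratedDeriv_sin_le_one m x

theorem sc_sq_add_cc_sq (x : ℝ) : sc x ^ 2 + cc x ^ 2 ≤ 1 := by
  rcases eq_or_ne x 0 with rfl | h
  · simp [sc_zero, cc_zero]
  · refine le_of_mul_le_mul_left ?_ (sq_pos_of_ne_zero h)
    rw [mul_add, ← mul_pow, ← mul_pow, mul_sc, mul_cc]
    linarith [Real.sin_sq_add_cos_sq x, Real.one_sub_sq_div_two_le_cos (x := x)]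

theorem half_le_sc {x : ℝ} (h : |x| ≤ 1) : 1 / 2 ≤ sc x := by
  have := intervalIntegral.integral_mono_on (μ := MeasureTheory.volume) (f := fun _ => (1 / 2 : ℝ))
    (g := fun τ => Real.cos (τ * x)) zero_le_one (by simp)
    (Continuous.intervalIntegrable (by fun_prop) _ _) fun t ht => by
      have h1 : (t * x) ^ 2 ≤ 1 := by
        rw [sq_le_one_iff_abs_le_one, abs_mul, abs_of_nonneg ht.1]
        exact mul_le_one₀ ht.2 (abs_nonneg _) h
      linarith [Real.one_sub_sq_div_two_le_cos (x := t * x)]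
  simpa [sc] using this

theorem sc_pos {x : ℝ} (h : |x| < Real.pi) : 0 < sc x := by
  have key : ∀ y, 0 < y → y < Real.pi → 0 < sc y := fun y h0 h1 =>
    pos_of_mul_pos_right (by rw [mul_sc]; exact Real.sin_pos_of_pos_of_lt_pi h0 h1) h0.le
  obtain ⟨h1, h2⟩ := abs_lt.1 h
  rcases lt_trichotomy x 0 with h0 | rfl | h0
  · rw [← sc_neg]; exact key _ (by linarith) (by linarith)
  · simp [sc_zero]
  · exact key x h0 h2

theorem le_c2 {x : ℝ} (h : |x| ≤ Real.pi) : 2 / Real.pi ^ 2 ≤ c2 x := by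
  rcases eq_or_ne x 0 with rfl | h0
  · rw [c2_zero, div_le_div_iff₀ (by positivity) (by norm_num)]
    nlinarith [Real.two_le_pi]
  · refine le_of_mul_le_mul_left ?_ (sq_pos_of_ne_zero h0)
    rw [mul_c2]
    linarith [Real.cos_le_one_sub_mul_cos_sq h]

theorem st_sc {ι X : Type*} [NormedAddCommGroup X] [NormedSpace ℝ X] {c : Ctx ι X} {d : ℕ}
    {a : ι → X → ℝ} (h : St (c.pow d) a) : St (c.pow (2 * d)) fun i x => sc (a i x) :=
  St.comp_left (Φ := sc) isOpen_univ contDiff_sc.contDiffOn (h 0).sm (fun _ => mapsTo_univ _ _)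
    (fun m => ⟨1, fun _ _ _ => norm_iteratedFDeriv_sc m _⟩) h.fderiv
theorem st_cc {ι X : Type*} [NormedAddCommGroup X] [NormedSpace ℝ X] {c : Ctx ι X} {d : ℕ}
    {a : ι → X → ℝ} (h : St (c.pow d) a) : St (c.pow (2 * d)) fun i x => cc (a i x) :=
  St.comp_left (Φ := cc) isOpen_univ contDiff_cc.contDiffOn (h 0).sm (fun _ => mapsTo_univ _ _)
    (fun m => ⟨1, fun _ _ _ => norm_iteratedFDeriv_cc m _⟩) h.fderiv

end Crest.Agent.R216.WaveBAux2
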