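import Crest.Agent.R216.WaveDefs
import Crest.Agent.R216.Vec
import Crest.Agent.R216.WaveBAux1
import Crest.Agent.R216.WaveBAux2

/-!
# Row 216: structure functions of a family of waves
-/

set_option autoImplicit false
set_option linter.unusedSectionVars false

noncomputable section

namespace Crest.Agent.R216

open Set Metric Filter
open scoped ContDiff Topology RealInnerProductSpace

universe u

namespace Base

variable {ι : Type*} (B : Base ι)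

theorem clFt : Cl B.c 1 (fun _ => 1) B.Ft := by
  exact WaveBAux.cl_dd B.stF B.bw

theorem clFs : Cl B.c 1 (fun _ => 1) B.Fs := by
  exact WaveBAux.cl_dd B.stF B.bz

theorem clFtt : Cl B.c 2 (fun _ => 1) B.Ftt := by
  exact B.clFt.dd B.bw

theorem idl_ρ : Idl B.c B.χ B.K 0 B.κ B.ρ := by
  refine ⟨fun i _ => B.κ i, fun k => Bd.const (fun i => (B.κ0 i).le) (C := 1) fun i => ?_,
    fun i x _ => ?_⟩
  · rw [Real.norm_of_nonneg (B.κ0 i).le, one_mul]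
  · rw [ρ, smul_eq_mul, mul_comm]

theorem idl_a : Idl B.c B.χ B.K 1 B.κ B.a := by
  refine ⟨fun i x => B.κ i • B.b i x, Cl.csmul B.stb (fun i => (B.κ0 i).le) (C := 1) fun i => ?_,
    fun i x _ => ?_⟩
  · rw [abs_of_pos (B.κ0 i), mul_one, one_mul]
  · simp only [a, smul_eq_mul]; ring

theorem cl_a : Cl B.c 1 B.κ B.a := by
  exact B.idl_a.cl B.clχ

theorem st_a : St B.c B.a := by
  refine B.cl_a.size (fun _ => zero_le_one) (C := 1) fun i => ?_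
  rw [one_mul]
  exact mul_le_mul_of_nonneg_right (B.κ1 i) (pow_nonneg (zero_le_one.trans (B.c.hM i)) _)

theorem cl_g : Cl B.c 6 (fun _ => 1) B.g := by
  have h1 := WaveBAux.mul1 (WaveBAux.inner1 B.clFt B.clFt) (WaveBAux.inner1 B.clFtt B.clFtt)
  have h2 := WaveBAux.mul1 (WaveBAux.inner1 B.clFt B.clFtt) (WaveBAux.inner1 B.clFt B.clFtt)
  refine (h1.sub h2).congr fun i x _ => ?_
  rw [g, gram, sq]

theorem cl_m (h : St B.c fun i x => (B.g i x)⁻¹) : Cl B.c 9 (fun _ => 1) B.m := by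
  have st := WaveBAux.inner1 B.clFs B.clFt
  have stt := WaveBAux.inner1 B.clFs B.clFtt
  have tt := WaveBAux.inner1 B.clFt B.clFt
  have ttt := WaveBAux.inner1 B.clFt B.clFtt
  have tttt := WaveBAux.inner1 B.clFtt B.clFtt
  have a1 := WaveBAux.mul1 st tttt
  have a2 := WaveBAux.mul1 stt ttt
  have a3 := WaveBAux.mul1 stt tt
  have a4 := WaveBAux.mul1 st ttt
  have h1 := WaveBAux.smul1 (WaveBAux.mul1 (a1.sub a2) h) B.clFt
  have h2 := WaveBAux.smul1 (WaveBAux.mul1 (a3.sub a4) h) B.clFtt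
  refine (((B.clFs.mono (j' := 9) (by norm_num)).sub (h1.mono (by norm_num))).sub
    (h2.mono (by norm_num))).congr fun i x _ => ?_
  simp only [m, pn, g, div_eq_mul_inv]

theorem mP {i : ι} {x : E} (h : B.g i x ≠ 0) : B.InP i x (B.m i x) := by
  exact ⟨(real_inner_comm _ _).trans (inner_pn_1 h _), (real_inner_comm _ _).trans (inner_pn_2 h _)⟩

theorem inner_m {i : ι} {x : E} {y : V4} (h : B.InP i x y) : ⟪B.m i x, y⟫ = ⟪B.Fs i x, y⟫ := by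
  exact inner_pn_orth _ _ _ h.1 h.2

theorem decomp (i : ι) (v : E) : v = B.ξ i v • B.z i + B.η i v • B.w i := by
  exact frame_decomp (B.ξz i) (B.ξw i) (B.ηz i) (B.ηw i) v


/-- The dual basis of `F_t, F_tt` in `P ᗮ`. -/
theorem exists_dual (hne : ∀ i, ∀ x ∈ B.c.U i, B.g i x ≠ 0) (h : St B.c fun i x => (B.g i x)⁻¹) :
    ∃ Dt Dtt : ι → E → V4, Cl B.c 6 (fun _ => 1) Dt ∧ Cl B.c 6 (fun _ => 1) Dtt ∧
      ∀ i, ∀ x ∈ B.c.U i, ⟪B.Ft i x, Dt i x⟫ = 1 ∧ ⟪B.Ftt i x, Dt i x⟫ = 0 ∧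
        ⟪B.Ft i x, Dtt i x⟫ = 0 ∧ ⟪B.Ftt i x, Dtt i x⟫ = 1 ∧
        ∀ y, B.InP i x y → ⟪y, Dt i x⟫ = 0 ∧ ⟪y, Dtt i x⟫ = 0 := by
  have tt := WaveBAux.inner1 B.clFt B.clFt
  have ttt := WaveBAux.inner1 B.clFt B.clFtt
  have tttt := WaveBAux.inner1 B.clFtt B.clFtt
  have a1 := WaveBAux.smul1 tttt B.clFt
  have a2 := WaveBAux.smul1 ttt B.clFtt
  have a3 := WaveBAux.smul1 tt B.clFtt
  have a4 := WaveBAux.smul1 ttt B.clFt
  refine ⟨_, _, WaveBAux.smul1 h (a1.sub a2), (WaveBAux.smul1 h (a3.sub a4)).mono (by norm_num),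
    fun i x hx => ?_⟩
  have hg := hne i x hx
  have hc : ⟪B.Ftt i x, B.Ft i x⟫ = ⟪B.Ft i x, B.Ftt i x⟫ := real_inner_comm _ _
  have hg' : B.g i x = ⟪B.Ft i x, B.Ft i x⟫ * ⟪B.Ftt i x, B.Ftt i x⟫ - ⟪B.Ft i x, B.Ftt i x⟫ ^ 2 :=
    rfl
  simp only [real_inner_smul_right, inner_sub_right, hc]
  refine ⟨?_, by ring, by ring, ?_, fun y hy => ?_⟩
  · rw [inv_mul_eq_one₀ hg, hg']; ring
  · rw [inv_mul_eq_one₀ hg, hg']; ring
  · rw [real_inner_comm _ y, real_inner_comm _ y, hy.1, hy.2]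
    constructor <;> ring


/-- The angle derivative of a section of `P` is a section of `P`. -/
theorem InP_dθ {i : ι} {f : E × ℝ → V4} (hf : ContDiffOn ℝ ∞ f (B.c.U i ×ˢ univ))
    (h : ∀ x ∈ B.c.U i, ∀ θ, B.InP i x (f (x, θ))) {x : E} (hx : x ∈ B.c.U i) (θ : ℝ) :
    B.InP i x (dθ f (x, θ)) := by
  have key : ∀ a : V4, (∀ θ, ⟪a, f (x, θ)⟫ = 0) → ⟪a, dθ f (x, θ)⟫ = 0 := by
    intro a ha
    have h1 : HasDerivAt (fun θ => ⟪a, f (x, θ)⟫) ⟪a, dθ f (x, θ)⟫ θ :=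
      (innerSL ℝ a).hasFDerivAt.comp_hasDerivAt θ (hasDerivAt_dθ (B.c.hU i) hf hx θ)
    simp only [ha] at h1
    exact h1.unique (hasDerivAt_const θ 0)
  exact ⟨key _ fun θ => (h x hx θ).1, key _ fun θ => (h x hx θ).2⟩


/-- `⟪F_t, ∂_t f⟫ = ∂_t ⟪F_t, f⟫ - ⟪F_tt, f⟫`. -/
theorem inner_Ft_dx {i : ι} {f : E × ℝ → V4} (hf : ContDiffOn ℝ ∞ f (B.c.U i ×ˢ univ))
    {x : E} (hx : x ∈ B.c.U i) (θ : ℝ) : ⟪B.Ft i x, dx (B.w i) f (x, θ)⟫ =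
      dx (B.w i) (fun q => ⟪B.Ft i q.1, f q⟫) (x, θ) - ⟪B.Ftt i x, f (x, θ)⟫ := by
  have hO := (B.c.hU i).prod (isOpen_univ (X := ℝ))
  have hq : (x, θ) ∈ B.c.U i ×ˢ (univ : Set ℝ) := ⟨hx, trivial⟩
  have h1 := dd_inner (WaveBAux.diffAt hO (WaveBAux.sm_lift (B.clFt.sm i)) hq)
    (WaveBAux.diffAt hO hf hq) (B.w i, 0)
  have h2 : dd (B.w i, 0) (fun q : E × ℝ => B.Ft i q.1) (x, θ) = B.Ftt i x := dx_lift _ _ _
  rw [h2] at h1
  exact eq_sub_of_add_eq' h1.symm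


theorem inner_Ft_dx_of_InP {i : ι} {f : E × ℝ → V4} (hf : ContDiffOn ℝ ∞ f (B.c.U i ×ˢ univ))
    (h : ∀ x ∈ B.c.U i, ∀ θ, B.InP i x (f (x, θ))) {x : E} (hx : x ∈ B.c.U i) (θ : ℝ) :
    ⟪B.Ft i x, dx (B.w i) f (x, θ)⟫ = 0 := by
  have hO := (B.c.hU i).prod (isOpen_univ (X := ℝ))
  have hq : (x, θ) ∈ B.c.U i ×ˢ (univ : Set ℝ) := ⟨hx, trivial⟩
  have h1 := WaveBAux.inner_dd_of_orth hO (WaveBAux.sm_lift (B.clFt.sm i)) hf
    (fun q hq => (h q.1 hq.1 q.2).1) hq (B.w i, 0)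
  have h2 : dd (B.w i, 0) (fun q : E × ℝ => B.Ft i q.1) (x, θ) = B.Ftt i x := dx_lift _ _ _
  rw [h2, (h x hx θ).2, neg_zero] at h1
  exact h1


end Base

namespace WData

variable {ι : Type*} {B : Base ι} (D : WData B)

theorem idp_W : IdP B.c B.χ 0 2 (fun _ => 1) D.W := by
  have h1 : IdP B.c B.χ 0 2 (fun _ => 1) fun i q => B.Fs i q.1 :=
    (Idl.of_cl (B.clFs.mono (by norm_num))).lift
  have h2 : IdP B.c B.χ 0 2 (fun _ => 1) fun i => dθ (D.G i) := by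
    refine ((D.hG.dθ B.clχ).mono B.clχ (Nat.zero_le _) le_rfl).size (fun _ => zero_le_one) (C := 1)
      fun i => ?_
    rw [one_mul]
    exact mul_le_mul_of_nonneg_right (B.κ1 i) (pow_nonneg (zero_le_one.trans (B.c.hM i)) _)
  exact h1.add h2

theorem idp_G' : IdP B.c B.χ B.K 2 B.κ fun i => dθ (D.G i) := by
  exact D.hG.dθ B.clχ

theorem G'P {i : ι} {x : E} (hx : x ∈ B.c.U i) (θ : ℝ) : B.InP i x (dθ (D.G i) (x, θ)) := by
  exact B.InP_dθ ((D.hG.cl B.clχ).sm i) (D.GP i) hx θ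

theorem norm_W {i : ι} {x : E} (hx : x ∈ B.c.U i) (θ : ℝ) :
    ⟪D.W i (x, θ), D.W i (x, θ)⟫ = ⟪B.Fs i x, B.Fs i x⟫ + B.a i x ^ 2 := by
  have h1 := D.hR i x hx θ
  have h2 := B.inner_m (D.G'P hx θ)
  rw [norm_add_sq_real, h2] at h1
  rw [W, real_inner_self_eq_norm_sq, real_inner_self_eq_norm_sq, norm_add_sq_real]
  linarith

theorem Ξ_add {V V' : ι → E × ℝ → V4} {i : ι} (hV : ContDiffOn ℝ ∞ (V i) (B.c.U i ×ˢ univ))
    (hV' : ContDiffOn ℝ ∞ (V' i) (B.c.U i ×ˢ univ)) {x : E} (hx : x ∈ B.c.U i) :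
    D.Ξ (fun i q => V i q + V' i q) i x = D.Ξ V i x + D.Ξ V' i x := by
  have hO := (B.c.hU i).prod (isOpen_univ (X := ℝ))
  have hW := (D.idp_W.cl B.clχ).sm i
  have hG := (D.hG.cl B.clχ).sm i
  have hc : ∀ {V : E × ℝ → V4}, ContDiffOn ℝ ∞ V (B.c.U i ×ˢ univ) →
      Continuous fun θ => (fun q : E × ℝ => ⟪B.Ft i q.1, dx (B.z i) V q⟫ + ⟪D.W i q, dx (B.w i) V q⟫
        + ⟪dθ V q, dx (B.w i) (D.G i) q⟫) (x, θ) := fun {V} hV =>
    continuous_slice ((((WaveBAux.sm_lift (B.clFt.sm i)).inner ℝ (WaveBAux.sm_dd hO hV _)).add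
      (hW.inner ℝ (WaveBAux.sm_dd hO hV _))).add
      ((WaveBAux.sm_dd hO hV _).inner ℝ (WaveBAux.sm_dd hO hG _))) hx
  rw [Ξ, Ξ, Ξ, ← mean_add (hc hV) (hc hV')]
  refine mean_congr fun θ => ?_
  have hq : (x, θ) ∈ B.c.U i ×ˢ (univ : Set ℝ) := ⟨hx, trivial⟩
  have e := dd_add (WaveBAux.diffAt hO hV hq) (WaveBAux.diffAt hO hV' hq)
  simp only [dx, dθ, e, inner_add_left, inner_add_right]
  ring

/-- The gadget `Z` solves the mean `st` equation. -/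
theorem Ξ_Z {k : ι → E → ℝ} {i : ι} (hk : ContDiffOn ℝ ∞ (k i) (B.c.U i)) {x : E}
    (hx : x ∈ B.c.U i) :
    D.Ξ (fun i q => k i q.1 • D.Z i q) i x = -(2 * (B.ρ i x * k i x)) := by
  have hO := (B.c.hU i).prod (isOpen_univ (X := ℝ))
  have hW : ContDiffOn ℝ ∞ (D.W i) (B.c.U i ×ˢ univ) := (D.idp_W.cl B.clχ).sm i
  have hG : ContDiffOn ℝ ∞ (D.G i) (B.c.U i ×ˢ univ) := (D.hG.cl B.clχ).sm i
  have hZ : ContDiffOn ℝ ∞ (D.Z i) (B.c.U i ×ˢ univ) := Cl.sm D.stZ i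
  have hFt := WaveBAux.sm_lift (B.clFt.sm i)
  set V : E × ℝ → V4 := fun q => k i q.1 • D.Z i q with hVdef
  have hV : ContDiffOn ℝ ∞ V (B.c.U i ×ˢ univ) := (WaveBAux.sm_lift hk).smul hZ
  have hGw := WaveBAux.sm_dd hO hG (B.w i, 0)
  have c1 : Continuous fun θ => (fun q : E × ℝ => ⟪B.Ft i q.1, dx (B.z i) V q⟫
      + ⟪D.W i q, dx (B.w i) V q⟫) (x, θ) :=
    continuous_slice ((hFt.inner ℝ (WaveBAux.sm_dd hO hV _)).add
      (hW.inner ℝ (WaveBAux.sm_dd hO hV _))) hx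
  have c2 : Continuous fun θ => (fun q : E × ℝ => ⟪dθ V q, dx (B.w i) (D.G i) q⟫) (x, θ) :=
    continuous_slice ((WaveBAux.sm_dd hO hV _).inner ℝ hGw) hx
  have c3 : Continuous fun θ => (fun q : E × ℝ => ⟪V q, dθ (dx (B.w i) (D.G i)) q⟫) (x, θ) :=
    continuous_slice (hV.inner ℝ (WaveBAux.sm_dd hO hGw _)) hx
  have h2 : mean (fun q : E × ℝ => ⟪dθ V q, dx (B.w i) (D.G i) q⟫) x =
      -mean (fun q : E × ℝ => ⟪V q, dθ (dx (B.w i) (D.G i)) q⟫) x :=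
    mean_bilin_dθ (innerSL ℝ) (B.c.hU i) hV hGw hx
      (fun θ => by simp only [hVdef, D.perZ i x hx θ])
      fun θ => dx_periodic (B.c.hU i) (D.hG.per i) _ hx θ
  have h3 : ∀ θ, (⟪B.Ft i x, dx (B.z i) V (x, θ)⟫ + ⟪D.W i (x, θ), dx (B.w i) V (x, θ)⟫) -
      ⟪V (x, θ), dθ (dx (B.w i) (D.G i)) (x, θ)⟫ =
        (-(2 * k i x)) • ⟪dx (B.w i) (D.W i) (x, θ), D.Z i (x, θ)⟫ := by
    intro θ
    have hq : (x, θ) ∈ B.c.U i ×ˢ (univ : Set ℝ) := ⟨hx, trivial⟩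
    have e1 := WaveBAux.inner_dd_of_orth hO hFt hV (fun q hq => by
      simp only [hVdef, real_inner_smul_right, (D.ZP i q.1 hq.1 q.2).1, mul_zero]) hq (B.z i, 0)
    have e2 := WaveBAux.inner_dd_of_orth hO hW hV (fun q hq => by
      have : ⟪D.W i q, D.Z i q⟫ = 0 := D.ZW i q.1 hq.1 q.2
      simp only [hVdef, real_inner_smul_right, this, mul_zero]) hq (B.w i, 0)
    have e3 : dθ (dx (B.w i) (D.G i)) (x, θ) = dx (B.w i) (dθ (D.G i)) (x, θ) :=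
      dd_comm (hG.contDiffAt (hO.mem_nhds hq)) _ _
    have e4 : dx (B.w i) (D.W i) (x, θ) =
        dx (B.w i) (fun q : E × ℝ => B.Fs i q.1) (x, θ) + dx (B.w i) (dθ (D.G i)) (x, θ) :=
      dd_add (WaveBAux.diffAt hO (WaveBAux.sm_lift (B.clFs.sm i)) hq)
        (WaveBAux.diffAt hO (WaveBAux.sm_dd hO hG _) hq) _
    have e5 : dx (B.w i) (fun q : E × ℝ => B.Fs i q.1) (x, θ) =
        dx (B.z i) (fun q : E × ℝ => B.Ft i q.1) (x, θ) := by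
      rw [dx_lift, dx_lift]
      exact dd_comm ((B.smF i).contDiffAt ((B.c.hU i).mem_nhds hx)) _ _
    have e6 : dx (B.w i) (dθ (D.G i)) (x, θ) =
        dx (B.w i) (D.W i) (x, θ) - dx (B.z i) (fun q : E × ℝ => B.Ft i q.1) (x, θ) := by
      rw [e4, e5, add_sub_cancel_left]
    rw [e3, e6, e1, e2, inner_sub_right, real_inner_comm _ (V (x, θ)), real_inner_comm _ (V (x, θ))]
    simp only [hVdef, real_inner_smul_right, smul_eq_mul]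
    ring
  have h4 : mean (fun q : E × ℝ => ⟪dx (B.w i) (D.W i) q, D.Z i q⟫) x = B.ρ i x := D.hZ i x hx
  have h5 := mean_smul (f := fun q : E × ℝ => ⟪dx (B.w i) (D.W i) q, D.Z i q⟫) (x := x)
    fun y => -(2 * k i y)
  rw [Ξ, mean_add c1 c2, h2, ← sub_eq_add_neg, ← mean_sub c1 c3]
  refine ((mean_congr h3).trans h5).trans ?_
  rw [h4, smul_eq_mul]
  ring


end WData

/-! ## The functions `sc`, `cc`, `c2` -/

theorem mul_sc (x : ℝ) : x * sc x = Real.sin x :=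
  WaveBAux2.mul_sc x
theorem mul_cc (x : ℝ) : x * cc x = 1 - Real.cos x :=
  WaveBAux2.mul_cc x
theorem mul_c2 (x : ℝ) : x ^ 2 * c2 x = 1 - Real.cos x :=
  WaveBAux2.mul_c2 x
theorem sc_zero : sc 0 = 1 :=
  WaveBAux2.sc_zero
theorem c2_zero : c2 0 = 1 / 2 :=
  WaveBAux2.c2_zero
theorem sc_neg (x : ℝ) : sc (-x) = sc x :=
  WaveBAux2.sc_neg x
theorem c2_neg (x : ℝ) : c2 (-x) = c2 x :=
  WaveBAux2.c2_neg x
theorem contDiff_sc : ContDiff ℝ ∞ sc :=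
  WaveBAux2.contDiff_sc
theorem contDiff_cc : ContDiff ℝ ∞ cc :=
  WaveBAux2.contDiff_cc
theorem contDiff_c2 : ContDiff ℝ ∞ c2 :=
  WaveBAux2.contDiff_c2
theorem norm_iteratedFDeriv_sc (m : ℕ) (x : ℝ) : ‖iteratedFDeriv ℝ m sc x‖ ≤ 1 :=
  WaveBAux2.norm_iteratedFDeriv_sc m x
theorem norm_iteratedFDeriv_cc (m : ℕ) (x : ℝ) : ‖iteratedFDeriv ℝ m cc x‖ ≤ 1 :=
  WaveBAux2.norm_iteratedFDeriv_cc m x
theorem sc_sq_add_cc_sq (x : ℝ) : sc x ^ 2 + cc x ^ 2 ≤ 1 :=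
  WaveBAux2.sc_sq_add_cc_sq x
theorem half_le_sc {x : ℝ} (h : |x| ≤ 1) : 1 / 2 ≤ sc x :=
  WaveBAux2.half_le_sc h
theorem sc_pos {x : ℝ} (h : |x| < Real.pi) : 0 < sc x :=
  WaveBAux2.sc_pos h
theorem le_c2 {x : ℝ} (h : |x| ≤ Real.pi) : 2 / Real.pi ^ 2 ≤ c2 x :=
  WaveBAux2.le_c2 h

theorem St.sc {ι X : Type*} [NormedAddCommGroup X] [NormedSpace ℝ X] {c : Ctx ι X} {d : ℕ}
    {a : ι → X → ℝ} (h : St (c.pow d) a) : St (c.pow (2 * d)) fun i x => sc (a i x) :=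
  WaveBAux2.st_sc h
theorem St.cc {ι X : Type*} [NormedAddCommGroup X] [NormedSpace ℝ X] {c : Ctx ι X} {d : ℕ}
    {a : ι → X → ℝ} (h : St (c.pow d) a) : St (c.pow (2 * d)) fun i x => cc (a i x) :=
  WaveBAux2.st_cc h

end Crest.Agent.R216
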