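import Crest.Agent.R216.ClP

/-!
# Row 216: data of a family of waves (definitions)

`Base` is a family of maps `F` of plane domains with a frame `(z, w)`, the dual frame `(ξ, η)`
and the amplitude `a = κ χ ^ K b`.  The wave is `F + ε U (x, ξ x / ε)`.
DO NOT change a definition of this file.
-/

set_option autoImplicit false

noncomputable section

namespace Crest.Agent.R216

open Set Metric Filter
open scoped ContDiff Topology RealInnerProductSpace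

/-- The same domains with other scales. -/
def Ctx.scale {ι X : Type*} [TopologicalSpace X] (c : Ctx ι X) (M : ι → ℝ) (h : ∀ i, 1 ≤ M i) :
    Ctx ι X := ⟨c.U, M, c.hU, h⟩

/-- Change of the index set. -/
def Ctx.comap {ι ι' X : Type*} [TopologicalSpace X] (c : Ctx ι X) (φ : ι' → ι) : Ctx ι' X :=
  ⟨fun i => c.U (φ i), fun i => c.M (φ i), fun i => c.hU (φ i), fun i => c.hM (φ i)⟩

/-- A family of maps, frames and amplitudes. -/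
structure Base (ι : Type*) where
  c : Ctx ι E
  w : ι → E
  z : ι → E
  ξ : ι → E →L[ℝ] ℝ
  η : ι → E →L[ℝ] ℝ
  bw : Bc w
  bz : Bc z
  bξ : Bc ξ
  bη : Bc η
  ξz : ∀ i, ξ i (z i) = 1
  ξw : ∀ i, ξ i (w i) = 0
  ηz : ∀ i, η i (z i) = 0
  ηw : ∀ i, η i (w i) = 1
  F : ι → E → V4
  smF : ∀ i, ContDiffOn ℝ ∞ (F i) (c.U i)
  stF : St c fun i => fderiv ℝ (F i)
  χ : ι → E → ℝ
  smχ : ∀ i, ContDiff ℝ ∞ (χ i)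
  suppχ : ∀ i, tsupport (χ i) ⊆ c.U i
  clχ : Cl c 0 (fun _ => 1) χ
  κ : ι → ℝ
  κ0 : ∀ i, 0 < κ i
  κ1 : ∀ i, κ i ≤ 1
  K : ℕ
  b : ι → E → ℝ
  stb : St c b

namespace Base

variable {ι : Type*} (B : Base ι)

/-- The same data at the scale `M ^ d`. -/
def pow (d : ℕ) (hd : 1 ≤ d) : Base ι :=
  { B with
    c := B.c.pow d
    smF := B.smF
    stF := Cl.toPow B.stF hd hd
    suppχ := B.suppχ
    clχ := fun k => (B.clχ k).ctx (fun _ => Subset.rfl)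
      fun i => le_self_pow₀ (B.c.hM i) (by omega)
    stb := Cl.toPow B.stb hd hd }

/-- A subfamily. -/
def comap {ι' : Type*} (φ : ι' → ι) : Base ι' where
  c := B.c.comap φ
  w i := B.w (φ i)
  z i := B.z (φ i)
  ξ i := B.ξ (φ i)
  η i := B.η (φ i)
  bw := let ⟨C, h⟩ := B.bw; ⟨C, fun i => h (φ i)⟩
  bz := let ⟨C, h⟩ := B.bz; ⟨C, fun i => h (φ i)⟩
  bξ := let ⟨C, h⟩ := B.bξ; ⟨C, fun i => h (φ i)⟩
  bη := let ⟨C, h⟩ := B.bη; ⟨C, fun i => h (φ i)⟩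
  ξz i := B.ξz (φ i)
  ξw i := B.ξw (φ i)
  ηz i := B.ηz (φ i)
  ηw i := B.ηw (φ i)
  F i := B.F (φ i)
  smF i := B.smF (φ i)
  stF := fun k => (B.stF k).reindex φ (fun _ => Subset.rfl) fun _ => le_rfl
  χ i := B.χ (φ i)
  smχ i := B.smχ (φ i)
  suppχ i := B.suppχ (φ i)
  clχ := fun k => (B.clχ k).reindex φ (fun _ => Subset.rfl) fun _ => le_rfl
  κ i := B.κ (φ i)
  κ0 i := B.κ0 (φ i)
  κ1 i := B.κ1 (φ i)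
  K := B.K
  b i := B.b (φ i)
  stb := fun k => (B.stb k).reindex φ (fun _ => Subset.rfl) fun _ => le_rfl

/-- `F_t`. -/
def Ft (i : ι) : E → V4 := dd (B.w i) (B.F i)
/-- `F_s`. -/
def Fs (i : ι) : E → V4 := dd (B.z i) (B.F i)
/-- `F_tt`. -/
def Ftt (i : ι) : E → V4 := dd (B.w i) (dd (B.w i) (B.F i))
/-- `κ χ ^ K`. -/
def ρ (i : ι) (x : E) : ℝ := B.κ i * B.χ i x ^ B.K
/-- The amplitude. -/
def a (i : ι) (x : E) : ℝ := B.κ i * B.χ i x ^ B.K * B.b i x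
/-- The Gram determinant of `F_t, F_tt`. -/
def g (i : ι) (x : E) : ℝ := gram (B.Ft i x) (B.Ftt i x)
/-- The component of `F_s` in the plane `P = (F_t, F_tt) ᗮ`. -/
def m (i : ι) (x : E) : V4 := pn (B.Ft i x) (B.Ftt i x) (B.Fs i x)
/-- Membership in the plane `P`. -/
def InP (i : ι) (x : E) (y : V4) : Prop := ⟪B.Ft i x, y⟫ = 0 ∧ ⟪B.Ftt i x, y⟫ = 0

variable (ε : ι → ℝ) (U : ι → E × ℝ → V4)

/-- The `t`-derivative of the new map. -/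
def T (i : ι) (q : E × ℝ) : V4 := B.Ft i q.1 + ε i • dx (B.w i) (U i) q
/-- The `s`-derivative of the new map. -/
def S (i : ι) (q : E × ℝ) : V4 := B.Fs i q.1 + dθ (U i) q + ε i • dx (B.z i) (U i) q
/-- The `tt` error. -/
def ett (i : ι) (q : E × ℝ) : ℝ := ⟪B.T ε U i q, B.T ε U i q⟫ - ⟪B.Ft i q.1, B.Ft i q.1⟫
/-- The `st` error. -/
def est (i : ι) (q : E × ℝ) : ℝ := ⟪B.S ε U i q, B.T ε U i q⟫ - ⟪B.Fs i q.1, B.Ft i q.1⟫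
/-- The `ss` error. -/
def ess (i : ι) (q : E × ℝ) : ℝ :=
  ⟪B.S ε U i q, B.S ε U i q⟫ - ⟪B.Fs i q.1, B.Fs i q.1⟫ - B.a i q.1 ^ 2

/-- The error of the metric for the perturbation `u`. -/
def err (u : ι → E → V4) (i : ι) (x : E) : Bil :=
  indE (fun y => B.F i y + u i y) x - indE (B.F i) x - B.a i x ^ 2 • tp (B.ξ i) (B.ξ i)

end Base

/-- The leading term `G` of the wave and the gadgets `Γ`, `Z`. -/
structure WData {ι : Type*} (B : Base ι) where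
  gne : ∀ i, ∀ x ∈ B.c.U i, B.g i x ≠ 0
  stg : St B.c fun i x => (B.g i x)⁻¹
  G : ι → E × ℝ → V4
  hG : IdP B.c B.χ B.K 1 B.κ G
  meanG : ∀ i, ∀ x ∈ B.c.U i, mean (G i) x = 0
  GP : ∀ i, ∀ x ∈ B.c.U i, ∀ θ, B.InP i x (G i (x, θ))
  Gst : ∀ i, ∀ x ∈ B.c.U i, mean (fun q => ⟪dθ (G i) q, dx (B.w i) (G i) q⟫) x = 0
  hR : ∀ i, ∀ x ∈ B.c.U i, ∀ θ,
    ‖B.m i x + dθ (G i) (x, θ)‖ ^ 2 = B.a i x ^ 2 + ‖B.m i x‖ ^ 2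
  Ri : ι → E → ℝ
  stRi : St B.c Ri
  hRi : ∀ i, ∀ x ∈ B.c.U i, Ri i x * (B.a i x ^ 2 + ‖B.m i x‖ ^ 2) = 1
  Γ : ι → E × ℝ → V4 →L[ℝ] V4
  stΓ : St B.c.cyl Γ
  perΓ : Per B.c Γ
  ΓP : ∀ i, ∀ x ∈ B.c.U i, ∀ θ y, B.InP i x y → B.InP i x (Γ i (x, θ) y)
  ΓW : ∀ i, ∀ x ∈ B.c.U i, ∀ θ y, B.InP i x y →
    ⟪B.Fs i x + dθ (G i) (x, θ), Γ i (x, θ) y⟫ = 0
  meanΓ : ∀ i, ∀ x ∈ B.c.U i, ∀ y, B.InP i x y → mean (fun q => Γ i q y) x = B.ρ i x • y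
  Z : ι → E × ℝ → V4
  stZ : St B.c.cyl Z
  perZ : Per B.c Z
  ZP : ∀ i, ∀ x ∈ B.c.U i, ∀ θ, B.InP i x (Z i (x, θ))
  ZW : ∀ i, ∀ x ∈ B.c.U i, ∀ θ, ⟪B.Fs i x + dθ (G i) (x, θ), Z i (x, θ)⟫ = 0
  ZW' : ∀ i, ∀ x ∈ B.c.U i, ∀ θ, ⟪B.Fs i x + dθ (G i) (x, θ), dθ (Z i) (x, θ)⟫ = 0
  meanZ : Idl B.c B.χ B.K 1 B.κ fun i => mean (Z i)
  hZ : ∀ i, ∀ x ∈ B.c.U i,
    mean (fun q => ⟪dx (B.w i) (fun q' => B.Fs i q'.1 + dθ (G i) q') q, Z i q⟫) x = B.ρ i x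

/-- The loop `W = F_s + G'`. -/
def WData.W {ι : Type*} {B : Base ι} (D : WData B) (i : ι) (q : E × ℝ) : V4 :=
  B.Fs i q.1 + dθ (D.G i) q

/-- The mean part of the linearised `st` equation. -/
def WData.Ξ {ι : Type*} {B : Base ι} (D : WData B) (V : ι → E × ℝ → V4) (i : ι) (x : E) : ℝ :=
  mean (fun q => ⟪B.Ft i q.1, dx (B.z i) (V i) q⟫ + ⟪D.W i q, dx (B.w i) (V i) q⟫
    + ⟪dθ (V i) q, dx (B.w i) (D.G i) q⟫) x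

/-- The invariant of the correction scheme. -/
structure WInv {ι : Type*} {B : Base ι} (D : WData B) (ε : ι → ℝ) (p : ℕ) (e β : ι → ℝ)
    (U : ι → E × ℝ → V4) : Prop where
  e0 : ∀ i, 0 ≤ e i
  β0 : ∀ i, 0 ≤ β i
  hU : IdP B.c B.χ p 0 (fun i => B.κ i * β i) fun i q => U i q - D.G i q
  ss : IdP B.c B.χ p 0 (fun i => B.κ i * e i) (B.ess ε U)
  st : IdP B.c B.χ p 0 (fun i => B.κ i * e i) (B.est ε U)
  mss : Idl B.c B.χ (B.K + p) 0 (fun i => B.κ i ^ 2 * e i) fun i => mean (B.ess ε U i)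
  mst : Idl B.c B.χ (B.K + p) 0 (fun i => B.κ i ^ 2 * (ε i * e i)) fun i => mean (B.est ε U i)
  tt : IdP B.c B.χ (B.K + p) 0 (fun i => B.κ i ^ 2 * (ε i * e i)) (B.ett ε U)

/-- A correction of the wave `U`. -/
structure WCorr {ι : Type*} {B : Base ι} (D : WData B) (ε : ι → ℝ) (p j : ℕ) (e : ι → ℝ)
    (U V : ι → E × ℝ → V4) : Prop where
  hV : IdP B.c B.χ (p - 2) j (fun i => B.κ i * e i) V
  mV : Idl B.c B.χ (B.K + p - 2) j (fun i => B.κ i ^ 2 * e i) fun i => mean (V i)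
  tt : ∀ i, ∀ x ∈ B.c.U i, ∀ θ,
    B.ett ε U i (x, θ) + 2 * ε i * ⟪B.Ft i x, dx (B.w i) (V i) (x, θ)⟫ = 0
  st : ∀ i, ∀ x ∈ B.c.U i, ∀ θ,
    B.est ε U i (x, θ) + ⟪B.Ft i x, dθ (V i) (x, θ)⟫ = mean (B.est ε U i) x
  ss : ∀ i, ∀ x ∈ B.c.U i, ∀ θ, B.ess ε U i (x, θ) + 2 * ⟪D.W i (x, θ), dθ (V i) (x, θ)⟫ = 0
  mst : ∀ i, ∀ x ∈ B.c.U i, mean (B.est ε U i) x + ε i * D.Ξ V i x = 0

/-- A loop of directions in the plane `P`, with angle `a φ` and three straight arcs. -/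
structure AData {ι : Type*} (B : Base ι) where
  gne : ∀ i, ∀ x ∈ B.c.U i, B.g i x ≠ 0
  stg : St B.c fun i x => (B.g i x)⁻¹
  bne : ∀ i, ∀ x ∈ B.c.U i, B.b i x ≠ 0
  stbi : St B.c fun i x => (B.b i x)⁻¹
  e1 : ι → E → V4
  e2 : ι → E → V4
  ste1 : St B.c e1
  ste2 : St B.c e2
  e1P : ∀ i, ∀ x ∈ B.c.U i, B.InP i x (e1 i x)
  e2P : ∀ i, ∀ x ∈ B.c.U i, B.InP i x (e2 i x)
  e11 : ∀ i, ∀ x ∈ B.c.U i, ⟪e1 i x, e1 i x⟫ = 1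
  e22 : ∀ i, ∀ x ∈ B.c.U i, ⟪e2 i x, e2 i x⟫ = 1
  e12 : ∀ i, ∀ x ∈ B.c.U i, ⟪e1 i x, e2 i x⟫ = 0
  span : ∀ i, ∀ x ∈ B.c.U i, ∀ y, B.InP i x y → y = ⟪y, e1 i x⟫ • e1 i x + ⟪y, e2 i x⟫ • e2 i x
  R : ι → E → ℝ
  stR : St B.c R
  stRi : St B.c fun i x => (R i x)⁻¹
  R0 : ∀ i, ∀ x ∈ B.c.U i, 0 < R i x
  hR : ∀ i, ∀ x ∈ B.c.U i, R i x ^ 2 = B.a i x ^ 2 + ‖B.m i x‖ ^ 2
  φ : ι → E × ℝ → ℝ
  stφ : St B.c.cyl φ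
  perφ : Per B.c φ
  even : ∀ i, ∀ x ∈ B.c.U i, ∀ θ, φ i (x, -θ) = φ i (x, θ)
  mcos : ∀ i, ∀ x ∈ B.c.U i,
    R i x * mean (fun q => Real.cos (B.a i q.1 * φ i q)) x = ⟪B.m i x, e1 i x⟫
  msin : ∀ i, ∀ x ∈ B.c.U i,
    R i x * mean (fun q => Real.sin (B.a i q.1 * φ i q)) x = ⟪B.m i x, e2 i x⟫
  sh : ι → E → ℝ
  stsh : St B.c sh
  r : ι → E → ℝ
  str : St B.c r
  stri : St B.c fun i x => (r i x)⁻¹
  r0 : ∀ i, ∀ x ∈ B.c.U i, 0 < r i x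
  ar : ∀ i, ∀ x ∈ B.c.U i, |B.a i x * r i x| ≤ 1
  ζ : ι → E → ℝ
  smζ : ∀ i, ContDiffOn ℝ ∞ (ζ i) (B.c.U i)
  stζ : St B.c fun i => fderiv ℝ (ζ i)
  hζ : ∀ i, ∀ x ∈ B.c.U i,
    1 + ‖dd (B.w i) (fun y => B.Fs i y - B.m i y) x‖ ≤ R i x * dd (B.w i) (ζ i) x
  β : Fin 3 → ι → E × ℝ → ℝ
  stβ : ∀ l, St B.c.cyl (β l)
  perβ : ∀ l, Per B.c (β l)
  meanβ : ∀ l i, ∀ x ∈ B.c.U i, mean (β l i) x = 1
  loc : ∀ l i, ∀ x ∈ B.c.U i, ∀ θ, (β l i =ᶠ[𝓝 (x, θ)] fun _ => 0) ∨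
    φ i =ᶠ[𝓝 (x, θ)] fun q =>
      sh i q.1 - r i q.1 * ![0, Real.cos (ζ i q.1), Real.sin (ζ i q.1)] l

/-- The loop of an `AData`. -/
def AData.W {ι : Type*} {B : Base ι} (A : AData B) (i : ι) (q : E × ℝ) : V4 :=
  B.Fs i q.1 - B.m i q.1 + A.R i q.1 • (Real.cos (B.a i q.1 * A.φ i q) • A.e1 i q.1
    + Real.sin (B.a i q.1 * A.φ i q) • A.e2 i q.1)

/-- The perturbation `u` follows the loop `W` up to `C * A`. -/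
def Jets {ι : Type*} (B : Base ι) (W : ι → E × ℝ → V4) (ε A : ι → ℝ) (u : ι → E → V4) : Prop :=
  ∃ C : ℝ, ∀ i, ∀ x ∈ B.c.U i,
    ‖dd (B.w i) (u i) x‖ ≤ C * A i ∧
    ‖B.Fs i x + dd (B.z i) (u i) x - W i (x, B.ξ i x / ε i)‖ ≤ C * A i ∧
    ‖dd (B.w i) (dd (B.w i) (u i)) x‖ ≤ C * A i ∧
    ‖dd (B.w i) (B.Fs i) x + dd (B.w i) (dd (B.z i) (u i)) x
      - dx (B.w i) (W i) (x, B.ξ i x / ε i)‖ ≤ C * A i ∧
    ‖ε i • dd (B.z i) (dd (B.z i) (u i)) x - dθ (W i) (x, B.ξ i x / ε i)‖ ≤ C * A i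

/-- `sin x / x`. -/
def sc (x : ℝ) : ℝ := ∫ τ in (0 : ℝ)..1, Real.cos (τ * x)
/-- `(1 - cos x) / x`. -/
def cc (x : ℝ) : ℝ := ∫ τ in (0 : ℝ)..1, Real.sin (τ * x)
/-- `(1 - cos x) / x ^ 2`. -/
def c2 (x : ℝ) : ℝ := ∫ τ in (0 : ℝ)..1, (1 - τ) * Real.cos (τ * x)

end Crest.Agent.R216
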