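import Crest.Agent.R216.WaveB

/-!
# Row 216: the oscillating parts of the linearised equations (proof of `lin0`)
-/

set_option autoImplicit false
set_option linter.unusedSectionVars false

noncomputable section

namespace Crest.Agent.R216.WaveLAux0

open Set Metric Filter
open scoped ContDiff Topology RealInnerProductSpace

universe u

variable {ι : Type u} {B : Base ι}

section basic

variable {V : Type} [NormedAddCommGroup V] [NormedSpace ℝ V] [FiniteDimensional ℝ V]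
  {p j : ℕ} {A : ι → ℝ} {f : ι → E × ℝ → V}

theorem sm (h : IdP B.c B.χ p j A f) (i : ι) : ContDiffOn ℝ ∞ (f i) (B.c.U i ×ˢ univ) :=
  (h.cl B.clχ).sm i

theorem cont (h : IdP B.c B.χ p j A f) {i : ι} {x : E} (hx : x ∈ B.c.U i) :
    Continuous fun θ => f i (x, θ) := continuous_slice (sm h i) hx

theorem diff (h : IdP B.c B.χ p j A f) {i : ι} {x : E} (hx : x ∈ B.c.U i) (θ : ℝ) :
    DifferentiableAt ℝ (f i) (x, θ) :=
  ((sm h i).contDiffAt (((B.c.hU i).prod isOpen_univ).mem_nhds ⟨hx, mem_univ _⟩)).differentiableAt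
    (by simp)

/-- Change of the size at the same level. -/
theorem resize {A' : ι → ℝ} (h : IdP B.c B.χ p j A f) (hA : ∀ i, A i ≤ A' i) :
    IdP B.c B.χ p j A' f :=
  h.size (fun i => (h.nonneg i).trans (hA i)) (C := 1) fun i => by
    rw [one_mul]
    exact mul_le_mul_of_nonneg_right (hA i) (pow_nonneg (zero_le_one.trans (B.c.hM i)) _)

theorem resize' {A' : ι → ℝ} {g : ι → E → V} (h : Idl B.c B.χ p j A g) (hA : ∀ i, A i ≤ A' i) :
    Idl B.c B.χ p j A' g :=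
  h.size (fun i => (h.nonneg i).trans (hA i)) (C := 1) fun i => by
    rw [one_mul]
    exact mul_le_mul_of_nonneg_right (hA i) (pow_nonneg (zero_le_one.trans (B.c.hM i)) _)

theorem lift {g : ι → E → V} (h : Cl B.c j A g) : IdP B.c B.χ 0 j A fun i q => g i q.1 :=
  (Idl.of_cl h).lift

theorem idl_smul {p' j' : ℕ} {A' : ι → ℝ} {a : ι → E → ℝ} {g : ι → E → V}
    (h : Idl B.c B.χ p j A a) (h' : Idl B.c B.χ p' j' A' g) :
    Idl B.c B.χ (p + p') (j + j') (fun i => A i * A' i) fun i x => a i x • g i x :=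
  h.bilin (ContinuousLinearMap.lsmul ℝ ℝ) h'

end basic

theorem InP_add {i : ι} {x : E} {y y' : V4} (h : B.InP i x y) (h' : B.InP i x y') :
    B.InP i x (y + y') :=
  ⟨by rw [inner_add_right, h.1, h'.1, add_zero], by rw [inner_add_right, h.2, h'.2, add_zero]⟩

theorem InP_smul {i : ι} {x : E} {y : V4} (h : B.InP i x y) (a : ℝ) : B.InP i x (a • y) :=
  ⟨by rw [real_inner_smul_right, h.1, mul_zero], by rw [real_inner_smul_right, h.2, mul_zero]⟩

theorem InP_of_smul {i : ι} {x : E} {y : V4} {a : ℝ} (ha : a ≠ 0) (h : B.InP i x (a • y)) :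
    B.InP i x y := by
  have := InP_smul h a⁻¹
  rwa [smul_smul, inv_mul_cancel₀ ha, one_smul] at this

theorem mean_zero {V : Type} [NormedAddCommGroup V] [NormedSpace ℝ V] [FiniteDimensional ℝ V]
    {f : E × ℝ → V} {x : E} (h : ∀ θ, f (x, θ) = 0) : mean f x = 0 :=
  (mean_congr (g := fun q => (fun _ : E => (0 : V)) q.1) h).trans (mean_const (fun _ => 0) x)

theorem InP_mean {i : ι} {x : E} {f : E × ℝ → V4} (hf : Continuous fun θ => f (x, θ))
    (h : ∀ θ, B.InP i x (f (x, θ))) : B.InP i x (mean f x) :=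
  ⟨by rw [← mean_inner hf (B.Ft i)]; exact mean_zero fun θ => (h θ).1,
    by rw [← mean_inner hf (B.Ftt i)]; exact mean_zero fun θ => (h θ).2⟩

theorem InP_prim {i : ι} {x : E} {f : E × ℝ → V4} (hf : Continuous fun θ => f (x, θ))
    (h : ∀ θ, B.InP i x (f (x, θ))) (θ : ℝ) : B.InP i x (prim f (x, θ)) :=
  ⟨by rw [← prim_inner hf (B.Ft i)]; exact prim_zero (fun θ => (h θ).1) θ,
    by rw [← prim_inner hf (B.Ftt i)]; exact prim_zero (fun θ => (h θ).2) θ⟩

/-- The component of the solution normal to `P`. -/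
theorem stageY (D : WData B) {p : ℕ} {e : ι → ℝ} {f1 f2 : ι → E × ℝ → ℝ} (he : ∀ i, 0 ≤ e i)
    (h1 : IdP B.c B.χ (B.K + p) 0 (fun i => B.κ i ^ 2 * e i) f1)
    (h2 : IdP B.c B.χ p 0 (fun i => B.κ i * e i) f2) :
    ∃ Y : ι → E × ℝ → V4, IdP B.c B.χ (p - 1) 7 (fun i => B.κ i * e i) Y ∧
      Idl B.c B.χ (B.K + p) 6 (fun i => B.κ i ^ 2 * e i) (fun i => mean (Y i)) ∧
      ∀ i, ∀ x ∈ B.c.U i, ∀ θ, ⟪B.Ft i x, dx (B.w i) (Y i) (x, θ)⟫ = f1 i (x, θ) ∧
        ⟪B.Ft i x, dθ (Y i) (x, θ)⟫ = f2 i (x, θ) - mean (f2 i) x ∧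
        ∀ y, B.InP i x y → ⟪y, dθ (Y i) (x, θ)⟫ = 0 := by
  obtain ⟨Dt, Dtt, hDt, hDtt, hD⟩ := B.exists_dual D.gne D.stg
  have hκ : ∀ i, B.κ i ^ 2 * e i ≤ B.κ i * e i := fun i =>
    mul_le_mul_of_nonneg_right (by nlinarith [B.κ0 i, B.κ1 i]) (he i)
  have hA : IdP B.c B.χ p 0 (fun i => B.κ i * e i) fun i => prim (f2 i) := h2.prim
  have hAx := hA.dx B.clχ B.bw
  have hC : IdP B.c B.χ (p - 1) 1 (fun i => B.κ i * e i)
      fun i q => dx (B.w i) (prim (f2 i)) q - f1 i q :=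
    hAx.sub (resize (h1.mono B.clχ (by omega) (by omega)) hκ)
  have hDt' := lift (B := B) hDt
  have hDtt' := lift (B := B) hDtt
  have hY1 : IdP B.c B.χ (p - 1) 7 (fun i => B.κ i * e i)
      fun i q => prim (f2 i) q • Dt i q.1 :=
    resize ((hA.smul hDt').mono B.clχ (by omega) (by omega)) fun i => (mul_one _).le
  have hY2 : IdP B.c B.χ (p - 1) 7 (fun i => B.κ i * e i)
      fun i q => (dx (B.w i) (prim (f2 i)) q - f1 i q) • Dtt i q.1 :=
    resize ((hC.smul hDtt').mono B.clχ (by omega) (by omega)) fun i => (mul_one _).le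
  have hY := hY1.add hY2
  refine ⟨_, hY, ?_, fun i x hx θ => ?_⟩
  · have h3 := resize' (idl_smul h1.mean.neg (Idl.of_cl hDtt)) fun i => (mul_one _).le
    refine h3.congr fun i x hx => ?_
    have m1 : ∀ x ∈ B.c.U i, mean (prim (f2 i)) x = 0 := fun x hx => mean_prim (cont h2 hx)
    have m2 : mean (dx (B.w i) (prim (f2 i))) x = 0 := by
      rw [mean_dx (B.c.hU i) (sm hA i) hx, dd_congr (B.c.hU i) m1 hx]
      simp [dd]
    rw [mean_add (cont hY1 hx) (cont hY2 hx), mean_smul_const, mean_smul_const, m1 x hx,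
      mean_sub (cont hAx hx) (cont h1 hx), m2, zero_smul, zero_add, zero_sub]
  · obtain ⟨d1, d2, d3, d4, d5⟩ := hD i x hx
    have e1 : dθ (fun q : E × ℝ => prim (f2 i) q • Dt i q.1 +
        (dx (B.w i) (prim (f2 i)) q - f1 i q) • Dtt i q.1) (x, θ) =
        (f2 i (x, θ) - mean (f2 i) x) • Dt i x +
          dθ (fun q => dx (B.w i) (prim (f2 i)) q - f1 i q) (x, θ) • Dtt i x := by
      have t1 := dθ_lift (x := x) (Dt i) θ
      have t2 := dθ_lift (x := x) (Dtt i) θ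
      have t3 := dθ_prim (B.c.hU i) (sm h2 i) hx θ
      simp only [dθ] at t1 t2 t3 ⊢
      rw [dd_add (diff hY1 hx θ) (diff hY2 hx θ), dd_smul (diff hA hx θ) (diff hDt' hx θ),
        dd_smul (diff hC hx θ) (diff hDtt' hx θ), t1, t2, t3, smul_zero, smul_zero, add_zero,
        add_zero]
    refine ⟨?_, ?_, fun y hy => ?_⟩
    · rw [B.inner_Ft_dx (sm hY i) hx θ]
      have e2 : dx (B.w i) (fun q : E × ℝ => ⟪B.Ft i q.1, prim (f2 i) q • Dt i q.1 +
          (dx (B.w i) (prim (f2 i)) q - f1 i q) • Dtt i q.1⟫) (x, θ) =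
          dx (B.w i) (prim (f2 i)) (x, θ) := by
        refine dd_congr ((B.c.hU i).prod isOpen_univ) (fun q hq => ?_) (mk_mem_prod hx (mem_univ θ)) _
        obtain ⟨c1, -, c3, -⟩ := hD i q.1 hq.1
        rw [inner_add_right, real_inner_smul_right, real_inner_smul_right, c1, c3]
        ring
      rw [e2, inner_add_right, real_inner_smul_right, real_inner_smul_right, d2, d4]
      ring
    · rw [e1, inner_add_right, real_inner_smul_right, real_inner_smul_right, d1, d3]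
      ring
    · rw [e1, inner_add_right, real_inner_smul_right, real_inner_smul_right, (d5 y hy).1,
        (d5 y hy).2]
      ring

/-- The vector `n₀ ∈ P` with `⟪W, n₀⟫ = 1`. -/
def n0 (D : WData B) (i : ι) (q : E × ℝ) : V4 := D.Ri i q.1 • (B.m i q.1 + dθ (D.G i) q)

theorem idp_n0 (D : WData B) : IdP B.c B.χ 0 10 (fun _ => 1) (n0 D) :=
  resize ((lift (B := B) D.stRi).smul ((lift (B := B) (B.cl_m D.stg)).add
    (resize (D.idp_G'.mono B.clχ (Nat.zero_le _) (by omega)) B.κ1))) fun _ => (mul_one _).le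

theorem n0P (D : WData B) {i : ι} {x : E} (hx : x ∈ B.c.U i) (θ : ℝ) :
    B.InP i x (n0 D i (x, θ)) :=
  InP_smul (InP_add (B.mP (D.gne i x hx)) (D.G'P hx θ)) _

theorem W_n0 (D : WData B) {i : ι} {x : E} (hx : x ∈ B.c.U i) (θ : ℝ) :
    ⟪D.W i (x, θ), n0 D i (x, θ)⟫ = 1 := by
  have h1 := B.inner_m (InP_add (B.mP (D.gne i x hx)) (D.G'P hx θ))
  rw [n0, real_inner_smul_right, WData.W, inner_add_left, ← h1, ← inner_add_left,
    real_inner_self_eq_norm_sq, D.hR i x hx θ]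
  exact D.hRi i x hx

/-- The component of the solution in `P`. -/
theorem stageZ (D : WData B) {p : ℕ} {A : ι → ℝ} {ft : ι → E × ℝ → ℝ}
    (h1 : IdP B.c B.χ (p + 1) 10 A ft)
    (h2 : Idl B.c B.χ (B.K + (p + 1)) 0 (fun i => B.κ i * A i) fun i => mean (ft i)) :
    ∃ Z : ι → E × ℝ → V4, IdP B.c B.χ (p + 1) 20 A Z ∧
      ∀ i, ∀ x ∈ B.c.U i, mean (Z i) x = 0 ∧ ∀ θ, B.InP i x (Z i (x, θ)) ∧
        ⟪D.W i (x, θ), dθ (Z i) (x, θ)⟫ = ft i (x, θ) := by
  have hn := idp_n0 D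
  have hH1 : IdP B.c B.χ (p + 1) 20 A fun i q => ft i q • n0 D i q :=
    resize (h1.smul hn) fun i => (mul_one _).le
  have hRm := idl_smul (B := B) (Idl.of_cl D.stRi) (Idl.of_cl (B.cl_m D.stg))
  have hG1 := h1.smul ((lift (B := B) D.stRi).smul D.idp_G')
  have hy : Idl B.c B.χ (B.K + (p + 1)) 13 (fun i => B.κ i * A i)
      fun i x => -mean (fun q => ft i q • n0 D i q) x := by
    have a1 : Idl B.c B.χ (B.K + (p + 1)) 13 (fun i => B.κ i * A i)
        fun i x => mean (ft i) x • D.Ri i x • B.m i x :=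
      resize' ((idl_smul h2 hRm).mono B.clχ (by omega) (by omega)) fun i => by
        rw [mul_one, mul_one]
    have a2 : Idl B.c B.χ (B.K + (p + 1)) 13 (fun i => B.κ i * A i)
        fun i => mean fun q => ft i q • D.Ri i q.1 • dθ (D.G i) q :=
      resize' (hG1.mean.mono B.clχ (by omega) (by omega)) fun i => by
        rw [one_mul, mul_comm]
    refine (a1.add a2).neg.congr fun i x hx => ?_
    have a3 : Continuous fun θ : ℝ => ft i (x, θ) • D.Ri i x • B.m i x :=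
      (cont h1 hx).smul continuous_const
    rw [← mean_smul_const (a := ft i) (fun x => D.Ri i x • B.m i x),
      ← mean_add (f := fun q => ft i q • D.Ri i q.1 • B.m i q.1) a3 (cont hG1 hx)]
    congr 1
    refine mean_congr fun θ => ?_
    simp only [n0, smul_add]
  obtain ⟨yh, hyh, hye⟩ := Idl.div B.κ0 h1.nonneg hy
  have hyP : ∀ i, ∀ x ∈ B.c.U i, B.InP i x (yh i x) := by
    intro i x hx
    by_cases h0 : B.χ i x = 0
    · rw [hyh.zero_of hx h0]
      exact ⟨inner_zero_right _, inner_zero_right _⟩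
    · refine InP_of_smul (mul_ne_zero (B.κ0 i).ne' (pow_ne_zero B.K h0)) ?_
      rw [← hye i x hx, ← neg_one_smul ℝ]
      exact InP_smul (InP_mean (cont hH1 hx) fun θ => InP_smul (n0P D hx θ) _) _
  have hH2 : IdP B.c B.χ (p + 1) 20 A fun i q => D.Γ i q (yh i q.1) :=
    resize (((IdP.of_cl D.stΓ D.perΓ).bilin (ContinuousLinearMap.id ℝ (V4 →L[ℝ] V4))
      hyh.lift).mono B.clχ (by omega) (by omega)) fun i => (one_mul _).le
  have hH := hH1.add hH2
  refine ⟨_, hH.prim, fun i x hx => ⟨mean_prim (cont hH hx), fun θ => ⟨?_, ?_⟩⟩⟩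
  · exact InP_prim (cont hH hx) (fun θ =>
      InP_add (InP_smul (n0P D hx θ) _) (D.ΓP i x hx θ _ (hyP i x hx))) θ
  · have m1 : mean (fun q => ft i q • n0 D i q + D.Γ i q (yh i q.1)) x = 0 := by
      rw [mean_add (cont hH1 hx) (cont hH2 hx),
        mean_congr (f := fun q => D.Γ i q (yh i q.1)) (g := fun q => D.Γ i q (yh i x))
          fun θ => rfl, D.meanΓ i x hx _ (hyP i x hx), Base.ρ, ← hye i x hx, add_neg_cancel]
    rw [dθ_prim (B.c.hU i) (sm hH i) hx θ, m1, sub_zero, inner_add_right, real_inner_smul_right,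
      W_n0 D hx θ, mul_one]
    exact add_eq_left.2 (D.ΓW i x hx θ _ (hyP i x hx))

theorem lin0 (D : WData B) (p : ℕ) (e : ι → ℝ) (f1 f2 f3 : ι → E × ℝ → ℝ) (hp : 3 ≤ p)
    (he : ∀ i, 0 ≤ e i) (h1 : IdP B.c B.χ (B.K + p) 0 (fun i => B.κ i ^ 2 * e i) f1)
    (h2 : IdP B.c B.χ p 0 (fun i => B.κ i * e i) f2)
    (h3 : IdP B.c B.χ p 0 (fun i => B.κ i * e i) f3)
    (h4 : Idl B.c B.χ (B.K + p) 0 (fun i => B.κ i ^ 2 * e i) (fun i => mean (f3 i))) :
    ∃ V : ι → E × ℝ → V4, IdP B.c B.χ (p - 1) 20 (fun i => B.κ i * e i) V ∧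
      Idl B.c B.χ (B.K + p) 20 (fun i => B.κ i ^ 2 * e i) (fun i => mean (V i)) ∧
      ∀ i, ∀ x ∈ B.c.U i, ∀ θ, ⟪B.Ft i x, dx (B.w i) (V i) (x, θ)⟫ = f1 i (x, θ) ∧
        ⟪B.Ft i x, dθ (V i) (x, θ)⟫ = f2 i (x, θ) - mean (f2 i) x ∧
        ⟪D.W i (x, θ), dθ (V i) (x, θ)⟫ = f3 i (x, θ) := by
  obtain ⟨Y, hY, hmY, hYe⟩ := stageY D he h1 h2
  obtain ⟨q, rfl⟩ : ∃ q, p = q + 2 := ⟨p - 2, by omega⟩
  have hY' := hY.dθ B.clχ
  have hWY : IdP B.c B.χ (q + 1) 10 (fun i => B.κ i * e i)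
      fun i r => ⟪D.W i r, dθ (Y i) r⟫ :=
    resize ((D.idp_W.inner hY').mono B.clχ (by omega) (by omega)) fun i => (one_mul _).le
  have hft : IdP B.c B.χ (q + 1) 10 (fun i => B.κ i * e i)
      fun i r => f3 i r - ⟪D.W i r, dθ (Y i) r⟫ :=
    (h3.mono B.clχ (by omega) (by omega)).sub hWY
  have hmft : Idl B.c B.χ (B.K + (q + 1)) 0 (fun i => B.κ i * (B.κ i * e i))
      fun i => mean fun r => f3 i r - ⟪D.W i r, dθ (Y i) r⟫ := by
    refine (resize' (h4.mono B.clχ (by omega) le_rfl) fun i => by rw [sq, mul_assoc]).congr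
      fun i x hx => ?_
    have m1 : mean (fun r => ⟪D.W i r, dθ (Y i) r⟫) x = 0 := by
      rw [mean_congr (g := fun r => ⟪B.Fs i r.1, dθ (Y i) r⟫) fun θ => by
          rw [WData.W, inner_add_left, (hYe i x hx θ).2.2 _ (D.G'P hx θ), add_zero],
        mean_inner (cont hY' hx), mean_dθ (B.c.hU i) (sm hY i) hx (hY.per i x hx),
        inner_zero_right]
    rw [mean_sub (cont h3 hx) (cont hWY hx), m1, sub_zero]
  obtain ⟨Z, hZ, hZe⟩ := stageZ D hft hmft
  have hY20 : IdP B.c B.χ (q + 1) 20 (fun i => B.κ i * e i) Y :=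
    hY.mono B.clχ (by omega) (by omega)
  refine ⟨fun i r => Y i r + Z i r, hY20.add hZ, ?_, fun i x hx θ => ?_⟩
  · refine (hmY.mono B.clχ le_rfl (by omega)).congr fun i x hx => ?_
    rw [mean_add (cont hY hx) (cont hZ hx), (hZe i x hx).1, add_zero]
  · have hZP : ∀ x ∈ B.c.U i, ∀ θ, B.InP i x (Z i (x, θ)) := fun x hx θ => ((hZe i x hx).2 θ).1
    obtain ⟨y1, y2, -⟩ := hYe i x hx θ
    have z1 := B.inner_Ft_dx_of_InP (sm hZ i) hZP hx θ
    have z2 := (B.InP_dθ (sm hZ i) hZP hx θ).1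
    have z3 := ((hZe i x hx).2 θ).2
    simp only [dx, dθ] at y1 y2 z1 z2 z3 ⊢
    simp only [dd_add (diff hY hx θ) (diff hZ hx θ), inner_add_right]
    refine ⟨by rw [y1, z1, add_zero], by rw [y2, z2, add_zero], by rw [z3]; ring⟩

end Crest.Agent.R216.WaveLAux0
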