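import Crest.Agent.R216.WaveB

/-!
# Row 216: the correction from the oscillating parts
-/

set_option autoImplicit false
set_option linter.unusedSectionVars false

noncomputable section

namespace Crest.Agent.R216.WaveLAuxC

open Set Metric Filter
open scoped ContDiff Topology RealInnerProductSpace

variable {ι : Type*} {B : Base ι}

theorem idl_eq {p j : ℕ} {A A' : ι → ℝ} {V : Type} [NormedAddCommGroup V] [NormedSpace ℝ V]
    {f : ι → E → V} (h : Idl B.c B.χ p j A f) (he : ∀ i, A i = A' i) : Idl B.c B.χ p j A' f := by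
  rwa [← funext he]

theorem idp_eq {p j : ℕ} {A A' : ι → ℝ} {V : Type} [NormedAddCommGroup V] [NormedSpace ℝ V]
    {f : ι → E × ℝ → V} (h : IdP B.c B.χ p j A f) (he : ∀ i, A i = A' i) :
    IdP B.c B.χ p j A' f := by
  rwa [← funext he]

theorem diffAt {V : Type} [NormedAddCommGroup V] [NormedSpace ℝ V] {f : E × ℝ → V} {i : ι}
    (hf : ContDiffOn ℝ ∞ f (B.c.U i ×ˢ univ)) {x : E} (hx : x ∈ B.c.U i) (θ : ℝ) :
    DifferentiableAt ℝ f (x, θ) :=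
  (hf.contDiffAt (((B.c.hU i).prod isOpen_univ).mem_nhds ⟨hx, trivial⟩)).differentiableAt
    (by simp)

/-- The mean part of the linearised `st` equation is in the ideal. -/
theorem idl_Ξ (D : WData B) {p c : ℕ} {e : ι → ℝ} {V : ι → E × ℝ → V4} (hp : 3 ≤ p)
    (hV : IdP B.c B.χ (p - 1) c (fun i => B.κ i * e i) V)
    (hm : Idl B.c B.χ (B.K + p) c (fun i => B.κ i ^ 2 * e i) fun i => mean (V i)) :
    Idl B.c B.χ (B.K + (p - 2)) (c + 3) (fun i => B.κ i * (B.κ i * e i)) (D.Ξ V) := by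
  have hχ := B.clχ
  have h1 : Idl B.c B.χ (B.K + (p - 2)) (c + 3) (fun i => B.κ i * (B.κ i * e i))
      fun i x => ⟪B.Ft i x, dd (B.z i) (mean (V i)) x⟫ :=
    idl_eq (((Idl.of_cl (χ := B.χ) B.clFt).bilin (innerSL ℝ) (hm.dd hχ B.bz)).mono hχ
      (by omega) (by omega)) fun i => by ring
  have h2 : Idl B.c B.χ (B.K + (p - 2)) (c + 3) (fun i => B.κ i * (B.κ i * e i))
      fun i x => ⟪B.Fs i x, dd (B.w i) (mean (V i)) x⟫ :=
    idl_eq (((Idl.of_cl (χ := B.χ) B.clFs).bilin (innerSL ℝ) (hm.dd hχ B.bw)).mono hχ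
      (by omega) (by omega)) fun i => by ring
  have h3 : IdP B.c B.χ (B.K + (p - 2)) (c + 3) (fun i => B.κ i * (B.κ i * e i))
      fun i q => ⟪dθ (D.G i) q, dx (B.w i) (V i) q⟫ :=
    (D.idp_G'.inner (hV.dx hχ B.bw)).mono hχ (by omega) (by omega)
  have h4 : IdP B.c B.χ (B.K + (p - 2)) (c + 3) (fun i => B.κ i * (B.κ i * e i))
      fun i q => ⟪dθ (V i) q, dx (B.w i) (D.G i) q⟫ :=
    idp_eq (((hV.dθ hχ).inner (D.hG.dx hχ B.bw)).mono hχ (by omega) (by omega)) fun i => by ring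
  refine ((h1.add h2).add (h3.add h4).mean).congr fun i x hx => ?_
  have hU := B.c.hU i
  have sV : ContDiffOn ℝ ∞ (V i) (B.c.U i ×ˢ univ) := (hV.cl hχ).sm i
  have cz : Continuous fun θ => dx (B.z i) (V i) (x, θ) :=
    continuous_slice (((hV.dx hχ B.bz).cl hχ).sm i) hx
  have cw : Continuous fun θ => dx (B.w i) (V i) (x, θ) :=
    continuous_slice (((hV.dx hχ B.bw).cl hχ).sm i) hx
  have c34 : Continuous fun θ => ⟪dθ (D.G i) (x, θ), dx (B.w i) (V i) (x, θ)⟫ +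
      ⟪dθ (V i) (x, θ), dx (B.w i) (D.G i) (x, θ)⟫ :=
    continuous_slice (((h3.add h4).cl hχ).sm i) hx
  have c1 : Continuous fun θ => ⟪B.Ft i x, dx (B.z i) (V i) (x, θ)⟫ := continuous_const.inner cz
  have c2 : Continuous fun θ => ⟪B.Fs i x, dx (B.w i) (V i) (x, θ)⟫ := continuous_const.inner cw
  rw [← mean_dx hU sV hx, ← mean_dx hU sV hx, ← mean_inner cz (B.Ft i), ← mean_inner cw (B.Fs i),
    ← mean_add (f := fun q => ⟪B.Ft i q.1, dx (B.z i) (V i) q⟫)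
      (g := fun q => ⟪B.Fs i q.1, dx (B.w i) (V i) q⟫) c1 c2,
    ← mean_add (f := fun q => ⟪B.Ft i q.1, dx (B.z i) (V i) q⟫ + ⟪B.Fs i q.1, dx (B.w i) (V i) q⟫)
      (g := fun q => ⟪dθ (D.G i) q, dx (B.w i) (V i) q⟫ + ⟪dθ (V i) q, dx (B.w i) (D.G i) q⟫)
      (c1.add c2) c34]
  refine mean_congr fun θ => ?_
  simp only [WData.W, inner_add_left]
  ring

/-- The correction from a solution of the oscillating parts. -/
theorem corr (D : WData B) {ε : ι → ℝ} {p c : ℕ} {e β : ι → ℝ} {U V : ι → E × ℝ → V4}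
    (hε : ∀ i, 0 < ε i) (hp : 3 ≤ p) (hI : WInv D ε p e β U)
    (hV : IdP B.c B.χ (p - 1) c (fun i => B.κ i * e i) V)
    (hm : Idl B.c B.χ (B.K + p) c (fun i => B.κ i ^ 2 * e i) fun i => mean (V i))
    (hE : ∀ i, ∀ x ∈ B.c.U i, ∀ θ,
      ⟪B.Ft i x, dx (B.w i) (V i) (x, θ)⟫ = (-(2 * ε i)⁻¹) • B.ett ε U i (x, θ) ∧
      ⟪B.Ft i x, dθ (V i) (x, θ)⟫ =
        -B.est ε U i (x, θ) - mean (fun q => -B.est ε U i q) x ∧
      ⟪D.W i (x, θ), dθ (V i) (x, θ)⟫ = (-(1 / 2) : ℝ) • B.ess ε U i (x, θ)) :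
    ∃ V', WCorr D ε p (c + 4) e U V' := by
  have hχ := B.clχ
  have hκe : ∀ i, 0 ≤ B.κ i * e i := fun i => mul_nonneg (B.κ0 i).le (hI.e0 i)
  have h5 : Idl B.c B.χ (B.K + (p - 2)) (c + 3) (fun i => B.κ i * (B.κ i * e i))
      fun i x => (ε i)⁻¹ • mean (B.est ε U i) x :=
    (hI.mst.csmul (fun i => mul_nonneg (B.κ0 i).le (hκe i)) (C := 1) fun i => by
      rw [abs_of_pos (inv_pos.2 (hε i))]
      have := (hε i).ne'
      apply le_of_eq
      field_simp).mono hχ (by omega) (by omega)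
  obtain ⟨k, hk, hke⟩ := Idl.div B.κ0 hκe ((idl_Ξ D hp hV hm).add h5)
  have hk2 : Idl B.c B.χ (p - 2) (c + 3) (fun i => B.κ i * e i) fun i x => (1 / 2 : ℝ) • k i x :=
    hk.csmul hκe (C := 1) fun i => by
      rw [abs_of_pos (by norm_num : (0 : ℝ) < 1 / 2)]
      linarith [hκe i]
  have hZ : IdP B.c B.χ 0 1 (fun _ => 1) D.Z := IdP.of_cl D.stZ D.perZ
  have hkZ : IdP B.c B.χ (p - 2) (c + 4) (fun i => B.κ i * e i)
      fun i q => ((1 / 2 : ℝ) • k i q.1) • D.Z i q :=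
    idp_eq (hk2.lift.smul hZ) fun i => mul_one _
  have sV : ∀ i, ContDiffOn ℝ ∞ (V i) (B.c.U i ×ˢ univ) := (hV.cl hχ).sm
  have sZ : ∀ i, ContDiffOn ℝ ∞ (D.Z i) (B.c.U i ×ˢ univ) := (hZ.cl hχ).sm
  have sk : ∀ i, ContDiffOn ℝ ∞ (fun q : E × ℝ => (1 / 2 : ℝ) • k i q.1) (B.c.U i ×ˢ univ) :=
    (hk2.lift.cl hχ).sm
  have skZ : ∀ i, ContDiffOn ℝ ∞ (fun q => ((1 / 2 : ℝ) • k i q.1) • D.Z i q)
      (B.c.U i ×ˢ univ) := (hkZ.cl hχ).sm
  have hP : ∀ i, ∀ x ∈ B.c.U i, ∀ θ, B.InP i x (((1 / 2 : ℝ) • k i x) • D.Z i (x, θ)) :=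
    fun i x hx θ => ⟨by rw [inner_smul_right, (D.ZP i x hx θ).1, mul_zero],
      by rw [inner_smul_right, (D.ZP i x hx θ).2, mul_zero]⟩
  refine ⟨fun i q => V i q + ((1 / 2 : ℝ) • k i q.1) • D.Z i q,
    (hV.mono hχ (by omega) (by omega)).add hkZ, ?_, fun i x hx θ => ?_, fun i x hx θ => ?_,
    fun i x hx θ => ?_, fun i x hx => ?_⟩
  · have h6 : Idl B.c B.χ (B.K + p - 2) (c + 4) (fun i => B.κ i ^ 2 * e i)
        fun i x => ((1 / 2 : ℝ) • k i x) • mean (D.Z i) x :=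
      idl_eq ((hk2.bilin (ContinuousLinearMap.lsmul ℝ ℝ) D.meanZ).mono hχ (by omega) le_rfl)
        fun i => by ring
    refine ((hm.mono hχ (by omega) (by omega)).add h6).congr fun i x hx => ?_
    rw [mean_add (continuous_slice (sV i) hx) (continuous_slice (skZ i) hx),
      mean_smul fun x => (1 / 2 : ℝ) • k i x]
  · have h0 := B.inner_Ft_dx_of_InP (skZ i) (hP i) hx θ
    have h1 : dx (B.w i) (fun q => V i q + ((1 / 2 : ℝ) • k i q.1) • D.Z i q) (x, θ) =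
        dx (B.w i) (V i) (x, θ) +
          dx (B.w i) (fun q => ((1 / 2 : ℝ) • k i q.1) • D.Z i q) (x, θ) :=
      dd_add (diffAt (sV i) hx θ) (diffAt (skZ i) hx θ) _
    rw [h1, inner_add_right, h0, (hE i x hx θ).1, smul_eq_mul]
    have := (hε i).ne'
    field_simp
    ring
  · have h0 := (B.InP_dθ (skZ i) (hP i) hx θ).1
    have h1 : dθ (fun q => V i q + ((1 / 2 : ℝ) • k i q.1) • D.Z i q) (x, θ) =
        dθ (V i) (x, θ) + dθ (fun q => ((1 / 2 : ℝ) • k i q.1) • D.Z i q) (x, θ) :=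
      dd_add (diffAt (sV i) hx θ) (diffAt (skZ i) hx θ) _
    rw [h1, inner_add_right, h0, (hE i x hx θ).2.1, mean_neg]
    ring
  · have h1 : dθ (fun q => V i q + ((1 / 2 : ℝ) • k i q.1) • D.Z i q) (x, θ) =
        dθ (V i) (x, θ) + dθ (fun q => ((1 / 2 : ℝ) • k i q.1) • D.Z i q) (x, θ) :=
      dd_add (diffAt (sV i) hx θ) (diffAt (skZ i) hx θ) _
    have h2 : dθ (fun q => ((1 / 2 : ℝ) • k i q.1) • D.Z i q) (x, θ) =
        dθ (fun q : E × ℝ => (1 / 2 : ℝ) • k i q.1) (x, θ) • D.Z i (x, θ) +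
          ((1 / 2 : ℝ) • k i x) • dθ (D.Z i) (x, θ) :=
      dd_smul (diffAt (sk i) hx θ) (diffAt (sZ i) hx θ) _
    have h3 : ⟪D.W i (x, θ), D.Z i (x, θ)⟫ = 0 := D.ZW i x hx θ
    have h4 : ⟪D.W i (x, θ), dθ (D.Z i) (x, θ)⟫ = 0 := D.ZW' i x hx θ
    rw [h1, h2, inner_add_right, inner_add_right, inner_smul_right, inner_smul_right, h3, h4,
      (hE i x hx θ).2.2, smul_eq_mul]
    ring
  · have h1 := D.Ξ_add (V := V) (V' := fun i q => ((1 / 2 : ℝ) • k i q.1) • D.Z i q)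
      (sV i) (skZ i) hx
    have h2 := D.Ξ_Z (k := fun i x => (1 / 2 : ℝ) • k i x) ((hk2.cl hχ).sm i) hx
    have h3 := hke i x hx
    simp only [smul_eq_mul] at h1 h2 h3 ⊢
    rw [h1, h2, Base.ρ]
    have := (hε i).ne'
    have h4 : mean (B.est ε U i) x = ε i * (B.κ i * B.χ i x ^ B.K * k i x - D.Ξ V i x) := by
      rw [← h3]
      field_simp
      ring
    rw [h4]
    ring

end Crest.Agent.R216.WaveLAuxC
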