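import Crest.Agent.R216.WaveB
import Crest.Agent.R216.WaveLAuxC
import Crest.Agent.R216.WaveLAux0

/-!
# Row 216: the linearised equations
-/

set_option autoImplicit false
set_option linter.unusedSectionVars false

noncomputable section

namespace Crest.Agent.R216

open Set Metric Filter
open scoped ContDiff Topology RealInnerProductSpace

universe u

/-- The oscillating parts of the three linearised equations. -/
theorem lin0 : ∃ c0 : ℕ, ∀ {ι : Type u} {B : Base ι} (D : WData B) (p : ℕ) (e : ι → ℝ)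
    (f1 f2 f3 : ι → E × ℝ → ℝ), 3 ≤ p → (∀ i, 0 ≤ e i) →
    IdP B.c B.χ (B.K + p) 0 (fun i => B.κ i ^ 2 * e i) f1 →
    IdP B.c B.χ p 0 (fun i => B.κ i * e i) f2 →
    IdP B.c B.χ p 0 (fun i => B.κ i * e i) f3 →
    Idl B.c B.χ (B.K + p) 0 (fun i => B.κ i ^ 2 * e i) (fun i => mean (f3 i)) →
    ∃ V : ι → E × ℝ → V4, IdP B.c B.χ (p - 1) c0 (fun i => B.κ i * e i) V ∧
      Idl B.c B.χ (B.K + p) c0 (fun i => B.κ i ^ 2 * e i) (fun i => mean (V i)) ∧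
      ∀ i, ∀ x ∈ B.c.U i, ∀ θ, ⟪B.Ft i x, dx (B.w i) (V i) (x, θ)⟫ = f1 i (x, θ) ∧
        ⟪B.Ft i x, dθ (V i) (x, θ)⟫ = f2 i (x, θ) - mean (f2 i) x ∧
        ⟪D.W i (x, θ), dθ (V i) (x, θ)⟫ = f3 i (x, θ) :=
  ⟨20, fun D p e f1 f2 f3 => WaveLAux0.lin0 D p e f1 f2 f3⟩

/-- Existence of the correction. -/
theorem exists_corr : ∃ c0 : ℕ, ∀ {ι : Type u} {B : Base ι} (D : WData B) (ε : ι → ℝ) (p : ℕ)
    (e β : ι → ℝ) (U : ι → E × ℝ → V4), (∀ i, 0 < ε i) → (∀ i, ε i ≤ 1) → 3 ≤ p →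
    WInv D ε p e β U → ∃ V, WCorr D ε p c0 e U V := by
  obtain ⟨c, h⟩ := lin0.{u}
  refine ⟨c + 4, fun {ι B} D ε p e β U hε _ hp hI => ?_⟩
  have hκe : ∀ i, 0 ≤ B.κ i * e i := fun i => mul_nonneg (B.κ0 i).le (hI.e0 i)
  have hκe2 : ∀ i, 0 ≤ B.κ i ^ 2 * e i := fun i => mul_nonneg (sq_nonneg _) (hI.e0 i)
  have h12 : |(-(1 / 2) : ℝ)| = 1 / 2 := by rw [abs_neg, abs_of_pos (by norm_num)]
  obtain ⟨V, hV, hm, hE⟩ := h D p e (fun i q => (-(2 * ε i)⁻¹) • B.ett ε U i q)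
    (fun i q => -B.est ε U i q) (fun i q => (-(1 / 2) : ℝ) • B.ess ε U i q) hp hI.e0
    (hI.tt.csmul hκe2 (C := 1 / 2) fun i => by
      have := hε i
      rw [abs_neg, abs_of_pos (by positivity)]
      apply le_of_eq
      field_simp)
    hI.st.neg
    (hI.ss.csmul hκe (C := 1 / 2) fun i => by rw [h12])
    ((hI.mss.csmul (a := fun _ => (-(1 / 2) : ℝ)) hκe2 (C := 1 / 2) fun i => by rw [h12]).congr
      fun i x _ => mean_smul fun _ => (-(1 / 2) : ℝ))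
  exact WaveLAuxC.corr D hε hp hI hV hm hE

end Crest.Agent.R216
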